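import Vale.Agent.P367.A.Basic

/-! P367, block B: exact block couplings from `C` gates (sign patterns), in the abstract spin-Weyl
system `A.Sys` with commuting label projections. -/

namespace Vale.Agent.P367.B

open Complex
open Vale.Agent.P367.A (Sys th mkU)

variable {H K : Type*} [NormedAddCommGroup H] [InnerProductSpace ℂ H]
  [NormedAddCommGroup K] [InnerProductSpace ℂ K]

/-- label projections: commute with the spin operators and the Weyl operators -/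
structure Prj (S : Sys H K) where
  E : H →ₗ[ℂ] H
  EE : ∀ x, E (E x) = E x
  sa : ∀ x y, inner ℂ (E x) y = inner ℂ x (E y)
  XE : ∀ x, S.X (E x) = E (S.X x)
  ZE : ∀ x, S.Z (E x) = E (S.Z x)
  WE : ∀ (a : K) (x : H), S.W a (E x) = E (S.W a x)

namespace Prj

variable {S : Sys H K}

/-- complementary part -/
lemma E_sub (A : Prj S) (x : H) : A.E (x - A.E x) = 0 := by rw [map_sub, A.EE, sub_self]

lemma xr_E (A : Prj S) (t : ℝ) (x : H) : S.xr t (A.E x) = A.E (S.xr t x) := by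
  rw [S.xr_apply, S.xr_apply, A.XE, map_sub, map_smul, map_smul]

lemma Zt_E (A : Prj S) (t : ℝ) (x : H) : S.Zt t (A.E x) = A.E (S.Zt t x) := by
  rw [S.Zt_apply, S.Zt_apply, A.ZE, A.xr_E]

lemma pul_E (A : Prj S) (t : ℝ) (v : K) (x : H) : S.pul t v (A.E x) = A.E (S.pul t v x) := by
  simp only [S.pul_apply, map_add, map_sub, map_smul, A.WE, A.Zt_E]

lemma zr_E (A : Prj S) (v : K) (x : H) : S.zr v (A.E x) = A.E (S.zr v x) := by
  rw [← S.pul_time_zero, A.pul_E]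

lemma inv_E (A : Prj S) {r : H ≃ₗᵢ[ℂ] H} (hr : ∀ x, r (A.E x) = A.E (r x)) (x : H) :
    r⁻¹ (A.E x) = A.E (r⁻¹ x) := by
  apply r.injective
  rw [Sys.Ainv, hr, Sys.Ainv]

/-- block operator: `r` on the block `E`, identity outside -/
noncomputable def blk (A : Prj S) (r : H ≃ₗᵢ[ℂ] H) (hr : ∀ x, r (A.E x) = A.E (r x)) :
    H ≃ₗᵢ[ℂ] H :=
  mkU (r.toLinearEquiv.toLinearMap ∘ₗ A.E + (LinearMap.id - A.E))
    (r⁻¹.toLinearEquiv.toLinearMap ∘ₗ A.E + (LinearMap.id - A.E))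
    (fun x => by
      change r⁻¹ (A.E (r (A.E x) + (x - A.E x))) + ((r (A.E x) + (x - A.E x))
        - A.E (r (A.E x) + (x - A.E x))) = x
      rw [map_add, A.E_sub, ← hr, A.EE, add_zero, Sys.invA]; abel)
    (fun x => by
      change r (A.E (r⁻¹ (A.E x) + (x - A.E x))) + ((r⁻¹ (A.E x) + (x - A.E x))
        - A.E (r⁻¹ (A.E x) + (x - A.E x))) = x
      rw [map_add, A.E_sub, ← A.inv_E hr, A.EE, add_zero, Sys.Ainv]; abel)
    (fun x y => by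
      change inner ℂ (r (A.E x) + (x - A.E x)) y = inner ℂ x (r⁻¹ (A.E y) + (y - A.E y))
      have h1 : inner ℂ (r (A.E x)) y = (inner ℂ x (r⁻¹ (A.E y)) : ℂ) := by
        have e : ∀ (U : H ≃ₗᵢ[ℂ] H) (x y : H), inner ℂ (U x) y = (inner ℂ x (U⁻¹ y) : ℂ) := by
          intro U x y
          rw [← Sys.inner_invA, inv_inv]
        rw [hr, A.sa, e]
      rw [inner_add_left, inner_add_right, inner_sub_left, inner_sub_right, h1, A.sa])

lemma blk_apply (A : Prj S) (r : H ≃ₗᵢ[ℂ] H) (hr) (x : H) :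
    A.blk r hr x = r (A.E x) + (x - A.E x) := rfl

lemma E_blk (A : Prj S) (r : H ≃ₗᵢ[ℂ] H) (hr) (x : H) :
    A.E (A.blk r hr x) = r (A.E x) := by
  rw [blk_apply, map_add, A.E_sub, add_zero, ← hr, A.EE]

/-- `B` disjoint from `A` -/
def Dis (A B : Prj S) : Prop := ∀ x, A.E (B.E x) = 0

lemma Dis.symm {A B : Prj S} (h : Dis A B) : Dis B A := by
  intro x
  have : ∀ y, inner ℂ (B.E (A.E x)) y = (0 : ℂ) := by
    intro y
    rw [B.sa, A.sa, h, inner_zero_right]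
  exact inner_self_eq_zero.1 (this _)

lemma E_blk_dis {A B : Prj S} (h : Dis A B) (r : H ≃ₗᵢ[ℂ] H) (hr) (x : H) :
    A.E (B.blk r hr x) = A.E x := by
  rw [blk_apply, map_add, map_sub, h, hr, h, sub_zero, zero_add]

lemma blk_inv (A : Prj S) (r : H ≃ₗᵢ[ℂ] H) (hr) : (A.blk r hr)⁻¹ = A.blk r⁻¹ (A.inv_E hr) := by
  ext x
  apply Sys.inv_apply_eq
  rw [blk_apply, blk_apply, map_add, A.E_sub, A.inv_E hr, A.EE, add_zero, ← A.inv_E hr, Sys.Ainv]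
  abel

end Prj

/-! ### two blocks -/

section two

variable {S : Sys H K} (A B : Prj S)

/-- complementary block -/
noncomputable def rest (x : H) : H := x - A.E x - B.E x

/-- block rotation: angle `α` on `A`, `β` on `B` -/
noncomputable def rr (α β : ℝ) : H ≃ₗᵢ[ℂ] H :=
  A.blk (S.xr α) (A.xr_E α) * B.blk (S.xr β) (B.xr_E β)

/-- a `C` gate seen through the block rotation -/
noncomputable def gt (g α β : ℝ) (V : H ≃ₗᵢ[ℂ] H) : H ≃ₗᵢ[ℂ] H :=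
  rr A B α β * (S.zr ((g : ℂ) • S.iota (S.xv ((rr A B α β)⁻¹ * V))) * ((rr A B α β)⁻¹ * V))

/-- block coupling of `A` (axis `tA`) and `B` (axis `tB`) with strength `c` -/
noncomputable def cpl (c tA tB : ℝ) (V : H ≃ₗᵢ[ℂ] H) : H ≃ₗᵢ[ℂ] H :=
  A.blk (S.pul tA ((c : ℂ) • S.iota (B.E (S.xt tB V)))) (A.pul_E tA _) *
    (B.blk (S.pul tB ((c : ℂ) • S.iota (A.E (S.xt tA V)))) (B.pul_E tB _) * V)

variable {A B}

lemma rr_A (h : Prj.Dis A B) (α β : ℝ) (x : H) : A.E (rr A B α β x) = S.xr α (A.E x) := by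
  rw [rr, Sys.mulA, A.E_blk, Prj.E_blk_dis h]

lemma rr_B (h : Prj.Dis A B) (α β : ℝ) (x : H) : B.E (rr A B α β x) = S.xr β (B.E x) := by
  rw [rr, Sys.mulA, Prj.E_blk_dis h.symm, B.E_blk]

lemma rest_rr (h : Prj.Dis A B) (α β : ℝ) (x : H) : rest A B (rr A B α β x) = rest A B x := by
  rw [rest, rr_A h, rr_B h, rr, Sys.mulA, Prj.blk_apply, Prj.blk_apply, map_add, map_sub]
  rw [B.xr_E β, h, h, rest]
  abel_nf

lemma eq_of_parts {x y : H} (h1 : A.E x = A.E y) (h2 : B.E x = B.E y)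
    (h3 : rest A B x = rest A B y) : x = y := by
  have hx : x = rest A B x + A.E x + B.E x := by rw [rest]; abel
  have hy : y = rest A B y + A.E y + B.E y := by rw [rest]; abel
  rw [hx, hy, h1, h2, h3]

lemma rr_inv_A (h : Prj.Dis A B) (α β : ℝ) (x : H) :
    A.E ((rr A B α β)⁻¹ x) = S.xr (-α) (A.E x) := by
  have := rr_A h α β ((rr A B α β)⁻¹ x)
  rw [Sys.Ainv] at this
  rw [this, S.xr_neg_xr]

lemma rr_inv_B (h : Prj.Dis A B) (α β : ℝ) (x : H) :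
    B.E ((rr A B α β)⁻¹ x) = S.xr (-β) (B.E x) := by
  have := rr_B h α β ((rr A B α β)⁻¹ x)
  rw [Sys.Ainv] at this
  rw [this, S.xr_neg_xr]

lemma rr_inv_rest (h : Prj.Dis A B) (α β : ℝ) (x : H) :
    rest A B ((rr A B α β)⁻¹ x) = rest A B x := by
  have := rest_rr h α β ((rr A B α β)⁻¹ x)
  rw [Sys.Ainv] at this
  exact this.symm

lemma rest_zr (v : K) (x : H) : rest A B (S.zr v x) = S.zr v (rest A B x) := by
  rw [rest, rest, map_sub, map_sub, A.zr_E, B.zr_E]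

lemma rest_Z (x : H) : rest A B (S.Z x) = S.Z (rest A B x) := by
  rw [rest, rest, map_sub, map_sub, A.ZE, B.ZE]

/-- the conjugated `zr` -/
noncomputable def qq (A B : Prj S) (α β : ℝ) (v : K) : H ≃ₗᵢ[ℂ] H :=
  rr A B α β * (S.zr v * (rr A B α β)⁻¹)

/-- the conjugated `Z` -/
noncomputable def zz (A B : Prj S) (α β : ℝ) : H ≃ₗᵢ[ℂ] H :=
  rr A B α β * (S.Z * (rr A B α β)⁻¹)

lemma qq_A (h : Prj.Dis A B) (α β : ℝ) (v : K) (x : H) :
    A.E (qq A B α β v x) = S.pul α v (A.E x) := by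
  rw [qq, Sys.mulA, Sys.mulA, rr_A h, ← A.zr_E, rr_inv_A h, S.pul_def]

lemma qq_B (h : Prj.Dis A B) (α β : ℝ) (v : K) (x : H) :
    B.E (qq A B α β v x) = S.pul β v (B.E x) := by
  rw [qq, Sys.mulA, Sys.mulA, rr_B h, ← B.zr_E, rr_inv_B h, S.pul_def]

lemma qq_rest (h : Prj.Dis A B) (α β : ℝ) (v : K) (x : H) :
    rest A B (qq A B α β v x) = S.zr v (rest A B x) := by
  rw [qq, Sys.mulA, Sys.mulA, rest_rr h, rest_zr, rr_inv_rest h]

lemma Zt_def' (t : ℝ) (x : H) : S.Zt t x = S.xr t (S.Z (S.xr (-t) x)) := rfl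

lemma zz_A (h : Prj.Dis A B) (α β : ℝ) (x : H) : A.E (zz A B α β x) = S.Zt α (A.E x) := by
  rw [zz, Sys.mulA, Sys.mulA, rr_A h, ← A.ZE, rr_inv_A h, Zt_def']

lemma zz_B (h : Prj.Dis A B) (α β : ℝ) (x : H) : B.E (zz A B α β x) = S.Zt β (B.E x) := by
  rw [zz, Sys.mulA, Sys.mulA, rr_B h, ← B.ZE, rr_inv_B h, Zt_def']

lemma zz_rest (h : Prj.Dis A B) (α β : ℝ) (x : H) :
    rest A B (zz A B α β x) = S.Z (rest A B x) := by
  rw [zz, Sys.mulA, Sys.mulA, rest_rr h, rest_Z, rr_inv_rest h]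

lemma zz_sa (α β : ℝ) (x y : H) :
    inner ℂ (zz A B α β x) y = (inner ℂ x (zz A B α β y) : ℂ) := by
  have e : ∀ (U : H ≃ₗᵢ[ℂ] H) (x y : H), inner ℂ (U x) y = (inner ℂ x (U⁻¹ y) : ℂ) := by
    intro U x y
    rw [← Sys.inner_invA, inv_inv]
  rw [zz, Sys.mulA, Sys.mulA, Sys.mulA, Sys.mulA, e, S.inner_Z, Sys.inner_invA]

/-- field vector seen through the block rotation -/
lemma xv_rr (α β : ℝ) (V : H ≃ₗᵢ[ℂ] H) :
    S.xv ((rr A B α β)⁻¹ * V) = V⁻¹ (zz A B α β (V S.Om)) := by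
  rw [Sys.xv, mul_inv_rev, inv_inv]
  rfl

lemma gt_eq (g α β : ℝ) (V : H ≃ₗᵢ[ℂ] H) :
    gt A B g α β V = qq A B α β ((g : ℂ) • S.iota (V⁻¹ (zz A B α β (V S.Om)))) * V := by
  rw [gt, xv_rr, qq, mul_assoc, mul_assoc]

lemma xr_pi (S : Sys H K) (x : H) : S.xr Real.pi x = -x := by
  rw [S.xr_apply, Real.cos_pi, Real.sin_pi]; simp

lemma Zt_add_half (S : Sys H K) (α : ℝ) (x : H) : S.Zt (α + Real.pi / 2) x = -S.Zt α x := by
  rw [S.Zt_apply, S.Zt_apply, show 2 * (α + Real.pi / 2) = Real.pi + 2 * α by ring, ← S.xr_xr,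
    xr_pi]

lemma pul_add_half (S : Sys H K) (α : ℝ) (v : K) (x : H) : S.pul (α + Real.pi / 2) v x = S.pul α (-v) x := by
  rw [S.pul_apply, S.pul_apply, Zt_add_half, neg_neg, map_neg, map_neg]
  module

/-! ### composition of four gates -/

lemma qq_qq (h : Prj.Dis A B) {α β α' β' : ℝ} (v : K) (x : H)
    (hα : ∀ v x, S.Zt α' (S.pul α v x) = S.pul α v (S.Zt α' x))
    (hβ : ∀ v x, S.Zt β' (S.pul β v x) = S.pul β v (S.Zt β' x)) :
    zz A B α' β' (qq A B α β v x) = qq A B α β v (zz A B α' β' x) := by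
  refine eq_of_parts (A := A) (B := B) ?_ ?_ ?_
  · rw [zz_A h, qq_A h, qq_A h, zz_A h, hα]
  · rw [zz_B h, qq_B h, qq_B h, zz_B h, hβ]
  · rw [zz_rest h, qq_rest h, qq_rest h, zz_rest h, S.Z_zr]

lemma comm_half (α : ℝ) (v : K) (x : H) :
    S.Zt (α + Real.pi / 2) (S.pul α v x) = S.pul α v (S.Zt (α + Real.pi / 2) x) := by
  rw [Zt_add_half, Zt_add_half, S.Zt_pul, map_neg]

lemma comm_half' (α : ℝ) (v : K) (x : H) :
    S.Zt α (S.pul (α + Real.pi / 2) v x) = S.pul (α + Real.pi / 2) v (S.Zt α x) := by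
  rw [pul_add_half, pul_add_half, S.Zt_pul]

/-- block commutation of the four conjugated `Z` -/
lemma zz_qq_all (h : Prj.Dis A B) {tA tB α β α' β' : ℝ} (v : K) (x : H)
    (hα : α = tA ∨ α = tA + Real.pi / 2) (hβ : β = tB ∨ β = tB + Real.pi / 2)
    (hα' : α' = tA ∨ α' = tA + Real.pi / 2) (hβ' : β' = tB ∨ β' = tB + Real.pi / 2) :
    zz A B α' β' (qq A B α β v x) = qq A B α β v (zz A B α' β' x) := by
  refine qq_qq h v x ?_ ?_
  · rcases hα with rfl | rfl <;> rcases hα' with rfl | rfl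
    · exact fun v x => S.Zt_pul _ v x
    · exact fun v x => comm_half _ v x
    · exact fun v x => comm_half' _ v x
    · exact fun v x => S.Zt_pul _ v x
  · rcases hβ with rfl | rfl <;> rcases hβ' with rfl | rfl
    · exact fun v x => S.Zt_pul _ v x
    · exact fun v x => comm_half _ v x
    · exact fun v x => comm_half' _ v x
    · exact fun v x => S.Zt_pul _ v x

lemma zz_zz_all (h : Prj.Dis A B) {tA tB α β α' β' : ℝ} (x : H)
    (hα : α = tA ∨ α = tA + Real.pi / 2) (hβ : β = tB ∨ β = tB + Real.pi / 2)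
    (hα' : α' = tA ∨ α' = tA + Real.pi / 2) (hβ' : β' = tB ∨ β' = tB + Real.pi / 2) :
    zz A B α' β' (zz A B α β x) = zz A B α β (zz A B α' β' x) := by
  have key : ∀ {t γ γ' : ℝ}, (γ = t ∨ γ = t + Real.pi / 2) → (γ' = t ∨ γ' = t + Real.pi / 2) →
      ∀ y : H, S.Zt γ' (S.Zt γ y) = S.Zt γ (S.Zt γ' y) := by
    intro t γ γ' h1 h2 y
    rcases h1 with rfl | rfl <;> rcases h2 with rfl | rfl
    · rfl
    · rw [Zt_add_half, Zt_add_half, map_neg]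
    · rw [Zt_add_half, Zt_add_half, map_neg]
    · rfl
  refine eq_of_parts (A := A) (B := B) ?_ ?_ ?_
  · rw [zz_A h, zz_A h, zz_A h, zz_A h, key hα hα']
  · rw [zz_B h, zz_B h, zz_B h, zz_B h, key hβ hβ']
  · rw [zz_rest h, zz_rest h, zz_rest h, zz_rest h]

/-- a `C` gate seen through a block rotation keeps the field vectors of the others -/
lemma field_gt (h : Prj.Dis A B) {tA tB α β α' β' : ℝ} (v : K) (V : H ≃ₗᵢ[ℂ] H)
    (hα : α = tA ∨ α = tA + Real.pi / 2) (hβ : β = tB ∨ β = tB + Real.pi / 2)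
    (hα' : α' = tA ∨ α' = tA + Real.pi / 2) (hβ' : β' = tB ∨ β' = tB + Real.pi / 2) :
    (qq A B α β v * V)⁻¹ (zz A B α' β' ((qq A B α β v * V) S.Om))
      = V⁻¹ (zz A B α' β' (V S.Om)) := by
  rw [mul_inv_rev, Sys.mulA, Sys.mulA, zz_qq_all h v _ hα hβ hα' hβ', Sys.invA]

lemma th_field (h : Prj.Dis A B) {tA tB α β α' β' : ℝ} (V : H ≃ₗᵢ[ℂ] H)
    (hα : α = tA ∨ α = tA + Real.pi / 2) (hβ : β = tB ∨ β = tB + Real.pi / 2)
    (hα' : α' = tA ∨ α' = tA + Real.pi / 2) (hβ' : β' = tB ∨ β' = tB + Real.pi / 2) :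
    th (S.iota (V⁻¹ (zz A B α β (V S.Om)))) (S.iota (V⁻¹ (zz A B α' β' (V S.Om)))) = 0 := by
  rw [S.th_iota, (V⁻¹).inner_map_map]
  have h1 : (inner ℂ (zz A B α β (V S.Om)) (zz A B α' β' (V S.Om)) : ℂ)
      = inner ℂ (zz A B α' β' (V S.Om)) (zz A B α β (V S.Om)) := by
    rw [zz_sa, zz_sa, zz_zz_all h _ hα' hβ' hα hβ]
  have h2 := inner_conj_symm (𝕜 := ℂ) (zz A B α β (V S.Om)) (zz A B α' β' (V S.Om))
  rw [← h1] at h2
  exact Complex.conj_eq_iff_im.1 h2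

lemma pul_pul_real (t : ℝ) (v w : K) (hvw : th v w = 0) (x : H) :
    S.pul t v (S.pul t w x) = S.pul t (v + w) x := by
  rw [S.pul_pul, hvw]; simp

/-- commuting with the label projections -/
lemma inv_comm_E (P : Prj S) {V : H ≃ₗᵢ[ℂ] H} (hV : ∀ x, V (P.E x) = P.E (V x)) (x : H) :
    V⁻¹ (P.E x) = P.E (V⁻¹ x) := P.inv_E hV x

lemma zz_eq_sum (h : Prj.Dis A B) (α β : ℝ) (x : H) :
    zz A B α β x = S.Zt α (A.E x) + S.Zt β (B.E x) + S.Z (rest A B x) := by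
  have h1 := zz_A h α β x
  have h2 := zz_B h α β x
  have h3 := zz_rest h α β x
  have hx : zz A B α β x = rest A B (zz A B α β x) + A.E (zz A B α β x) + B.E (zz A B α β x) := by
    rw [rest]; abel
  rw [hx, h1, h2, h3]; abel

/-- the field vector of the block rotated state -/
lemma field_eq (h : Prj.Dis A B) (α β : ℝ) {V : H ≃ₗᵢ[ℂ] H} (hA : ∀ x, V (A.E x) = A.E (V x))
    (hB : ∀ x, V (B.E x) = B.E (V x)) :
    V⁻¹ (zz A B α β (V S.Om)) = A.E (S.xt α V) + B.E (S.xt β V) + rest A B (S.xv V) := by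
  rw [zz_eq_sum h, map_add, map_add, A.Zt_E, B.Zt_E, ← rest_Z, inv_comm_E A hA, inv_comm_E B hB]
  congr 1
  rw [rest, rest, map_sub, map_sub, inv_comm_E A hA, inv_comm_E B hB]
  rfl

lemma xt_add_half (α : ℝ) (V : H ≃ₗᵢ[ℂ] H) : S.xt (α + Real.pi / 2) V = -S.xt α V := by
  rw [Sys.xt, Sys.xt, Zt_add_half, map_neg]

/-- **exact block coupling**: four `C` gates with angles `± c / 4`, conjugated by block rotations -/
theorem cpl_eq (h : Prj.Dis A B) (c tA tB : ℝ) {V : H ≃ₗᵢ[ℂ] H}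
    (hA : ∀ x, V (A.E x) = A.E (V x)) (hB : ∀ x, V (B.E x) = B.E (V x)) :
    cpl A B c tA tB V
      = gt A B (c / 4) (tA + Real.pi / 2) (tB + Real.pi / 2)
          (gt A B (-(c / 4)) tA (tB + Real.pi / 2)
            (gt A B (-(c / 4)) (tA + Real.pi / 2) tB
              (gt A B (c / 4) tA tB V))) := by
  obtain ⟨a, ha⟩ : ∃ a, a = A.E (S.xt tA V) := ⟨_, rfl⟩
  obtain ⟨b, hb⟩ : ∃ b, b = B.E (S.xt tB V) := ⟨_, rfl⟩
  obtain ⟨r, hr⟩ : ∃ r, r = rest A B (S.xv V) := ⟨_, rfl⟩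
  -- the four field vectors
  have f1 : V⁻¹ (zz A B tA tB (V S.Om)) = a + b + r := by
    rw [field_eq h _ _ hA hB, ha, hb, hr]
  have f2 : V⁻¹ (zz A B (tA + Real.pi / 2) tB (V S.Om)) = -a + b + r := by
    rw [field_eq h _ _ hA hB, xt_add_half, map_neg, ha, hb, hr]
  have f3 : V⁻¹ (zz A B tA (tB + Real.pi / 2) (V S.Om)) = a + -b + r := by
    rw [field_eq h _ _ hA hB, xt_add_half, map_neg, ha, hb, hr]
  have f4 : V⁻¹ (zz A B (tA + Real.pi / 2) (tB + Real.pi / 2) (V S.Om)) = -a + -b + r := by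
    rw [field_eq h _ _ hA hB, xt_add_half, xt_add_half, map_neg, map_neg, ha, hb, hr]
  have q1 : gt A B (c / 4) tA tB V = qq A B tA tB (((c / 4 : ℝ) : ℂ) • S.iota (a + b + r)) * V := by
    rw [gt_eq, f1]
  -- the four gates
  have step : ∀ (g α β : ℝ) (Q : H ≃ₗᵢ[ℂ] H) (f : H), (Q * V)⁻¹ (zz A B α β ((Q * V) S.Om))
      = V⁻¹ (zz A B α β (V S.Om)) → V⁻¹ (zz A B α β (V S.Om)) = f →
      gt A B g α β (Q * V) = qq A B α β ((g : ℂ) • S.iota f) * (Q * V) := by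
    intro g α β Q f h1 h2
    rw [gt_eq, h1, h2]
  have fld : ∀ (α β α' β' : ℝ) (v : K) (Q : H ≃ₗᵢ[ℂ] H),
      (α = tA ∨ α = tA + Real.pi / 2) → (β = tB ∨ β = tB + Real.pi / 2) →
      (α' = tA ∨ α' = tA + Real.pi / 2) → (β' = tB ∨ β' = tB + Real.pi / 2) →
      (Q * V)⁻¹ (zz A B α' β' ((Q * V) S.Om)) = V⁻¹ (zz A B α' β' (V S.Om)) →
      ((qq A B α β v * Q) * V)⁻¹ (zz A B α' β' (((qq A B α β v * Q) * V) S.Om))
        = V⁻¹ (zz A B α' β' (V S.Om)) := by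
    intro α β α' β' v Q h1 h2 h3 h4 h5
    rw [mul_assoc, field_gt (tA := tA) (tB := tB) h v (Q * V) h1 h2 h3 h4, h5]
  obtain ⟨v1, hv1⟩ : ∃ v, v = ((c / 4 : ℝ) : ℂ) • S.iota (a + b + r) := ⟨_, rfl⟩
  obtain ⟨v2, hv2⟩ : ∃ v, v = ((-(c / 4) : ℝ) : ℂ) • S.iota (-a + b + r) := ⟨_, rfl⟩
  obtain ⟨v3, hv3⟩ : ∃ v, v = ((-(c / 4) : ℝ) : ℂ) • S.iota (a + -b + r) := ⟨_, rfl⟩
  obtain ⟨v4, hv4⟩ : ∃ v, v = ((c / 4 : ℝ) : ℂ) • S.iota (-a + -b + r) := ⟨_, rfl⟩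
  obtain ⟨Q1, hQ1⟩ : ∃ Q, Q = qq A B tA tB v1 := ⟨_, rfl⟩
  obtain ⟨Q2, hQ2⟩ : ∃ Q, Q = qq A B (tA + Real.pi / 2) tB v2 := ⟨_, rfl⟩
  obtain ⟨Q3, hQ3⟩ : ∃ Q, Q = qq A B tA (tB + Real.pi / 2) v3 := ⟨_, rfl⟩
  obtain ⟨Q4, hQ4⟩ : ∃ Q, Q = qq A B (tA + Real.pi / 2) (tB + Real.pi / 2) v4 := ⟨_, rfl⟩
  rw [← hv1, ← hQ1] at q1
  have o1 : ∀ α' β', (α' = tA ∨ α' = tA + Real.pi / 2) → (β' = tB ∨ β' = tB + Real.pi / 2) →
      (Q1 * V)⁻¹ (zz A B α' β' ((Q1 * V) S.Om)) = V⁻¹ (zz A B α' β' (V S.Om)) := by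
    intro α' β' h1 h2
    rw [hQ1]
    exact field_gt (tA := tA) (tB := tB) h v1 V (Or.inl rfl) (Or.inl rfl) h1 h2
  have o2 : ∀ α' β', (α' = tA ∨ α' = tA + Real.pi / 2) → (β' = tB ∨ β' = tB + Real.pi / 2) →
      ((Q2 * Q1) * V)⁻¹ (zz A B α' β' (((Q2 * Q1) * V) S.Om)) = V⁻¹ (zz A B α' β' (V S.Om)) := by
    intro α' β' h1 h2
    rw [hQ2]
    exact fld _ _ α' β' v2 Q1 (Or.inr rfl) (Or.inl rfl) h1 h2 (o1 α' β' h1 h2)
  have o3 : ∀ α' β', (α' = tA ∨ α' = tA + Real.pi / 2) → (β' = tB ∨ β' = tB + Real.pi / 2) →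
      ((Q3 * (Q2 * Q1)) * V)⁻¹ (zz A B α' β' (((Q3 * (Q2 * Q1)) * V) S.Om))
        = V⁻¹ (zz A B α' β' (V S.Om)) := by
    intro α' β' h1 h2
    rw [hQ3]
    exact fld _ _ α' β' v3 (Q2 * Q1) (Or.inl rfl) (Or.inr rfl) h1 h2 (o2 α' β' h1 h2)
  have q2 : gt A B (-(c / 4)) (tA + Real.pi / 2) tB (Q1 * V) = (Q2 * Q1) * V := by
    rw [step _ _ _ Q1 _ (o1 (tA + Real.pi / 2) tB (Or.inr rfl) (Or.inl rfl)) f2, ← hv2, ← hQ2,
      ← mul_assoc]
  have q3 : gt A B (-(c / 4)) tA (tB + Real.pi / 2) ((Q2 * Q1) * V) = (Q3 * (Q2 * Q1)) * V := by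
    rw [step _ _ _ (Q2 * Q1) _ (o2 tA (tB + Real.pi / 2) (Or.inl rfl) (Or.inr rfl)) f3, ← hv3,
      ← hQ3, ← mul_assoc Q3]
  have q4 : gt A B (c / 4) (tA + Real.pi / 2) (tB + Real.pi / 2) ((Q3 * (Q2 * Q1)) * V)
      = (Q4 * (Q3 * (Q2 * Q1))) * V := by
    rw [step _ _ _ (Q3 * (Q2 * Q1)) _ (o3 (tA + Real.pi / 2) (tB + Real.pi / 2) (Or.inr rfl)
      (Or.inr rfl)) f4, ← hv4, ← hQ4, ← mul_assoc Q4]
  rw [q1, q2, q3, q4]
  -- phases
  have t12 : th (S.iota (a + b + r)) (S.iota (-a + b + r)) = 0 := by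
    rw [← f1, ← f2]; exact th_field h V (Or.inl rfl) (Or.inl rfl) (Or.inr rfl) (Or.inl rfl)
  have t13 : th (S.iota (a + b + r)) (S.iota (a + -b + r)) = 0 := by
    rw [← f1, ← f3]; exact th_field h V (Or.inl rfl) (Or.inl rfl) (Or.inl rfl) (Or.inr rfl)
  have t14 : th (S.iota (a + b + r)) (S.iota (-a + -b + r)) = 0 := by
    rw [← f1, ← f4]; exact th_field h V (Or.inl rfl) (Or.inl rfl) (Or.inr rfl) (Or.inr rfl)
  have t23 : th (S.iota (-a + b + r)) (S.iota (a + -b + r)) = 0 := by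
    rw [← f2, ← f3]; exact th_field h V (Or.inr rfl) (Or.inl rfl) (Or.inl rfl) (Or.inr rfl)
  have t24 : th (S.iota (-a + b + r)) (S.iota (-a + -b + r)) = 0 := by
    rw [← f2, ← f4]; exact th_field h V (Or.inr rfl) (Or.inl rfl) (Or.inr rfl) (Or.inr rfl)
  have t34 : th (S.iota (a + -b + r)) (S.iota (-a + -b + r)) = 0 := by
    rw [← f3, ← f4]; exact th_field h V (Or.inl rfl) (Or.inr rfl) (Or.inr rfl) (Or.inr rfl)
  have s12 : th v2 v1 = 0 := by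
    rw [hv1, hv2, Vale.Agent.P367.A.th_smul_left, Vale.Agent.P367.A.th_smul_right,
      Vale.Agent.P367.A.th_swap, t12]; simp
  have s13 : th v3 v1 = 0 := by
    rw [hv1, hv3, Vale.Agent.P367.A.th_smul_left, Vale.Agent.P367.A.th_smul_right,
      Vale.Agent.P367.A.th_swap, t13]; simp
  have s14 : th v4 v1 = 0 := by
    rw [hv1, hv4, Vale.Agent.P367.A.th_smul_left, Vale.Agent.P367.A.th_smul_right,
      Vale.Agent.P367.A.th_swap, t14]; simp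
  have s23 : th v3 v2 = 0 := by
    rw [hv2, hv3, Vale.Agent.P367.A.th_smul_left, Vale.Agent.P367.A.th_smul_right,
      Vale.Agent.P367.A.th_swap, t23]; simp
  have s24 : th v4 v2 = 0 := by
    rw [hv2, hv4, Vale.Agent.P367.A.th_smul_left, Vale.Agent.P367.A.th_smul_right,
      Vale.Agent.P367.A.th_swap, t24]; simp
  have s34 : th v4 v3 = 0 := by
    rw [hv3, hv4, Vale.Agent.P367.A.th_smul_left, Vale.Agent.P367.A.th_smul_right,
      Vale.Agent.P367.A.th_swap, t34]; simp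
  have comb : ∀ (t σ2 σ3 σ4 : ℝ) (y : H),
      S.pul t ((σ4 : ℂ) • v4) (S.pul t ((σ3 : ℂ) • v3) (S.pul t ((σ2 : ℂ) • v2) (S.pul t v1 y)))
        = S.pul t ((σ4 : ℂ) • v4 + ((σ3 : ℂ) • v3 + ((σ2 : ℂ) • v2 + v1))) y := by
    intro t σ2 σ3 σ4 y
    have k1 : th ((σ2 : ℂ) • v2) v1 = 0 := by
      rw [Vale.Agent.P367.A.th_smul_left, s12, mul_zero]
    have k2 : th ((σ3 : ℂ) • v3) ((σ2 : ℂ) • v2 + v1) = 0 := by
      simp only [Vale.Agent.P367.A.th_add_right, Vale.Agent.P367.A.th_smul_left,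
        Vale.Agent.P367.A.th_smul_right, s23, s13]; ring
    have k3 : th ((σ4 : ℂ) • v4) ((σ3 : ℂ) • v3 + ((σ2 : ℂ) • v2 + v1)) = 0 := by
      simp only [Vale.Agent.P367.A.th_add_right, Vale.Agent.P367.A.th_smul_left,
        Vale.Agent.P367.A.th_smul_right, s34, s24, s14]; ring
    rw [pul_pul_real t _ _ k1, pul_pul_real t _ _ k2, pul_pul_real t _ _ k3]
  have one1 : ∀ v : K, ((1 : ℝ) : ℂ) • v = v := by intro v; simp
  have neg1 : ∀ v : K, ((-1 : ℝ) : ℂ) • v = -v := by intro v; simp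
  ext x
  refine eq_of_parts (A := A) (B := B) ?_ ?_ ?_
  · rw [cpl, Sys.mulA, Sys.mulA, A.E_blk, Prj.E_blk_dis h]
    simp only [Sys.mulA]
    rw [hQ4, hQ3, hQ2, hQ1, qq_A h, qq_A h, qq_A h, qq_A h, pul_add_half, pul_add_half,
      ← neg1 v4, ← neg1 v2]
    conv_rhs => rw [← one1 v3]
    rw [comb tA (-1) 1 (-1)]
    have ev : (c : ℂ) • S.iota (B.E (S.xt tB V)) = ((-1 : ℝ) : ℂ) • v4
        + (((1 : ℝ) : ℂ) • v3 + (((-1 : ℝ) : ℂ) • v2 + v1)) := by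
      rw [neg1, neg1, one1, hv1, hv2, hv3, hv4, ← hb]
      simp only [map_add, map_neg]
      push_cast
      module
    rw [ev]
  · rw [cpl, Sys.mulA, Sys.mulA, Prj.E_blk_dis h.symm, B.E_blk]
    simp only [Sys.mulA]
    rw [hQ4, hQ3, hQ2, hQ1, qq_B h, qq_B h, qq_B h, qq_B h, pul_add_half, pul_add_half,
      ← neg1 v4, ← neg1 v3]
    conv_rhs => rw [← one1 v2]
    rw [comb tB 1 (-1) (-1)]
    have ev : (c : ℂ) • S.iota (A.E (S.xt tA V)) = ((-1 : ℝ) : ℂ) • v4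
        + (((-1 : ℝ) : ℂ) • v3 + (((1 : ℝ) : ℂ) • v2 + v1)) := by
      rw [neg1, neg1, one1, hv1, hv2, hv3, hv4, ← ha]
      simp only [map_add, map_neg]
      push_cast
      module
    rw [ev]
  · have e0 : rest A B (cpl A B c tA tB V x) = rest A B (V x) := by
      rw [cpl, Sys.mulA, Sys.mulA]
      simp only [rest, A.E_blk, B.E_blk, Prj.E_blk_dis h, Prj.E_blk_dis h.symm]
      rw [Prj.blk_apply, Prj.blk_apply, map_add, map_sub, B.pul_E, h, h]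
      simp only [sub_zero, zero_add]
      abel_nf
    rw [e0]
    simp only [Sys.mulA]
    rw [hQ4, hQ3, hQ2, hQ1, qq_rest h, qq_rest h, qq_rest h, qq_rest h,
      ← S.pul_time_zero, ← S.pul_time_zero, ← S.pul_time_zero, ← S.pul_time_zero]
    conv_rhs => rw [← one1 v4, ← one1 v3, ← one1 v2]
    rw [comb 0 1 1 1]
    have e1 : ((1 : ℝ) : ℂ) • v4 + (((1 : ℝ) : ℂ) • v3 + (((1 : ℝ) : ℂ) • v2 + v1)) = 0 := by
      rw [one1, one1, one1, hv1, hv2, hv3, hv4]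
      simp only [map_add, map_neg]
      push_cast
      module
    rw [e1, S.pul_zero]

end two

end Vale.Agent.P367.B
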