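import Vale.Agent.P367.A.Defs

/-! P367, block B: exact coupling gates (quadratic polarisation of four `C` gates). -/

namespace Vale.Agent.P367.A

open Complex

open Vale.Agent.P367.NI (Gate)

namespace Sys

variable {H K : Type*} [NormedAddCommGroup H] [InnerProductSpace ℂ H]
  [NormedAddCommGroup K] [InnerProductSpace ℂ K] (S : Sys H K)

/-- `U` commutes with the Weyl operators `W d`, `d ∈ D` -/
def Cm (D : Set K) (U : H ≃ₗᵢ[ℂ] H) : Prop := ∀ d ∈ D, ∀ x, S.W d (U x) = U (S.W d x)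

lemma Cm.one (D : Set K) : S.Cm D 1 := fun _ _ _ => rfl

variable {S}

lemma Cm.mul {D : Set K} {U V : H ≃ₗᵢ[ℂ] H} (hU : S.Cm D U) (hV : S.Cm D V) : S.Cm D (U * V) := by
  intro d hd x
  change S.W d (U (V x)) = U (V (S.W d x))
  rw [hU d hd, hV d hd]

lemma Cm.inv {D : Set K} {U : H ≃ₗᵢ[ℂ] H} (hU : S.Cm D U) : S.Cm D U⁻¹ := by
  intro d hd x
  have h := hU d hd (U⁻¹ x)
  have h1 : U (U⁻¹ x) = x := U.apply_symm_apply x
  rw [h1] at h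
  rw [h]
  exact (U.symm_apply_apply _).symm

variable (S)

lemma Cm.X (D : Set K) : S.Cm D S.X := fun d _ x => S.WX d x

lemma Cm.Z (D : Set K) : S.Cm D S.Z := fun d _ x => S.WZ d x

/-- the axis `U^* Z U` -/
noncomputable def ax (U : H ≃ₗᵢ[ℂ] H) : H ≃ₗᵢ[ℂ] H := U⁻¹ * S.Z * U

lemma ax_ax (U : H ≃ₗᵢ[ℂ] H) (x : H) : S.ax U (S.ax U x) = x := by
  change U⁻¹ (S.Z (U (U⁻¹ (S.Z (U x))))) = x
  have h1 : ∀ y, U (U⁻¹ y) = y := fun y => U.apply_symm_apply y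
  rw [h1, S.ZZ]
  exact U.symm_apply_apply x

lemma inner_ax (U : H ≃ₗᵢ[ℂ] H) (x y : H) : inner ℂ (S.ax U x) y = (inner ℂ x (S.ax U y) : ℂ) := by
  have h := (S.ax U).inner_map_map x (S.ax U y)
  rwa [S.ax_ax] at h

lemma Cm.ax {D : Set K} {U : H ≃ₗᵢ[ℂ] H} (hU : S.Cm D U) : S.Cm D (S.ax U) :=
  (hU.inv.mul (Cm.Z S D)).mul hU

/-- `exp(-i U^* Z U phi(v))` -/
noncomputable def cz (U : H ≃ₗᵢ[ℂ] H) (v : K) : H ≃ₗᵢ[ℂ] H := U⁻¹ * S.zr v * U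

lemma cz_apply {D : Set K} {U : H ≃ₗᵢ[ℂ] H} (hU : S.Cm D U) {v : K} (hv : v ∈ D) (hv' : -v ∈ D)
    (x : H) : S.cz U v x = (1 / 2 : ℂ) • (S.W (-v) x + S.W v x)
      + (1 / 2 : ℂ) • (S.W (-v) (S.ax U x) - S.W v (S.ax U x)) := by
  change U⁻¹ (S.zr v (U x)) = _
  rw [zr_apply]
  have h1 : ∀ y, U⁻¹ (U y) = y := fun y => U.symm_apply_apply y
  have e1 : S.W (-v) (U x) = U (S.W (-v) x) := hU _ hv' x
  have e2 : S.W v (U x) = U (S.W v x) := hU _ hv x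
  have h2 : ∀ y, U (U⁻¹ y) = y := fun y => U.apply_symm_apply y
  have e3 : S.Z (U x) = U (S.ax U x) := (h2 _).symm
  have e4 : S.W (-v) (U (S.ax U x)) = U (S.W (-v) (S.ax U x)) := hU _ hv' _
  have e5 : S.W v (U (S.ax U x)) = U (S.W v (S.ax U x)) := hU _ hv _
  rw [e1, e2, e3, e4, e5]
  simp only [map_add, map_smul, map_sub, h1]

lemma cz_pos {D : Set K} {U : H ≃ₗᵢ[ℂ] H} (hU : S.Cm D U) {v : K} (hv : v ∈ D) (hv' : -v ∈ D)
    {x : H} (hx : S.ax U x = x) : S.cz U v x = S.W (-v) x := by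
  rw [S.cz_apply hU hv hv', hx]
  module

lemma cz_neg {D : Set K} {U : H ≃ₗᵢ[ℂ] H} (hU : S.Cm D U) {v : K} (hv : v ∈ D) (hv' : -v ∈ D)
    {x : H} (hx : S.ax U x = -x) : S.cz U v x = S.W v x := by
  rw [S.cz_apply hU hv hv', hx, map_neg, map_neg]
  module

/-- the eigenvector rule: on `U^* Z U = ε` the gate is the Weyl operator `W (-ε v)` -/
lemma cz_eig {D : Submodule ℝ K} {U : H ≃ₗᵢ[ℂ] H} (hU : S.Cm D U) {v : K} (hv : v ∈ D)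
    {ε : ℝ} (hε : ε = 1 ∨ ε = -1) {x : H} (hx : S.ax U x = ((ε : ℝ) : ℂ) • x) :
    S.cz U v x = S.W (((-ε : ℝ) : ℂ) • v) x := by
  have hv' : -v ∈ (D : Set K) := D.neg_mem hv
  rcases hε with rfl | rfl
  · rw [S.cz_pos hU hv hv' (by rw [hx]; simp)]
    congr 2
    simp
  · rw [S.cz_neg hU hv hv' (by rw [hx]; simp)]
    congr 2
    simp

/-- coupling gate: conjugated `C` gate -/
noncomputable def cg (U : H ≃ₗᵢ[ℂ] H) (g : ℝ) (V : H ≃ₗᵢ[ℂ] H) : H ≃ₗᵢ[ℂ] H :=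
  S.cz U ((g : ℂ) • S.iota (V⁻¹ (S.ax U (V S.Om)))) * V

/-- the conjugated gate as a word: `U`, then `C g`, then `U⁻¹` -/
lemma cg_eq (U : H ≃ₗᵢ[ℂ] H) (g : ℝ) (V : H ≃ₗᵢ[ℂ] H) :
    S.cg U g V = U⁻¹ * S.step (Gate.C g) (U * V) := by
  have h : S.step (Gate.C g) (U * V)
      = S.zr ((g : ℂ) • S.iota (V⁻¹ (S.ax U (V S.Om)))) * (U * V) := rfl
  rw [h]
  unfold cg cz
  simp only [mul_assoc]

lemma cg_step_mul (U : H ≃ₗᵢ[ℂ] H) (g : ℝ) (V : H ≃ₗᵢ[ℂ] H) :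
    S.step (Gate.C g) (U * V) = U * S.cg U g V := by
  rw [S.cg_eq, ← mul_assoc, mul_inv_cancel, one_mul]

lemma W_W_real {a b : K} (h : (inner ℂ a b : ℂ).im = 0) (x : H) :
    S.W a (S.W b x) = S.W (a + b) x := by
  rw [S.WW, h]
  simp

/-- four commuting Weyl factors -/
lemma W4 {a b c d : K} (hab : (inner ℂ b a : ℂ).im = 0) (hac : (inner ℂ c a : ℂ).im = 0)
    (had : (inner ℂ d a : ℂ).im = 0) (hbc : (inner ℂ c b : ℂ).im = 0)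
    (hbd : (inner ℂ d b : ℂ).im = 0) (hcd : (inner ℂ d c : ℂ).im = 0) (x : H) :
    S.W d (S.W c (S.W b (S.W a x))) = S.W (a + b + c + d) x := by
  have e1 : (inner ℂ c (b + a) : ℂ).im = 0 := by
    rw [inner_add_right, Complex.add_im, hac, hbc, add_zero]
  have e2 : (inner ℂ d (c + (b + a)) : ℂ).im = 0 := by
    rw [inner_add_right, inner_add_right, Complex.add_im, Complex.add_im, had, hbd, hcd]
    simp
  rw [S.W_W_real hab, S.W_W_real e1, S.W_W_real e2]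
  congr 2
  abel

/-- conjugated gates commute with commuting axes -/
lemma cz_comm {D : Submodule ℝ K} {U A : H ≃ₗᵢ[ℂ] H} (hU : S.Cm D U) (hA : S.Cm D A) {v : K}
    (hv : v ∈ D) (hAU : ∀ x, A (S.ax U x) = S.ax U (A x)) (x : H) :
    A (S.cz U v x) = S.cz U v (A x) := by
  have hv' : -v ∈ (D : Set K) := D.neg_mem hv
  have hv1 : v ∈ (D : Set K) := hv
  rw [S.cz_apply hU hv1 hv', S.cz_apply hU hv1 hv']
  simp only [map_add, map_smul, map_sub]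
  rw [hA _ hv1, hA _ hv', ← hAU, hA _ hv1, hA _ hv']

/-- the field vector of an axis -/
noncomputable def fx (A V : H ≃ₗᵢ[ℂ] H) : H := V⁻¹ (A (V S.Om))

lemma fx_mul {A E V : H ≃ₗᵢ[ℂ] H} (h : ∀ x, A (E x) = E (A x)) : S.fx A (E * V) = S.fx A V := by
  unfold fx
  change V⁻¹ (E⁻¹ (A (E (V S.Om)))) = _
  rw [h]
  congr 1
  exact E.symm_apply_apply _

lemma im_fx {U U' V : H ≃ₗᵢ[ℂ] H} (h : ∀ x, S.ax U (S.ax U' x) = S.ax U' (S.ax U x)) :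
    (inner ℂ (S.fx (S.ax U) V) (S.fx (S.ax U') V) : ℂ).im = 0 := by
  have e1 : (inner ℂ (S.fx (S.ax U) V) (S.fx (S.ax U') V) : ℂ)
      = inner ℂ (S.ax U (V S.Om)) (S.ax U' (V S.Om)) := (V⁻¹).inner_map_map _ _
  have e2 : (inner ℂ (S.ax U (V S.Om)) (S.ax U' (V S.Om)) : ℂ)
      = (starRingEnd ℂ) (inner ℂ (S.ax U (V S.Om)) (S.ax U' (V S.Om))) := by
    rw [inner_conj_symm]
    rw [S.inner_ax, h, ← S.inner_ax]
  rw [e1]
  have h3 := congrArg Complex.im e2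
  rw [Complex.conj_im] at h3
  linarith

/-- data of an exact coupling: four axes `P ± Q ± T` -/
structure Four (D : Submodule ℝ K) (U : Fin 4 → (H ≃ₗᵢ[ℂ] H)) (P Q T : H →ₗ[ℂ] H) : Prop where
  cm : ∀ i, S.Cm D (U i)
  h0 : ∀ x, S.ax (U 0) x = P x + Q x + T x
  h1 : ∀ x, S.ax (U 1) x = P x - Q x + T x
  h2 : ∀ x, S.ax (U 2) x = P x + Q x - T x
  h3 : ∀ x, S.ax (U 3) x = P x - Q x - T x
  PQ : ∀ x, P (Q x) = 0
  QP : ∀ x, Q (P x) = 0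
  PT : ∀ x, P (T x) = 0
  TP : ∀ x, T (P x) = 0
  QT : ∀ x, Q (T x) = 0
  TQ : ∀ x, T (Q x) = 0

namespace Four

variable {S} {D : Submodule ℝ K} {U : Fin 4 → (H ≃ₗᵢ[ℂ] H)} {P Q T : H →ₗ[ℂ] H}

lemma comm (h : S.Four D U P Q T) (i j : Fin 4) (x : H) :
    S.ax (U i) (S.ax (U j) x) = S.ax (U j) (S.ax (U i) x) := by
  fin_cases i <;> fin_cases j <;>
    simp only [Fin.zero_eta, Fin.mk_one, Fin.reduceFinMk, h.h0, h.h1, h.h2, h.h3, map_add, map_sub,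
      h.PQ, h.QP, h.PT, h.TP, h.QT, h.TQ] <;> abel

lemma sum_sq (h : S.Four D U P Q T) (x : H) : P (P x) + Q (Q x) + T (T x) = x := by
  have h1 := S.ax_ax (U 0) x
  simp only [h.h0, map_add, h.PQ, h.QP, h.PT, h.TP, h.QT, h.TQ, add_zero, zero_add] at h1
  exact h1

lemma PPP (h : S.Four D U P Q T) (x : H) : P (P (P x)) = P x := by
  have h1 := congrArg P (h.sum_sq x)
  simpa only [map_add, h.PQ, h.PT, add_zero] using h1

lemma QQQ (h : S.Four D U P Q T) (x : H) : Q (Q (Q x)) = Q x := by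
  have h1 := congrArg Q (h.sum_sq x)
  simpa only [map_add, h.QP, h.QT, add_zero, zero_add] using h1

lemma TTT (h : S.Four D U P Q T) (x : H) : T (T (T x)) = T x := by
  have h1 := congrArg T (h.sum_sq x)
  simpa only [map_add, h.TP, h.TQ, zero_add] using h1

end Four

/-- four commuting conjugated gates on a joint eigenvector -/
lemma four_eig {D : Submodule ℝ K} {U : Fin 4 → (H ≃ₗᵢ[ℂ] H)} (hU : ∀ i, S.Cm D (U i))
    {v : Fin 4 → K} (hv : ∀ i, v i ∈ D) (him : ∀ i j, (inner ℂ (v i) (v j) : ℂ).im = 0)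
    {ε : Fin 4 → ℝ} (hε : ∀ i, ε i = 1 ∨ ε i = -1) {x : H}
    (hx : ∀ i, S.ax (U i) x = ((ε i : ℝ) : ℂ) • x) :
    S.cz (U 3) (v 3) (S.cz (U 2) (v 2) (S.cz (U 1) (v 1) (S.cz (U 0) (v 0) x)))
      = S.W (((-ε 0 : ℝ) : ℂ) • v 0 + ((-ε 1 : ℝ) : ℂ) • v 1 + ((-ε 2 : ℝ) : ℂ) • v 2
        + ((-ε 3 : ℝ) : ℂ) • v 3) x := by
  have hD : ∀ i, ((-ε i : ℝ) : ℂ) • v i ∈ D := by
    intro i
    have : ((-ε i : ℝ) : ℂ) • v i = (-ε i) • v i := Complex.coe_smul _ _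
    rw [this]
    exact D.smul_mem _ (hv i)
  have hW : ∀ (d : K), d ∈ D → ∀ i y, S.ax (U i) y = ((ε i : ℝ) : ℂ) • y →
      S.ax (U i) (S.W d y) = ((ε i : ℝ) : ℂ) • S.W d y := by
    intro d hd i y hy
    rw [← (Cm.ax S (hU i)) d hd, hy, map_smul]
  have him2 : ∀ i j, (inner ℂ (((-ε i : ℝ) : ℂ) • v i) (((-ε j : ℝ) : ℂ) • v j) : ℂ).im = 0 := by
    intro i j
    rw [inner_smul_left, inner_smul_right, Complex.conj_ofReal, Complex.im_ofReal_mul,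
      Complex.im_ofReal_mul, him]
    simp
  rw [S.cz_eig (hU 0) (hv 0) (hε 0) (hx 0),
    S.cz_eig (hU 1) (hv 1) (hε 1) (hW _ (hD 0) 1 _ (hx 1)),
    S.cz_eig (hU 2) (hv 2) (hε 2) (hW _ (hD 1) 2 _ (hW _ (hD 0) 2 _ (hx 2))),
    S.cz_eig (hU 3) (hv 3) (hε 3)
      (hW _ (hD 2) 3 _ (hW _ (hD 1) 3 _ (hW _ (hD 0) 3 _ (hx 3))))]
  exact S.W4 (him2 1 0) (him2 2 0) (him2 3 0) (him2 2 1) (him2 3 1) (him2 3 2) x

/-- the four gates one after the other -/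
noncomputable def cg4 (U : Fin 4 → (H ≃ₗᵢ[ℂ] H)) (t : ℝ) (V : H ≃ₗᵢ[ℂ] H) : H ≃ₗᵢ[ℂ] H :=
  S.cg (U 3) t (S.cg (U 2) (-t) (S.cg (U 1) t (S.cg (U 0) (-t) V)))

/-- signs of the four gates -/
def sg4 : Fin 4 → ℝ := ![-1, 1, -1, 1]

lemma cg4_eq {D : Submodule ℝ K} {U : Fin 4 → (H ≃ₗᵢ[ℂ] H)} {P Q T : H →ₗ[ℂ] H}
    (h : S.Four D U P Q T) (t : ℝ) (V : H ≃ₗᵢ[ℂ] H)
    (hD : ∀ i, S.iota (S.fx (S.ax (U i)) V) ∈ D) :
    S.cg4 U t V = S.cz (U 3) (((sg4 3 * t : ℝ) : ℂ) • S.iota (S.fx (S.ax (U 3)) V)) *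
      (S.cz (U 2) (((sg4 2 * t : ℝ) : ℂ) • S.iota (S.fx (S.ax (U 2)) V)) *
      (S.cz (U 1) (((sg4 1 * t : ℝ) : ℂ) • S.iota (S.fx (S.ax (U 1)) V)) *
      (S.cz (U 0) (((sg4 0 * t : ℝ) : ℂ) • S.iota (S.fx (S.ax (U 0)) V)) * V))) := by
  have hm : ∀ i (r : ℝ), ((r : ℝ) : ℂ) • S.iota (S.fx (S.ax (U i)) V) ∈ D := by
    intro i r
    have : ((r : ℝ) : ℂ) • S.iota (S.fx (S.ax (U i)) V) = r • S.iota (S.fx (S.ax (U i)) V) :=
      Complex.coe_smul _ _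
    rw [this]
    exact D.smul_mem _ (hD i)
  have hc : ∀ i j (r : ℝ) x, S.ax (U j) (S.cz (U i) (((r : ℝ) : ℂ) • S.iota (S.fx (S.ax (U i)) V)) x)
      = S.cz (U i) (((r : ℝ) : ℂ) • S.iota (S.fx (S.ax (U i)) V)) (S.ax (U j) x) := by
    intro i j r x
    exact S.cz_comm (h.cm i) (Cm.ax S (h.cm j)) (hm i r) (fun y => h.comm j i y) x
  have e0 : S.cg (U 0) (-t) V
      = S.cz (U 0) (((sg4 0 * t : ℝ) : ℂ) • S.iota (S.fx (S.ax (U 0)) V)) * V := by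
    have : sg4 0 * t = -t := by simp [sg4]
    rw [this]
    rfl
  have e1 : S.cg (U 1) t (S.cg (U 0) (-t) V)
      = S.cz (U 1) (((sg4 1 * t : ℝ) : ℂ) • S.iota (S.fx (S.ax (U 1)) V)) *
        (S.cz (U 0) (((sg4 0 * t : ℝ) : ℂ) • S.iota (S.fx (S.ax (U 0)) V)) * V) := by
    have h1 : sg4 1 * t = t := by simp [sg4]
    rw [h1, e0]
    change S.cz (U 1) ((t : ℂ) • S.iota (S.fx (S.ax (U 1)) _)) * _ = _
    rw [S.fx_mul (hc 0 1 _)]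
  have e2 : S.cg (U 2) (-t) (S.cg (U 1) t (S.cg (U 0) (-t) V))
      = S.cz (U 2) (((sg4 2 * t : ℝ) : ℂ) • S.iota (S.fx (S.ax (U 2)) V)) *
        (S.cz (U 1) (((sg4 1 * t : ℝ) : ℂ) • S.iota (S.fx (S.ax (U 1)) V)) *
        (S.cz (U 0) (((sg4 0 * t : ℝ) : ℂ) • S.iota (S.fx (S.ax (U 0)) V)) * V)) := by
    have h1 : sg4 2 * t = -t := by simp [sg4]
    rw [h1, e1]
    change S.cz (U 2) (((-t : ℝ) : ℂ) • S.iota (S.fx (S.ax (U 2)) _)) * _ = _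
    rw [S.fx_mul (hc 1 2 _), S.fx_mul (hc 0 2 _)]
  unfold cg4
  have h1 : sg4 3 * t = t := by simp [sg4]
  rw [h1, e2]
  change S.cz (U 3) ((t : ℂ) • S.iota (S.fx (S.ax (U 3)) _)) * _ = _
  rw [S.fx_mul (hc 2 3 _), S.fx_mul (hc 1 3 _), S.fx_mul (hc 0 3 _)]

/-- the product of the four conjugated Weyl gates, as an operator -/
noncomputable def c4 (U : Fin 4 → (H ≃ₗᵢ[ℂ] H)) (t : ℝ) (V : H ≃ₗᵢ[ℂ] H) : H ≃ₗᵢ[ℂ] H :=
  S.cz (U 3) (((sg4 3 * t : ℝ) : ℂ) • S.iota (S.fx (S.ax (U 3)) V)) *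
      (S.cz (U 2) (((sg4 2 * t : ℝ) : ℂ) • S.iota (S.fx (S.ax (U 2)) V)) *
      (S.cz (U 1) (((sg4 1 * t : ℝ) : ℂ) • S.iota (S.fx (S.ax (U 1)) V)) *
      (S.cz (U 0) (((sg4 0 * t : ℝ) : ℂ) • S.iota (S.fx (S.ax (U 0)) V)))))

lemma cg4_eq_c4 {D : Submodule ℝ K} {U : Fin 4 → (H ≃ₗᵢ[ℂ] H)} {P Q T : H →ₗ[ℂ] H}
    (h : S.Four D U P Q T) (t : ℝ) (V : H ≃ₗᵢ[ℂ] H)
    (hD : ∀ i, S.iota (S.fx (S.ax (U i)) V) ∈ D) : S.cg4 U t V = S.c4 U t V * V := by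
  rw [S.cg4_eq h t V hD]
  unfold c4
  simp only [mul_assoc]

/-- the field vector of an arbitrary one-site operator -/
noncomputable def fl (P : H →ₗ[ℂ] H) (V : H ≃ₗᵢ[ℂ] H) : K := S.iota (V⁻¹ (P (V S.Om)))

lemma c4_eig {D : Submodule ℝ K} {U : Fin 4 → (H ≃ₗᵢ[ℂ] H)} {P Q T : H →ₗ[ℂ] H}
    (h : S.Four D U P Q T) (t : ℝ) (V : H ≃ₗᵢ[ℂ] H)
    (hD : ∀ i, S.iota (S.fx (S.ax (U i)) V) ∈ D)
    {ε : Fin 4 → ℝ} (hε : ∀ i, ε i = 1 ∨ ε i = -1) {x : H}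
    (hx : ∀ i, S.ax (U i) x = ((ε i : ℝ) : ℂ) • x) :
    S.c4 U t V x = S.W (((t * (ε 0 - ε 1 + ε 2 - ε 3) : ℝ) : ℂ) • S.fl P V
      + ((t * (ε 0 + ε 1 + ε 2 + ε 3) : ℝ) : ℂ) • S.fl Q V
      + ((t * (ε 0 - ε 1 - ε 2 + ε 3) : ℝ) : ℂ) • S.fl T V) x := by
  have hm : ∀ i (r : ℝ), ((r : ℝ) : ℂ) • S.iota (S.fx (S.ax (U i)) V) ∈ D := by
    intro i r
    have : ((r : ℝ) : ℂ) • S.iota (S.fx (S.ax (U i)) V) = r • S.iota (S.fx (S.ax (U i)) V) :=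
      Complex.coe_smul _ _
    rw [this]
    exact D.smul_mem _ (hD i)
  have him : ∀ i j, (inner ℂ (((sg4 i * t : ℝ) : ℂ) • S.iota (S.fx (S.ax (U i)) V))
      (((sg4 j * t : ℝ) : ℂ) • S.iota (S.fx (S.ax (U j)) V)) : ℂ).im = 0 := by
    intro i j
    rw [inner_smul_left, inner_smul_right, Complex.conj_ofReal, Complex.im_ofReal_mul,
      Complex.im_ofReal_mul, LinearIsometry.inner_map_map, S.im_fx (h.comm i j)]
    simp
  have h4 := S.four_eig h.cm (v := fun i => ((sg4 i * t : ℝ) : ℂ) • S.iota (S.fx (S.ax (U i)) V))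
    (fun i => hm i (sg4 i * t)) him hε hx
  refine Eq.trans (show S.c4 U t V x = _ from rfl) (h4.trans ?_)
  refine congrArg (fun a => S.W a x) ?_
  have e0 : S.iota (S.fx (S.ax (U 0)) V) = S.fl P V + S.fl Q V + S.fl T V := by
    unfold fx fl
    rw [h.h0, map_add, map_add, map_add, map_add]
  have e1 : S.iota (S.fx (S.ax (U 1)) V) = S.fl P V - S.fl Q V + S.fl T V := by
    unfold fx fl
    rw [h.h1, map_add, map_sub, map_add, map_sub]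
  have e2 : S.iota (S.fx (S.ax (U 2)) V) = S.fl P V + S.fl Q V - S.fl T V := by
    unfold fx fl
    rw [h.h2, map_sub, map_add, map_sub, map_add]
  have e3 : S.iota (S.fx (S.ax (U 3)) V) = S.fl P V - S.fl Q V - S.fl T V := by
    unfold fx fl
    rw [h.h3, map_sub, map_sub, map_sub, map_sub]
  have s0 : sg4 0 = -1 := by simp [sg4]
  have s1 : sg4 1 = 1 := by simp [sg4]
  have s2 : sg4 2 = -1 := by simp [sg4]
  have s3 : sg4 3 = 1 := by simp [sg4]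
  simp only [e0, e1, e2, e3, s0, s1, s2, s3]
  generalize S.fl P V = a1
  generalize S.fl Q V = a2
  generalize S.fl T V = a3
  generalize ε 0 = r0
  generalize ε 1 = r1
  generalize ε 2 = r2
  generalize ε 3 = r3
  push_cast
  module

/-- **exact coupling**: on `P = ε` the four gates act as `exp(-i c ε phi(fl Q))` -/
theorem c4_P {D : Submodule ℝ K} {U : Fin 4 → (H ≃ₗᵢ[ℂ] H)} {P Q T : H →ₗ[ℂ] H}
    (h : S.Four D U P Q T) (c : ℝ) (V : H ≃ₗᵢ[ℂ] H)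
    (hD : ∀ i, S.iota (S.fx (S.ax (U i)) V) ∈ D) {ε : ℝ} (hε : ε = 1 ∨ ε = -1) {x : H}
    (hx : P x = ((ε : ℝ) : ℂ) • x) :
    S.c4 U (-(c / 4)) V x = S.W (((-(ε * c) : ℝ) : ℂ) • S.fl Q V) x := by
  have hεε : ((ε : ℝ) : ℂ) * ((ε : ℝ) : ℂ) = 1 := by rcases hε with rfl | rfl <;> norm_num
  have hx1 : x = ((ε : ℝ) : ℂ) • P x := by rw [hx, smul_smul, hεε, one_smul]
  have hQ : Q x = 0 := by rw [hx1, map_smul, h.QP, smul_zero]
  have hT : T x = 0 := by rw [hx1, map_smul, h.TP, smul_zero]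
  have h1 := S.c4_eig h (-(c / 4)) V hD (ε := fun _ => ε) (fun _ => hε) (x := x) (by
    intro i
    fin_cases i <;>
      simp only [Fin.zero_eta, Fin.mk_one, Fin.reduceFinMk, h.h0, h.h1, h.h2, h.h3, hx, hQ, hT,
        add_zero, sub_zero])
  rw [h1]
  congr 2
  push_cast
  module

/-- on `Q = ε` the four gates act as `exp(-i c ε phi(fl P))` -/
theorem c4_Q {D : Submodule ℝ K} {U : Fin 4 → (H ≃ₗᵢ[ℂ] H)} {P Q T : H →ₗ[ℂ] H}
    (h : S.Four D U P Q T) (c : ℝ) (V : H ≃ₗᵢ[ℂ] H)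
    (hD : ∀ i, S.iota (S.fx (S.ax (U i)) V) ∈ D) {ε : ℝ} (hε : ε = 1 ∨ ε = -1) {x : H}
    (hx : Q x = ((ε : ℝ) : ℂ) • x) :
    S.c4 U (-(c / 4)) V x = S.W (((-(ε * c) : ℝ) : ℂ) • S.fl P V) x := by
  have hεε : ((ε : ℝ) : ℂ) * ((ε : ℝ) : ℂ) = 1 := by rcases hε with rfl | rfl <;> norm_num
  have hε' : -ε = 1 ∨ -ε = -1 := by rcases hε with rfl | rfl <;> norm_num
  have hx1 : x = ((ε : ℝ) : ℂ) • Q x := by rw [hx, smul_smul, hεε, one_smul]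
  have hP : P x = 0 := by rw [hx1, map_smul, h.PQ, smul_zero]
  have hT : T x = 0 := by rw [hx1, map_smul, h.TQ, smul_zero]
  have h1 := S.c4_eig h (-(c / 4)) V hD (ε := ![ε, -ε, ε, -ε]) (by
    intro i
    fin_cases i <;> simp only [Fin.zero_eta, Fin.mk_one, Fin.reduceFinMk, Matrix.cons_val_zero,
      Matrix.cons_val_one, Matrix.cons_val] <;> assumption) (x := x) (by
    intro i
    fin_cases i <;>
      simp only [Fin.zero_eta, Fin.mk_one, Fin.reduceFinMk, h.h0, h.h1, h.h2, h.h3, hx, hP, hT,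
        Matrix.cons_val_zero, Matrix.cons_val_one, Matrix.cons_val, add_zero, sub_zero, zero_add,
        zero_sub, Complex.ofReal_neg, neg_smul])
  rw [h1]
  congr 2
  simp only [Matrix.cons_val_zero, Matrix.cons_val_one, Matrix.cons_val]
  push_cast
  module

/-- on `T = ε` the four gates act trivially -/
theorem c4_T {D : Submodule ℝ K} {U : Fin 4 → (H ≃ₗᵢ[ℂ] H)} {P Q T : H →ₗ[ℂ] H}
    (h : S.Four D U P Q T) (c : ℝ) (V : H ≃ₗᵢ[ℂ] H)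
    (hD : ∀ i, S.iota (S.fx (S.ax (U i)) V) ∈ D) {ε : ℝ} (hε : ε = 1 ∨ ε = -1) {x : H}
    (hx : T x = ((ε : ℝ) : ℂ) • x) : S.c4 U (-(c / 4)) V x = x := by
  have hεε : ((ε : ℝ) : ℂ) * ((ε : ℝ) : ℂ) = 1 := by rcases hε with rfl | rfl <;> norm_num
  have hε' : -ε = 1 ∨ -ε = -1 := by rcases hε with rfl | rfl <;> norm_num
  have hx1 : x = ((ε : ℝ) : ℂ) • T x := by rw [hx, smul_smul, hεε, one_smul]
  have hP : P x = 0 := by rw [hx1, map_smul, h.PT, smul_zero]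
  have hQ : Q x = 0 := by rw [hx1, map_smul, h.QT, smul_zero]
  have h1 := S.c4_eig h (-(c / 4)) V hD (ε := ![ε, ε, -ε, -ε]) (by
    intro i
    fin_cases i <;> simp only [Fin.zero_eta, Fin.mk_one, Fin.reduceFinMk, Matrix.cons_val_zero,
      Matrix.cons_val_one, Matrix.cons_val] <;> assumption) (x := x) (by
    intro i
    fin_cases i <;>
      simp only [Fin.zero_eta, Fin.mk_one, Fin.reduceFinMk, h.h0, h.h1, h.h2, h.h3, hx, hP, hQ,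
        Matrix.cons_val_zero, Matrix.cons_val_one, Matrix.cons_val, add_zero, sub_zero, zero_add,
        zero_sub, Complex.ofReal_neg, neg_smul])
  rw [h1]
  simp only [Matrix.cons_val_zero, Matrix.cons_val_one, Matrix.cons_val]
  have e : ((-(c / 4) * (ε - ε + -ε - -ε) : ℝ) : ℂ) • S.fl P V
      + ((-(c / 4) * (ε + ε + -ε + -ε) : ℝ) : ℂ) • S.fl Q V
      + ((-(c / 4) * (ε - ε - -ε + -ε) : ℝ) : ℂ) • S.fl T V = 0 := by
    push_cast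
    module
  rw [e, S.W_zero_apply]

/-- the full exact coupling formula: `exp(-i c P phi(fl Q)) exp(-i c Q phi(fl P))` -/
theorem c4_apply {D : Submodule ℝ K} {U : Fin 4 → (H ≃ₗᵢ[ℂ] H)} {P Q T : H →ₗ[ℂ] H}
    (h : S.Four D U P Q T) (c : ℝ) (V : H ≃ₗᵢ[ℂ] H)
    (hD : ∀ i, S.iota (S.fx (S.ax (U i)) V) ∈ D) (x : H) :
    S.c4 U (-(c / 4)) V x =
      S.W (((-c : ℝ) : ℂ) • S.fl Q V) ((1 / 2 : ℂ) • (P (P x) + P x))
      + S.W (((c : ℝ) : ℂ) • S.fl Q V) ((1 / 2 : ℂ) • (P (P x) - P x))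
      + (S.W (((-c : ℝ) : ℂ) • S.fl P V) ((1 / 2 : ℂ) • (Q (Q x) + Q x))
      + S.W (((c : ℝ) : ℂ) • S.fl P V) ((1 / 2 : ℂ) • (Q (Q x) - Q x)))
      + T (T x) := by
  have hx : x = (1 / 2 : ℂ) • (P (P x) + P x) + (1 / 2 : ℂ) • (P (P x) - P x)
      + ((1 / 2 : ℂ) • (Q (Q x) + Q x) + (1 / 2 : ℂ) • (Q (Q x) - Q x))
      + ((1 / 2 : ℂ) • (T (T x) + T x) + (1 / 2 : ℂ) • (T (T x) - T x)) := by
    conv_lhs => rw [← h.sum_sq x]
    module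
  have p1 := S.c4_P h c V hD (ε := 1) (Or.inl rfl) (x := (1 / 2 : ℂ) • (P (P x) + P x)) (by
    rw [map_smul, map_add, h.PPP]; simp [add_comm])
  have p2 := S.c4_P h c V hD (ε := -1) (Or.inr rfl) (x := (1 / 2 : ℂ) • (P (P x) - P x)) (by
    rw [map_smul, map_sub, h.PPP]; push_cast; module)
  have q1 := S.c4_Q h c V hD (ε := 1) (Or.inl rfl) (x := (1 / 2 : ℂ) • (Q (Q x) + Q x)) (by
    rw [map_smul, map_add, h.QQQ]; simp [add_comm])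
  have q2 := S.c4_Q h c V hD (ε := -1) (Or.inr rfl) (x := (1 / 2 : ℂ) • (Q (Q x) - Q x)) (by
    rw [map_smul, map_sub, h.QQQ]; push_cast; module)
  have t1 := S.c4_T h c V hD (ε := 1) (Or.inl rfl) (x := (1 / 2 : ℂ) • (T (T x) + T x)) (by
    rw [map_smul, map_add, h.TTT]; simp [add_comm])
  have t2 := S.c4_T h c V hD (ε := -1) (Or.inr rfl) (x := (1 / 2 : ℂ) • (T (T x) - T x)) (by
    rw [map_smul, map_sub, h.TTT]; push_cast; module)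
  conv_lhs => rw [hx]
  rw [map_add, map_add, map_add, map_add, map_add, p1, p2, q1, q2, t1, t2]
  simp only [one_mul, neg_mul, neg_neg]
  module

/-- **exact coupling gate**: the word of four `C` gates applied to `V` -/
theorem cg4_apply {D : Submodule ℝ K} {U : Fin 4 → (H ≃ₗᵢ[ℂ] H)} {P Q T : H →ₗ[ℂ] H}
    (h : S.Four D U P Q T) (c : ℝ) (V : H ≃ₗᵢ[ℂ] H)
    (hD : ∀ i, S.iota (S.fx (S.ax (U i)) V) ∈ D) (x : H) :
    S.cg4 U (-(c / 4)) V x =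
      S.W (((-c : ℝ) : ℂ) • S.fl Q V) ((1 / 2 : ℂ) • (P (P (V x)) + P (V x)))
      + S.W (((c : ℝ) : ℂ) • S.fl Q V) ((1 / 2 : ℂ) • (P (P (V x)) - P (V x)))
      + (S.W (((-c : ℝ) : ℂ) • S.fl P V) ((1 / 2 : ℂ) • (Q (Q (V x)) + Q (V x)))
      + S.W (((c : ℝ) : ℂ) • S.fl P V) ((1 / 2 : ℂ) • (Q (Q (V x)) - Q (V x))))
      + T (T (V x)) := by
  rw [S.cg4_eq_c4 h _ V hD]
  exact S.c4_apply h c V hD (V x)

end Sys

end Vale.Agent.P367.A
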