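import Vale.Agent.P367.B.BaseD
import Vale.Agent.P367.B.Coup

/-! P367, block B, BASE: calculus of label functions. -/

namespace Vale.Agent.P367.A

open Complex Filter Topology MeasureTheory

lemma Bm.cst (c : ℂ) : Bm fun _ => c := ⟨measurable_const, ‖c‖, fun _ => le_rfl⟩

lemma Bm.ad {f g : ℝ → ℂ} (hf : Bm f) (hg : Bm g) : Bm fun t => f t + g t := by
  obtain ⟨C, hC⟩ := hf.2
  obtain ⟨D, hD⟩ := hg.2
  exact ⟨hf.1.add hg.1, C + D, fun t => (norm_add_le _ _).trans (add_le_add (hC t) (hD t))⟩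

lemma Bm.ml {f g : ℝ → ℂ} (hf : Bm f) (hg : Bm g) : Bm fun t => f t * g t := by
  obtain ⟨C, hC⟩ := hf.2
  obtain ⟨D, hD⟩ := hg.2
  refine ⟨hf.1.mul hg.1, C * D, fun t => ?_⟩
  rw [norm_mul]
  exact mul_le_mul (hC t) (hD t) (norm_nonneg _) ((norm_nonneg _).trans (hC t))

lemma Bm.cj {f : ℝ → ℂ} (hf : Bm f) : Bm fun t => (starRingEnd ℂ) (f t) := by
  obtain ⟨C, hC⟩ := hf.2
  refine ⟨Complex.continuous_conj.measurable.comp hf.1, C, fun t => ?_⟩
  rw [RCLike.norm_conj]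
  exact hC t

lemma Bm.ndc {b : Set ℝ} (hb : MeasurableSet b) : Bm (b.indicator fun _ => (1 : ℂ)) := by
  refine ⟨measurable_const.indicator hb, 1, fun t => ?_⟩
  by_cases ht : t ∈ b
  · rw [Set.indicator_of_mem ht]; simp
  · rw [Set.indicator_of_notMem ht]; simp

lemma Bm.cm {f : ℝ → ℂ} (hf : Bm f) (c : ℂ) : Bm fun t => c * f t := (Bm.cst c).ml hf

/-- continuous functions of bounded functions -/
lemma Bm.comp {f : ℝ → ℂ} (hf : Bm f) {φ : ℂ → ℂ} (hφ : Continuous φ) : Bm fun t => φ (f t) := by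
  obtain ⟨C, hC⟩ := hf.2
  obtain ⟨D, hD⟩ := (isCompact_closedBall (0 : ℂ) C).exists_bound_of_continuousOn hφ.continuousOn
  exact ⟨hφ.measurable.comp hf.1, D, fun t => hD _ (by simpa using hC t)⟩

lemma Br.cst (c : ℝ) : LSys.Br fun _ => (c : ℂ) := ⟨Bm.cst _, fun _ => Complex.ofReal_im c⟩

namespace LSys

variable {H K : Type*} [NormedAddCommGroup H] [InnerProductSpace ℂ H]
  [NormedAddCommGroup K] [InnerProductSpace ℂ K] (L : LSys H K)

lemma b_mul {f g : ℝ → ℂ} (hf : Bm f) (hg : Bm g) (x : H) :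
    L.lab f (L.lab g x) = L.lab (fun t => f t * g t) x := by
  rw [L.lab_mul f g hf hg]
  rfl

lemma b_add {f g : ℝ → ℂ} (hf : Bm f) (hg : Bm g) (x : H) :
    L.lab f x + L.lab g x = L.lab (fun t => f t + g t) x := by
  rw [L.lab_add f g hf hg]
  rfl

lemma b_const (c : ℂ) (x : H) : L.lab (fun _ => c) x = c • x := by
  rw [L.lab_const]
  rfl

lemma b_smul {f : ℝ → ℂ} (hf : Bm f) (c : ℂ) (x : H) :
    L.lab (fun t => c * f t) x = c • L.lab f x := by
  rw [← L.b_mul (Bm.cst c) hf, L.b_const]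

lemma b_comm {f g : ℝ → ℂ} (hf : Bm f) (hg : Bm g) (x : H) :
    L.lab f (L.lab g x) = L.lab g (L.lab f x) := by
  rw [L.b_mul hf hg, L.b_mul hg hf]
  congr 2
  funext t
  ring

lemma b_normsq {f : ℝ → ℂ} (hf : Bm f) (x : H) : ((‖L.lab f x‖ ^ 2 : ℝ) : ℂ)
    = inner ℂ x (L.lab (fun t => (starRingEnd ℂ) (f t) * f t) x) := by
  rw [← L.b_mul hf.cj hf, ← L.lab_adj f hf, inner_self_eq_norm_sq_to_K]
  push_cast
  rfl

/-- norm bound for label functions -/
lemma b_norm {f : ℝ → ℂ} (hf : Bm f) {C : ℝ} (hC0 : 0 ≤ C) (hC : ∀ t, ‖f t‖ ≤ C) (x : H) :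
    ‖L.lab f x‖ ≤ C * ‖x‖ := by
  set h : ℝ → ℂ := fun t => ((Real.sqrt (C ^ 2 - ‖f t‖ ^ 2) : ℝ) : ℂ) with hh
  have hpos : ∀ t, 0 ≤ C ^ 2 - ‖f t‖ ^ 2 := by
    intro t
    have := hC t
    have h0 := norm_nonneg (f t)
    nlinarith
  have hm : Bm h := by
    refine ⟨?_, C, fun t => ?_⟩
    · refine Complex.measurable_ofReal.comp ?_
      refine Real.continuous_sqrt.measurable.comp ?_
      exact measurable_const.sub (hf.1.norm.pow_const 2)
    · rw [hh]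
      simp only [Complex.norm_real, Real.norm_eq_abs]
      rw [abs_of_nonneg (Real.sqrt_nonneg _)]
      refine (Real.sqrt_le_sqrt (?_ : _ ≤ C ^ 2)).trans ?_
      · have := sq_nonneg ‖f t‖; linarith
      · rw [Real.sqrt_sq hC0]
  have e1 := L.b_normsq hf x
  have e2 := L.b_normsq hm x
  have e3 : ((‖L.lab f x‖ ^ 2 : ℝ) : ℂ) + ((‖L.lab h x‖ ^ 2 : ℝ) : ℂ) = ((C ^ 2 * ‖x‖ ^ 2 : ℝ) : ℂ) := by
    rw [e1, e2, ← inner_add_right, L.b_add (hf.cj.ml hf) (hm.cj.ml hm)]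
    have e4 : (fun t => (starRingEnd ℂ) (f t) * f t + (starRingEnd ℂ) (h t) * h t)
        = fun _ => ((C ^ 2 : ℝ) : ℂ) := by
      funext t
      have e5 : (starRingEnd ℂ) (f t) * f t = ((‖f t‖ ^ 2 : ℝ) : ℂ) := by
        rw [mul_comm, Complex.mul_conj, Complex.normSq_eq_norm_sq]
      have e6 : (starRingEnd ℂ) (h t) * h t = ((C ^ 2 - ‖f t‖ ^ 2 : ℝ) : ℂ) := by
        rw [hh]
        simp only [Complex.conj_ofReal]
        rw [← Complex.ofReal_mul, Real.mul_self_sqrt (hpos t)]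
      rw [e5, e6, ← Complex.ofReal_add]
      congr 1
      ring
    rw [e4, L.b_const, inner_smul_right, inner_self_eq_norm_sq_to_K]
    push_cast
    rfl
  have e7 : ‖L.lab f x‖ ^ 2 + ‖L.lab h x‖ ^ 2 = C ^ 2 * ‖x‖ ^ 2 := by exact_mod_cast e3
  have e8 : ‖L.lab f x‖ ^ 2 ≤ (C * ‖x‖) ^ 2 := by
    rw [mul_pow]
    nlinarith [sq_nonneg ‖L.lab h x‖]
  exact (pow_le_pow_iff_left₀ (norm_nonneg _) (by positivity) (by norm_num)).1 e8

lemma b_opnorm {f : ℝ → ℂ} (hf : Bm f) {C : ℝ} (hC0 : 0 ≤ C) (hC : ∀ t, ‖f t‖ ≤ C) :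
    ‖L.lab f‖ ≤ C := ContinuousLinearMap.opNorm_le_bound _ hC0 (L.b_norm hf hC0 hC)

lemma exp_tail (C : ℝ) (n : ℕ) {z : ℂ} (hz : ‖z‖ ≤ C) :
    ‖Complex.exp z - ∑ m ∈ Finset.range n, z ^ m / (m.factorial : ℂ)‖
      ≤ Real.exp C - ∑ m ∈ Finset.range n, C ^ m / (m.factorial : ℝ) := by
  refine (Complex.norm_exp_sub_sum_le_exp_norm_sub_sum z n).trans ?_
  have h1 : ∀ r : ℝ, HasSum (fun m : ℕ => r ^ (m + n) / ((m + n).factorial : ℝ))
      (Real.exp r - ∑ m ∈ Finset.range n, r ^ m / (m.factorial : ℝ)) := by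
    intro r
    have h2 : HasSum (fun m : ℕ => r ^ m / (m.factorial : ℝ)) (Real.exp r) := by
      rw [Real.exp_eq_exp_ℝ]
      exact NormedSpace.expSeries_div_hasSum_exp r
    exact (hasSum_nat_add_iff' n).2 h2
  exact hasSum_le (fun m => by gcongr) (h1 ‖z‖) (h1 C)

lemma tail_tendsto (C : ℝ) : Tendsto (fun n : ℕ => Real.exp C
    - ∑ m ∈ Finset.range n, C ^ m / (m.factorial : ℝ)) atTop (𝓝 0) := by
  have h2 : HasSum (fun m : ℕ => C ^ m / (m.factorial : ℝ)) (Real.exp C) := by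
    rw [Real.exp_eq_exp_ℝ]
    exact NormedSpace.expSeries_div_hasSum_exp C
  have h3 := (tendsto_const_nhds (x := Real.exp C)).sub h2.tendsto_sum_nat
  simpa using h3

lemma b_pow {f : ℝ → ℂ} (hf : Bm f) (n : ℕ) : Bm (fun t => f t ^ n) ∧
    (L.lab f) ^ n = L.lab (fun t => f t ^ n) := by
  induction n with
  | zero =>
    refine ⟨by simpa using Bm.cst 1, ?_⟩
    simp only [pow_zero]
    rw [L.lab_const, one_smul]
  | succ n ih =>
    simp only [pow_succ]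
    exact ⟨ih.1.ml hf, by rw [ih.2, ← L.lab_mul _ _ ih.1 hf]⟩

lemma b_sum {ι : Type*} (s : Finset ι) (f : ι → ℝ → ℂ) (hf : ∀ i ∈ s, Bm (f i)) :
    Bm (fun t => ∑ i ∈ s, f i t) ∧ ∑ i ∈ s, L.lab (f i) = L.lab (fun t => ∑ i ∈ s, f i t) := by
  classical
  induction s using Finset.induction_on with
  | empty =>
    simp only [Finset.sum_empty]
    exact ⟨Bm.cst 0, by rw [L.lab_const, zero_smul]⟩
  | insert i s hi ih =>
    have h1 := ih fun j hj => hf j (Finset.mem_insert_of_mem hj)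
    have h2 := hf i (Finset.mem_insert_self i s)
    simp only [Finset.sum_insert hi]
    exact ⟨h2.ad h1.1, by rw [h1.2, ← L.lab_add _ _ h2 h1.1]⟩

lemma b_csmul {f : ℝ → ℂ} (hf : Bm f) (c : ℂ) : c • L.lab f = L.lab (fun t => c * f t) := by
  ext x
  rw [L.b_smul hf]
  rfl

/-- the exponential series of a label function -/
lemma b_exp {f : ℝ → ℂ} (hf : Bm f) : HasSum (fun n : ℕ => ((n.factorial : ℂ)⁻¹) • (L.lab f) ^ n)
    (L.lab (fun t => Complex.exp (f t))) := by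
  obtain ⟨C0, hC0⟩ := hf.2
  set C : ℝ := |C0| with hCdef
  have hC : ∀ t, ‖f t‖ ≤ C := fun t => (hC0 t).trans (le_abs_self _)
  have hCn : 0 ≤ C := abs_nonneg _
  have hexp : Bm (fun t => Complex.exp (f t)) := hf.comp Complex.continuous_exp
  have hterm : ∀ n : ℕ, ((n.factorial : ℂ)⁻¹) • (L.lab f) ^ n
      = L.lab (fun t => (n.factorial : ℂ)⁻¹ * f t ^ n) := by
    intro n
    rw [(L.b_pow hf n).2, L.b_csmul (L.b_pow hf n).1]
  have hbm : ∀ n : ℕ, Bm (fun t => (n.factorial : ℂ)⁻¹ * f t ^ n) := fun n => (L.b_pow hf n).1.cm _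
  have hsummable : Summable fun n : ℕ => ‖((n.factorial : ℂ)⁻¹) • (L.lab f) ^ n‖ := by
    have h1 : Summable fun n : ℕ => C ^ n / (n.factorial : ℝ) := Real.summable_pow_div_factorial C
    refine Summable.of_nonneg_of_le (fun n => norm_nonneg _) (fun n => ?_) h1
    rw [hterm n]
    refine L.b_opnorm (hbm n) (by positivity) fun t => ?_
    rw [norm_mul, norm_inv, norm_pow, Complex.norm_natCast, div_eq_inv_mul]
    have := hC t
    gcongr
  rw [hasSum_iff_tendsto_nat_of_summable_norm hsummable, tendsto_iff_norm_sub_tendsto_zero]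
  refine squeeze_zero (fun n => norm_nonneg _) (fun n => ?_) (tail_tendsto C)
  have h2 : ∑ m ∈ Finset.range n, ((m.factorial : ℂ)⁻¹) • (L.lab f) ^ m
      = L.lab (fun t => ∑ m ∈ Finset.range n, (m.factorial : ℂ)⁻¹ * f t ^ m) := by
    rw [Finset.sum_congr rfl fun m _ => hterm m]
    exact (L.b_sum _ _ fun m _ => hbm m).2
  have hsum := (L.b_sum (Finset.range n) (fun m t => (m.factorial : ℂ)⁻¹ * f t ^ m)
    fun m _ => hbm m).1
  have h3 : L.lab (fun t => ∑ m ∈ Finset.range n, (m.factorial : ℂ)⁻¹ * f t ^ m)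
      - L.lab (fun t => Complex.exp (f t))
      = L.lab (fun t => (∑ m ∈ Finset.range n, (m.factorial : ℂ)⁻¹ * f t ^ m)
        + (-1) * Complex.exp (f t)) := by
    rw [L.lab_add _ _ hsum (hexp.cm (-1)), ← L.b_csmul hexp, neg_smul, one_smul, sub_eq_add_neg]
  rw [h2, h3]
  have h0 : 0 ≤ Real.exp C - ∑ m ∈ Finset.range n, C ^ m / (m.factorial : ℝ) :=
    (norm_nonneg _).trans (exp_tail C n (z := 0) (by simpa using hCn))
  refine L.b_opnorm (hsum.ad (hexp.cm (-1))) h0 fun t => ?_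
  have h4 := exp_tail C n (hC t)
  rw [← norm_neg] at h4
  refine le_trans (le_of_eq ?_) h4
  congr 1
  have : ∑ m ∈ Finset.range n, (m.factorial : ℂ)⁻¹ * f t ^ m
      = ∑ m ∈ Finset.range n, f t ^ m / (m.factorial : ℂ) :=
    Finset.sum_congr rfl fun m _ => by rw [div_eq_inv_mul]
  rw [this]
  ring

lemma b_exp_eq {f : ℝ → ℂ} (hf : Bm f) : NormedSpace.exp (L.lab f)
    = L.lab (fun t => Complex.exp (f t)) := by
  rw [NormedSpace.exp_eq_tsum ℂ]
  exact (L.b_exp hf).tsum_eq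

end LSys

end Vale.Agent.P367.A
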