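import Vale.Agent.P367.B.LSys
import Vale.Agent.P367.NI.EnJ

/-! P367, block B: functional calculus, base and exit statements, tower and final statements for
label systems. -/

namespace Vale.Agent.P367.A

open Complex Filter Topology MeasureTheory ProbabilityTheory

namespace LSys

variable {H K : Type*} [NormedAddCommGroup H] [InnerProductSpace ℂ H]
  [NormedAddCommGroup K] [InnerProductSpace ℂ K] (L : LSys H K)

/-- the base control algebra: label functions -/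
def alg0 : Set (H →L[ℂ] H) := {a | ∃ f, Bm f ∧ a = L.lab f}

/-- law of (label, `n` standard Gaussians) -/
noncomputable def law (n : ℕ) : Measure (ℝ × (Fin n → ℝ)) :=
  L.mu.prod (Measure.pi fun _ => gaussianReal 0 1)

/-- bounded measurable -/
def Bmn {n : ℕ} (f : ℝ × (Fin n → ℝ) → ℂ) : Prop := Measurable f ∧ ∃ C : ℝ, ∀ x, ‖f x‖ ≤ C

/-- functional calculus of the labels and of the commuting fields `phi(y_i)` -/
structure FCal {n : ℕ} (y : Fin n → K) (fc : (ℝ × (Fin n → ℝ) → ℂ) → (H →L[ℂ] H)) : Prop where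
  lab : ∀ f, Bm f → fc (fun z => f z.1) = L.lab f
  W : ∀ k : Fin n → ℝ, ∀ x, fc (fun z => Complex.exp (Complex.I * ((∑ i, k i * z.2 i : ℝ) : ℂ))) x
    = L.W (∑ i, (k i : ℂ) • y i) x
  add : ∀ f g, Bmn f → Bmn g → fc (fun z => f z + g z) = fc f + fc g
  mul : ∀ f g, Bmn f → Bmn g → fc (fun z => f z * g z) = fc f * fc g
  adj : ∀ f, Bmn f → ∀ x x', inner ℂ (fc f x) x'
    = inner ℂ x (fc (fun z => (starRingEnd ℂ) (f z)) x')
  norm : ∀ f, Bmn f → ∀ C : ℝ, (∀ z, ‖f z‖ ≤ C) → ∀ x, ‖fc f x‖ ≤ C * ‖x‖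
  comm : ∀ f, Bmn f → ∀ B : H →L[ℂ] H, (∀ g, Bm g → L.lab g * B = B * L.lab g) →
    (∀ k : Fin n → ℝ, ∀ x, L.W (∑ i, (k i : ℂ) • y i) (B x) = B (L.W (∑ i, (k i : ℂ) • y i) x)) →
    fc f * B = B * fc f
  vac : ∀ f, Bmn f → inner ℂ L.Om (fc f L.Om) = ∫ z, f z ∂(L.law n)
  lim : ∀ (f : ℕ → ℝ × (Fin n → ℝ) → ℂ) (f0 : ℝ × (Fin n → ℝ) → ℂ) (C : ℝ), (∀ m, Bmn (f m)) →
    Bmn f0 → (∀ m z, ‖f m z‖ ≤ C) → (∀ᵐ z ∂(L.law n), Tendsto (fun m => f m z) atTop (𝓝 (f0 z))) →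
    ∀ x, Tendsto (fun m => fc (f m) x) atTop (𝓝 (fc f0 x))

/-- `J u` = creation operator on the vacuum, as a derivative -/
def IsJ (J : K → H) : Prop :=
  ∀ u, Tendsto (fun t : ℝ => ((t : ℂ)⁻¹) • (L.W (-((Complex.I * (t : ℂ)) • u)) L.Om - L.Om))
    (𝓝[≠] 0) (𝓝 (J u))

/-- the energy functional -/
noncomputable def En (J : K → H) (x : H) : ℝ := (inner ℂ x (J (L.iota x)) : ℂ).re

/-- `L` (with creation map `J`) is a gauge fixed form of the Weyl system `S`: functional calculus,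
level 0 reachability predicates, and the exit to labelled words of `S`. -/
structure IsBase {F K0 : Type} [NormedAddCommGroup F] [InnerProductSpace ℂ F]
    [NormedAddCommGroup K0] [InnerProductSpace ℂ K0] (S : NI.Weyl F K0) (J : K → H) : Prop where
  isJ : L.IsJ J
  fcal : ∀ (n : ℕ) (y : Fin n → K), Orthonormal ℂ y → ∃ fc, L.FCal y fc
  reach : ∀ G : Set ℝ, MeasurableSet G → ∃ Rch : Set ℝ → Set ℝ → (H ≃ₗᵢ[ℂ] H) → Prop,
    L.Closed G L.alg0 Rch ∧ Rch G Gᶜ 1 ∧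
    ∀ M R V, Rch M R V → ∀ x : H, ‖x‖ ≤ 1 → L.E M x = x → ∀ ε > 0, ∃ w : List NI.Gate,
      L.En J x - 2 * (‖L.E M (L.xv V) - x‖ + Real.sqrt (L.mu.real Mᶜ) + ε) ≤ S.energy w

/-- BASE: for some Weyl system (cyclic, on complete spaces) there is a gauge fixed label system. -/
def BaseStmt : Prop :=
  ∃ (S : NI.Weyl NI.FN NI.L2N) (K' : Type) (_ : NormedAddCommGroup K')
    (_ : InnerProductSpace ℂ K') (L : LSys (NI.HH NI.FN) K') (J : K' → NI.HH NI.FN),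
    L.IsBase S J

/-- iterated control algebras: level `k` algebra for the field vectors `y 0, y 1, ...` -/
def alg (y : ℕ → K) : ℕ → Set (H →L[ℂ] H)
  | 0 => L.alg0
  | k + 1 => L.nxt (alg y k) (y k)

/-- TOWER: `psi k` = finite combination of sign-valued controls of level `k`,
`y k = iota (psi k Om)`; `Th` a control of level `n` on `G`. -/
def TowerStmt : Prop :=
  ∀ (G : Set ℝ) (Rch : Set ℝ → Set ℝ → (H ≃ₗᵢ[ℂ] H) → Prop), MeasurableSet G →
    L.mu Gᶜ ≠ 0 → L.Closed G L.alg0 Rch → Rch G Gᶜ 1 →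
    ∀ (n : ℕ) (m : ℕ → ℕ) (sg : (k : ℕ) → Fin (m k) → (H →L[ℂ] H)) (c : (k : ℕ) → Fin (m k) → ℝ)
      (y : ℕ → K), (∀ k < n, y k = L.iota ((∑ i, (c k i : ℂ) • sg k i) L.Om)) →
    (∀ k < n, ∀ i, L.Sgn G (L.alg y k) (sg k i)) →
    ∀ (Th : H →L[ℂ] H), Th ∈ L.alg y n → Sa Th → Th * L.E G = Th →
    ∀ U, L.IsRot Th 1 U → ∀ ε > 0, ∃ R V, Rch G R V ∧ ‖L.E G (L.xv V) - L.E G (L.xv U)‖ < ε

end LSys

end Vale.Agent.P367.A
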