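import Vale.Agent.P367.B.Base1
import Vale.Agent.P367.B.LBase

/-! P367, block B, BASE: label rotations, strong continuity. -/

namespace Vale.Agent.P367.A

open Complex Filter Topology MeasureTheory

namespace LSys

variable {H K : Type*} [NormedAddCommGroup H] [InnerProductSpace ℂ H]
  [NormedAddCommGroup K] [InnerProductSpace ℂ K] (L : LSys H K)

/-! ### Pauli operators and label projections -/

lemma b_PP (P : Fin 3) (x : H) : L.pau P (L.pau P x) = x := by
  fin_cases P
  · exact L.XX x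
  · exact L.Zt_sq _ x
  · exact L.ZZ x

lemma b_WP (P : Fin 3) (a : K) (x : H) : L.W a (L.pau P x) = L.pau P (L.W a x) := by
  fin_cases P
  · exact L.WX a x
  · exact L.W_ZtA a _ x
  · exact L.WZ a x

lemma b_innerP (P : Fin 3) (x y : H) :
    inner ℂ (L.pau P x) y = (inner ℂ x (L.pau P y) : ℂ) := by
  have h := (L.pau P).inner_map_map x (L.pau P y)
  rwa [L.b_PP] at h

lemma b_labP (f : ℝ → ℂ) (P : Fin 3) (x : H) : L.lab f (L.pau P x) = L.pau P (L.lab f x) := by
  have hxr : ∀ t x, L.lab f (L.xr t x) = L.xr t (L.lab f x) := by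
    intro t x
    rw [L.xr_apply, L.xr_apply, map_sub, map_smul, map_smul, L.lab_X]
  fin_cases P
  · exact L.lab_X f x
  · change L.lab f (L.Zt _ x) = L.Zt _ (L.lab f x)
    rw [L.Zt_apply, L.Zt_apply, hxr, L.lab_Z]
  · exact L.lab_Z f x

lemma b_EP (b : Set ℝ) (P : Fin 3) (x : H) : L.E b (L.pau P x) = L.pau P (L.E b x) :=
  L.b_labP _ P x

lemma b_EW (b : Set ℝ) (a : K) (x : H) : L.E b (L.W a x) = L.W a (L.E b x) := L.lab_W _ a x

lemma b_EE {a b : Set ℝ} (ha : MeasurableSet a) (hb : MeasurableSet b) (x : H) :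
    L.E a (L.E b x) = L.E (a ∩ b) x := by
  unfold E
  rw [L.b_mul (Bm.ndc ha) (Bm.ndc hb)]
  congr 2
  funext t
  by_cases hta : t ∈ a <;> by_cases htb : t ∈ b <;> simp [hta, htb]

lemma b_Eempty (x : H) : L.E ∅ x = 0 := by
  unfold E
  rw [Set.indicator_empty, L.b_const, zero_smul]

lemma b_Edis {a b : Set ℝ} (ha : MeasurableSet a) (hb : MeasurableSet b) (h : Disjoint a b)
    (x : H) : L.E a (L.E b x) = 0 := by
  rw [L.b_EE ha hb, h.inter_eq, L.b_Eempty]

lemma b_Esub {a b : Set ℝ} (ha : MeasurableSet a) (hb : MeasurableSet b) (h : a ⊆ b)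
    (x : H) : L.E a (L.E b x) = L.E a x := by
  rw [L.b_EE ha hb, Set.inter_eq_left.2 h]

lemma b_Esub' {a b : Set ℝ} (ha : MeasurableSet a) (hb : MeasurableSet b) (h : a ⊆ b)
    (x : H) : L.E b (L.E a x) = L.E a x := by
  rw [L.b_EE hb ha, Set.inter_eq_right.2 h]

lemma b_Eidem {a : Set ℝ} (ha : MeasurableSet a) (x : H) : L.E a (L.E a x) = L.E a x :=
  L.b_Esub ha ha subset_rfl x

lemma b_Esa {b : Set ℝ} (hb : MeasurableSet b) (x y : H) :
    inner ℂ (L.E b x) y = (inner ℂ x (L.E b y) : ℂ) := by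
  have h := L.lab_adj _ (Bm.ndc hb) x y
  have h2 : (fun t => (starRingEnd ℂ) (b.indicator (fun _ => (1 : ℂ)) t))
      = b.indicator fun _ => 1 := by
    funext t
    by_cases ht : t ∈ b <;> simp [ht]
  rw [h2] at h
  exact h

lemma b_Enorm {b : Set ℝ} (hb : MeasurableSet b) (x : H) : ‖L.E b x‖ ≤ ‖x‖ := by
  have h := L.b_norm (Bm.ndc hb) (C := 1) zero_le_one (fun t => by
    by_cases ht : t ∈ b <;> simp [ht]) x
  rwa [one_mul] at h

lemma b_Eunion {a b : Set ℝ} (ha : MeasurableSet a) (hb : MeasurableSet b) (h : Disjoint a b)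
    (x : H) : L.E (a ∪ b) x = L.E a x + L.E b x := by
  unfold E
  rw [L.b_add (Bm.ndc ha) (Bm.ndc hb)]
  congr 2
  funext t
  by_cases hta : t ∈ a
  · have htb : t ∉ b := fun htb => (Set.disjoint_left.1 h) hta htb
    simp [hta, htb]
  · by_cases htb : t ∈ b <;> simp [hta, htb]

lemma b_sub {f g : ℝ → ℂ} (hf : Bm f) (hg : Bm g) (x : H) :
    L.lab f x - L.lab g x = L.lab (fun t => f t - g t) x := by
  have h : (fun t => f t - g t) = fun t => f t + (-1) * g t := by funext t; ring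
  rw [h, ← L.b_add hf (hg.cm (-1)), L.b_smul hg]
  module

/-! ### label rotations -/

/-- Pauli operators as bounded operators -/
noncomputable def b_pc (P : Fin 3) : H →L[ℂ] H :=
  (L.pau P).toContinuousLinearEquiv.toContinuousLinearMap

/-- `exp(-i lab f P)` -/
noncomputable def lr (f : ℝ → ℂ) (P : Fin 3) : H →L[ℂ] H :=
  L.lab (fun t => Complex.cos (f t)) - Complex.I • (L.lab (fun t => Complex.sin (f t)) * L.b_pc P)

lemma lr_apply (f : ℝ → ℂ) (P : Fin 3) (x : H) : L.lr f P x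
    = L.lab (fun t => Complex.cos (f t)) x
      - Complex.I • L.lab (fun t => Complex.sin (f t)) (L.pau P x) := rfl

lemma b_rot {f : ℝ → ℂ} (hf : Bm f) (P : Fin 3) :
    NormedSpace.exp ((-Complex.I) • (L.lab f * L.b_pc P)) = L.lr f P := by
  set Pp : H →L[ℂ] H := (1 / 2 : ℂ) • (1 + L.b_pc P) with hPp
  set Pm : H →L[ℂ] H := (1 / 2 : ℂ) • (1 - L.b_pc P) with hPm
  have hpp : ∀ x, Pp x = (1 / 2 : ℂ) • (x + L.pau P x) := fun x => rfl
  have hpm : ∀ x, Pm x = (1 / 2 : ℂ) • (x - L.pau P x) := fun x => rfl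
  have c1 : Pp * ((-Complex.I) • (L.lab f * L.b_pc P)) = ((-Complex.I) • L.lab f) * Pp := by
    ext x
    change Pp ((-Complex.I) • (L.lab f (L.pau P x))) = (-Complex.I) • L.lab f (Pp x)
    rw [hpp, hpp]
    simp only [map_smul, map_add, L.b_labP, L.b_PP]
    module
  have c2 : Pm * ((-Complex.I) • (L.lab f * L.b_pc P)) = (Complex.I • L.lab f) * Pm := by
    ext x
    change Pm ((-Complex.I) • (L.lab f (L.pau P x))) = Complex.I • L.lab f (Pm x)
    rw [hpm, hpm]
    simp only [map_smul, map_sub, L.b_labP, L.b_PP]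
    module
  have key : ∀ n : ℕ, ((-Complex.I) • (L.lab f * L.b_pc P)) ^ n
      = ((-Complex.I) • L.lab f) ^ n * Pp + (Complex.I • L.lab f) ^ n * Pm := by
    intro n
    induction n with
    | zero =>
      simp only [pow_zero, one_mul]
      rw [hPp, hPm]
      module
    | succ n ih =>
      rw [pow_succ, ih, add_mul, mul_assoc, mul_assoc, c1, c2, ← mul_assoc, ← mul_assoc,
        ← pow_succ, ← pow_succ]
  have e1 := (L.b_exp (hf.cm (-Complex.I))).mul_right Pp
  have e2 := (L.b_exp (hf.cm Complex.I)).mul_right Pm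
  rw [← L.b_csmul hf] at e1 e2
  have e3 := e1.add e2
  have e4 : (fun n : ℕ => ((n.factorial : ℂ)⁻¹ • ((-Complex.I) • L.lab f) ^ n) * Pp
      + ((n.factorial : ℂ)⁻¹ • (Complex.I • L.lab f) ^ n) * Pm)
      = fun n : ℕ => (n.factorial : ℂ)⁻¹ • ((-Complex.I) • (L.lab f * L.b_pc P)) ^ n := by
    funext n
    rw [key, smul_add, smul_mul_assoc, smul_mul_assoc]
  rw [e4] at e3
  rw [NormedSpace.exp_eq_tsum ℂ]
  change (∑' n : ℕ, (n.factorial : ℂ)⁻¹ • ((-Complex.I) • (L.lab f * L.b_pc P)) ^ n) = L.lr f P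
  rw [e3.tsum_eq]
  ext x
  change L.lab (fun t => Complex.exp (-Complex.I * f t)) (Pp x)
    + L.lab (fun t => Complex.exp (Complex.I * f t)) (Pm x) = _
  have hm1 : Bm fun t => Complex.exp (-Complex.I * f t) :=
    (hf.cm (-Complex.I)).comp Complex.continuous_exp
  have hm2 : Bm fun t => Complex.exp (Complex.I * f t) :=
    (hf.cm Complex.I).comp Complex.continuous_exp
  have hc : (fun t => Complex.cos (f t)) = fun t => (1 / 2 : ℂ) * (Complex.exp (-Complex.I * f t)
      + Complex.exp (Complex.I * f t)) := by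
    funext t
    rw [Complex.cos, add_comm (Complex.exp (-Complex.I * f t))]
    rw [show -Complex.I * f t = -(f t) * Complex.I by ring, mul_comm Complex.I]
    ring
  have hs : (fun t => Complex.sin (f t)) = fun t => (Complex.I / 2 : ℂ) *
      (Complex.exp (-Complex.I * f t) - Complex.exp (Complex.I * f t)) := by
    funext t
    rw [Complex.sin]
    rw [show -Complex.I * f t = -(f t) * Complex.I by ring, mul_comm Complex.I (f t)]
    ring
  have hms : Bm fun t => Complex.exp (-Complex.I * f t) - Complex.exp (Complex.I * f t) := by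
    have h : (fun t => Complex.exp (-Complex.I * f t) - Complex.exp (Complex.I * f t))
        = fun t => Complex.exp (-Complex.I * f t) + (-1) * Complex.exp (Complex.I * f t) := by
      funext t; ring
    rw [h]
    exact hm1.ad (hm2.cm (-1))
  rw [lr_apply, hc, hs, L.b_smul (hm1.ad hm2), L.b_smul hms, ← L.b_add hm1 hm2,
    ← L.b_sub hm1 hm2, hpp, hpm]
  simp only [map_smul, map_add, map_sub, L.b_labP]
  generalize (L.lab fun t => Complex.exp (-Complex.I * f t)) x = u
  generalize (L.lab fun t => Complex.exp (Complex.I * f t)) x = v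
  have hI : Complex.I * (Complex.I / 2) = -(1 / 2) := by
    rw [← mul_div_assoc, Complex.I_mul_I]; norm_num
  rw [smul_smul, hI]
  module

lemma b_isRot {f : ℝ → ℂ} (hf : Bm f) (P : Fin 3) (U : H ≃ₗᵢ[ℂ] H) :
    L.IsRot (L.lab f) P U ↔ ∀ x, U x = L.lr f P x := by
  have h := L.b_rot hf P
  unfold b_pc at h
  unfold IsRot
  rw [h]

lemma b_isPh {f : ℝ → ℂ} (hf : Bm f) (U : H ≃ₗᵢ[ℂ] H) :
    IsPh (L.lab f) U ↔ ∀ x, U x = L.phl f x := by
  unfold IsPh phl
  rw [L.b_csmul hf, L.b_exp_eq (hf.cm _)]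
  simp only [neg_mul]

lemma lr_lr {f g : ℝ → ℂ} (hf : Bm f) (hg : Bm g) (P : Fin 3) (x : H) :
    L.lr f P (L.lr g P x) = L.lr (fun t => f t + g t) P x := by
  have cf : Bm fun t => Complex.cos (f t) := hf.comp Complex.continuous_cos
  have cg : Bm fun t => Complex.cos (g t) := hg.comp Complex.continuous_cos
  have sf : Bm fun t => Complex.sin (f t) := hf.comp Complex.continuous_sin
  have sg : Bm fun t => Complex.sin (g t) := hg.comp Complex.continuous_sin
  have hm1 : Bm fun t => Complex.cos (f t) * Complex.cos (g t) := cf.ml cg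
  have hm2 : Bm fun t => Complex.sin (f t) * Complex.sin (g t) := sf.ml sg
  have hm3 : Bm fun t => Complex.sin (f t) * Complex.cos (g t) := sf.ml cg
  have hm4 : Bm fun t => Complex.cos (f t) * Complex.sin (g t) := cf.ml sg
  simp only [lr_apply, Complex.cos_add, Complex.sin_add]
  rw [← L.b_sub hm1 hm2, ← L.b_add hm3 hm4]
  simp only [map_sub, map_smul, ← L.b_labP, L.b_PP, L.b_mul cf cg, L.b_mul sf sg, L.b_mul sf cg,
    L.b_mul cf sg]
  have hI : Complex.I * Complex.I = -1 := Complex.I_mul_I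
  simp only [smul_sub, smul_add, smul_smul, hI]
  module

lemma lr_zero (P : Fin 3) (x : H) : L.lr (fun _ => 0) P x = x := by
  simp only [lr_apply, Complex.cos_zero, Complex.sin_zero, L.b_const]
  module

lemma Br.ng {f : ℝ → ℂ} (hf : Br f) : Br fun t => -f t := by
  refine ⟨?_, fun t => by rw [Complex.neg_im, hf.2 t, neg_zero]⟩
  have h : (fun t => -f t) = fun t => (-1) * f t := by funext t; ring
  rw [h]
  exact hf.1.cm (-1)

lemma Br.ad {f g : ℝ → ℂ} (hf : Br f) (hg : Br g) : Br fun t => f t + g t :=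
  ⟨hf.1.ad hg.1, fun t => by rw [Complex.add_im, hf.2, hg.2, add_zero]⟩

lemma lr_neg_lr {f : ℝ → ℂ} (hf : Br f) (P : Fin 3) (x : H) :
    L.lr (fun t => -f t) P (L.lr f P x) = x := by
  rw [L.lr_lr hf.ng.1 hf.1]
  simp only [neg_add_cancel]
  exact L.lr_zero P x

lemma lr_lr_neg {f : ℝ → ℂ} (hf : Br f) (P : Fin 3) (x : H) :
    L.lr f P (L.lr (fun t => -f t) P x) = x := by
  rw [L.lr_lr hf.1 hf.ng.1]
  simp only [add_neg_cancel]
  exact L.lr_zero P x

lemma inner_lr {f : ℝ → ℂ} (hf : Br f) (P : Fin 3) (x y : H) :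
    inner ℂ (L.lr f P x) y = (inner ℂ x (L.lr (fun t => -f t) P y) : ℂ) := by
  have hc : ∀ t, (starRingEnd ℂ) (f t) = f t := fun t => Complex.conj_eq_iff_im.2 (hf.2 t)
  have cf : Bm fun t => Complex.cos (f t) := hf.1.comp Complex.continuous_cos
  have sf : Bm fun t => Complex.sin (f t) := hf.1.comp Complex.continuous_sin
  have e1 : (fun t => (starRingEnd ℂ) (Complex.cos (f t))) = fun t => Complex.cos (f t) := by
    funext t; rw [← Complex.cos_conj, hc]
  have e2 : (fun t => (starRingEnd ℂ) (Complex.sin (f t))) = fun t => Complex.sin (f t) := by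
    funext t; rw [← Complex.sin_conj, hc]
  simp only [lr_apply, Complex.cos_neg, Complex.sin_neg]
  rw [inner_sub_left, inner_sub_right, inner_smul_left, inner_smul_right, L.lab_adj _ cf,
    L.lab_adj _ sf, e1, e2, L.b_innerP, ← L.b_labP]
  have e3 : (fun t => -Complex.sin (f t)) = fun t => (-1) * Complex.sin (f t) := by
    funext t; ring
  rw [e3, L.b_smul sf, inner_smul_right, Complex.conj_I]
  ring

/-- `exp(-i lab f P)` as a unitary -/
noncomputable def lru (f : ℝ → ℂ) (hf : Br f) (P : Fin 3) : H ≃ₗᵢ[ℂ] H :=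
  mkU (L.lr f P).toLinearMap (L.lr (fun t => -f t) P).toLinearMap (fun x => L.lr_neg_lr hf P x)
    (fun x => L.lr_lr_neg hf P x) (fun x y => L.inner_lr hf P x y)

lemma lru_apply (f : ℝ → ℂ) (hf : Br f) (P : Fin 3) (x : H) :
    L.lru f hf P x = L.lr f P x := rfl

lemma lru_inv (f : ℝ → ℂ) (hf : Br f) (P : Fin 3) : (L.lru f hf P)⁻¹ = L.lru _ hf.ng P := by
  ext x
  exact Sys.inv_apply_eq (L.lr_lr_neg hf P x)

lemma lru_isRot (f : ℝ → ℂ) (hf : Br f) (P : Fin 3) : L.IsRot (L.lab f) P (L.lru f hf P) :=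
  (L.b_isRot hf.1 P _).2 fun _ => rfl

lemma b_lr_lab {f g : ℝ → ℂ} (hf : Bm f) (hg : Bm g) (P : Fin 3) (x : H) :
    L.lab g (L.lr f P x) = L.lr f P (L.lab g x) := by
  have cf : Bm fun t => Complex.cos (f t) := hf.comp Complex.continuous_cos
  have sf : Bm fun t => Complex.sin (f t) := hf.comp Complex.continuous_sin
  rw [lr_apply, lr_apply, map_sub, map_smul, L.b_comm hg cf, L.b_comm hg sf, L.b_labP]

lemma b_lr_W {f : ℝ → ℂ} (P : Fin 3) (a : K) (x : H) :
    L.W a (L.lr f P x) = L.lr f P (L.W a x) := by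
  rw [lr_apply, lr_apply, map_sub, map_smul, ← L.lab_W, ← L.lab_W, L.b_WP]

/-- words are closed under label rotations -/
lemma Wd.rot {V : H ≃ₗᵢ[ℂ] H} (hV : L.Wd V) {f : ℝ → ℂ} (hf : Br f) (P : Fin 3) :
    L.Wd (L.lru f hf P * V) := Wd.L f P _ V hV hf (L.lru_isRot f hf P)

/-! ### strong continuity -/

lemma b_WOm {α : Type*} {l : Filter α} {a : α → K} {a0 : K} (ha : Tendsto a l (𝓝 a0)) :
    Tendsto (fun i => L.W (a i) L.Om) l (𝓝 (L.W a0 L.Om)) := by
  rw [tendsto_iff_norm_sub_tendsto_zero]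
  have hin : ∀ c : K, (inner ℂ (L.W c L.Om) (L.W a0 L.Om) : ℂ)
      = Complex.exp (Complex.I * ((inner ℂ c a0).im : ℂ)) *
        Complex.exp (-((‖a0 - c‖ ^ 2 / 2 : ℝ) : ℂ)) := by
    intro c
    rw [L.inner_W, L.WW, inner_smul_right, L.vac, inner_neg_left, Complex.neg_im,
      neg_add_eq_sub]
    congr 2
    push_cast
    ring
  have h : ∀ c : K, ‖L.W c L.Om - L.W a0 L.Om‖ = Real.sqrt (2 - 2 * (Complex.exp (Complex.I *
      ((inner ℂ c a0).im : ℂ)) * Complex.exp (-((‖a0 - c‖ ^ 2 / 2 : ℝ) : ℂ))).re) := by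
    intro c
    have h1 := @norm_sub_sq ℂ H _ _ _ (L.W c L.Om) (L.W a0 L.Om)
    rw [hin, LinearIsometryEquiv.norm_map, LinearIsometryEquiv.norm_map, L.nOm,
      RCLike.re_to_complex] at h1
    rw [← Real.sqrt_sq (norm_nonneg (L.W c L.Om - L.W a0 L.Om)), h1]
    congr 1
    ring
  simp_rw [h]
  have hc : Continuous fun c : K => Real.sqrt (2 - 2 * (Complex.exp (Complex.I *
      ((inner ℂ c a0).im : ℂ)) * Complex.exp (-((‖a0 - c‖ ^ 2 / 2 : ℝ) : ℂ))).re) := by
    have h1 : Continuous fun c : K => (inner ℂ c a0 : ℂ) := continuous_id.inner continuous_const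
    have h2 : Continuous fun c : K => ((inner ℂ c a0).im : ℂ) :=
      Complex.continuous_ofReal.comp (Complex.continuous_im.comp h1)
    have h3 : Continuous fun c : K => ((‖a0 - c‖ ^ 2 / 2 : ℝ) : ℂ) := by fun_prop
    have h4 : Continuous fun c : K => (Complex.exp (Complex.I *
      ((inner ℂ c a0).im : ℂ)) * Complex.exp (-((‖a0 - c‖ ^ 2 / 2 : ℝ) : ℂ))).re := by fun_prop
    fun_prop
  have h2 := (hc.tendsto a0).comp ha
  have h3 : Real.sqrt (2 - 2 * (Complex.exp (Complex.I *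
      ((inner ℂ a0 a0).im : ℂ)) * Complex.exp (-((‖a0 - a0‖ ^ 2 / 2 : ℝ) : ℂ))).re) = 0 := by
    have h4 : (inner ℂ a0 a0 : ℂ).im = 0 := by
      rw [inner_self_eq_norm_sq_to_K]
      simp [← Complex.ofReal_pow]
    rw [h4]
    simp
  rw [h3] at h2
  exact h2

/-- the Weyl operators are strongly continuous -/
lemma b_Wcont {α : Type*} {l : Filter α} {a : α → K} {a0 : K} (ha : Tendsto a l (𝓝 a0)) (x : H) :
    Tendsto (fun i => L.W (a i) x) l (𝓝 (L.W a0 x)) := by
  have hx : x ∈ (Submodule.span ℂ {x : H | ∃ (T : H →L[ℂ] H) (a : K),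
      (∀ b y, L.W b (T y) = T (L.W b y)) ∧ (∀ f, Bm f → ∀ y, L.lab f (T y) = T (L.lab f y)) ∧
      x = T (L.W a L.Om)}).topologicalClosure := by rw [L.cyc]; exact Submodule.mem_top
  -- on the span
  have hspan : ∀ y ∈ Submodule.span ℂ {x : H | ∃ (T : H →L[ℂ] H) (a : K),
      (∀ b y, L.W b (T y) = T (L.W b y)) ∧ (∀ f, Bm f → ∀ y, L.lab f (T y) = T (L.lab f y)) ∧
      x = T (L.W a L.Om)}, Tendsto (fun i => L.W (a i) y) l (𝓝 (L.W a0 y)) := by
    intro y hy
    induction hy using Submodule.span_induction with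
    | mem y hy =>
      obtain ⟨T, b, hT, -, rfl⟩ := hy
      simp only [hT]
      refine (T.continuous.tendsto _).comp ?_
      simp only [L.WW]
      have h1 : Tendsto (fun i => Complex.exp (-(Complex.I * ((inner ℂ (a i) b).im : ℂ)))) l
          (𝓝 (Complex.exp (-(Complex.I * ((inner ℂ a0 b).im : ℂ))))) := by
        have hc : Continuous fun c : K =>
            Complex.exp (-(Complex.I * ((inner ℂ c b).im : ℂ))) := by
          have h1 : Continuous fun c : K => (inner ℂ c b : ℂ) :=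
            continuous_id.inner continuous_const
          have h2 : Continuous fun c : K => ((inner ℂ c b).im : ℂ) :=
            Complex.continuous_ofReal.comp (Complex.continuous_im.comp h1)
          fun_prop
        exact (hc.tendsto a0).comp ha
      exact h1.smul (L.b_WOm (ha.add_const b))
    | zero => simp only [map_zero]; exact tendsto_const_nhds
    | add y z _ _ hy hz => simp only [map_add]; exact hy.add hz
    | smul c y _ hy => simp only [map_smul]; exact hy.const_smul c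
  rw [Metric.tendsto_nhds]
  intro ε hε
  rw [← SetLike.mem_coe, Submodule.topologicalClosure_coe, Metric.mem_closure_iff] at hx
  obtain ⟨y, hy, hxy⟩ := hx (ε / 3) (by positivity)
  have h1 := hspan y hy
  rw [Metric.tendsto_nhds] at h1
  filter_upwards [h1 (ε / 3) (by positivity)] with i hi
  have h2 : dist (L.W (a i) x) (L.W (a i) y) < ε / 3 := by rwa [LinearIsometryEquiv.dist_map]
  have h3 : dist (L.W a0 y) (L.W a0 x) < ε / 3 := by
    rw [LinearIsometryEquiv.dist_map, dist_comm]; exact hxy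
  calc dist (L.W (a i) x) (L.W a0 x)
      ≤ dist (L.W (a i) x) (L.W (a i) y) + dist (L.W (a i) y) (L.W a0 y)
        + dist (L.W a0 y) (L.W a0 x) := dist_triangle4 _ _ _ _
    _ < ε := by linarith

/-- epsilon-delta form, for finitely many vectors -/
lemma b_Wfin (a0 : K) (s : Finset H) {ε : ℝ} (hε : 0 < ε) :
    ∃ δ > 0, ∀ a : K, ‖a - a0‖ < δ → ∀ x ∈ s, ‖L.W a x - L.W a0 x‖ < ε := by
  have h : ∀ᶠ a in 𝓝 a0, ∀ x ∈ s, ‖L.W a x - L.W a0 x‖ < ε := by
    rw [Filter.eventually_all_finset]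
    intro x _
    have h1 := L.b_Wcont (tendsto_id (α := K) (x := 𝓝 a0)) x
    rw [Metric.tendsto_nhds] at h1
    filter_upwards [h1 ε hε] with a ha
    rwa [← dist_eq_norm]
  obtain ⟨δ, hδ, h2⟩ := Metric.eventually_nhds_iff.1 h
  exact ⟨δ, hδ, fun a ha => h2 (by rwa [dist_eq_norm])⟩

end LSys

end Vale.Agent.P367.A
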