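import Vale.Agent.P367.B.Base2

/-! P367, block B, BASE: exact block couplings of words. -/

namespace Vale.Agent.P367.A

open Complex Filter Topology MeasureTheory

open Vale.Agent.P367.NI (Gate)

/-- step functions -/
noncomputable def bst (A B : Set ℝ) (u v w : ℂ) : ℝ → ℂ := by
  classical
  exact fun t => if t ∈ A then u else if t ∈ B then v else w

lemma bst_map2 (A B : Set ℝ) (u v w u' v' w' : ℂ) (φ : ℂ → ℂ → ℂ) :
    (fun t => φ (bst A B u v w t) (bst A B u' v' w' t)) = bst A B (φ u u') (φ v v') (φ w w') := by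
  funext t
  unfold bst
  by_cases h1 : t ∈ A <;> by_cases h2 : t ∈ B <;> simp [h1, h2]

lemma bst_map (A B : Set ℝ) (u v w : ℂ) (φ : ℂ → ℂ) :
    (fun t => φ (bst A B u v w t)) = bst A B (φ u) (φ v) (φ w) :=
  bst_map2 A B u v w u v w (fun a _ => φ a)

lemma bst_eq {A B : Set ℝ} (h : Disjoint A B) (u v w : ℂ) : bst A B u v w
    = fun t => (u * A.indicator (fun _ => 1) t + v * B.indicator (fun _ => 1) t)
      + w * (1 + ((-1) * A.indicator (fun _ => 1) t + (-1) * B.indicator (fun _ => 1) t)) := by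
  funext t
  unfold bst
  by_cases h1 : t ∈ A
  · have h2 : t ∉ B := fun hb => (Set.disjoint_left.1 h) h1 hb
    simp [h1, h2]
  · by_cases h2 : t ∈ B <;> simp [h1, h2]

lemma Bm.bstm {A B : Set ℝ} (hA : MeasurableSet A) (hB : MeasurableSet B) (h : Disjoint A B)
    (u v w : ℂ) : Bm (bst A B u v w) := by
  rw [bst_eq h]
  exact (((Bm.ndc hA).cm u).ad ((Bm.ndc hB).cm v)).ad
    (((Bm.cst 1).ad (((Bm.ndc hA).cm (-1)).ad ((Bm.ndc hB).cm (-1)))).cm w)

lemma Br.bstr {A B : Set ℝ} (hA : MeasurableSet A) (hB : MeasurableSet B) (h : Disjoint A B)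
    (u v w : ℝ) : LSys.Br (bst A B (u : ℂ) (v : ℂ) (w : ℂ)) := by
  refine ⟨Bm.bstm hA hB h _ _ _, fun t => ?_⟩
  unfold bst
  by_cases h1 : t ∈ A <;> by_cases h2 : t ∈ B <;> simp [h1, h2]

namespace LSys

variable {H K : Type*} [NormedAddCommGroup H] [InnerProductSpace ℂ H]
  [NormedAddCommGroup K] [InnerProductSpace ℂ K] (L : LSys H K)

lemma lab_bst {A B : Set ℝ} (hA : MeasurableSet A) (hB : MeasurableSet B) (h : Disjoint A B)
    (u v w : ℂ) (x : H) : L.lab (bst A B u v w) x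
      = u • L.E A x + v • L.E B x + w • (x - L.E A x - L.E B x) := by
  have hA1 := Bm.ndc hA
  have hB1 := Bm.ndc hB
  rw [bst_eq h, ← L.b_add ((hA1.cm u).ad (hB1.cm v))
    (((Bm.cst 1).ad ((hA1.cm (-1)).ad (hB1.cm (-1)))).cm w), ← L.b_add (hA1.cm u) (hB1.cm v),
    L.b_smul hA1, L.b_smul hB1, L.b_smul ((Bm.cst 1).ad ((hA1.cm (-1)).ad (hB1.cm (-1)))),
    ← L.b_add (Bm.cst 1) ((hA1.cm (-1)).ad (hB1.cm (-1))), ← L.b_add (hA1.cm (-1)) (hB1.cm (-1)),
    L.b_smul hA1, L.b_smul hB1, L.b_const]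
  change u • L.E A x + v • L.E B x + w • ((1 : ℂ) • x + ((-1 : ℂ) • L.E A x + (-1 : ℂ) • L.E B x))
    = _
  module

/-! ### the axis of a label rotation -/

lemma pau_one_apply (x : H) : L.pau 1 x = Complex.I • L.X (L.Z x) := by
  change L.Zt (-(Real.pi / 4)) x = _
  rw [L.Zt_apply, show 2 * (-(Real.pi / 4)) = -(Real.pi / 2) by ring, L.xr_neg_pi_div_two]

lemma Z_lr (f : ℝ → ℂ) {P : Fin 3} (hP : ∀ y, L.Z (L.pau P y) = -L.pau P (L.Z y))
    (hf : Bm f) (x : H) : L.Z (L.lr f P x) = L.lr (fun t => -f t) P (L.Z x) := by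
  have sf : Bm fun t => Complex.sin (f t) := hf.comp Complex.continuous_sin
  simp only [lr_apply, Complex.cos_neg, Complex.sin_neg]
  have e3 : (fun t => -Complex.sin (f t)) = fun t => (-1) * Complex.sin (f t) := by
    funext t; ring
  rw [e3, L.b_smul sf, map_sub, map_smul, ← L.lab_Z, ← L.lab_Z, hP, map_neg]
  module

lemma Z_pau_zero (y : H) : L.Z (L.pau 0 y) = -L.pau 0 (L.Z y) := L.toSys.ZX y

lemma Z_pau_one (y : H) : L.Z (L.pau 1 y) = -L.pau 1 (L.Z y) := by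
  rw [L.pau_one_apply, L.pau_one_apply, map_smul, L.toSys.ZX]
  module

lemma X_lr_one (f : ℝ → ℂ) (hf : Bm f) (x : H) :
    L.X (L.lr f 1 x) = L.lr (fun t => -f t) 1 (L.X x) := by
  have sf : Bm fun t => Complex.sin (f t) := hf.comp Complex.continuous_sin
  simp only [lr_apply, Complex.cos_neg, Complex.sin_neg]
  have e3 : (fun t => -Complex.sin (f t)) = fun t => (-1) * Complex.sin (f t) := by
    funext t; ring
  have hP : L.X (L.pau 1 x) = -L.pau 1 (L.X x) := by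
    rw [L.pau_one_apply, L.pau_one_apply, map_smul, L.toSys.ZX, map_neg]
    module
  rw [e3, L.b_smul sf, map_sub, map_smul, ← L.lab_X, ← L.lab_X, hP, map_neg]
  module

lemma b_ax {f g : ℝ → ℂ} (hf : Br f) (hg : Br g) (x : H) :
    L.ax (L.lru f hf 0 * L.lru g hg 1) x
      = L.lab (fun t => Complex.cos (f t + f t) * Complex.cos (g t + g t)) (L.Z x)
        - L.lab (fun t => Complex.cos (f t + f t) * Complex.sin (g t + g t)) (L.X x)
        + L.lab (fun t => Complex.sin (f t + f t)) (L.pau 1 x) := by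
  have e0 : L.ax (L.lru f hf 0 * L.lru g hg 1) x
      = (L.lru g hg 1)⁻¹ ((L.lru f hf 0)⁻¹ (L.Z (L.lr f 0 (L.lr g 1 x)))) := rfl
  rw [e0, L.lru_inv, L.lru_inv, lru_apply, lru_apply, L.Z_lr f L.Z_pau_zero hf.1,
    L.Z_lr g L.Z_pau_one hg.1, L.lr_lr hf.ng.1 hf.ng.1]
  have hF : (fun t => -f t + -f t) = fun t => -(f t + f t) := by funext t; ring
  have hff : Bm fun t => f t + f t := hf.1.ad hf.1
  have hgg : Bm fun t => g t + g t := hg.1.ad hg.1
  have cf : Bm fun t => Complex.cos (f t + f t) := hff.comp Complex.continuous_cos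
  have sf : Bm fun t => Complex.sin (f t + f t) := hff.comp Complex.continuous_sin
  have cg : Bm fun t => Complex.cos (g t + g t) := hgg.comp Complex.continuous_cos
  have sg : Bm fun t => Complex.sin (g t + g t) := hgg.comp Complex.continuous_sin
  have e3 : (fun t => -Complex.sin (f t + f t)) = fun t => (-1) * Complex.sin (f t + f t) := by
    funext t; ring
  have e4 : (fun t => -Complex.sin (g t + g t)) = fun t => (-1) * Complex.sin (g t + g t) := by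
    funext t; ring
  rw [hF, L.lr_apply _ 0]
  simp only [Complex.cos_neg, Complex.sin_neg]
  rw [e3, L.b_smul sf, map_sub, map_smul, map_smul]
  change L.lr (fun t => -g t) 1 (L.lab (fun t => Complex.cos (f t + f t))
      (L.lr (fun t => -g t) 1 (L.Z x))) - Complex.I • ((-1 : ℂ) • L.lr (fun t => -g t) 1
      (L.lab (fun t => Complex.sin (f t + f t)) (L.X (L.lr (fun t => -g t) 1 (L.Z x))))) = _
  rw [L.X_lr_one _ hg.ng.1, ← L.b_lr_lab hg.ng.1 cf, L.lr_lr hg.ng.1 hg.ng.1]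
  simp only [neg_neg]
  rw [← L.b_lr_lab hg.ng.1 sf, L.lr_neg_lr hg]
  have hG : (fun t => -g t + -g t) = fun t => -(g t + g t) := by funext t; ring
  rw [hG, L.lr_apply _ 1]
  simp only [Complex.cos_neg, Complex.sin_neg]
  rw [e4, L.b_smul sg, map_sub, map_smul, map_smul, L.b_mul cf cg, L.b_mul cf sg,
    L.pau_one_apply, L.pau_one_apply, L.ZZ]
  simp only [map_smul, smul_smul]
  have hI : Complex.I * (-1 * Complex.I) = 1 := by
    linear_combination -Complex.I_mul_I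
  rw [hI, one_smul]
  module

/-- angles of the axes -/
noncomputable def aF (P : Fin 3) (s : ℝ) : ℝ := ![0, s * (Real.pi / 4), (1 - s) * (Real.pi / 4)] P

noncomputable def aG (P : Fin 3) (s : ℝ) : ℝ := ![-(s * (Real.pi / 4)), 0, 0] P

lemma b_dir (P : Fin 3) {s : ℝ} (hs : s = 1 ∨ s = -1) (y : H) :
    (Complex.cos ((aF P s : ℂ) + aF P s) * Complex.cos ((aG P s : ℂ) + aG P s)) • L.Z y
      - (Complex.cos ((aF P s : ℂ) + aF P s) * Complex.sin ((aG P s : ℂ) + aG P s)) • L.X y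
      + Complex.sin ((aF P s : ℂ) + aF P s) • L.pau 1 y = (s : ℂ) • L.pau P y := by
  have e : ∀ r : ℝ, Complex.cos ((r : ℂ) + r) = ((Real.cos (2 * r) : ℝ) : ℂ) := by
    intro r; push_cast; congr 1; ring
  have e' : ∀ r : ℝ, Complex.sin ((r : ℂ) + r) = ((Real.sin (2 * r) : ℝ) : ℂ) := by
    intro r; push_cast; congr 1; ring
  simp only [e, e']
  have p1 : 2 * (1 * (Real.pi / 4)) = Real.pi / 2 := by ring
  have p2 : 2 * (-1 * (Real.pi / 4)) = -(Real.pi / 2) := by ring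
  have p3 : 2 * ((1 - 1) * (Real.pi / 4)) = 0 := by ring
  have p4 : 2 * ((1 - -1) * (Real.pi / 4)) = Real.pi := by ring
  have p5 : 2 * -(1 * (Real.pi / 4)) = -(Real.pi / 2) := by ring
  have p6 : 2 * -(-1 * (Real.pi / 4)) = Real.pi / 2 := by ring
  fin_cases P
  · change ((Real.cos (2 * (0 : ℝ)) : ℝ) * ((Real.cos (2 * -(s * (Real.pi / 4))) : ℝ) : ℂ)) • L.Z y
      - ((Real.cos (2 * (0 : ℝ)) : ℝ) * ((Real.sin (2 * -(s * (Real.pi / 4))) : ℝ) : ℂ)) • L.X y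
      + ((Real.sin (2 * (0 : ℝ)) : ℝ) : ℂ) • L.pau 1 y = (s : ℂ) • L.X y
    rcases hs with rfl | rfl
    · rw [p5]; simp
    · rw [p6]; simp
  · change ((Real.cos (2 * (s * (Real.pi / 4))) : ℝ) * ((Real.cos (2 * (0 : ℝ)) : ℝ) : ℂ)) • L.Z y
      - ((Real.cos (2 * (s * (Real.pi / 4))) : ℝ) * ((Real.sin (2 * (0 : ℝ)) : ℝ) : ℂ)) • L.X y
      + ((Real.sin (2 * (s * (Real.pi / 4))) : ℝ) : ℂ) • L.pau 1 y = (s : ℂ) • L.pau 1 y
    rcases hs with rfl | rfl
    · rw [p1]; simp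
    · rw [p2]; simp
  · change ((Real.cos (2 * ((1 - s) * (Real.pi / 4))) : ℝ) * ((Real.cos (2 * (0 : ℝ)) : ℝ) : ℂ)) •
        L.Z y - ((Real.cos (2 * ((1 - s) * (Real.pi / 4))) : ℝ)
          * ((Real.sin (2 * (0 : ℝ)) : ℝ) : ℂ)) • L.X y
      + ((Real.sin (2 * ((1 - s) * (Real.pi / 4))) : ℝ) : ℂ) • L.pau 1 y = (s : ℂ) • L.Z y
    rcases hs with rfl | rfl
    · rw [p3]; simp
    · rw [p4]; simp

/-- the block axis `s1 P` on `A`, `s2 Q` on `B`, `s3 Z` elsewhere -/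
noncomputable def gU {A B : Set ℝ} (hA : MeasurableSet A) (hB : MeasurableSet B)
    (h : Disjoint A B) (P Q : Fin 3) (s1 s2 s3 : ℝ) : H ≃ₗᵢ[ℂ] H :=
  L.lru _ (Br.bstr hA hB h (aF P s1) (aF Q s2) (aF 2 s3)) 0
    * L.lru _ (Br.bstr hA hB h (aG P s1) (aG Q s2) (aG 2 s3)) 1

lemma ax_gU {A B : Set ℝ} (hA : MeasurableSet A) (hB : MeasurableSet B)
    (h : Disjoint A B) (P Q : Fin 3) {s1 s2 s3 : ℝ} (h1 : s1 = 1 ∨ s1 = -1)
    (h2 : s2 = 1 ∨ s2 = -1) (h3 : s3 = 1 ∨ s3 = -1) (x : H) :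
    L.ax (L.gU hA hB h P Q s1 s2 s3) x = (s1 : ℂ) • L.pau P (L.E A x)
      + (s2 : ℂ) • L.pau Q (L.E B x) + (s3 : ℂ) • L.Z (x - L.E A x - L.E B x) := by
  rw [gU, L.b_ax, bst_map2 A B _ _ _ _ _ _
    (fun a b => Complex.cos (a + a) * Complex.cos (b + b)),
    bst_map2 A B _ _ _ _ _ _ (fun a b => Complex.cos (a + a) * Complex.sin (b + b)),
    bst_map A B _ _ _ (fun a => Complex.sin (a + a)), L.lab_bst hA hB h, L.lab_bst hA hB h,
    L.lab_bst hA hB h]
  rw [← L.b_dir P h1, ← L.b_dir Q h2]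
  have d3 := L.b_dir 2 h3 (x - L.E A x - L.E B x)
  change _ = (s3 : ℂ) • L.Z (x - L.E A x - L.E B x) at d3
  rw [← d3]
  have z1 : ∀ b : Set ℝ, L.E b (L.Z x) = L.Z (L.E b x) := fun b => L.lab_Z _ x
  have z2 : ∀ b : Set ℝ, L.E b (L.X x) = L.X (L.E b x) := fun b => L.lab_X _ x
  rw [z1, z1, z2, z2, L.b_EP, L.b_EP]
  simp only [map_sub]
  generalize L.Z (L.E A x) = za
  generalize L.Z (L.E B x) = zb
  generalize L.Z x = z
  generalize L.X (L.E A x) = xa
  generalize L.X (L.E B x) = xb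
  generalize L.X x = x'
  generalize (L.pau 1) (L.E A x) = ya
  generalize (L.pau 1) (L.E B x) = yb
  generalize (L.pau 1) x = y
  module

lemma gU_W {A B : Set ℝ} (hA : MeasurableSet A) (hB : MeasurableSet B)
    (h : Disjoint A B) (P Q : Fin 3) (s1 s2 s3 : ℝ) :
    L.Cm Set.univ (L.gU hA hB h P Q s1 s2 s3) := by
  intro d _ x
  change L.W d (L.lr _ 0 (L.lr _ 1 x)) = L.lr _ 0 (L.lr _ 1 (L.W d x))
  rw [L.b_lr_W, L.b_lr_W]

lemma Wd.gU {V : H ≃ₗᵢ[ℂ] H} (hV : L.Wd V) {A B : Set ℝ} (hA : MeasurableSet A)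
    (hB : MeasurableSet B) (h : Disjoint A B) (P Q : Fin 3) (s1 s2 s3 : ℝ) :
    L.Wd (L.gU hA hB h P Q s1 s2 s3 * V) := by
  unfold LSys.gU
  rw [mul_assoc]
  exact Wd.rot L (Wd.rot L hV _ _) _ _

lemma Wd.gUi {V : H ≃ₗᵢ[ℂ] H} (hV : L.Wd V) {A B : Set ℝ} (hA : MeasurableSet A)
    (hB : MeasurableSet B) (h : Disjoint A B) (P Q : Fin 3) (s1 s2 s3 : ℝ) :
    L.Wd ((L.gU hA hB h P Q s1 s2 s3)⁻¹ * V) := by
  unfold LSys.gU
  rw [mul_inv_rev, mul_assoc, L.lru_inv, L.lru_inv]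
  exact Wd.rot L (Wd.rot L hV _ _) _ _

/-- words commute with the labels -/
lemma Wd.lab {V : H ≃ₗᵢ[ℂ] H} (hV : L.Wd V) : ∀ f, Bm f → ∀ x, L.lab f (V x) = V (L.lab f x) := by
  induction hV with
  | one => intro f _ x; rfl
  | C g V _ ih =>
    intro f hf x
    change L.lab f (L.zr _ (V x)) = L.zr _ (V (L.lab f x))
    rw [L.zr_apply, L.zr_apply, ← ih f hf]
    simp only [map_add, map_sub, map_smul, L.lab_W, L.lab_Z]
  | L f P U V _ hf hU ih =>
    intro g hg x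
    have hU' := (L.b_isRot hf.1 P U).1 hU
    change L.lab g (U (V x)) = U (V (L.lab g x))
    rw [hU', hU', ← ih g hg, L.b_lr_lab hf.1 hg]

lemma b_inv_comm {V : H ≃ₗᵢ[ℂ] H} {T : H →L[ℂ] H} (h : ∀ x, T (V x) = V (T x)) (x : H) :
    T (V⁻¹ x) = V⁻¹ (T x) := by
  apply V.injective
  rw [← h]
  have h1 : ∀ y, V (V⁻¹ y) = y := fun y => V.apply_symm_apply y
  rw [h1, h1]

/-- the block operator `P` on `A` -/
noncomputable def bP (P : Fin 3) (A : Set ℝ) : H →ₗ[ℂ] H := (L.b_pc P * L.E A).toLinearMap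

lemma bP_apply (P : Fin 3) (A : Set ℝ) (x : H) : L.bP P A x = L.pau P (L.E A x) := rfl

/-- the block operator `Z` off `A ∪ B` -/
noncomputable def bT (A B : Set ℝ) : H →ₗ[ℂ] H := (L.b_pc 2 * (1 - L.E A - L.E B)).toLinearMap

lemma bT_apply (A B : Set ℝ) (x : H) : L.bT A B x = L.Z (x - L.E A x - L.E B x) := rfl

/-- **exact coupling of words** -/
theorem b_coup {V : H ≃ₗᵢ[ℂ] H} (hV : L.Wd V) {A B : Set ℝ} (hA : MeasurableSet A)
    (hB : MeasurableSet B) (h : Disjoint A B) (P Q : Fin 3) (c : ℝ) :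
    ∃ U, L.IsCoup A B P Q c V U ∧ L.Wd (U * V) := by
  set Us : Fin 4 → (H ≃ₗᵢ[ℂ] H) := ![L.gU hA hB h P Q 1 1 1, L.gU hA hB h P Q 1 (-1) 1,
    L.gU hA hB h P Q 1 1 (-1), L.gU hA hB h P Q 1 (-1) (-1)] with hUs
  have u0 : Us 0 = L.gU hA hB h P Q 1 1 1 := rfl
  have u1 : Us 1 = L.gU hA hB h P Q 1 (-1) 1 := rfl
  have u2 : Us 2 = L.gU hA hB h P Q 1 1 (-1) := rfl
  have u3 : Us 3 = L.gU hA hB h P Q 1 (-1) (-1) := rfl
  have eA := L.b_Eidem hA
  have eB := L.b_Eidem hB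
  have eAB := L.b_Edis hA hB h
  have eBA := L.b_Edis hB hA h.symm
  have z1 : ∀ (b : Set ℝ) (y : H), L.E b (L.Z y) = L.Z (L.E b y) := fun b y => L.lab_Z _ y
  have hfour : L.Four (⊤ : Submodule ℝ K) Us (L.bP P A) (L.bP Q B) (L.bT A B) := by
    refine ⟨?_, ?_, ?_, ?_, ?_, ?_, ?_, ?_, ?_, ?_, ?_⟩
    · intro i
      have : ((⊤ : Submodule ℝ K) : Set K) = Set.univ := rfl
      rw [this]
      fin_cases i
      · exact L.gU_W hA hB h P Q 1 1 1
      · exact L.gU_W hA hB h P Q 1 (-1) 1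
      · exact L.gU_W hA hB h P Q 1 1 (-1)
      · exact L.gU_W hA hB h P Q 1 (-1) (-1)
    · intro x
      rw [u0, L.ax_gU hA hB h P Q (Or.inl rfl) (Or.inl rfl) (Or.inl rfl), bP_apply, bP_apply,
        bT_apply]
      simp
    · intro x
      rw [u1, L.ax_gU hA hB h P Q (Or.inl rfl) (Or.inr rfl) (Or.inl rfl), bP_apply, bP_apply,
        bT_apply]
      push_cast
      module
    · intro x
      rw [u2, L.ax_gU hA hB h P Q (Or.inl rfl) (Or.inl rfl) (Or.inr rfl), bP_apply, bP_apply,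
        bT_apply]
      push_cast
      module
    · intro x
      rw [u3, L.ax_gU hA hB h P Q (Or.inl rfl) (Or.inr rfl) (Or.inr rfl), bP_apply, bP_apply,
        bT_apply]
      push_cast
      module
    · intro x; rw [bP_apply, bP_apply, L.b_EP, eAB, map_zero, map_zero]
    · intro x; rw [bP_apply, bP_apply, L.b_EP, eBA, map_zero, map_zero]
    · intro x
      rw [bP_apply, bT_apply, z1, map_sub (L.E A), map_sub (L.E A), eA, eAB, sub_self, sub_zero,
        map_zero, map_zero]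
    · intro x
      rw [bP_apply, bT_apply, L.b_EP, L.b_EP, eA, eBA, sub_self, map_zero, sub_zero, map_zero]
    · intro x
      rw [bP_apply, bT_apply, z1, map_sub (L.E B), map_sub (L.E B), eB, eBA, sub_zero, sub_self,
        map_zero, map_zero]
    · intro x
      rw [bP_apply, bT_apply, L.b_EP, L.b_EP, eB, eAB, map_zero, sub_zero, sub_self, map_zero]
  have hD : ∀ i, L.iota (L.fx (L.ax (Us i)) V) ∈ (⊤ : Submodule ℝ K) := fun i => trivial
  refine ⟨L.c4 Us (-(c / 4)) V, ?_, ?_⟩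
  · intro x
    have hflQ : L.fl (L.bP Q B) V = L.fv (L.pau Q) B V := by
      unfold Sys.fl fv
      rw [bP_apply, ← L.b_EP, b_inv_comm (T := L.E B) (fun y => Wd.lab L hV _ (Bm.ndc hB) y)]
    have hflP : L.fl (L.bP P A) V = L.fv (L.pau P) A V := by
      unfold Sys.fl fv
      rw [bP_apply, ← L.b_EP, b_inv_comm (T := L.E A) (fun y => Wd.lab L hV _ (Bm.ndc hA) y)]
    have h1 := L.c4_apply hfour c V hD x
    rw [hflP, hflQ] at h1
    refine (show L.c4 Us (-(c / 4)) V x = _ from h1).trans ?_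
    have a1 : L.bP P A (L.bP P A x) = L.E A x := by
      rw [bP_apply, bP_apply, L.b_EP, eA, L.b_PP]
    have a2 : L.bP Q B (L.bP Q B x) = L.E B x := by
      rw [bP_apply, bP_apply, L.b_EP, eB, L.b_PP]
    have a3 : L.bT A B (L.bT A B x) = x - L.E A x - L.E B x := by
      rw [bT_apply, bT_apply]
      simp only [z1, map_sub, eA, eB, eAB, eBA, L.ZZ]
      simp
    rw [a1, a2, a3, bP_apply, bP_apply]
    unfold pw
    have n1 : ∀ v : K, ((-c : ℝ) : ℂ) • v = -((c : ℂ) • v) := by intro v; push_cast; module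
    rw [n1, n1]
    simp only [map_smul, map_add, map_sub]
    module
  · have h2 : L.cg4 Us (-(c / 4)) V = L.c4 Us (-(c / 4)) V * V := L.cg4_eq_c4 hfour _ V hD
    rw [← h2]
    unfold Sys.cg4
    have step : ∀ (W : H ≃ₗᵢ[ℂ] H) (t : ℝ) (s1 s2 s3 : ℝ), L.Wd W →
        L.Wd (L.cg (L.gU hA hB h P Q s1 s2 s3) t W) := by
      intro W t s1 s2 s3 hW
      rw [L.cg_eq]
      refine Wd.gUi L ?_ hA hB h P Q s1 s2 s3
      exact Wd.C t _ (Wd.gU L hW hA hB h P Q s1 s2 s3)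
    rw [u0, u1, u2, u3]
    exact step _ _ _ _ _ (step _ _ _ _ _ (step _ _ _ _ _ (step _ _ _ _ _ hV)))

end LSys

end Vale.Agent.P367.A
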