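import Vale.Agent.P367.B.Base3

/-! P367, block B, BASE: the closure properties of the basic reachability predicate. -/

namespace Vale.Agent.P367.A

open Complex Filter Topology MeasureTheory

namespace LSys

variable {H K : Type*} [NormedAddCommGroup H] [InnerProductSpace ℂ H]
  [NormedAddCommGroup K] [InnerProductSpace ℂ K] (L : LSys H K)

/-! ### the control algebra of labels -/

theorem ctl0 : L.Ctl L.alg0 where
  lab f hf := ⟨f, hf, rfl⟩
  add := by
    rintro _ _ ⟨f, hf, rfl⟩ ⟨g, hg, rfl⟩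
    exact ⟨_, hf.ad hg, (L.lab_add f g hf hg).symm⟩
  mul := by
    rintro _ _ ⟨f, hf, rfl⟩ ⟨g, hg, rfl⟩
    exact ⟨_, hf.ml hg, (L.lab_mul f g hf hg).symm⟩
  adj := by
    rintro _ ⟨f, hf, rfl⟩
    exact ⟨_, ⟨_, hf.cj, rfl⟩, L.lab_adj f hf⟩
  comm := by
    rintro _ _ ⟨f, hf, rfl⟩ ⟨g, hg, rfl⟩
    ext x
    exact L.b_comm hf hg x
  X := by
    rintro _ ⟨f, _, rfl⟩ x
    exact L.lab_X f x
  Z := by
    rintro _ ⟨f, _, rfl⟩ x
    exact L.lab_Z f x
  W := by
    rintro _ ⟨f, _, rfl⟩ T _ _ x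
    exact L.lab_W f _ x

/-! ### label phases -/

lemma Br.expm {g : ℝ → ℂ} (hg : Br g) : Bm fun t => Complex.exp (-(Complex.I * g t)) := by
  have h : (fun t => Complex.exp (-(Complex.I * g t)))
      = fun t => Complex.exp ((-Complex.I) * g t) := by
    funext t; rw [neg_mul]
  rw [h]
  exact (hg.1.cm _).comp Complex.continuous_exp

lemma phl_norm {g : ℝ → ℂ} (hg : Br g) (x : H) : ‖L.phl g x‖ = ‖x‖ := by
  have h := L.b_normsq hg.expm x
  have e : (fun t => (starRingEnd ℂ) (Complex.exp (-(Complex.I * g t)))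
      * Complex.exp (-(Complex.I * g t))) = fun _ => 1 := by
    funext t
    have hc : (starRingEnd ℂ) (g t) = g t := Complex.conj_eq_iff_im.2 (hg.2 t)
    rw [← Complex.exp_conj, ← Complex.exp_add, map_neg, map_mul, Complex.conj_I, hc]
    rw [show -(-Complex.I * g t) + -(Complex.I * g t) = 0 by ring, Complex.exp_zero]
  rw [e, L.b_const, one_smul, inner_self_eq_norm_sq_to_K] at h
  have h2 : ((‖L.phl g x‖ ^ 2 : ℝ) : ℂ) = ((‖x‖ ^ 2 : ℝ) : ℂ) := by
    refine Eq.trans h ?_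
    push_cast
    rfl
  exact (sq_eq_sq₀ (norm_nonneg _) (norm_nonneg _)).1 (Complex.ofReal_injective h2)

lemma phl_add {g h : ℝ → ℂ} (hg : Br g) (hh : Br h) (x : H) :
    L.phl g (L.phl h x) = L.phl (fun t => g t + h t) x := by
  unfold phl
  rw [L.b_mul hg.expm hh.expm]
  congr 2
  funext t
  rw [← Complex.exp_add]
  congr 1
  ring

lemma phl_zero (x : H) : L.phl (fun _ => 0) x = x := by
  unfold phl
  simp only [mul_zero, neg_zero, Complex.exp_zero]
  rw [L.b_const, one_smul]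

lemma phl_P (g : ℝ → ℂ) (P : Fin 3) (x : H) : L.phl g (L.pau P x) = L.pau P (L.phl g x) :=
  L.b_labP _ P x

lemma phl_E {g : ℝ → ℂ} (hg : Br g) {b : Set ℝ} (hb : MeasurableSet b) (x : H) :
    L.phl g (L.E b x) = L.E b (L.phl g x) := L.b_comm hg.expm (Bm.ndc hb) x

/-- phases only matter where they are seen -/
lemma phl_congr {g h : ℝ → ℂ} (hg : Br g) (hh : Br h) {b : Set ℝ} (hb : MeasurableSet b)
    (hgh : ∀ t ∈ b, g t = h t) (x : H) : L.phl g (L.E b x) = L.phl h (L.E b x) := by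
  unfold phl E
  rw [L.b_mul hg.expm (Bm.ndc hb), L.b_mul hh.expm (Bm.ndc hb)]
  congr 2
  funext t
  by_cases ht : t ∈ b
  · rw [hgh t ht]
  · simp [ht]

/-! ### comparison of field vectors -/

lemma xv_close {M B : Set ℝ} (hM : MeasurableSet M) (hB : MeasurableSet B) (hBM : B ⊆ M)
    {U V : H ≃ₗᵢ[ℂ] H} (hU : ∀ f, Bm f → ∀ x, L.lab f (U x) = U (L.lab f x)) {g : ℝ → ℂ}
    (Q : Fin 3) :
    ‖L.E B (U⁻¹ (L.pau Q (U L.Om))) - L.E B (V⁻¹ (L.pau Q (V L.Om)))‖
      ≤ ‖L.E M (U L.Om) - L.phl g (L.E M (V L.Om))‖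
        + ‖L.E M (U (V⁻¹ (L.pau Q (V L.Om))))
          - L.phl g (L.E M (V (V⁻¹ (L.pau Q (V L.Om)))))‖ := by
  set z := V⁻¹ (L.pau Q (V L.Om)) with hz
  have hVz : V z = L.pau Q (V L.Om) := V.apply_symm_apply _
  have h1 : ∀ y, U (U⁻¹ y) = y := fun y => U.apply_symm_apply y
  have hUE : ∀ y, L.E B (U y) = U (L.E B y) := fun y => hU _ (Bm.ndc hB) y
  rw [← U.norm_map]
  have e1 : U (L.E B (U⁻¹ (L.pau Q (U L.Om))) - L.E B z)
      = L.E B (L.E M (L.pau Q (U L.Om) - U z)) := by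
    rw [map_sub, ← hUE, ← hUE, h1, L.b_Esub hB hM hBM, map_sub]
  rw [e1]
  refine (L.b_Enorm hB _).trans ?_
  have e2 : L.E M (L.pau Q (U L.Om) - U z)
      = L.pau Q (L.E M (U L.Om) - L.phl g (L.E M (V L.Om)))
        - (L.E M (U z) - L.phl g (L.E M (V z))) := by
    rw [hVz, map_sub, L.b_EP, L.b_EP, L.phl_P, map_sub]
    abel
  rw [e2]
  refine (norm_sub_le _ _).trans ?_
  rw [(L.pau Q).norm_map]

/-! ### continuity of pulses -/

lemma pw_cont (P : Fin 3) (a0 : K) (s : Finset H) {ε : ℝ} (hε : 0 < ε) :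
    ∃ δ > 0, ∀ a : K, ‖a - a0‖ < δ → ∀ x ∈ s,
      ‖L.pw (L.pau P) a x - L.pw (L.pau P) a0 x‖ < ε := by
  have h : ∀ᶠ a in 𝓝 a0, ∀ x ∈ s, ‖L.pw (L.pau P) a x - L.pw (L.pau P) a0 x‖ < ε := by
    rw [Filter.eventually_all_finset]
    intro x _
    have hid := tendsto_id (α := K) (x := 𝓝 a0)
    have h1 := L.b_Wcont hid x
    have h2 := L.b_Wcont hid.neg x
    have h3 := L.b_Wcont hid (L.pau P x)
    have h4 := L.b_Wcont hid.neg (L.pau P x)
    have h5 : Tendsto (fun a => L.pw (L.pau P) a x) (𝓝 a0) (𝓝 (L.pw (L.pau P) a0 x)) :=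
      ((h2.add h1).const_smul (1 / 2 : ℂ)).add ((h4.sub h3).const_smul (1 / 2 : ℂ))
    rw [Metric.tendsto_nhds] at h5
    filter_upwards [h5 ε hε] with a ha
    rwa [← dist_eq_norm]
  obtain ⟨δ, hδ, h2⟩ := Metric.eventually_nhds_iff.1 h
  exact ⟨δ, hδ, fun a ha => h2 (by rwa [dist_eq_norm])⟩

lemma lab_pwb (f : ℝ → ℂ) (P : Fin 3) (v : K) (x : H) :
    L.lab f (L.pw (L.pau P) v x) = L.pw (L.pau P) v (L.lab f x) := by
  unfold pw
  simp only [map_add, map_sub, map_smul, L.lab_W, L.b_labP]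

lemma pw_zerob (P : Fin 3) (v : K) : L.pw (L.pau P) v (0 : H) = 0 := by
  unfold pw
  simp

lemma coup_lab {A B : Set ℝ} (hA : MeasurableSet A) (hB : MeasurableSet B) {P Q : Fin 3} {c : ℝ}
    {V U : H ≃ₗᵢ[ℂ] H} (hU : L.IsCoup A B P Q c V U) {f : ℝ → ℂ} (hf : Bm f) (x : H) :
    L.lab f (U x) = U (L.lab f x) := by
  have hA' : L.lab f (L.E A x) = L.E A (L.lab f x) := L.b_comm hf (Bm.ndc hA) x
  have hB' : L.lab f (L.E B x) = L.E B (L.lab f x) := L.b_comm hf (Bm.ndc hB) x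
  rw [hU, hU, ← hA', ← hB', ← L.lab_pwb, ← L.lab_pwb]
  simp only [map_add, map_sub]

lemma coup_off {A B R : Set ℝ} (hA : MeasurableSet A) (hB : MeasurableSet B)
    (hR : MeasurableSet R) (hAR : Disjoint A R) (hBR : Disjoint B R) {P Q : Fin 3} {c : ℝ}
    {V U : H ≃ₗᵢ[ℂ] H} (hU : L.IsCoup A B P Q c V U) (x : H) : L.E R (U x) = L.E R x := by
  have h1 : L.E R (U x) = U (L.E R x) := L.coup_lab hA hB hU (Bm.ndc hR) x
  rw [h1, hU, L.b_Edis hA hR hAR, L.b_Edis hB hR hBR, L.pw_zerob, L.pw_zerob]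
  simp

lemma lr_off {f : ℝ → ℂ} (hf : Bm f) {R : Set ℝ} (hR : MeasurableSet R)
    (hfR : ∀ t ∈ R, f t = 0) (P : Fin 3) (x : H) : L.E R (L.lr f P x) = L.E R x := by
  have cf : Bm fun t => Complex.cos (f t) := hf.comp Complex.continuous_cos
  have sf : Bm fun t => Complex.sin (f t) := hf.comp Complex.continuous_sin
  rw [lr_apply, map_sub, map_smul]
  unfold E
  rw [L.b_mul (Bm.ndc hR) cf, L.b_mul (Bm.ndc hR) sf]
  have e1 : (fun t => R.indicator (fun _ => (1 : ℂ)) t * Complex.cos (f t))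
      = R.indicator fun _ => 1 := by
    funext t
    by_cases ht : t ∈ R
    · simp [ht, hfR t ht]
    · simp [ht]
  have e2 : (fun t => R.indicator (fun _ => (1 : ℂ)) t * Complex.sin (f t)) = fun _ => 0 := by
    funext t
    by_cases ht : t ∈ R
    · simp [ht, hfR t ht]
    · simp [ht]
  rw [e1, e2, L.b_const, zero_smul, smul_zero, sub_zero]

/-- self-adjoint label functions may be taken real -/
lemma lab_real {f : ℝ → ℂ} (hf : Bm f) (hs : Sa (L.lab f)) :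
    Br (fun t => ((f t).re : ℂ)) ∧ L.lab (fun t => ((f t).re : ℂ)) = L.lab f := by
  have e : (fun t => ((f t).re : ℂ)) = fun t => (1 / 2 : ℂ) * (f t + (starRingEnd ℂ) (f t)) := by
    funext t
    rw [Complex.re_eq_add_conj]
    ring
  have hB : Bm (fun t => ((f t).re : ℂ)) := by
    rw [e]; exact (hf.ad hf.cj).cm _
  refine ⟨⟨hB, fun t => Complex.ofReal_im _⟩, ?_⟩
  have h1 : L.lab (fun t => (starRingEnd ℂ) (f t)) = L.lab f := by
    ext x
    refine ext_inner_left ℂ fun y => ?_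
    rw [← L.lab_adj f hf, hs]
  rw [e, ← L.b_csmul (hf.ad hf.cj), L.lab_add f _ hf hf.cj, h1]
  module

/-! ### closure properties -/

variable {L} in
lemma Rch0.rotl {G M R : Set ℝ} {V : H ≃ₗᵢ[ℂ] H} (h : L.Rch0 G M R V) {f : ℝ → ℂ} (hf : Br f)
    (hfM : ∀ t, t ∉ M → f t = 0) {P : Fin 3} {U : H ≃ₗᵢ[ℂ] H} (hU : L.IsRot (L.lab f) P U) :
    L.Rch0 G M R (U * V) := by
  obtain ⟨⟨hM, hR, hMR, hG⟩, hc, ha⟩ := h
  have hU' := (L.b_isRot hf.1 P U).1 hU
  have hUlab : ∀ g, Bm g → ∀ x, L.lab g (U x) = U (L.lab g x) := by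
    intro g hg x
    rw [hU', hU', L.b_lr_lab hf.1 hg]
  refine ⟨⟨hM, hR, hMR, hG⟩, ?_, ?_⟩
  · intro g hg x
    change L.lab g (U (V x)) = U (V (L.lab g x))
    rw [hUlab g hg, hc g hg]
  · intro s ε hε
    obtain ⟨U1, g, hW, hg, hR1, hs⟩ := ha s ε hε
    refine ⟨U * U1, g, Wd.L f P U U1 hW hf hU, hg, ?_, ?_⟩
    · intro x
      change L.E R (U (U1 x)) = _
      rw [hU', L.lr_off hf.1 hR (fun t ht => hfM t ((Set.disjoint_right.1 hMR) ht)), hR1]
    · intro x hx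
      change ‖L.E M (U (U1 x)) - L.phl g (L.E M (U (V x)))‖ < ε
      have e1 : L.E M (U (U1 x)) = U (L.E M (U1 x)) := hUlab _ (Bm.ndc hM) _
      have e2 : L.E M (U (V x)) = U (L.E M (V x)) := hUlab _ (Bm.ndc hM) _
      have e3 : L.phl g (U (L.E M (V x))) = U (L.phl g (L.E M (V x))) := hUlab _ hg.expm _
      rw [e1, e2, e3, ← map_sub, U.norm_map]
      exact hs x hx

variable {L} in
lemma Rch0.coup {G M R : Set ℝ} {V : H ≃ₗᵢ[ℂ] H} (h : L.Rch0 G M R V) {A B : Set ℝ}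
    {P Q : Fin 3} {c : ℝ} {U : H ≃ₗᵢ[ℂ] H} (hA : MeasurableSet A) (hB : MeasurableSet B)
    (hAM : A ⊆ M) (hBM : B ⊆ M) (hAB : Disjoint A B) (hU : L.IsCoup A B P Q c V U) :
    L.Rch0 G M R (U * V) := by
  obtain ⟨⟨hM, hR, hMR, hG⟩, hc, ha⟩ := h
  refine ⟨⟨hM, hR, hMR, hG⟩, ?_, ?_⟩
  · intro g hg x
    change L.lab g (U (V x)) = U (V (L.lab g x))
    rw [L.coup_lab hA hB hU hg, hc g hg]
  · intro s ε hε
    classical
    obtain ⟨δ1, hδ1, h1⟩ := L.pw_cont P ((c : ℂ) • L.fv (L.pau Q) B V)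
      (s.image fun x => L.E A (V x)) (ε := ε / 3) (by positivity)
    obtain ⟨δ2, hδ2, h2⟩ := L.pw_cont Q ((c : ℂ) • L.fv (L.pau P) A V)
      (s.image fun x => L.E B (V x)) (ε := ε / 3) (by positivity)
    set η : ℝ := min (ε / 3) (min (δ1 / (2 * |c| + 2)) (δ2 / (2 * |c| + 2))) with hη
    have hc0 : 0 ≤ |c| := abs_nonneg c
    have hη0 : 0 < η := by
      refine lt_min (by positivity) (lt_min ?_ ?_) <;> positivity
    obtain ⟨U1, g, hW, hg, hR1, hs⟩ := ha (s ∪ {L.Om, V⁻¹ (L.pau Q (V L.Om)),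
      V⁻¹ (L.pau P (V L.Om))}) η hη0
    obtain ⟨U2, hC, hW2⟩ := L.b_coup hW hA hB hAB P Q c
    have hWl := Wd.lab L hW
    have hOm := hs L.Om (by simp)
    have hzQ := hs (V⁻¹ (L.pau Q (V L.Om))) (by simp)
    have hzP := hs (V⁻¹ (L.pau P (V L.Om))) (by simp)
    have c1 : ‖L.fv (L.pau Q) B U1 - L.fv (L.pau Q) B V‖ < 2 * η := by
      unfold fv
      rw [← map_sub, LinearIsometry.norm_map]
      have := L.xv_close (V := V) (g := g) hM hB hBM hWl Q
      linarith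
    have c2 : ‖L.fv (L.pau P) A U1 - L.fv (L.pau P) A V‖ < 2 * η := by
      unfold fv
      rw [← map_sub, LinearIsometry.norm_map]
      have := L.xv_close (V := V) (g := g) hM hA hAM hWl P
      linarith
    have d1 : ‖(c : ℂ) • L.fv (L.pau Q) B U1 - (c : ℂ) • L.fv (L.pau Q) B V‖ < δ1 := by
      rw [← smul_sub, norm_smul, Complex.norm_real, Real.norm_eq_abs]
      have h3 : η ≤ δ1 / (2 * |c| + 2) := (min_le_right _ _).trans (min_le_left _ _)
      rw [le_div_iff₀ (by positivity)] at h3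
      nlinarith
    have d2 : ‖(c : ℂ) • L.fv (L.pau P) A U1 - (c : ℂ) • L.fv (L.pau P) A V‖ < δ2 := by
      rw [← smul_sub, norm_smul, Complex.norm_real, Real.norm_eq_abs]
      have h3 : η ≤ δ2 / (2 * |c| + 2) := (min_le_right _ _).trans (min_le_right _ _)
      rw [le_div_iff₀ (by positivity)] at h3
      nlinarith
    refine ⟨U2 * U1, g, hW2, hg, ?_, ?_⟩
    · intro x
      change L.E R (U2 (U1 x)) = _
      rw [L.coup_off hA hB hR (hMR.mono_left hAM) (hMR.mono_left hBM) hC, hR1]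
    · intro x hx
      change ‖L.E M (U2 (U1 x)) - L.phl g (L.E M (U (V x)))‖ < ε
      have e1 : L.E M (U2 (U1 x)) = U2 (L.E M (U1 x)) := L.coup_lab hA hB hC (Bm.ndc hM) _
      have e2 : U2 (L.phl g (L.E M (V x))) = L.phl g (L.E M (U2 (V x))) := by
        have k1 : L.phl g (U2 (L.E M (V x))) = U2 (L.phl g (L.E M (V x))) :=
          L.coup_lab hA hB hC hg.expm _
        have k2 : L.E M (U2 (V x)) = U2 (L.E M (V x)) := L.coup_lab hA hB hC (Bm.ndc hM) _
        rw [← k1, k2]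
      have e3 : L.E M (U2 (U1 x)) - L.phl g (L.E M (U (V x)))
          = U2 (L.E M (U1 x) - L.phl g (L.E M (V x)))
            + L.phl g (L.E M (U2 (V x) - U (V x))) := by
        rw [e1, map_sub, e2, map_sub, map_sub]
        abel
      have e4 : U2 (V x) - U (V x)
          = (L.pw (L.pau P) ((c : ℂ) • L.fv (L.pau Q) B U1) (L.E A (V x))
              - L.pw (L.pau P) ((c : ℂ) • L.fv (L.pau Q) B V) (L.E A (V x)))
            + (L.pw (L.pau Q) ((c : ℂ) • L.fv (L.pau P) A U1) (L.E B (V x))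
              - L.pw (L.pau Q) ((c : ℂ) • L.fv (L.pau P) A V) (L.E B (V x))) := by
        rw [hC, hU]
        abel
      have f1 : ‖L.E M (U1 x) - L.phl g (L.E M (V x))‖ < ε / 3 :=
        (hs x (Finset.mem_union_left _ hx)).trans_le (min_le_left _ _)
      have f2 := h1 _ d1 (L.E A (V x)) (Finset.mem_image_of_mem _ hx)
      have f3 := h2 _ d2 (L.E B (V x)) (Finset.mem_image_of_mem _ hx)
      have f4 : ‖U2 (V x) - U (V x)‖ < ε / 3 + ε / 3 := by
        rw [e4]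
        exact (norm_add_le _ _).trans_lt (add_lt_add f2 f3)
      rw [e3]
      refine (norm_add_le _ _).trans_lt ?_
      rw [U2.norm_map, L.phl_norm hg]
      have f5 := L.b_Enorm hM (U2 (V x) - U (V x))
      linarith

/-- **level 0 reachability is closed** -/
theorem closed0 {G : Set ℝ} (hG : MeasurableSet G) : L.Closed G L.alg0 (L.Rch0 G) where
  meas M R V h := h.1
  comm := by
    rintro M R V h _ ⟨f, hf, rfl⟩ x
    exact h.2.1 f hf x
  lim := by
    intro M R V V0 h hc hl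
    obtain ⟨⟨hM, hR, hMR, hGM⟩, -, -⟩ := h 0
    refine ⟨⟨hM, hR, hMR, hGM⟩, fun f hf x => hc _ ⟨f, hf, rfl⟩ x, ?_⟩
    intro s ε hε
    have h1 : ∀ᶠ n in atTop, ∀ x ∈ s, ‖L.E M (V n x) - L.E M (V0 x)‖ < ε / 2 := by
      rw [Filter.eventually_all_finset]
      intro x _
      have h2 := hl x
      rw [Metric.tendsto_nhds] at h2
      filter_upwards [h2 (ε / 2) (by positivity)] with n hn
      rwa [← dist_eq_norm]
    obtain ⟨n, hn⟩ := h1.exists
    obtain ⟨U, g, hW, hg, hR1, hs⟩ := (h n).2.2 s (ε / 2) (by positivity)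
    refine ⟨U, g, hW, hg, hR1, fun x hx => ?_⟩
    have e : L.E M (U x) - L.phl g (L.E M (V0 x))
        = (L.E M (U x) - L.phl g (L.E M (V n x)))
          + L.phl g (L.E M (V n x) - L.E M (V0 x)) := by
      rw [map_sub]; abel
    rw [e]
    refine (norm_add_le _ _).trans_lt ?_
    rw [L.phl_norm hg]
    have := hs x hx
    have := hn x hx
    linarith
  mono := by
    rintro M R R' V ⟨⟨hM, hR, hMR, hGM⟩, hc, ha⟩ hR' hRR
    refine ⟨⟨hM, hR', hMR.mono_right hRR, hGM⟩, hc, fun s ε hε => ?_⟩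
    obtain ⟨U, g, hW, hg, hR1, hs⟩ := ha s ε hε
    refine ⟨U, g, hW, hg, fun x => ?_, hs⟩
    rw [← L.b_Esub hR' hR hRR (U x), hR1, L.b_Esub hR' hR hRR]
  shrink := by
    rintro M M' R V ⟨⟨hM, hR, hMR, hGM⟩, hc, ha⟩ hM' hMM hGM'
    refine ⟨⟨hM', hR, hMR.mono_left hMM, hGM'⟩, hc, fun s ε hε => ?_⟩
    obtain ⟨U, g, hW, hg, hR1, hs⟩ := ha s ε hε
    refine ⟨U, g, hW, hg, hR1, fun x hx => ?_⟩
    have e : L.E M' (U x) - L.phl g (L.E M' (V x))
        = L.E M' (L.E M (U x) - L.phl g (L.E M (V x))) := by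
      rw [map_sub, ← L.phl_E hg hM', L.b_Esub hM' hM hMM, L.b_Esub hM' hM hMM]
    rw [e]
    exact (L.b_Enorm hM' _).trans_lt (hs x hx)
  act := by
    rintro M R R0 V V' ⟨⟨hM, hR, hMR, hGM⟩, hc, ha⟩ hR0 hRR hc' hMV hRV
    have hM0 : Disjoint M R0 := hMR.mono_right hRR
    refine ⟨⟨hM.union hR0, hR.diff hR0, ?_, hGM.trans Set.subset_union_left⟩,
      fun f hf x => hc' _ ⟨f, hf, rfl⟩ x, ?_⟩
    · rw [Set.disjoint_union_left]
      exact ⟨hMR.mono_right Set.sdiff_subset, Set.disjoint_sdiff_right⟩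
    · intro s ε hε
      obtain ⟨U, g, hW, hg, hR1, hs⟩ := ha s ε hε
      have hg' : Br (M.indicator g) := by
        refine ⟨⟨hg.1.1.indicator hM, ?_⟩, fun t => ?_⟩
        · obtain ⟨C, hC⟩ := hg.1.2
          refine ⟨C, fun t => ?_⟩
          by_cases ht : t ∈ M
          · rw [Set.indicator_of_mem ht]; exact hC t
          · rw [Set.indicator_of_notMem ht, norm_zero]; exact (norm_nonneg _).trans (hC t)
        · by_cases ht : t ∈ M
          · rw [Set.indicator_of_mem ht]; exact hg.2 t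
          · rw [Set.indicator_of_notMem ht, Complex.zero_im]
      refine ⟨U, M.indicator g, hW, hg', fun x => ?_, fun x hx => ?_⟩
      · have hd : R \ R0 ⊆ R := Set.sdiff_subset
        rw [← L.b_Esub (hR.diff hR0) hR hd (U x), hR1, L.b_Esub (hR.diff hR0) hR hd]
      · have e0 : L.E R0 (U x) = L.E R0 x := by
          rw [← L.b_Esub hR0 hR hRR (U x), hR1, L.b_Esub hR0 hR hRR]
        have e1 : L.phl (M.indicator g) (L.E M (V' x)) = L.phl g (L.E M (V x)) := by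
          rw [L.phl_congr hg' hg hM (fun t ht => Set.indicator_of_mem ht g), hMV]
        have e2 : L.phl (M.indicator g) (L.E R0 (V' x)) = L.E R0 x := by
          have hz : Br (fun _ => (0 : ℂ)) := by simpa using Br.cst 0
          rw [L.phl_congr hg' hz hR0 (fun t ht => Set.indicator_of_notMem
            ((Set.disjoint_right.1 hM0) ht) g), L.phl_zero, hRV]
        rw [L.b_Eunion hM hR0 hM0, L.b_Eunion hM hR0 hM0, map_add, e1, e2, e0,
          add_sub_add_right_eq_sub]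
        exact hs x hx
  rotl := by
    intro M R V f P U h hf hfi hfM hU
    exact h.rotl ⟨hf, hfi⟩ hfM hU
  rot := by
    rintro M R V _ P U h ⟨f, hf, rfl⟩ hsa hG' hU
    obtain ⟨hr, he⟩ := L.lab_real hf hsa
    have hb : Br (fun t => ((f t).re : ℂ) * G.indicator (fun _ => 1) t) := by
      refine ⟨hr.1.ml (Bm.ndc hG), fun t => ?_⟩
      by_cases ht : t ∈ G <;> simp [ht]
    have he2 : L.lab (fun t => ((f t).re : ℂ) * G.indicator (fun _ => 1) t) = L.lab f := by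
      rw [L.lab_mul _ _ hr.1 (Bm.ndc hG), he]
      exact hG'
    refine h.rotl hb (fun t ht => ?_) (he2 ▸ hU)
    have : t ∉ G := fun hh => ht (h.1.2.2.2 hh)
    simp [this]
  ph := by
    rintro M R V _ U h ⟨f, hf, rfl⟩ hsa hU
    obtain ⟨hr, he⟩ := L.lab_real hf hsa
    rw [← he] at hU
    have hU' := (L.b_isPh hr.1 U).1 hU
    obtain ⟨⟨hM, hR, hMR, hGM⟩, hc, ha⟩ := h
    refine ⟨⟨hM, hR, hMR, hGM⟩, ?_, ?_⟩
    · intro g hg x
      change L.lab g (U (V x)) = U (V (L.lab g x))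
      rw [hU', hU', ← hc g hg]
      exact L.b_comm hg hr.expm _
    · intro s ε hε
      obtain ⟨U1, g, hW, hg, hR1, hs⟩ := ha s ε hε
      refine ⟨U1, fun t => g t + -((f t).re : ℂ), hW, hg.ad hr.ng, hR1, fun x hx => ?_⟩
      change ‖L.E M (U1 x) - L.phl _ (L.E M (U (V x)))‖ < ε
      rw [hU', ← L.phl_E hr hM, L.phl_add (hg.ad hr.ng) hr]
      have e : (fun t => g t + -((f t).re : ℂ) + ((f t).re : ℂ)) = g := by
        funext t; ring
      rw [e]
      exact hs x hx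
  coup := by
    intro M R V A B P Q c U h hA hB hAM hBM hAB hU
    exact h.coup hA hB hAM hBM hAB hU

/-- the starting state -/
theorem start0 {G : Set ℝ} (hG : MeasurableSet G) : L.Rch0 G G Gᶜ 1 := by
  refine ⟨⟨hG, hG.compl, disjoint_compl_right, subset_rfl⟩, fun f _ x => rfl, fun s ε hε => ?_⟩
  refine ⟨1, fun _ => 0, Wd.one, by simpa using Br.cst 0, fun x => rfl, fun x _ => ?_⟩
  rw [L.phl_zero, sub_self, norm_zero]
  exact hε

/-- **exit**: reachable field vectors are approximated by field vectors of exact words -/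
theorem exit0 {G M R : Set ℝ} {V : H ≃ₗᵢ[ℂ] H} (h : L.Rch0 G M R V) {ε : ℝ} (hε : 0 < ε) :
    ∃ U, L.Wd U ∧ ‖L.E M (L.xv U) - L.E M (L.xv V)‖ < ε := by
  classical
  obtain ⟨⟨hM, hR, hMR, hGM⟩, hc, ha⟩ := h
  obtain ⟨U, g, hW, hg, hR1, hs⟩ := ha {L.Om, V⁻¹ (L.pau 2 (V L.Om))} (ε / 2) (by positivity)
  refine ⟨U, hW, ?_⟩
  have h1 := hs L.Om (by simp)
  have h2 := hs (V⁻¹ (L.pau 2 (V L.Om))) (by simp)
  have h3 := L.xv_close (V := V) (g := g) hM hM subset_rfl (Wd.lab L hW) 2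
  change ‖L.E M (U⁻¹ (L.pau 2 (U L.Om))) - L.E M (V⁻¹ (L.pau 2 (V L.Om)))‖ < ε
  linarith

end LSys

end Vale.Agent.P367.A
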