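import Vale.Agent.P367.B.Base4

/-! P367, block B, BASE: the field `reach` of `IsBase` from the exit of exact words. -/

namespace Vale.Agent.P367.A

open Complex Filter Topology MeasureTheory

namespace LSys

variable {H K : Type*} [NormedAddCommGroup H] [InnerProductSpace ℂ H]
  [NormedAddCommGroup K] [InnerProductSpace ℂ K] (L : LSys H K)

lemma b_normEOm {b : Set ℝ} (hb : MeasurableSet b) : ‖L.E b L.Om‖ = Real.sqrt (L.mu.real b) := by
  have h1 := L.lab_vac _ (Bm.ndc hb) 0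
  rw [L.W_zero_apply, norm_zero] at h1
  have h2 : ((‖L.E b L.Om‖ ^ 2 : ℝ) : ℂ) = ((L.mu.real b : ℝ) : ℂ) := by
    have h3 : (inner ℂ (L.E b L.Om) (L.E b L.Om) : ℂ) = inner ℂ L.Om (L.E b L.Om) := by
      rw [L.b_Esa hb, L.b_Eidem hb]
    rw [inner_self_eq_norm_sq_to_K] at h3
    have h4 : (inner ℂ L.Om (L.E b L.Om) : ℂ) = ((L.mu.real b : ℝ) : ℂ) := by
      refine Eq.trans h1 ?_
      have h5 : (∫ t, b.indicator (fun _ => (1 : ℂ)) t ∂L.mu) = ((L.mu.real b : ℝ) : ℂ) := by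
        rw [integral_indicator hb, setIntegral_const]
        simp
      rw [h5]
      simp
    rw [h4] at h3
    rw [← h3]
    push_cast
    rfl
  have h3 : ‖L.E b L.Om‖ ^ 2 = L.mu.real b := Complex.ofReal_injective h2
  rw [← h3, Real.sqrt_sq (norm_nonneg _)]

lemma b_normExv {U : H ≃ₗᵢ[ℂ] H} (hU : ∀ f, Bm f → ∀ x, L.lab f (U x) = U (L.lab f x))
    {b : Set ℝ} (hb : MeasurableSet b) : ‖L.E b (L.xv U)‖ = Real.sqrt (L.mu.real b) := by
  have h1 : ∀ y, L.E b (U⁻¹ y) = U⁻¹ (L.E b y) :=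
    fun y => b_inv_comm (T := L.E b) (fun z => hU _ (Bm.ndc hb) z) y
  have h2 : L.E b (L.Z (U L.Om)) = L.Z (U (L.E b L.Om)) := by
    have h3 : L.E b (L.Z (U L.Om)) = L.Z (L.E b (U L.Om)) := L.lab_Z _ _
    have h4 : L.E b (U L.Om) = U (L.E b L.Om) := hU _ (Bm.ndc hb) _
    rw [h3, h4]
  change ‖L.E b (U⁻¹ (L.Z (U L.Om)))‖ = _
  rw [h1, (U⁻¹).norm_map, h2, L.Z.norm_map, U.norm_map, L.b_normEOm hb]

/-- distance of a field vector of a word to a vector on the labels in `M` -/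
lemma b_dist {U : H ≃ₗᵢ[ℂ] H} (hU : ∀ f, Bm f → ∀ x, L.lab f (U x) = U (L.lab f x))
    {M : Set ℝ} (hM : MeasurableSet M) (x : H) :
    ‖L.xv U - x‖ ≤ ‖L.E M (L.xv U) - x‖ + Real.sqrt (L.mu.real Mᶜ) := by
  have h1 : L.xv U = L.E M (L.xv U) + L.E Mᶜ (L.xv U) := by
    rw [← L.b_Eunion hM hM.compl disjoint_compl_right, Set.union_compl_self]
    unfold E
    rw [Set.indicator_univ, L.b_const, one_smul]
  have h2 : L.xv U - x = (L.E M (L.xv U) - x) + L.E Mᶜ (L.xv U) := by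
    conv_lhs => rw [h1]
    abel
  rw [h2]
  refine (norm_add_le _ _).trans ?_
  rw [L.b_normExv hU hM.compl]

/-- the energy functional is Lipschitz on the unit ball -/
lemma En_lip {J : K → H} (hJs : ∀ u v, J (u - v) = J u - J v) (hJn : ∀ u, ‖J u‖ ≤ ‖u‖) (x y : H)
    (hx : ‖x‖ ≤ 1) (hy : ‖y‖ ≤ 1) : |L.En J x - L.En J y| ≤ 2 * ‖x - y‖ := by
  have e : L.En J x - L.En J y = (inner ℂ (x - y) (J (L.iota x)) : ℂ).re
      + (inner ℂ y (J (L.iota (x - y))) : ℂ).re := by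
    unfold En
    rw [map_sub, hJs, inner_sub_left, inner_sub_right, Complex.sub_re, Complex.sub_re]
    ring
  rw [e]
  have h1 : |(inner ℂ (x - y) (J (L.iota x)) : ℂ).re| ≤ ‖x - y‖ := by
    refine (Complex.abs_re_le_norm _).trans ((norm_inner_le_norm _ _).trans ?_)
    have := hJn (L.iota x)
    rw [L.iota.norm_map] at this
    nlinarith [norm_nonneg (x - y), norm_nonneg (J (L.iota x))]
  have h2 : |(inner ℂ y (J (L.iota (x - y))) : ℂ).re| ≤ ‖x - y‖ := by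
    refine (Complex.abs_re_le_norm _).trans ((norm_inner_le_norm _ _).trans ?_)
    have := hJn (L.iota (x - y))
    rw [L.iota.norm_map] at this
    nlinarith [norm_nonneg y, norm_nonneg (J (L.iota (x - y))), norm_nonneg (x - y)]
  refine (abs_add_le _ _).trans ?_
  linarith

/-- **the field `reach` of `IsBase`** -/
theorem base_reach {F K0 : Type} [NormedAddCommGroup F] [InnerProductSpace ℂ F]
    [NormedAddCommGroup K0] [InnerProductSpace ℂ K0] (S : NI.Weyl F K0) (J : K → H)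
    (hJ : ∀ x y : H, ‖x‖ ≤ 1 → ‖y‖ ≤ 1 → |L.En J x - L.En J y| ≤ 2 * ‖x - y‖)
    (hexit : ∀ U, L.Wd U → ∀ ε > 0, ∃ w : List NI.Gate, L.En J (L.xv U) - ε ≤ S.energy w) :
    ∀ G : Set ℝ, MeasurableSet G → ∃ Rch : Set ℝ → Set ℝ → (H ≃ₗᵢ[ℂ] H) → Prop,
      L.Closed G L.alg0 Rch ∧ Rch G Gᶜ 1 ∧
      ∀ M R V, Rch M R V → ∀ x : H, ‖x‖ ≤ 1 → L.E M x = x → ∀ ε > 0, ∃ w : List NI.Gate,
        L.En J x - 2 * (‖L.E M (L.xv V) - x‖ + Real.sqrt (L.mu.real Mᶜ) + ε) ≤ S.energy w := by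
  intro G hG
  refine ⟨L.Rch0 G, L.closed0 hG, L.start0 hG, ?_⟩
  intro M R V h x hx hMx ε hε
  obtain ⟨U, hW, hU⟩ := L.exit0 h (ε := ε / 2) (by positivity)
  obtain ⟨w, hw⟩ := hexit U hW ε hε
  refine ⟨w, ?_⟩
  have h1 := L.b_dist (Wd.lab L hW) h.1.1 x
  have h2 : ‖L.E M (L.xv U) - x‖ ≤ ‖L.E M (L.xv U) - L.E M (L.xv V)‖ + ‖L.E M (L.xv V) - x‖ :=
    norm_sub_le_norm_sub_add_norm_sub _ _ _
  have h3 := hJ x (L.xv U) hx (L.norm_xv U).le
  rw [norm_sub_rev] at h3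
  have h4 := (abs_le.1 h3).2
  linarith

end LSys

end Vale.Agent.P367.A
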