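import Vale.Agent.P367.B.LSys

/-! P367, block B, BASE: exact words of a label system and the basic reachability predicate. -/

namespace Vale.Agent.P367.A

open Complex Filter Topology MeasureTheory

namespace LSys

variable {H K : Type*} [NormedAddCommGroup H] [InnerProductSpace ℂ H]
  [NormedAddCommGroup K] [InnerProductSpace ℂ K] (L : LSys H K)

/-- real bounded measurable label functions -/
def Br (f : ℝ → ℂ) : Prop := Bm f ∧ ∀ t, (f t).im = 0

/-- exact words: `C` gates and label gates `exp(-i lab f P)` -/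
inductive Wd : (H ≃ₗᵢ[ℂ] H) → Prop
  | one : Wd 1
  | C (g : ℝ) (V : H ≃ₗᵢ[ℂ] H) : Wd V → Wd (L.zr ((g : ℂ) • L.iota (L.xv V)) * V)
  | L (f : ℝ → ℂ) (P : Fin 3) (U V : H ≃ₗᵢ[ℂ] H) : Wd V → Br f → L.IsRot (L.lab f) P U →
      Wd (U * V)

/-- the label functions as controls -/
def A0 : Set (H →L[ℂ] H) := {a | ∃ f, Bm f ∧ a = L.lab f}

/-- label phase `exp(-i g)` -/
noncomputable def phl (g : ℝ → ℂ) : H →L[ℂ] H := L.lab fun t => Complex.exp (-(Complex.I * g t))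

/-- basic reachability: strong closure of the words on the labels in `M`, modulo label phases -/
def Rch0 (G M R : Set ℝ) (V : H ≃ₗᵢ[ℂ] H) : Prop :=
  (MeasurableSet M ∧ MeasurableSet R ∧ Disjoint M R ∧ G ⊆ M) ∧
  (∀ f, Bm f → ∀ x, L.lab f (V x) = V (L.lab f x)) ∧
  ∀ (s : Finset H) (ε : ℝ), 0 < ε → ∃ U : H ≃ₗᵢ[ℂ] H, ∃ g : ℝ → ℂ, L.Wd U ∧ Br g ∧
    (∀ x, L.E R (U x) = L.E R x) ∧
    ∀ x ∈ s, ‖L.E M (U x) - L.phl g (L.E M (V x))‖ < ε

end LSys

end Vale.Agent.P367.A
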