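import Vale.Agent.P367.B.Gauge1

/-! P367 block B, gauge part 2: the label system of a cyclic Weyl system. -/

namespace Vale.Agent.P367.NI

open Complex Filter Topology MeasureTheory ProbabilityTheory

open Vale.Agent.P367.A (Bm LSys Sys hh_ext swp)

variable {F K : Type} [NormedAddCommGroup F] [InnerProductSpace ℂ F]
  [NormedAddCommGroup K] [InnerProductSpace ℂ K] [CompleteSpace F] (S : Weyl F K) (hS : S.Cyc)

/-- one-particle space of the gauged system -/
abbrev KP (S : Weyl F K) : Type := ↥((Submodule.span ℂ {S.e0})ᗮ : Submodule ℂ K)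

omit [CompleteSpace F] in
lemma kp_perp (v : KP S) : inner ℂ S.e0 (v : K) = 0 :=
  Submodule.mem_orthogonal_singleton_iff_inner_right.1 v.2

/-- the sign operator as a unitary -/
noncomputable def soU : F ≃ₗᵢ[ℂ] F :=
  A.mkU (so S hS).toLinearMap (so S hS).toLinearMap (so_so S hS) (so_so S hS) (so_adj S hS)

@[simp] lemma soU_apply (x : F) : soU S hS x = so S hS x := rfl

/-- gauged `Z` -/
noncomputable def zg : HH F ≃ₗᵢ[ℂ] HH F := dg (soU S hS) ((soU S hS).trans (LinearIsometryEquiv.neg ℂ))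

@[simp] lemma zg_fst (x : HH F) : (zg S hS x).fst = so S hS x.fst := rfl
@[simp] lemma zg_snd (x : HH F) : (zg S hS x).snd = -so S hS x.snd := rfl

/-- gauged Weyl operator on the one-site space -/
noncomputable def wgH (v : KP S) : HH F ≃ₗᵢ[ℂ] HH F :=
  dg (wgU S hS (kp_perp S v)) (wgU S hS (kp_perp S v))

@[simp] lemma wgH_fst (v : KP S) (x : HH F) : (wgH S hS v x).fst = wg S hS v x.fst := rfl
@[simp] lemma wgH_snd (v : KP S) (x : HH F) : (wgH S hS v x).snd = wg S hS v x.snd := rfl

/-- gauged embedding -/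
noncomputable def iotag : HH F →ₗᵢ[ℂ] KP S where
  toFun x := ⟨S.iota (dg (soU S hS) (soU S hS) x),
    Submodule.mem_orthogonal_singleton_iff_inner_right.2 (S.e0_perp _)⟩
  map_add' x y := by
    apply Subtype.ext
    change S.iota (dg (soU S hS) (soU S hS) (x + y)) = S.iota _ + S.iota _
    rw [map_add, map_add]
  map_smul' c x := by
    apply Subtype.ext
    change S.iota (dg (soU S hS) (soU S hS) (c • x)) = c • S.iota _
    rw [map_smul, map_smul]
  norm_map' x := by
    change ‖S.iota (dg (soU S hS) (soU S hS) x)‖ = ‖x‖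
    rw [S.iota.norm_map, LinearIsometryEquiv.norm_map]

lemma iotag_coe (x : HH F) : (iotag S hS x : K) = S.iota (dg (soU S hS) (soU S hS) x) := rfl

/-- block diagonal operator -/
noncomputable def dl (T : F →L[ℂ] F) : HH F →L[ℂ] HH F :=
  LinearMap.mkContinuous
    { toFun := fun x => WithLp.toLp 2 (T x.fst, T x.snd)
      map_add' := fun x y => hh_ext (map_add T x.fst y.fst) (map_add T x.snd y.snd)
      map_smul' := fun c x => hh_ext (map_smul T c x.fst) (map_smul T c x.snd) } ‖T‖
    (fun x => by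
      refine abs_le_of_sq_le_sq' ?_ (by positivity) |>.2
      rw [normsq_HH]
      change ‖T x.fst‖ ^ 2 + ‖T x.snd‖ ^ 2 ≤ _
      have h1 := T.le_opNorm x.fst
      have h2 := T.le_opNorm x.snd
      rw [mul_pow, normsq_HH x, mul_add, ← mul_pow, ← mul_pow]
      gcongr)

omit [CompleteSpace F] in
@[simp] lemma dl_fst (T : F →L[ℂ] F) (x : HH F) : (dl T x).fst = T x.fst := rfl
omit [CompleteSpace F] in
@[simp] lemma dl_snd (T : F →L[ℂ] F) (x : HH F) : (dl T x).snd = T x.snd := rfl

/-- label functions of the gauged system -/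
noncomputable def labg (f : ℝ → ℂ) : HH F →L[ℂ] HH F := dl (lf S hS fun t => f |t|)

@[simp] lemma labg_fst (f : ℝ → ℂ) (x : HH F) : (labg S hS f x).fst = lf S hS (fun t => f |t|) x.fst :=
  rfl
@[simp] lemma labg_snd (f : ℝ → ℂ) (x : HH F) : (labg S hS f x).snd = lf S hS (fun t => f |t|) x.snd :=
  rfl

lemma meas_abs : Measurable fun t : ℝ => |t| := measurable_norm

lemma bm_abs {f : ℝ → ℂ} (hf : Bm f) : Bm fun t => f |t| :=
  ⟨hf.1.comp meas_abs, hf.2.choose, fun _ => hf.2.choose_spec _⟩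

/-- law of the gauged label -/
noncomputable def mug : Measure ℝ := (gaussianReal 0 1).map (fun t => |t|)

instance : IsProbabilityMeasure mug := by
  unfold mug
  exact Measure.isProbabilityMeasure_map meas_abs.aemeasurable

lemma mug_noAtoms (t : ℝ) : mug {t} = 0 := by
  unfold mug
  rw [Measure.map_apply meas_abs (measurableSet_singleton t)]
  have h : (fun t : ℝ => |t|) ⁻¹' {t} ⊆ {t} ∪ {-t} := by
    intro x hx
    have hx' : |x| = t := hx
    rcases le_total 0 x with h | h
    · left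
      rw [abs_of_nonneg h] at hx'
      exact hx'
    · right
      rw [abs_of_nonpos h] at hx'
      change x = -t
      linarith
  have : NullSingletonClass (gaussianReal 0 1) := nullSingletonClass_gaussianReal (by norm_num)
  refine measure_mono_null h ?_
  rw [measure_union_null_iff]
  exact ⟨measure_singleton t, measure_singleton (-t)⟩

lemma integral_mug {f : ℝ → ℂ} (hf : Bm f) : ∫ t, f t ∂mug = ∫ t, f |t| ∂(gaussianReal 0 1) := by
  unfold mug
  exact integral_map meas_abs.aemeasurable hf.1.aestronglyMeasurable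

lemma wgH_vac (f : ℝ → ℂ) (hf : Bm f) (a : KP S) : inner ℂ S.OmH (labg S hS f (wgH S hS a S.OmH))
    = (∫ t, f t ∂mug) * Complex.exp (-((‖a‖ ^ 2 / 2 : ℝ) : ℂ)) := by
  have h1 := wg_vac S hS (bm_abs hf) (kp_perp S a)
  rw [inner_HH]
  change inner ℂ ((((Real.sqrt 2)⁻¹ : ℝ) : ℂ) • S.Om) (lf S hS (fun t => f |t|)
      (wg S hS a ((((Real.sqrt 2)⁻¹ : ℝ) : ℂ) • S.Om)))
    + inner ℂ ((((Real.sqrt 2)⁻¹ : ℝ) : ℂ) • S.Om) (lf S hS (fun t => f |t|)
      (wg S hS a ((((Real.sqrt 2)⁻¹ : ℝ) : ℂ) • S.Om))) = _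
  rw [map_smul, map_smul, inner_smul_left, inner_smul_right, Complex.conj_ofReal, h1, ← mul_assoc,
    A.sqrt_two_inv_sq, integral_mug hf]
  have e : ‖(a : K)‖ = ‖a‖ := rfl
  rw [e]
  ring

/-- projection on the first component -/
noncomputable def p0 (F : Type) [NormedAddCommGroup F] [InnerProductSpace ℂ F] : HH F →L[ℂ] HH F :=
  LinearMap.mkContinuous
    { toFun := fun x => WithLp.toLp 2 (x.fst, 0)
      map_add' := fun x y => hh_ext rfl (by change (0 : F) = 0 + 0; simp)
      map_smul' := fun c x => hh_ext rfl (by change (0 : F) = c • 0; simp) } 1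
    (fun x => by
      refine abs_le_of_sq_le_sq' ?_ (by positivity) |>.2
      rw [normsq_HH]
      change ‖x.fst‖ ^ 2 + ‖(0 : F)‖ ^ 2 ≤ _
      rw [one_mul, normsq_HH x, norm_zero]
      nlinarith [sq_nonneg ‖x.snd‖])

omit [CompleteSpace F] in
@[simp] lemma p0_fst (x : HH F) : (p0 F x).fst = x.fst := rfl
omit [CompleteSpace F] in
@[simp] lemma p0_snd (x : HH F) : (p0 F x).snd = 0 := rfl

/-- embedding of the first component -/
noncomputable def inl (F : Type) [NormedAddCommGroup F] [InnerProductSpace ℂ F] : F →L[ℂ] HH F :=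
  LinearMap.mkContinuous
    { toFun := fun x => WithLp.toLp 2 (x, 0)
      map_add' := fun x y => hh_ext rfl (by change (0 : F) = 0 + 0; simp)
      map_smul' := fun c x => hh_ext rfl (by change (0 : F) = c • 0; simp) } 1
    (fun x => by
      refine abs_le_of_sq_le_sq' ?_ (by positivity) |>.2
      rw [normsq_HH]
      change ‖x‖ ^ 2 + ‖(0 : F)‖ ^ 2 ≤ _
      rw [one_mul, norm_zero]
      nlinarith)

omit [CompleteSpace F] in
@[simp] lemma inl_fst (x : F) : (inl F x).fst = x := rfl
omit [CompleteSpace F] in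
@[simp] lemma inl_snd (x : F) : (inl F x).snd = 0 := rfl

lemma wg_split (a : K) (x : F) : (1 / 2 : ℂ) • (wg S hS a x + so S hS (wg S hS a x))
    + (1 / 2 : ℂ) • (wg S hS (-a) x - so S hS (wg S hS (-a) x)) = S.W a x := by
  simp only [wg_apply, neg_neg, map_add, map_sub, map_smul, so_so]
  module

/-- the density property of the gauged system -/
lemma gauge_cyc : (Submodule.span ℂ {x : HH F | ∃ (T : HH F →L[ℂ] HH F) (a : KP S),
      (∀ b y, wgH S hS b (T y) = T (wgH S hS b y)) ∧
      (∀ f, Bm f → ∀ y, labg S hS f (T y) = T (labg S hS f y)) ∧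
      x = T (wgH S hS a S.OmH)}).topologicalClosure = ⊤ := by
  set D := Submodule.span ℂ {x : HH F | ∃ (T : HH F →L[ℂ] HH F) (a : KP S),
      (∀ b y, wgH S hS b (T y) = T (wgH S hS b y)) ∧
      (∀ f, Bm f → ∀ y, labg S hS f (T y) = T (labg S hS f y)) ∧
      x = T (wgH S hS a S.OmH)} with hD
  -- members of the spanning set
  have h1 : ∀ (a : KP S) (k : ℝ) (ε : ℂ), inl F ((((1 / 2 : ℂ)) • (lf S hS (fun t => Complex.exp
      (Complex.I * ((k * t : ℝ) : ℂ))) (wg S hS a S.Om + ε • so S hS (wg S hS a S.Om))))) ∈ D := by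
    intro a k ε
    let A0 : F →L[ℂ] F := (((Real.sqrt 2 : ℝ) : ℂ) * (1 / 2 : ℂ)) • (lf S hS (fun t => Complex.exp
      (Complex.I * ((k * t : ℝ) : ℂ)))).comp (ContinuousLinearMap.id ℂ F + ε • so S hS)
    have hA : ∀ y, A0 y = (((Real.sqrt 2 : ℝ) : ℂ) * (1 / 2 : ℂ)) • lf S hS (fun t => Complex.exp
      (Complex.I * ((k * t : ℝ) : ℂ))) (y + ε • so S hS y) := fun y => rfl
    refine Submodule.subset_span ⟨(dl A0).comp (p0 F), a, fun b y => ?_, fun f _ y => ?_, ?_⟩
    · refine hh_ext ?_ ?_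
      · change wg S hS b (A0 y.fst) = A0 (wg S hS b y.fst)
        rw [hA, hA, map_smul, ← wg_lf S hS (kp_perp S b), map_add, map_smul]
        congr 3
        congr 1
        exact (wg_lf S hS (kp_perp S b) sg y.fst).symm
      · change wg S hS b (A0 0) = A0 0
        simp
    · refine hh_ext ?_ ?_
      · change lf S hS (fun t => f |t|) (A0 y.fst) = A0 (lf S hS (fun t => f |t|) y.fst)
        rw [hA, hA, map_smul, lf_comm_lf, map_add, map_smul, so_lf]
      · change lf S hS (fun t => f |t|) (A0 0) = A0 0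
        simp
    · refine hh_ext ?_ ?_
      · change _ = A0 (wg S hS a ((((Real.sqrt 2)⁻¹ : ℝ) : ℂ) • S.Om))
        have e3 : wg S hS a ((((Real.sqrt 2)⁻¹ : ℝ) : ℂ) • S.Om)
            = (((Real.sqrt 2)⁻¹ : ℝ) : ℂ) • wg S hS a S.Om := map_smul _ _ _
        have e4 : A0 ((((Real.sqrt 2)⁻¹ : ℝ) : ℂ) • wg S hS a S.Om)
            = (((Real.sqrt 2)⁻¹ : ℝ) : ℂ) • A0 (wg S hS a S.Om) := map_smul _ _ _
        rw [e3, e4, hA, smul_smul, inl_fst]
        congr 1
        rw [← mul_assoc, ← Complex.ofReal_mul, inv_mul_cancel₀ (by positivity), Complex.ofReal_one,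
          one_mul]
      · change (0 : F) = A0 0
        simp
  have h2 : ∀ (a : K) (k : ℝ), inner ℂ S.e0 a = 0 → inl F (S.W (a + (k : ℂ) • S.e0) S.Om) ∈ D := by
    intro a k ha
    let a' : KP S := ⟨a, Submodule.mem_orthogonal_singleton_iff_inner_right.2 ha⟩
    have e1 := D.add_mem (h1 a' k 1) (h1 (-a') k (-1))
    have e2 : S.W (a + (k : ℂ) • S.e0) S.Om
        = lf S hS (fun t => Complex.exp (Complex.I * ((k * t : ℝ) : ℂ))) (S.W a S.Om) := by
      rw [lf_We0, S.W_mul, inner_smul_left, ha, mul_zero, add_comm a]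
      simp
    have e3 : lf S hS (fun t => Complex.exp (Complex.I * ((k * t : ℝ) : ℂ)))
        ((1 / 2 : ℂ) • (wg S hS a S.Om + so S hS (wg S hS a S.Om))
          + (1 / 2 : ℂ) • (wg S hS (-a) S.Om - so S hS (wg S hS (-a) S.Om)))
      = (1 / 2 : ℂ) • lf S hS (fun t => Complex.exp (Complex.I * ((k * t : ℝ) : ℂ)))
          (wg S hS a S.Om + (1 : ℂ) • so S hS (wg S hS a S.Om))
        + (1 / 2 : ℂ) • lf S hS (fun t => Complex.exp (Complex.I * ((k * t : ℝ) : ℂ)))
          (wg S hS (-a) S.Om + (-1 : ℂ) • so S hS (wg S hS (-a) S.Om)) := by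
      rw [map_add, map_smul, map_smul, one_smul, neg_one_smul, ← sub_eq_add_neg]
    rw [e2, ← wg_split S hS a S.Om, e3, map_add]
    exact e1
  have h3 : ∀ y : F, inl F y ∈ D.topologicalClosure := by
    intro y
    have hy : y ∈ (Submodule.span ℂ {x : F | ∃ (a : K) (k : ℝ), inner ℂ S.e0 a = 0 ∧
      x = S.W (a + (k : ℂ) • S.e0) S.Om}).topologicalClosure := by
      rw [S.real_cyc hS]
      trivial
    have h4 : Submodule.span ℂ {x : F | ∃ (a : K) (k : ℝ), inner ℂ S.e0 a = 0 ∧
        x = S.W (a + (k : ℂ) • S.e0) S.Om} ≤ D.comap (inl F).toLinearMap := by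
      rw [Submodule.span_le]
      rintro _ ⟨a, k, ha, rfl⟩
      exact h2 a k ha
    have h5 : (inl F) '' (closure ((Submodule.span ℂ {x : F | ∃ (a : K) (k : ℝ), inner ℂ S.e0 a = 0 ∧
        x = S.W (a + (k : ℂ) • S.e0) S.Om} : Submodule ℂ F) : Set F)) ⊆ closure (D : Set (HH F)) := by
      refine (image_closure_subset_closure_image (inl F).continuous).trans (closure_mono ?_)
      rintro _ ⟨z, hz, rfl⟩
      exact h4 hz
    exact h5 ⟨y, hy, rfl⟩
  have h6 : ∀ x ∈ D, swp F x ∈ D := by
    intro x hx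
    rw [hD] at hx
    induction hx using Submodule.span_induction with
    | mem x hx =>
      obtain ⟨T, a, hT1, hT2, rfl⟩ := hx
      refine Submodule.subset_span ⟨((swp F).toContinuousLinearEquiv.toContinuousLinearMap).comp T,
        a, fun b y => ?_, fun f hf y => ?_, rfl⟩
      · change wgH S hS b (swp F (T y)) = swp F (T (wgH S hS b y))
        rw [← hT1]
        rfl
      · change labg S hS f (swp F (T y)) = swp F (T (labg S hS f y))
        rw [← hT2 f hf]
        rfl
    | zero => rw [map_zero]; exact D.zero_mem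
    | add x y _ _ hx hy => rw [map_add]; exact D.add_mem hx hy
    | smul c x _ hx => rw [map_smul]; exact D.smul_mem c hx
  have h7 : ∀ x ∈ D.topologicalClosure, swp F x ∈ D.topologicalClosure := by
    intro x hx
    have h8 : (swp F) '' (closure (D : Set (HH F))) ⊆ closure (D : Set (HH F)) := by
      refine (image_closure_subset_closure_image (swp F).continuous).trans (closure_mono ?_)
      rintro _ ⟨z, hz, rfl⟩
      exact h6 z hz
    exact h8 ⟨x, hx, rfl⟩
  rw [eq_top_iff]
  intro x _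
  have e : x = inl F x.fst + swp F (inl F x.snd) := hh_ext (by
    change x.fst = x.fst + 0
    rw [add_zero]) (by
    change x.snd = 0 + x.snd
    rw [zero_add])
  rw [e]
  exact D.topologicalClosure.add_mem (h3 _) (h7 _ (h3 _))

/-- the gauged label system -/
noncomputable def gaugeL (e1 : K) (h1 : ‖e1‖ = 1) (h01 : inner ℂ S.e0 e1 = 0)
    (hi : ∀ x, inner ℂ e1 (S.iota x) = 0) : LSys (HH F) (KP S) where
  X := swp F
  Z := zg S hS
  W := wgH S hS
  Om := S.OmH
  iota := iotag S hS
  e0 := ⟨e1, Submodule.mem_orthogonal_singleton_iff_inner_right.2 h01⟩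
  XX _ := rfl
  ZZ x := hh_ext (by simp [so_so]) (by simp [so_so])
  XZ x := hh_ext (by simp) (by simp)
  WW a b x := hh_ext (wg_wg S hS (kp_perp S a) x.fst) (wg_wg S hS (kp_perp S a) x.snd)
  WX _ _ := rfl
  WZ a x := hh_ext (by
      simp only [wgH_fst, zg_fst]
      exact (wg_lf S hS (kp_perp S a) sg x.fst).symm) (by
      simp only [wgH_snd, zg_snd, map_neg]
      rw [neg_inj]
      exact (wg_lf S hS (kp_perp S a) sg x.snd).symm)
  XOm := rfl
  nOm := A.omH_norm S
  vac a := by
    have h := wgH_vac S hS (fun _ => 1) ⟨measurable_const, 1, fun _ => by simp⟩ a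
    have e : labg S hS (fun _ => 1) (wgH S hS a S.OmH) = wgH S hS a S.OmH :=
      hh_ext (by simp only [labg_fst, lf_const, one_smul]) (by simp only [labg_snd, lf_const, one_smul])
    rw [e] at h
    simpa using h
  ne0 := h1
  e0perp x := hi _
  mu := mug
  prob := inferInstance
  noAtoms := mug_noAtoms
  lab := labg S hS
  lab_const c := ContinuousLinearMap.ext fun x =>
    hh_ext (lf_const S hS c x.fst) (lf_const S hS c x.snd)
  lab_add f g hf hg := ContinuousLinearMap.ext fun x =>
    hh_ext (lf_add S hS (bm_abs hf) (bm_abs hg) x.fst) (lf_add S hS (bm_abs hf) (bm_abs hg) x.snd)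
  lab_mul f g hf hg := ContinuousLinearMap.ext fun x =>
    hh_ext (lf_mul S hS (bm_abs hf) (bm_abs hg) x.fst) (lf_mul S hS (bm_abs hf) (bm_abs hg) x.snd)
  lab_adj f hf x y := by
    rw [inner_HH, inner_HH]
    simp only [labg_fst, labg_snd]
    rw [lf_adj S hS (bm_abs hf), lf_adj S hS (bm_abs hf)]
  lab_X _ _ := rfl
  lab_Z f x := hh_ext (by simp [so_lf]) (by simp [so_lf])
  lab_W f a x := hh_ext (wg_lf S hS (kp_perp S a) _ x.fst) (wg_lf S hS (kp_perp S a) _ x.snd)
  lab_vac := wgH_vac S hS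
  cyc := gauge_cyc S hS

end Vale.Agent.P367.NI
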