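import Vale.Agent.P367.NI.FCh
import Vale.Agent.P367.B.Gauge2

/-! P367 block B: the functional calculus of the gauged label system. -/

namespace Vale.Agent.P367.NI

open Complex Filter Topology MeasureTheory ProbabilityTheory

open Vale.Agent.P367.A (Bm LSys Sys hh_ext swp)

open Vale.Agent.P367.A.LSys (Bmn)

variable {F K : Type} [NormedAddCommGroup F] [InnerProductSpace ℂ F]
  [NormedAddCommGroup K] [InnerProductSpace ℂ K] [CompleteSpace F] (S : Weyl F K) (hS : S.Cyc)

omit [CompleteSpace F] in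
lemma gfc_on {n : ℕ} {y : Fin n → KP S} (hy : Orthonormal ℂ y) :
    Orthonormal ℂ (wv S fun i => ((y i : KP S) : K)) := by
  refine orthonormal_wv S ?_ (fun i => kp_perp S (y i))
  rw [orthonormal_iff_ite] at hy ⊢
  intro i j
  exact hy i j

omit [CompleteSpace F] in
lemma gfc_lc {n : ℕ} (y : Fin n → KP S) (k : Fin n → ℝ) :
    (((∑ i, (k i : ℂ) • y i : KP S)) : K) = lc (fun i => ((y i : KP S) : K)) k := by
  unfold lc
  rw [Submodule.coe_sum]
  rfl

/-- **functional calculus of the gauged label system** -/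
theorem fcal_gaugeL (e1 : K) (h1 : ‖e1‖ = 1) (h01 : inner ℂ S.e0 e1 = 0)
    (hi : ∀ x, inner ℂ e1 (S.iota x) = 0) (n : ℕ) (y : Fin n → KP S) (hy : Orthonormal ℂ y) :
    ∃ fc, (gaugeL S hS e1 h1 h01 hi).FCal y fc := by
  set L := gaugeL S hS e1 h1 h01 hi with hL
  have hw := gfc_on S hy
  have hlab : ∀ f, Bm f → gfH S hS hw (fun z => f z.1) = L.lab f := by
    intro f hf
    ext1 x
    exact hh_ext (gf_lab S hS hw hf x.fst) (gf_lab S hS hw hf x.snd)
  have hW : ∀ (k : Fin n → ℝ) x,
      gfH S hS hw (fun z => Complex.exp (Complex.I * ((∑ i, k i * z.2 i : ℝ) : ℂ))) x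
        = L.W (∑ i, (k i : ℂ) • y i) x := by
    intro k x
    refine hh_ext ?_ ?_
    · change gf S hS hw _ x.fst = wg S hS ((∑ i, (k i : ℂ) • y i : KP S) : K) x.fst
      rw [gfc_lc]
      exact gf_W S hS hw k x.fst
    · change gf S hS hw _ x.snd = wg S hS ((∑ i, (k i : ℂ) • y i : KP S) : K) x.snd
      rw [gfc_lc]
      exact gf_W S hS hw k x.snd
  refine ⟨gfH S hS hw, ?_⟩
  exact
    { lab := hlab
      W := hW
      add := fun f g hf hg => gfH_add S hS hw hf hg
      mul := fun f g hf hg => gfH_mul S hS hw hf hg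
      adj := fun f hf x x' => gfH_adj S hS hw hf x x'
      norm := fun f hf C hC x => gfH_norm S hS hw hf hC x
      comm := fun f hf B hB1 hB2 => by
        refine gfH_comm S hS hw B (fun g hg x => ?_) (fun k x => ?_) hf
        · rw [hlab g hg]
          exact DFunLike.congr_fun (hB1 g hg) x
        · rw [hW, hW]
          exact hB2 k x
      vac := fun f hf => gfH_vac S hS hw hf
      lim := fun f f0 C hf hf0 hC h x => gfH_lim S hS hw hf hf0 hC h x }

end Vale.Agent.P367.NI
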