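import Vale.Agent.P367.B.Gauge4
import Vale.Agent.P367.B.GFcal
import Vale.Agent.P367.B.Base4

/-! P367 block B, BASE: the base statement. -/

namespace Vale.Agent.P367.NI

open Vale.Agent.P367.A (LSys)

/-- BASE -/
theorem baseStmt : LSys.BaseStmt :=
  gau_baseStmt
    (fun S hS e1 h1 h01 hi n y hy => fcal_gaugeL S hS e1 h1 h01 hi n y hy)
    (fun S hS e1 h1 h01 hi G hG => ⟨(gaugeL S hS e1 h1 h01 hi).Rch0 G,
      (gaugeL S hS e1 h1 h01 hi).closed0 hG, (gaugeL S hS e1 h1 h01 hi).start0 hG,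
      fun _ _ _ hV _ hε => (gaugeL S hS e1 h1 h01 hi).exit0 hV hε⟩)

end Vale.Agent.P367.NI
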