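import Vale.Agent.P367.NI.Soft

/-! P367 block B: bounded exponentials, Weyl families, and the limit of the own-batch gate. -/

namespace Vale.Agent.P367.B

open Filter Topology Complex

section expo

variable {E : Type} [NormedAddCommGroup E] [InnerProductSpace ℂ E] [CompleteSpace E]

/-- `exp(i A)` -/
noncomputable def ex (A : E →L[ℂ] E) : E →L[ℂ] E := NormedSpace.exp (Complex.I • A)

lemma ex_zero : ex (0 : E →L[ℂ] E) = 1 := by
  simp [ex]

lemma ex_add {A B : E →L[ℂ] E} (h : Commute A B) : ex (A + B) = ex A * ex B := by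
  unfold ex
  rw [smul_add]
  let +nondep : NormedAlgebra ℚ (E →L[ℂ] E) := .restrictScalars ℚ ℂ (E →L[ℂ] E)
  exact NormedSpace.exp_add_of_commute ((h.smul_left I).smul_right I)

lemma ex_neg_mul (A : E →L[ℂ] E) : ex (-A) * ex A = 1 := by
  rw [← ex_add (Commute.refl A).neg_left, neg_add_cancel, ex_zero]

lemma ex_mul_neg (A : E →L[ℂ] E) : ex A * ex (-A) = 1 := by
  rw [← ex_add (Commute.refl A).neg_right, add_neg_cancel, ex_zero]

lemma ex_commute {A B : E →L[ℂ] E} (h : Commute A B) : Commute (ex A) B := by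
  unfold ex
  exact (h.smul_left I).exp_left

lemma star_ex {A : E →L[ℂ] E} (hA : IsSelfAdjoint A) : star (ex A) = ex (-A) := by
  unfold ex
  rw [NormedSpace.star_exp, star_smul, hA.star_eq]
  congr 1
  rw [smul_neg, ← neg_smul]
  congr 1
  simp

lemma norm_ex {A : E →L[ℂ] E} (hA : IsSelfAdjoint A) (z : E) : ‖ex A z‖ = ‖z‖ := by
  have h : inner ℂ (ex A z) (ex A z) = inner ℂ z z := by
    rw [← ContinuousLinearMap.adjoint_inner_right, ← ContinuousLinearMap.star_eq_adjoint,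
      star_ex hA, ← mul_apply_eq_comp, ex_neg_mul]
    rfl
  have h2 := congrArg Complex.re h
  rw [show (inner ℂ (ex A z) (ex A z) : ℂ).re = ‖ex A z‖ ^ 2 from
      (norm_sq_eq_re_inner (𝕜 := ℂ) _).symm,
    show (inner ℂ z z : ℂ).re = ‖z‖ ^ 2 from (norm_sq_eq_re_inner (𝕜 := ℂ) _).symm] at h2
  exact (sq_eq_sq₀ (norm_nonneg _) (norm_nonneg _)).1 h2

/-- (O1) first order bound -/
lemma norm_ex_sub_one_le {A : E →L[ℂ] E} (hA : IsSelfAdjoint A) (z : E) :
    ‖ex A z - z‖ ≤ ‖A z‖ := by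
  have hd : ∀ t : ℝ, HasDerivAt (fun t : ℝ => NormedSpace.exp (t • (Complex.I • A)) z)
      ((NormedSpace.exp (t • (Complex.I • A)) * (Complex.I • A)) z) t := by
    intro t
    have h1 := hasDerivAt_exp_smul_const (𝕂 := ℝ) (Complex.I • A) t
    exact ((ContinuousLinearMap.apply ℂ E z).restrictScalars ℝ).hasFDerivAt.comp_hasDerivAt t h1
  have hb : ∀ t ∈ Set.Ico (0:ℝ) 1, ‖(NormedSpace.exp (t • (Complex.I • A)) * (Complex.I • A)) z‖
      ≤ ‖A z‖ := by
    intro t _
    have e : NormedSpace.exp (t • (Complex.I • A)) = ex (t • A) := by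
      unfold ex
      rw [smul_comm]
    have hs : IsSelfAdjoint (t • A) := by
      rw [isSelfAdjoint_iff, star_smul, hA.star_eq]
      simp
    rw [mul_apply_eq_comp, e, norm_ex hs, smul_apply, norm_smul,
      Complex.norm_I, one_mul]
  have := norm_image_sub_le_of_norm_deriv_le_segment_01'
    (fun t _ => (hd t).hasDerivWithinAt) hb
  simpa [ex] using this

lemma norm_ex_sub_ex_le {A B : E →L[ℂ] E} (hA : IsSelfAdjoint A) (hB : IsSelfAdjoint B)
    (h : Commute A B) (z : E) : ‖ex A z - ex B z‖ ≤ ‖(A - B) z‖ := by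
  have hc : Commute B (A - B) := (h.symm).sub_right (Commute.refl B)
  have e : ex A = ex B * ex (A - B) := by
    rw [← ex_add hc]
    congr 1
    abel
  rw [e, mul_apply_eq_comp, ← map_sub, norm_ex hB]
  exact norm_ex_sub_one_le (hA.sub hB) z

end expo

/-- a Weyl family of unitaries on a Hilbert space `E`, over the one-particle space `K` -/
structure WFam (K E : Type) [NormedAddCommGroup K] [InnerProductSpace ℂ K]
    [NormedAddCommGroup E] [InnerProductSpace ℂ E] where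
  /-- Weyl operators -/
  W : K → E ≃ₗᵢ[ℂ] E
  mul : ∀ (a b : K) (x : E), W a (W b x)
    = Complex.exp (-(Complex.I * ((inner ℂ a b).im : ℂ))) • W (a + b) x
  cont : ∀ x : E, Tendsto (fun a => W a x) (𝓝 0) (𝓝 x)

namespace WFam

variable {K E : Type} [NormedAddCommGroup K] [InnerProductSpace ℂ K]
  [NormedAddCommGroup E] [InnerProductSpace ℂ E] (T : WFam K E)

lemma W_zero (x : E) : T.W 0 x = x := by
  have h := T.mul 0 0 x
  simp only [inner_zero_left, zero_im, ofReal_zero, mul_zero, neg_zero, Complex.exp_zero,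
    one_smul, add_zero] at h
  exact (T.W 0).injective h

lemma mul_real {a b : K} (h : (inner ℂ a b : ℂ).im = 0) (x : E) :
    T.W a (T.W b x) = T.W (a + b) x := by
  rw [T.mul, h]
  simp

lemma W_neg_W (a : K) (x : E) : T.W (-a) (T.W a x) = x := by
  rw [T.mul_real, neg_add_cancel, T.W_zero]
  rw [inner_neg_left, neg_im, inner_self_im', neg_zero]
  where inner_self_im' : (inner ℂ a a : ℂ).im = 0 := inner_self_im (𝕜 := ℂ) a

lemma W_W_neg (a : K) (x : E) : T.W a (T.W (-a) x) = x := by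
  have := T.W_neg_W (-a) x
  rwa [neg_neg] at this

lemma W_symm (a : K) (x : E) : (T.W a).symm x = T.W (-a) x := by
  rw [LinearIsometryEquiv.symm_apply_eq, T.W_W_neg]

/-- the Weyl operator as a bounded operator -/
noncomputable def op (a : K) : E →L[ℂ] E := ((T.W a : E ≃ₗᵢ[ℂ] E).toContinuousLinearEquiv : E →L[ℂ] E)

@[simp] lemma op_apply (a : K) (x : E) : T.op a x = T.W a x := rfl

lemma norm_op_apply (a : K) (x : E) : ‖T.op a x‖ = ‖x‖ := (T.W a).norm_map x

lemma op_zero : T.op 0 = 1 := by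
  ext x
  exact T.W_zero x

lemma op_mul (a b : K) : T.op a * T.op b
    = Complex.exp (-(Complex.I * ((inner ℂ a b).im : ℂ))) • T.op (a + b) := by
  ext x
  exact T.mul a b x

lemma op_mul_real {a b : K} (h : (inner ℂ a b : ℂ).im = 0) : T.op a * T.op b = T.op (a + b) := by
  ext x
  exact T.mul_real h x

lemma inner_im_symm (a b : K) : (inner ℂ b a : ℂ).im = -(inner ℂ a b : ℂ).im := by
  rw [← inner_conj_symm (𝕜 := ℂ) b a, conj_im]

lemma op_commute {a b : K} (h : (inner ℂ a b : ℂ).im = 0) : Commute (T.op a) (T.op b) := by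
  unfold Commute SemiconjBy
  rw [T.op_mul_real h, T.op_mul_real (by rw [inner_im_symm, h, neg_zero]), add_comm]

/-- the commutation relation -/
lemma op_swap (a b : K) : T.op a * T.op b
    = Complex.exp (-(Complex.I * ((2 * (inner ℂ a b : ℂ).im : ℝ) : ℂ))) • (T.op b * T.op a) := by
  rw [T.op_mul, T.op_mul b a, smul_smul, ← Complex.exp_add, inner_im_symm a b, add_comm b a]
  congr 2
  push_cast
  ring

lemma op_neg_mul (a : K) : T.op (-a) * T.op a = 1 := by
  ext x
  exact T.W_neg_W a x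

lemma op_mul_neg (a : K) : T.op a * T.op (-a) = 1 := by
  ext x
  exact T.W_W_neg a x

lemma star_op [CompleteSpace E] (a : K) : star (T.op a) = T.op (-a) := by
  rw [ContinuousLinearMap.star_eq_adjoint]
  symm
  rw [ContinuousLinearMap.eq_adjoint_iff]
  intro x y
  have h := (T.W a).inner_map_map (T.W (-a) x) y
  rw [T.W_W_neg] at h
  exact h.symm

/-- `sin phi(v)` -/
noncomputable def sn (v : K) : E →L[ℂ] E := (2 * Complex.I)⁻¹ • (T.op v - T.op (-v))

/-- `cos phi(v)` -/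
noncomputable def cs (v : K) : E →L[ℂ] E := (2 : ℂ)⁻¹ • (T.op v + T.op (-v))

lemma sn_sa [CompleteSpace E] (v : K) : IsSelfAdjoint (T.sn v) := by
  rw [isSelfAdjoint_iff, sn, star_smul, star_sub, T.star_op, T.star_op, neg_neg,
    ← neg_sub (T.op v), smul_neg, ← neg_smul]
  congr 1
  simp

lemma cs_sa [CompleteSpace E] (v : K) : IsSelfAdjoint (T.cs v) := by
  rw [isSelfAdjoint_iff, cs, star_smul, star_add, T.star_op, T.star_op, neg_neg, add_comm]
  simp

/-- `C` commutes with all Weyl operators along `v` -/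
def Com (C : E →L[ℂ] E) (v : K) : Prop := ∀ t : ℝ, Commute C (T.op ((t : ℂ) • v))

lemma Com.neg_op {T : WFam K E} {C : E →L[ℂ] E} {v : K} (h : T.Com C v) (t : ℝ) :
    Commute C (T.op (-((t : ℂ) • v))) := by
  have := h (-t)
  rwa [ofReal_neg, neg_smul] at this

lemma Com.sn {T : WFam K E} {C : E →L[ℂ] E} {v : K} (h : T.Com C v) (t : ℝ) :
    Commute C (T.sn ((t : ℂ) • v)) := by
  unfold WFam.sn
  exact (((h t).sub_right (h.neg_op t)).smul_right _)

lemma Com.cs {T : WFam K E} {C : E →L[ℂ] E} {v : K} (h : T.Com C v) (t : ℝ) :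
    Commute C (T.cs ((t : ℂ) • v)) := by
  unfold WFam.cs
  exact (((h t).add_right (h.neg_op t)).smul_right _)

lemma im_smul_smul (s t : ℝ) {a b : K} (h : (inner ℂ a b : ℂ).im = 0) :
    (inner ℂ ((s : ℂ) • a) ((t : ℂ) • b) : ℂ).im = 0 := by
  rw [inner_smul_left, inner_smul_right, conj_ofReal, ← mul_assoc, ← ofReal_mul, im_ofReal_mul, h,
    mul_zero]

lemma im_self (a : K) : (inner ℂ a a : ℂ).im = 0 := inner_self_im (𝕜 := ℂ) a

lemma im_neg_left {a b : K} (h : (inner ℂ a b : ℂ).im = 0) : (inner ℂ (-a) b : ℂ).im = 0 := by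
  rw [inner_neg_left, neg_im, h, neg_zero]

lemma im_neg_right {a b : K} (h : (inner ℂ a b : ℂ).im = 0) : (inner ℂ a (-b) : ℂ).im = 0 := by
  rw [inner_neg_right, neg_im, h, neg_zero]

lemma sn_commute {a b : K} (h : (inner ℂ a b : ℂ).im = 0) : Commute (T.sn a) (T.sn b) := by
  unfold sn
  refine ((Commute.sub_left ?_ ?_).smul_left _)
  · exact ((T.op_commute h).sub_right (T.op_commute (im_neg_right h))).smul_right _
  · exact ((T.op_commute (im_neg_left h)).sub_right
      (T.op_commute (im_neg_left (im_neg_right h)))).smul_right _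

lemma sn_cs_commute {a b : K} (h : (inner ℂ a b : ℂ).im = 0) : Commute (T.sn a) (T.cs b) := by
  unfold sn cs
  refine ((Commute.sub_left ?_ ?_).smul_left _)
  · exact ((T.op_commute h).add_right (T.op_commute (im_neg_right h))).smul_right _
  · exact ((T.op_commute (im_neg_left h)).add_right
      (T.op_commute (im_neg_left (im_neg_right h)))).smul_right _

lemma cs_commute {a b : K} (h : (inner ℂ a b : ℂ).im = 0) : Commute (T.cs a) (T.cs b) := by
  unfold cs
  refine ((Commute.add_left ?_ ?_).smul_left _)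
  · exact ((T.op_commute h).add_right (T.op_commute (im_neg_right h))).smul_right _
  · exact ((T.op_commute (im_neg_left h)).add_right
      (T.op_commute (im_neg_left (im_neg_right h)))).smul_right _

lemma norm_W_neg_sub (v : K) (z : E) : ‖T.W (-v) z - z‖ = ‖T.W v z - z‖ := by
  rw [← (T.W v).norm_map (T.W (-v) z - z), map_sub, T.W_W_neg, norm_sub_rev]

lemma norm_sn_le (v : K) (z : E) : ‖T.sn v z‖ ≤ ‖T.W v z - z‖ := by
  have e : T.sn v z = (2 * Complex.I)⁻¹ • ((T.W v z - z) - (T.W (-v) z - z)) := by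
    change (2 * Complex.I)⁻¹ • (T.W v z - T.W (-v) z) = _
    congr 1
    abel
  rw [e, norm_smul, norm_inv, norm_mul, norm_I, mul_one]
  have h1 := norm_sub_le (T.W v z - z) (T.W (-v) z - z)
  rw [T.norm_W_neg_sub] at h1
  have h2 : ‖(2:ℂ)‖ = 2 := by simp
  rw [h2]
  linarith

lemma norm_sn_le' (v : K) (z : E) : ‖T.sn v z‖ ≤ ‖z‖ := by
  have e : T.sn v z = (2 * Complex.I)⁻¹ • (T.W v z - T.W (-v) z) := rfl
  rw [e, norm_smul, norm_inv, norm_mul, norm_I, mul_one]
  have h1 := norm_sub_le (T.W v z) (T.W (-v) z)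
  rw [LinearIsometryEquiv.norm_map, LinearIsometryEquiv.norm_map] at h1
  have h2 : ‖(2:ℂ)‖ = 2 := by simp
  rw [h2]
  linarith

lemma norm_cs_le' (v : K) (z : E) : ‖T.cs v z‖ ≤ ‖z‖ := by
  have e : T.cs v z = (2 : ℂ)⁻¹ • (T.W v z + T.W (-v) z) := rfl
  rw [e, norm_smul, norm_inv]
  have h1 := norm_add_le (T.W v z) (T.W (-v) z)
  rw [LinearIsometryEquiv.norm_map, LinearIsometryEquiv.norm_map] at h1
  have h2 : ‖(2:ℂ)‖ = 2 := by simp
  rw [h2]
  linarith

lemma norm_cs_sub_le (v : K) (z : E) : ‖T.cs v z - z‖ ≤ ‖T.W v z - z‖ := by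
  have e : T.cs v z - z = (2 : ℂ)⁻¹ • ((T.W v z - z) + (T.W (-v) z - z)) := by
    change (2 : ℂ)⁻¹ • (T.W v z + T.W (-v) z) - z = _
    module
  rw [e, norm_smul, norm_inv]
  have h1 := norm_add_le (T.W v z - z) (T.W (-v) z - z)
  rw [T.norm_W_neg_sub] at h1
  have h2 : ‖(2:ℂ)‖ = 2 := by simp
  rw [h2]
  linarith

/-- uniform smallness near `0` -/
lemma small (z : E) {κ : ℝ} (hκ : 0 < κ) : ∃ δ > 0, ∀ w : K, ‖w‖ < δ → ‖T.W w z - z‖ ≤ κ := by
  have h := Metric.tendsto_nhds_nhds.1 (T.cont z) κ hκ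
  obtain ⟨δ, hδ, h⟩ := h
  refine ⟨δ, hδ, fun w hw => ?_⟩
  have := h (x := w) (by rwa [dist_zero_right])
  rw [dist_eq_norm] at this
  exact this.le

/-- the one-parameter orbit -/
noncomputable def orb (v : K) (z : E) (t : ℝ) : E := T.W ((t : ℂ) • v) z

lemma W_orb (v : K) (z : E) (s t : ℝ) : T.W ((s : ℂ) • v) (T.orb v z t) = T.orb v z (s + t) := by
  unfold orb
  rw [T.mul_real (im_smul_smul s t (im_self v)), ← add_smul, ofReal_add]

lemma orb_zero (v : K) (z : E) : T.orb v z 0 = z := by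
  unfold orb
  rw [ofReal_zero, zero_smul, T.W_zero]

lemma continuous_orb (v : K) (z : E) : Continuous (T.orb v z) := by
  rw [continuous_iff_continuousAt]
  intro t
  have h1 : Tendsto (fun s : ℝ => (((s - t : ℝ)) : ℂ) • v) (𝓝 t) (𝓝 0) := by
    have : Continuous fun s : ℝ => (((s - t : ℝ)) : ℂ) • v := by fun_prop
    have h := this.tendsto t
    simpa using h
  have h2 := (T.cont z).comp h1
  have h3 := ((T.W ((t : ℂ) • v)).continuous.tendsto z).comp h2
  have e : (T.orb v z) = (T.W ((t : ℂ) • v)) ∘ ((fun a => T.W a z) ∘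
      (fun s : ℝ => (((s - t : ℝ)) : ℂ) • v)) := by
    funext s
    have := T.W_orb v z t (s - t)
    rw [add_sub_cancel] at this
    exact this.symm
  rw [ContinuousAt, e]
  simpa [T.W_zero] using h3

/-- mollified vector -/
noncomputable def moll (v : K) (z : E) (r : ℝ) : E := ((r : ℂ))⁻¹ • ∫ t in (0:ℝ)..r, T.orb v z t

variable [CompleteSpace E]

lemma norm_moll_sub_le (v : K) (z : E) {r : ℝ} (hr : 0 < r) {κ : ℝ}
    (h : ∀ t ∈ Set.Icc 0 r, ‖T.orb v z t - z‖ ≤ κ) : ‖T.moll v z r - z‖ ≤ κ := by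
  have e : T.moll v z r - z = ((r : ℂ))⁻¹ • ∫ t in (0:ℝ)..r, (T.orb v z t - z) := by
    rw [intervalIntegral.integral_sub ((T.continuous_orb v z).intervalIntegrable _ _)
      (by simp), smul_sub]
    congr 1
    rw [intervalIntegral.integral_const, sub_zero]
    have : (r : ℂ) ≠ 0 := by exact_mod_cast hr.ne'
    rw [show (r • z : E) = (r : ℂ) • z from (Complex.coe_smul r z).symm, smul_smul,
      inv_mul_cancel₀ this, one_smul]
  rw [e, norm_smul, norm_inv, norm_real, Real.norm_eq_abs, abs_of_pos hr]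
  have h2 : ‖∫ t in (0:ℝ)..r, (T.orb v z t - z)‖ ≤ κ * |r - 0| := by
    apply intervalIntegral.norm_integral_le_of_norm_le_const
    intro t ht
    rw [Set.uIoc_of_le hr.le] at ht
    exact h t ⟨ht.1.le, ht.2⟩
  rw [sub_zero, abs_of_pos hr] at h2
  rw [inv_mul_le_iff₀ hr]
  linarith

/-- shifting the mollifier: `sin` of the field on a mollified vector -/
lemma sn_moll (v : K) (z : E) (r μ : ℝ) : T.sn ((μ : ℂ) • v) (T.moll v z r)
    = (2 * Complex.I * r)⁻¹ • ∫ t in (-μ)..μ, (T.orb v z (r + t) - T.orb v z t) := by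
  have hc := T.continuous_orb v z
  have hi : ∀ a b : ℝ, IntervalIntegrable (T.orb v z) MeasureTheory.volume a b :=
    fun a b => hc.intervalIntegrable a b
  have h1 : ∀ s : ℝ, T.op ((s : ℂ) • v) (∫ t in (0:ℝ)..r, T.orb v z t)
      = ∫ t in s..(r + s), T.orb v z t := by
    intro s
    rw [← ContinuousLinearMap.intervalIntegral_comp_comm _ (hi 0 r)]
    have : (fun t => T.op ((s : ℂ) • v) (T.orb v z t)) = fun t => T.orb v z (t + s) := by
      funext t
      rw [op_apply, T.W_orb, add_comm]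
    rw [this, intervalIntegral.integral_comp_add_right, zero_add]
  have h2 := h1 μ
  have h3 := h1 (-μ)
  rw [ofReal_neg, neg_smul] at h3
  have h4 : (∫ t in μ..(r + μ), T.orb v z t) - (∫ t in (-μ)..(r + -μ), T.orb v z t)
      = ∫ t in (-μ)..μ, (T.orb v z (r + t) - T.orb v z t) := by
    have hi1 : IntervalIntegrable (fun t => T.orb v z (r + t)) MeasureTheory.volume (-μ) μ :=
      (hc.comp (continuous_const.add continuous_id)).intervalIntegrable _ _
    rw [intervalIntegral.integral_sub hi1 (hi _ _)]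
    have h5 : ∫ t in (-μ)..μ, T.orb v z (r + t) = ∫ t in (r + -μ)..(r + μ), T.orb v z t :=
      intervalIntegral.integral_comp_add_left _ _
    rw [h5]
    have h6 := intervalIntegral.integral_add_adjacent_intervals (hi (-μ) μ) (hi μ (r + μ))
    have h7 := intervalIntegral.integral_add_adjacent_intervals (hi (-μ) (r + -μ))
      (hi (r + -μ) (r + μ))
    rw [← h7] at h6
    rw [sub_eq_sub_iff_add_eq_add, add_comm, h6, add_comm]
  unfold sn moll
  rw [smul_apply, sub_apply, map_smul, map_smul, h2, h3,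
    ← smul_sub, smul_smul, h4]
  congr 1
  rw [mul_inv, mul_inv, mul_inv]

/-- (O2) the bounded approximation of the generator on a mollified vector -/
lemma norm_sn_moll_sub_le (v : K) (z : E) {r μ : ℝ} (hr : 0 < r) (hμ : 0 < μ) {κ : ℝ}
    (h : ∀ t ∈ Set.Icc (-μ) μ, ‖T.orb v z t - z‖ ≤ κ) :
    ‖((μ : ℂ))⁻¹ • T.sn ((μ : ℂ) • v) (T.moll v z r)
      - (Complex.I * r)⁻¹ • (T.orb v z r - z)‖ ≤ 2 * κ / r := by
  have hc := T.continuous_orb v z
  have hμ' : (μ : ℂ) ≠ 0 := by exact_mod_cast hμ.ne'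
  have hr' : (r : ℂ) ≠ 0 := by exact_mod_cast hr.ne'
  have e : ((μ : ℂ))⁻¹ • T.sn ((μ : ℂ) • v) (T.moll v z r)
      - (Complex.I * r)⁻¹ • (T.orb v z r - z)
      = (2 * Complex.I * r * μ)⁻¹ • ∫ t in (-μ)..μ, ((T.orb v z (r + t) - T.orb v z t)
        - (T.orb v z r - z)) := by
    have hi1 : IntervalIntegrable (fun t => T.orb v z (r + t) - T.orb v z t)
        MeasureTheory.volume (-μ) μ :=
      ((hc.comp (continuous_const.add continuous_id)).sub hc).intervalIntegrable _ _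
    rw [T.sn_moll, intervalIntegral.integral_sub hi1 (by simp)]
    generalize (T.orb v z r - z) = D
    generalize (∫ t in (-μ)..μ, (T.orb v z (r + t) - T.orb v z t)) = Q
    rw [intervalIntegral.integral_const, smul_sub, smul_smul, mul_inv _ (μ : ℂ),
      mul_comm _ ((μ : ℂ))⁻¹]
    congr 1
    rw [show μ - -μ = 2 * μ by ring, ← Complex.coe_smul, smul_smul]
    congr 1
    push_cast
    field_simp
  rw [e, norm_smul, norm_inv]
  have h2 : ‖∫ t in (-μ)..μ, ((T.orb v z (r + t) - T.orb v z t) - (T.orb v z r - z))‖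
      ≤ (2 * κ) * |μ - -μ| := by
    apply intervalIntegral.norm_integral_le_of_norm_le_const
    intro t ht
    rw [Set.uIoc_of_le (by linarith)] at ht
    have h3 := h t ⟨ht.1.le, ht.2⟩
    have h4 : ‖T.orb v z (r + t) - T.orb v z r‖ ≤ κ := by
      rw [← T.W_orb v z r t]
      unfold orb
      rw [← map_sub, LinearIsometryEquiv.norm_map]
      exact h3
    calc ‖(T.orb v z (r + t) - T.orb v z t) - (T.orb v z r - z)‖
        = ‖(T.orb v z (r + t) - T.orb v z r) - (T.orb v z t - z)‖ := by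
          congr 1
          abel
      _ ≤ κ + κ := (norm_sub_le _ _).trans (add_le_add h4 h3)
      _ = 2 * κ := by ring
  have h5 : ‖2 * Complex.I * (r : ℂ) * (μ : ℂ)‖ = 2 * r * μ := by
    rw [norm_mul, norm_mul, norm_mul, norm_I, norm_real, norm_real, Real.norm_eq_abs,
      Real.norm_eq_abs, abs_of_pos hr, abs_of_pos hμ]
    simp
  rw [h5, inv_mul_le_iff₀ (by positivity)]
  refine h2.trans (le_of_eq ?_)
  rw [show μ - -μ = 2 * μ by ring, abs_of_pos (by positivity)]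
  field_simp

/-- shift of the mollified vector along the same direction -/
lemma W_moll_sub (v : K) (z : E) (r μ : ℝ) : T.W ((μ : ℂ) • v) (T.moll v z r) - T.moll v z r
    = ((r : ℂ))⁻¹ • ∫ t in (0:ℝ)..μ, (T.orb v z (r + t) - T.orb v z t) := by
  have hc := T.continuous_orb v z
  have hi : ∀ a b : ℝ, IntervalIntegrable (T.orb v z) MeasureTheory.volume a b :=
    fun a b => hc.intervalIntegrable a b
  have h1 : T.op ((μ : ℂ) • v) (∫ t in (0:ℝ)..r, T.orb v z t)
      = ∫ t in μ..(r + μ), T.orb v z t := by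
    rw [← ContinuousLinearMap.intervalIntegral_comp_comm _ (hi 0 r)]
    have : (fun t => T.op ((μ : ℂ) • v) (T.orb v z t)) = fun t => T.orb v z (t + μ) := by
      funext t
      rw [op_apply, T.W_orb, add_comm]
    rw [this, intervalIntegral.integral_comp_add_right, zero_add]
  have h4 : (∫ t in μ..(r + μ), T.orb v z t) - (∫ t in (0:ℝ)..r, T.orb v z t)
      = ∫ t in (0:ℝ)..μ, (T.orb v z (r + t) - T.orb v z t) := by
    have hi1 : IntervalIntegrable (fun t => T.orb v z (r + t)) MeasureTheory.volume 0 μ :=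
      (hc.comp (continuous_const.add continuous_id)).intervalIntegrable _ _
    rw [intervalIntegral.integral_sub hi1 (hi _ _)]
    have h5 : ∫ t in (0:ℝ)..μ, T.orb v z (r + t) = ∫ t in (r + 0)..(r + μ), T.orb v z t :=
      intervalIntegral.integral_comp_add_left _ _
    rw [h5, add_zero]
    have h6 := intervalIntegral.integral_add_adjacent_intervals (hi 0 μ) (hi μ (r + μ))
    have h7 := intervalIntegral.integral_add_adjacent_intervals (hi 0 r) (hi r (r + μ))
    rw [← h7] at h6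
    rw [sub_eq_sub_iff_add_eq_add, add_comm, h6, add_comm]
  unfold moll
  rw [map_smul, ← smul_sub]
  congr 1
  rw [← h4, ← h1]
  rfl

lemma norm_W_moll_sub_le (v : K) (z : E) {μ : ℝ} (hμ : 0 ≤ μ) {κ : ℝ}
    (h : ‖T.W v z - z‖ ≤ κ) :
    ‖T.W ((μ : ℂ) • v) (T.moll v z 1) - T.moll v z 1‖ ≤ μ * κ := by
  rw [T.W_moll_sub, ofReal_one, inv_one, one_smul]
  have h2 : ‖∫ t in (0:ℝ)..μ, (T.orb v z (1 + t) - T.orb v z t)‖ ≤ κ * |μ - 0| := by
    apply intervalIntegral.norm_integral_le_of_norm_le_const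
    intro t _
    have e : T.orb v z (1 + t) - T.orb v z t = T.W ((t : ℂ) • v) (T.W v z - z) := by
      rw [map_sub, add_comm, ← T.W_orb v z t 1]
      unfold orb
      rw [ofReal_one, one_smul]
    rw [e, LinearIsometryEquiv.norm_map]
    exact h
  rw [sub_zero, abs_of_nonneg hμ] at h2
  linarith

/-- `mu^{-1} C sin(mu phi(v))` -/
noncomputable def gen (C : E →L[ℂ] E) (v : K) (μ : ℝ) : E →L[ℂ] E :=
  ((μ : ℂ))⁻¹ • (C * T.sn ((μ : ℂ) • v))

lemma gen_sa {C : E →L[ℂ] E} (hC : IsSelfAdjoint C) {v : K} (hv : T.Com C v) (μ : ℝ) :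
    IsSelfAdjoint (T.gen C v μ) := by
  have h1 : IsSelfAdjoint (C * T.sn ((μ : ℂ) • v)) := by
    rw [isSelfAdjoint_iff, star_mul, (T.sn_sa _).star_eq, hC.star_eq]
    exact (hv.sn μ).symm
  rw [isSelfAdjoint_iff, gen, star_smul, h1.star_eq]
  congr 1
  rw [star_inv₀]
  simp

lemma gen_commute {C : E →L[ℂ] E} {v v' : K} (hv : T.Com C v) (hv' : T.Com C v')
    (h : (inner ℂ v v' : ℂ).im = 0) (μ μ' : ℝ) : Commute (T.gen C v μ) (T.gen C v' μ') := by
  unfold gen
  refine ((Commute.mul_left ?_ ?_).smul_left _)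
  · exact ((Commute.refl C).mul_right (hv'.sn μ')).smul_right _
  · exact (((hv.sn μ).symm).mul_right (T.sn_commute (im_smul_smul μ μ' h))).smul_right _

/-- (O3) stability of the bounded gate in the direction of the control vector -/
lemma norm_ex_gen_sub_le {C : E →L[ℂ] E} (hC : IsSelfAdjoint C) {v v' : K} (hv : T.Com C v)
    (hv' : T.Com C v') (h : (inner ℂ v v' : ℂ).im = 0) {μ : ℝ} (hμ : 0 < μ) (z : E) {κ : ℝ}
    (hκ : ∀ t ∈ Set.Icc (0:ℝ) 1, ‖T.W ((t : ℂ) • (v' - v)) z - z‖ ≤ κ) :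
    ‖ex (T.gen C v' μ) z - ex (T.gen C v μ) z‖ ≤ (2 + ‖C‖) * κ := by
  have hμ' : (μ : ℂ) ≠ 0 := by exact_mod_cast hμ.ne'
  set z1 := T.moll (v' - v) z 1 with hz1
  have h1 : ‖z1 - z‖ ≤ κ := T.norm_moll_sub_le _ _ one_pos (fun t ht => hκ t ht)
  have hκ1 : ‖T.W (v' - v) z - z‖ ≤ κ := by
    have := hκ 1 ⟨zero_le_one, le_refl _⟩
    rwa [ofReal_one, one_smul] at this
  have h2 : ‖T.W ((μ : ℂ) • (v' - v)) z1 - z1‖ ≤ μ * κ := T.norm_W_moll_sub_le _ _ hμ.le hκ1
  have h3 : ‖T.W (-((μ : ℂ) • (v' - v))) z1 - z1‖ ≤ μ * κ := by rwa [T.norm_W_neg_sub]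
  have hvd : (inner ℂ v (v' - v) : ℂ).im = 0 := by
    rw [inner_sub_right, sub_im, h, im_self, sub_zero]
  have e1 : T.W ((μ : ℂ) • v') z1 - T.W ((μ : ℂ) • v) z1
      = T.W ((μ : ℂ) • v) (T.W ((μ : ℂ) • (v' - v)) z1 - z1) := by
    rw [map_sub, T.mul_real (im_smul_smul μ μ hvd), ← smul_add]
    congr 3
    abel_nf
  have e2 : T.W (-((μ : ℂ) • v')) z1 - T.W (-((μ : ℂ) • v)) z1
      = T.W (-((μ : ℂ) • v)) (T.W (-((μ : ℂ) • (v' - v))) z1 - z1) := by
    rw [map_sub, T.mul_real (im_neg_left (im_neg_right (im_smul_smul μ μ hvd))), ← neg_add,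
      ← smul_add]
    congr 4
    abel_nf
  have h4 : ‖(T.sn ((μ : ℂ) • v') - T.sn ((μ : ℂ) • v)) z1‖ ≤ μ * κ := by
    have e3 : (T.sn ((μ : ℂ) • v') - T.sn ((μ : ℂ) • v)) z1
        = (2 * Complex.I)⁻¹ • ((T.W ((μ : ℂ) • v') z1 - T.W ((μ : ℂ) • v) z1)
          - (T.W (-((μ : ℂ) • v')) z1 - T.W (-((μ : ℂ) • v)) z1)) := by
      change (2 * Complex.I)⁻¹ • (T.W _ z1 - T.W _ z1) - (2 * Complex.I)⁻¹ • (T.W _ z1 - T.W _ z1)
        = _
      rw [← smul_sub]
      congr 1
      abel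
    rw [e3, e1, e2, norm_smul, norm_inv, norm_mul, norm_I, mul_one]
    have h5 := norm_sub_le (T.W ((μ : ℂ) • v) (T.W ((μ : ℂ) • (v' - v)) z1 - z1))
      (T.W (-((μ : ℂ) • v)) (T.W (-((μ : ℂ) • (v' - v))) z1 - z1))
    rw [LinearIsometryEquiv.norm_map, LinearIsometryEquiv.norm_map] at h5
    have h6 : ‖(2:ℂ)‖ = 2 := by simp
    rw [h6]
    linarith
  have h5 : ‖(T.gen C v' μ - T.gen C v μ) z1‖ ≤ ‖C‖ * κ := by
    have e : (T.gen C v' μ - T.gen C v μ) z1
        = ((μ : ℂ))⁻¹ • C ((T.sn ((μ : ℂ) • v') - T.sn ((μ : ℂ) • v)) z1) := by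
      unfold gen
      rw [← smul_sub, ← mul_sub]
      rfl
    rw [e, norm_smul, norm_inv, norm_real, Real.norm_eq_abs, abs_of_pos hμ]
    have := C.le_opNorm ((T.sn ((μ : ℂ) • v') - T.sn ((μ : ℂ) • v)) z1)
    rw [inv_mul_le_iff₀ hμ]
    calc _ ≤ ‖C‖ * ‖(T.sn ((μ : ℂ) • v') - T.sn ((μ : ℂ) • v)) z1‖ := this
      _ ≤ ‖C‖ * (μ * κ) := by gcongr
      _ = _ := by ring
  have hsv := T.gen_sa hC hv μ
  have hsv' := T.gen_sa hC hv' μ
  have hcom : Commute (T.gen C v' μ) (T.gen C v μ) :=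
    T.gen_commute hv' hv (by rw [inner_im_symm, h, neg_zero]) μ μ
  have h6 := norm_ex_sub_ex_le hsv' hsv hcom z1
  have h7 : ‖ex (T.gen C v' μ) z - ex (T.gen C v' μ) z1‖ ≤ κ := by
    rw [← map_sub, norm_ex hsv', norm_sub_rev]
    exact h1
  have h8 : ‖ex (T.gen C v μ) z1 - ex (T.gen C v μ) z‖ ≤ κ := by
    rw [← map_sub, norm_ex hsv]
    exact h1
  calc ‖ex (T.gen C v' μ) z - ex (T.gen C v μ) z‖
      = ‖(ex (T.gen C v' μ) z - ex (T.gen C v' μ) z1)
        + ((ex (T.gen C v' μ) z1 - ex (T.gen C v μ) z1)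
          + (ex (T.gen C v μ) z1 - ex (T.gen C v μ) z))‖ := by
        congr 1
        abel
    _ ≤ κ + (‖C‖ * κ + κ) := by
        refine (norm_add_le _ _).trans (add_le_add h7 ((norm_add_le _ _).trans
          (add_le_add (h6.trans h5) h8)))
    _ = _ := by ring

/-- (O2') Cauchy property in the step size -/
lemma norm_ex_gen_gen_le {C : E →L[ℂ] E} (hC : IsSelfAdjoint C) {v : K} (hv : T.Com C v)
    {r μ μ' : ℝ} (hr : 0 < r) (hμ : 0 < μ) (hμ' : 0 < μ') (z : E) {κ κ' : ℝ}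
    (h0 : ∀ t ∈ Set.Icc (0:ℝ) r, ‖T.orb v z t - z‖ ≤ κ)
    (h1 : ∀ t ∈ Set.Icc (-μ) μ, ‖T.orb v z t - z‖ ≤ κ')
    (h2 : ∀ t ∈ Set.Icc (-μ') μ', ‖T.orb v z t - z‖ ≤ κ') :
    ‖ex (T.gen C v μ) z - ex (T.gen C v μ') z‖ ≤ 2 * κ + ‖C‖ * (4 * κ' / r) := by
  set z1 := T.moll v z r with hz1
  have h3 : ‖z1 - z‖ ≤ κ := T.norm_moll_sub_le _ _ hr h0
  have h4 := T.norm_sn_moll_sub_le v z hr hμ h1
  have h5 := T.norm_sn_moll_sub_le v z hr hμ' h2
  rw [← hz1] at h4 h5
  have hsv := T.gen_sa hC hv μ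
  have hsv' := T.gen_sa hC hv μ'
  have hcom : Commute (T.gen C v μ) (T.gen C v μ') := T.gen_commute hv hv (im_self v) μ μ'
  have h6 := norm_ex_sub_ex_le hsv hsv' hcom z1
  have h7 : ‖(T.gen C v μ - T.gen C v μ') z1‖ ≤ ‖C‖ * (4 * κ' / r) := by
    have e : (T.gen C v μ - T.gen C v μ') z1
        = C ((((μ : ℂ))⁻¹ • T.sn ((μ : ℂ) • v) z1 - (Complex.I * r)⁻¹ • (T.orb v z r - z))
          - (((μ' : ℂ))⁻¹ • T.sn ((μ' : ℂ) • v) z1 - (Complex.I * r)⁻¹ • (T.orb v z r - z))) := by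
      rw [sub_sub_sub_cancel_right, map_sub, map_smul, map_smul]
      rfl
    rw [e]
    refine (C.le_opNorm _).trans ?_
    gcongr
    refine (norm_sub_le _ _).trans ?_
    calc _ ≤ 2 * κ' / r + 2 * κ' / r := add_le_add h4 h5
      _ = _ := by ring
  have h8 : ‖ex (T.gen C v μ) z - ex (T.gen C v μ) z1‖ ≤ κ := by
    rw [← map_sub, norm_ex hsv, norm_sub_rev]
    exact h3
  have h9 : ‖ex (T.gen C v μ') z1 - ex (T.gen C v μ') z‖ ≤ κ := by
    rw [← map_sub, norm_ex hsv']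
    exact h3
  calc ‖ex (T.gen C v μ) z - ex (T.gen C v μ') z‖
      = ‖(ex (T.gen C v μ) z - ex (T.gen C v μ) z1)
        + ((ex (T.gen C v μ) z1 - ex (T.gen C v μ') z1)
          + (ex (T.gen C v μ') z1 - ex (T.gen C v μ') z))‖ := by
        congr 1
        abel
    _ ≤ κ + (‖C‖ * (4 * κ' / r) + κ) := by
        refine (norm_add_le _ _).trans (add_le_add h8 ((norm_add_le _ _).trans
          (add_le_add (h6.trans h7) h9)))
    _ = _ := by ring

end WFam

end Vale.Agent.P367.B
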