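import Vale.Agent.P367.A.Basic
import Vale.Agent.P367.B.Own

/-! P367 block B, T2CORE part 1: operator identities for the own batch. -/

namespace Vale.Agent.P367.B

open Filter Topology Complex
open Vale.Agent.P367.A

variable {H K : Type} [NormedAddCommGroup H] [InnerProductSpace ℂ H]
  [NormedAddCommGroup K] [InnerProductSpace ℂ K]

/-- the Weyl family of a system with strongly continuous Weyl operators -/
def famS (S : Sys H K) (hc : ∀ x : H, Tendsto (fun a => S.W a x) (𝓝 0) (𝓝 x)) : WFam K H :=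
  ⟨S.W, S.WW, hc⟩

/-- unitaries as bounded operators -/
noncomputable def cl (U : H ≃ₗᵢ[ℂ] H) : H →L[ℂ] H :=
  ((U : H ≃ₗᵢ[ℂ] H).toContinuousLinearEquiv : H →L[ℂ] H)

@[simp] lemma cl_apply (U : H ≃ₗᵢ[ℂ] H) (x : H) : cl U x = U x := rfl

/-- unit of the operator algebra from a unitary -/
noncomputable def clu (U : H ≃ₗᵢ[ℂ] H) : (H →L[ℂ] H)ˣ where
  val := cl U
  inv := cl U⁻¹
  val_inv := by ext x; exact U.apply_symm_apply x
  inv_val := by ext x; exact U.symm_apply_apply x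

lemma star_cl [CompleteSpace H] (U : H ≃ₗᵢ[ℂ] H) : star (cl U) = cl U⁻¹ := by
  rw [ContinuousLinearMap.star_eq_adjoint]
  symm
  rw [ContinuousLinearMap.eq_adjoint_iff]
  intro x y
  exact Sys.inner_invA U x y

lemma cl_sa [CompleteSpace H] (U : H ≃ₗᵢ[ℂ] H) (h : ∀ x, U (U x) = x) : IsSelfAdjoint (cl U) := by
  rw [isSelfAdjoint_iff, star_cl]
  ext x
  exact Sys.inv_apply_eq (h x)

/-- conjugation of an exponential -/
lemma ex_conj [CompleteSpace H] (U : H ≃ₗᵢ[ℂ] H) {A B : H →L[ℂ] H}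
    (h : ∀ x, A (U x) = U (B x)) (x : H) : ex A (U x) = U (ex B x) := by
  have e : I • A = (clu U : H →L[ℂ] H) * (I • B) * (↑(clu U)⁻¹ : H →L[ℂ] H) := by
    ext y
    change I • A y = U (I • B (U⁻¹ y))
    rw [map_smul, ← h]
    congr 2
    exact (U.apply_symm_apply y).symm
  unfold ex
  let +nondep : NormedAlgebra ℚ (H →L[ℂ] H) := .restrictScalars ℚ ℂ (H →L[ℂ] H)
  rw [e, NormedSpace.exp_units_conj]
  change U (NormedSpace.exp (I • B) (U⁻¹ (U x))) = _
  rw [Sys.invA]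

section sys

variable (S : Sys H K) (hc : ∀ x : H, Tendsto (fun a => S.W a x) (𝓝 0) (𝓝 x))

lemma sn_apply' (v : K) (x : H) : (famS S hc).sn v x = (2 * I)⁻¹ • (S.W v x - S.W (-v) x) := rfl

lemma cs_apply' (v : K) (x : H) : (famS S hc).cs v x = (2 : ℂ)⁻¹ • (S.W v x + S.W (-v) x) := rfl

lemma sn_Z (v : K) (x : H) : (famS S hc).sn v (S.Z x) = S.Z ((famS S hc).sn v x) := by
  rw [sn_apply', sn_apply', map_smul, map_sub, S.WZ, S.WZ]

lemma cs_Z (v : K) (x : H) : (famS S hc).cs v (S.Z x) = S.Z ((famS S hc).cs v x) := by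
  rw [cs_apply', cs_apply', map_smul, map_add, S.WZ, S.WZ]

lemma rot0_apply (f : ℝ) (x : H) :
    S.rot 0 f x = (Real.cos (2 * f) : ℂ) • x + (I * (Real.sin (2 * f) : ℂ)) • S.Z x := by
  rw [Sys.rot_apply, Sys.Zt_zero]

lemma rot0_zr (f : ℝ) (v : K) (x : H) : S.rot 0 f (S.zr v x) = S.zr v (S.rot 0 f x) := by
  rw [rot0_apply, rot0_apply, map_add, map_smul, map_smul, S.Z_zr]

lemma rot0_neg (f : ℝ) (x : H) : S.rot 0 (-f) (S.rot 0 f x) = x := by
  have := S.rotL_rotL_neg 0 (-f) x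
  rwa [neg_neg] at this

/-- Weyl operator past a `zr` gate -/
lemma W_zr (c w : K) (x : H) :
    S.W w (S.zr (-c) x) = S.zr (-c) (S.W w (S.rot 0 (th c w) x)) := by
  rw [S.zr_W (-c) w, th_neg_left, ← rot0_zr, rot0_neg]

/-- shift of the cosine by a `zr` gate -/
lemma cs_zr (c v : K) (x : H) : (famS S hc).cs v (S.zr (-c) x)
    = S.zr (-c) ((Real.cos (2 * th c v) : ℂ) • (famS S hc).cs v x
      - (Real.sin (2 * th c v) : ℂ) • S.Z ((famS S hc).sn v x)) := by
  rw [cs_apply', W_zr, W_zr, ← map_add, ← map_smul]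
  congr 1
  rw [rot0_apply, rot0_apply, th_neg_right, cs_apply', sn_apply']
  simp only [mul_neg, Real.cos_neg, Real.sin_neg, ofReal_neg, map_add, map_smul, map_sub, S.WZ,
    smul_add, smul_sub, smul_smul, neg_smul, mul_neg, map_neg]
  have hI : I * I = -1 := I_mul_I
  have h2 : (2 * I)⁻¹ = -(2 : ℂ)⁻¹ * I := by
    rw [mul_inv, Complex.inv_I]; ring
  rw [h2]
  module

/-- shift of the sine by a `zr` gate -/
lemma sn_zr (c v : K) (x : H) : (famS S hc).sn v (S.zr (-c) x)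
    = S.zr (-c) ((Real.cos (2 * th c v) : ℂ) • (famS S hc).sn v x
      + (Real.sin (2 * th c v) : ℂ) • S.Z ((famS S hc).cs v x)) := by
  rw [sn_apply', W_zr, W_zr, ← map_sub, ← map_smul]
  congr 1
  rw [rot0_apply, rot0_apply, th_neg_right, cs_apply', sn_apply']
  have h2 : (2 * I)⁻¹ = -(2 : ℂ)⁻¹ * I := by
    rw [mul_inv, Complex.inv_I]; ring
  obtain ⟨α, hα⟩ : ∃ α : ℂ, α = (2 * I)⁻¹ := ⟨_, rfl⟩
  rw [← hα]
  have h4 : ∀ r : ℂ, α * (I * r) = (2 : ℂ)⁻¹ * r := by
    intro r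
    rw [hα, h2]
    linear_combination (-(2:ℂ)⁻¹ * r) * I_mul_I
  simp only [mul_neg, Real.cos_neg, Real.sin_neg, ofReal_neg, map_add, map_smul, S.WZ,
    smul_add, smul_sub, smul_smul, neg_smul, map_neg, h4, smul_neg]
  module

end sys

/-- `exp(iA)` as a unitary -/
noncomputable def exU [CompleteSpace H] (A : H →L[ℂ] H) (hA : IsSelfAdjoint A) : H ≃ₗᵢ[ℂ] H where
  toFun := ex A
  invFun := ex (-A)
  map_add' := (ex A).map_add
  map_smul' := (ex A).map_smul
  left_inv x := by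
    have h := ex_neg_mul A
    exact congrArg (fun T : H →L[ℂ] H => T x) h
  right_inv x := by
    have h := ex_mul_neg A
    exact congrArg (fun T : H →L[ℂ] H => T x) h
  norm_map' x := norm_ex hA x

@[simp] lemma exU_apply [CompleteSpace H] (A : H →L[ℂ] H) (hA : IsSelfAdjoint A) (x : H) :
    exU A hA x = ex A x := rfl

section own

variable [CompleteSpace H] (S : Sys H K)
  (hc : ∀ x : H, Tendsto (fun a => S.W a x) (𝓝 0) (𝓝 x))

/-- own-batch generator before the shift, `-C Z cos phi(v)` -/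
noncomputable def gb (C : H →L[ℂ] H) (v : K) : H →L[ℂ] H :=
  -(C * cl S.Z * (famS S hc).cs v)

/-- own-batch generator after the shift by `th`, `C (sin th sin phi(v) - cos th Z cos phi(v))` -/
noncomputable def ga (C : H →L[ℂ] H) (v : K) (θ : ℝ) : H →L[ℂ] H :=
  C * ((Real.sin θ : ℂ) • (famS S hc).sn v - (Real.cos θ : ℂ) • (cl S.Z * (famS S hc).cs v))

lemma gb_apply (C : H →L[ℂ] H) (v : K) (x : H) :
    gb S hc C v x = -(C (S.Z ((famS S hc).cs v x))) := rfl

lemma ga_apply (C : H →L[ℂ] H) (v : K) (θ : ℝ) (x : H) :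
    ga S hc C v θ x = C ((Real.sin θ : ℂ) • (famS S hc).sn v x
      - (Real.cos θ : ℂ) • (S.Z ((famS S hc).cs v x))) := rfl

/-- a bounded operator commuting with `Z` and `W c` commutes with `zr c` -/
lemma op_zr {C : H →L[ℂ] H} (hZ : ∀ x, C (S.Z x) = S.Z (C x)) {c : K}
    (h1 : ∀ x, C (S.W c x) = S.W c (C x)) (h2 : ∀ x, C (S.W (-c) x) = S.W (-c) (C x)) (x : H) :
    C (S.zr c x) = S.zr c (C x) := by
  rw [S.zr_apply, S.zr_apply]
  simp only [map_add, map_sub, map_smul, h1, h2, hZ]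

/-- the own-batch gate in front of a `zr` gate -/
lemma ex_gb_zr {C : H →L[ℂ] H} (hZ : ∀ x, C (S.Z x) = S.Z (C x)) {c v : K}
    (hcz : ∀ x, C (S.zr (-c) x) = S.zr (-c) (C x)) (x : H) :
    ex (gb S hc C v) (S.zr (-c) x) = S.zr (-c) (ex (ga S hc C v (2 * th c v)) x) := by
  apply ex_conj
  intro y
  rw [gb_apply, ga_apply, cs_zr, S.Z_zr, hcz, ← map_neg]
  congr 1
  rw [← map_neg]
  congr 1
  rw [map_sub, map_smul, map_smul, S.ZZ]
  module

/-- the reaction operator after a `zr` gate -/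
lemma react_zr {ψ : H →L[ℂ] H} {c v : K}
    (hcz : ∀ x, ψ (S.zr (-c) x) = S.zr (-c) (ψ x)) (x : H) :
    ψ (S.Z ((famS S hc).sn v (S.zr (-c) x)))
      = S.zr (-c) (ψ ((Real.cos (2 * th c v) : ℂ) • S.Z ((famS S hc).sn v x)
        + (Real.sin (2 * th c v) : ℂ) • (famS S hc).cs v x)) := by
  rw [sn_zr, S.Z_zr, hcz]
  congr 2
  rw [map_add, map_smul, map_smul, S.ZZ]

lemma cs_op_commute {C : H →L[ℂ] H} {v : K}
    (h1 : ∀ x, C (S.W v x) = S.W v (C x)) (h2 : ∀ x, C (S.W (-v) x) = S.W (-v) (C x)) :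
    Commute C ((famS S hc).cs v) := by
  ext x
  change C ((famS S hc).cs v x) = (famS S hc).cs v (C x)
  rw [cs_apply', cs_apply', map_smul, map_add, h1, h2]

lemma sn_op_commute {C : H →L[ℂ] H} {v : K}
    (h1 : ∀ x, C (S.W v x) = S.W v (C x)) (h2 : ∀ x, C (S.W (-v) x) = S.W (-v) (C x)) :
    Commute C ((famS S hc).sn v) := by
  ext x
  change C ((famS S hc).sn v x) = (famS S hc).sn v (C x)
  rw [sn_apply', sn_apply', map_smul, map_sub, h1, h2]

lemma Z_cs_commute (v : K) : Commute (cl S.Z) ((famS S hc).cs v) := by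
  ext x
  exact (cs_Z S hc v x).symm

lemma Z_sn_commute (v : K) : Commute (cl S.Z) ((famS S hc).sn v) := by
  ext x
  exact (sn_Z S hc v x).symm

lemma clZ_sa : IsSelfAdjoint (cl S.Z) := cl_sa _ S.ZZ

lemma sa_mul {A B : H →L[ℂ] H} (hA : IsSelfAdjoint A) (hB : IsSelfAdjoint B) (h : Commute A B) :
    IsSelfAdjoint (A * B) := by
  rw [isSelfAdjoint_iff, star_mul, hA.star_eq, hB.star_eq]
  exact h.symm

lemma sa_real_smul {A : H →L[ℂ] H} (hA : IsSelfAdjoint A) (r : ℝ) :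
    IsSelfAdjoint ((r : ℂ) • A) := by
  rw [isSelfAdjoint_iff, star_smul, hA.star_eq]
  simp

lemma gb_sa {C : H →L[ℂ] H} (hC : IsSelfAdjoint C) (hZ : Commute C (cl S.Z)) {v : K}
    (h1 : ∀ x, C (S.W v x) = S.W v (C x)) (h2 : ∀ x, C (S.W (-v) x) = S.W (-v) (C x)) :
    IsSelfAdjoint (gb S hc C v) := by
  unfold gb
  apply IsSelfAdjoint.neg
  apply sa_mul (sa_mul hC (clZ_sa S) hZ) ((famS S hc).cs_sa v)
  exact (cs_op_commute S hc h1 h2).mul_left (Z_cs_commute S hc v)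

lemma ga_sa {C : H →L[ℂ] H} (hC : IsSelfAdjoint C) (hZ : Commute C (cl S.Z)) {v : K}
    (h1 : ∀ x, C (S.W v x) = S.W v (C x)) (h2 : ∀ x, C (S.W (-v) x) = S.W (-v) (C x)) (θ : ℝ) :
    IsSelfAdjoint (ga S hc C v θ) := by
  unfold ga
  have a1 := sn_op_commute S hc h1 h2
  have a2 := cs_op_commute S hc h1 h2
  apply sa_mul hC
  · exact (sa_real_smul ((famS S hc).sn_sa v) _).sub
      (sa_real_smul (sa_mul (clZ_sa S) ((famS S hc).cs_sa v) (Z_cs_commute S hc v)) _)
  · exact (a1.smul_right _).sub_right ((hZ.mul_right a2).smul_right _)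

/-- the residual Pauli is small: comparison of the shifted own gate with the pure sine gate -/
lemma norm_ex_ga_sub_le {C : H →L[ℂ] H} (hC : IsSelfAdjoint C) (hZ : Commute C (cl S.Z)) {v : K}
    (h1 : ∀ x, C (S.W v x) = S.W v (C x)) (h2 : ∀ x, C (S.W (-v) x) = S.W (-v) (C x)) (θ : ℝ)
    (x : H) : ‖ex (ga S hc C v θ) x - ex (C * (famS S hc).sn v) x‖
      ≤ ‖C‖ * ((|Real.sin θ - 1| + |Real.cos θ|) * ‖x‖) := by
  have a1 := sn_op_commute S hc h1 h2
  have a2 := cs_op_commute S hc h1 h2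
  have hs : IsSelfAdjoint (C * (famS S hc).sn v) := sa_mul hC ((famS S hc).sn_sa v) a1
  have a3 : Commute (C * (famS S hc).sn v) (cl S.Z * (famS S hc).cs v) := by
    have z1 : Commute ((famS S hc).sn v) (cl S.Z) := (Z_sn_commute S hc v).symm
    have z2 : Commute ((famS S hc).sn v) ((famS S hc).cs v) :=
      (famS S hc).sn_cs_commute (WFam.im_self v)
    exact (hZ.mul_right a2).mul_left (z1.mul_right z2)
  have hcom : Commute (ga S hc C v θ) (C * (famS S hc).sn v) := by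
    unfold ga
    rw [mul_sub]
    refine (Commute.sub_left ?_ ?_)
    · rw [mul_smul_comm]
      exact (Commute.refl _).smul_left _
    · rw [mul_smul_comm]
      refine Commute.smul_left ?_ _
      exact ((Commute.refl C).mul_right a1).mul_left a3.symm
  refine (norm_ex_sub_ex_le (ga_sa S hc hC hZ h1 h2 θ) hs hcom x).trans ?_
  have e : (ga S hc C v θ - C * (famS S hc).sn v) x
      = C (((Real.sin θ - 1 : ℝ) : ℂ) • (famS S hc).sn v x
        - (Real.cos θ : ℂ) • S.Z ((famS S hc).cs v x)) := by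
    rw [sub_apply, ga_apply, mul_apply_eq_comp, ← map_sub]
    congr 1
    push_cast
    module
  rw [e]
  refine (C.le_opNorm _).trans ?_
  gcongr
  refine (norm_sub_le _ _).trans ?_
  rw [norm_smul, norm_smul, norm_real, norm_real, Real.norm_eq_abs, Real.norm_eq_abs,
    S.Z.norm_map, add_mul]
  gcongr
  · exact (famS S hc).norm_sn_le' v x
  · exact (famS S hc).norm_cs_le' v x

end own

end Vale.Agent.P367.B
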