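import Vale.Agent.P367.B.Own

/-! P367 block B: identification of the limit of the bounded gates with Weyl operators. -/

namespace Vale.Agent.P367.B

open Filter Topology Complex

namespace WFam

variable {K E : Type} [NormedAddCommGroup K] [InnerProductSpace ℂ K]
  [NormedAddCommGroup E] [InnerProductSpace ℂ E] [CompleteSpace E] (T : WFam K E)

lemma op_moll (v : K) (z : E) (r τ : ℝ) : T.W ((τ : ℂ) • v) (T.moll v z r)
    = ((r : ℂ))⁻¹ • ∫ t in τ..(r + τ), T.orb v z t := by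
  have hc := T.continuous_orb v z
  have hi : ∀ a b : ℝ, IntervalIntegrable (T.orb v z) MeasureTheory.volume a b :=
    fun a b => hc.intervalIntegrable a b
  have h1 : T.op ((τ : ℂ) • v) (∫ t in (0:ℝ)..r, T.orb v z t)
      = ∫ t in τ..(r + τ), T.orb v z t := by
    rw [← ContinuousLinearMap.intervalIntegral_comp_comm _ (hi 0 r)]
    have : (fun t => T.op ((τ : ℂ) • v) (T.orb v z t)) = fun t => T.orb v z (t + τ) := by
      funext t
      rw [op_apply, T.W_orb, add_comm]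
    rw [this, intervalIntegral.integral_comp_add_right, zero_add]
  unfold moll
  rw [map_smul, ← h1]
  rfl

lemma hasDerivAt_moll (v : K) (z : E) (r τ : ℝ) :
    HasDerivAt (fun τ : ℝ => T.W ((τ : ℂ) • v) (T.moll v z r))
      (((r : ℂ))⁻¹ • (T.orb v z (r + τ) - T.orb v z τ)) τ := by
  have hc := T.continuous_orb v z
  have hi : ∀ a b : ℝ, IntervalIntegrable (T.orb v z) MeasureTheory.volume a b :=
    fun a b => hc.intervalIntegrable a b
  have e : (fun τ : ℝ => T.W ((τ : ℂ) • v) (T.moll v z r))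
      = fun τ : ℝ => ((r : ℂ))⁻¹ • ((∫ t in (0:ℝ)..(r + τ), T.orb v z t)
        - ∫ t in (0:ℝ)..τ, T.orb v z t) := by
    funext τ
    rw [T.op_moll]
    congr 1
    rw [intervalIntegral.integral_interval_sub_left (hi _ _) (hi _ _)]
  rw [e]
  have h1 : HasDerivAt (fun u : ℝ => ∫ t in (0:ℝ)..u, T.orb v z t) (T.orb v z τ) τ :=
    intervalIntegral.integral_hasDerivAt_right (hi _ _)
      (hc.stronglyMeasurableAtFilter _ _) hc.continuousAt
  have h2 : HasDerivAt (fun u : ℝ => ∫ t in (0:ℝ)..u, T.orb v z t) (T.orb v z (r + τ)) (r + τ) :=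
    intervalIntegral.integral_hasDerivAt_right (hi _ _)
      (hc.stronglyMeasurableAtFilter _ _) hc.continuousAt
  have h3 : HasDerivAt (fun τ : ℝ => ∫ t in (0:ℝ)..(r + τ), T.orb v z t)
      (T.orb v z (r + τ)) τ := h2.comp_const_add r τ
  exact (h3.sub h1).const_smul _

/-- (O5) the bounded gate is close to the Weyl operator -/
lemma norm_ex_sub_W_le (v : K) (z : E) {r μ σ : ℝ} (hr : 0 < r) (hμ : 0 < μ) (hσ : 0 ≤ σ)
    {κ κ' : ℝ} (h0 : ∀ t ∈ Set.Icc (0:ℝ) r, ‖T.orb v z t - z‖ ≤ κ)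
    (h1 : ∀ t ∈ Set.Icc (-μ) μ, ‖T.orb v z t - z‖ ≤ κ') :
    ‖ex (((σ : ℂ)) • (((μ : ℂ))⁻¹ • T.sn ((μ : ℂ) • v))) z - T.W ((σ : ℂ) • v) z‖
      ≤ 2 * κ + σ * (2 * κ' / r) := by
  set A : E →L[ℂ] E := ((μ : ℂ))⁻¹ • T.sn ((μ : ℂ) • v) with hA
  have hAs : IsSelfAdjoint A := by
    rw [isSelfAdjoint_iff, hA, star_smul, (T.sn_sa _).star_eq]
    congr 1
    rw [star_inv₀]; simp
  have hsa : ∀ t : ℝ, IsSelfAdjoint ((t : ℂ) • A) := by
    intro t
    rw [isSelfAdjoint_iff, star_smul, hAs.star_eq]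
    congr 1
    simp
  set y := T.moll v z r with hy
  have h3 : ‖y - z‖ ≤ κ := T.norm_moll_sub_le _ _ hr h0
  have h4 : ‖A y - (Complex.I * r)⁻¹ • (T.orb v z r - z)‖ ≤ 2 * κ' / r :=
    T.norm_sn_moll_sub_le v z hr hμ h1
  have hcomm : ∀ t : ℝ, ∀ x, A (T.W ((t : ℂ) • v) x) = T.W ((t : ℂ) • v) (A x) := by
    intro t x
    have c1 : Commute (T.op ((t : ℂ) • v)) (T.sn ((μ : ℂ) • v)) := by
      unfold sn
      refine ((Commute.sub_right ?_ ?_).smul_right _)
      · exact T.op_commute (im_smul_smul t μ (im_self v))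
      · exact T.op_commute (im_neg_right (im_smul_smul t μ (im_self v)))
    have c2 := (c1.smul_right ((μ : ℂ))⁻¹).symm
    exact congrArg (fun B : E →L[ℂ] E => B x) c2
  -- the interpolating path
  have hd : ∀ τ : ℝ, HasDerivAt
      (fun τ : ℝ => ex (((σ - τ : ℝ) : ℂ) • A) (T.W ((τ : ℂ) • v) y))
      (ex (((σ - τ : ℝ) : ℂ) • A) (T.W ((τ : ℂ) • v)
        (-(Complex.I • (A y - (Complex.I * r)⁻¹ • (T.orb v z r - z)))))) τ := by
    intro τ
    have g1 : HasDerivAt (fun τ : ℝ => ex (((σ - τ : ℝ) : ℂ) • A))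
        (-(ex (((σ - τ : ℝ) : ℂ) • A) * (Complex.I • A))) τ := by
      have e1 : (fun τ : ℝ => ex (((σ - τ : ℝ) : ℂ) • A))
          = fun τ : ℝ => NormedSpace.exp ((σ - τ) • (Complex.I • A)) := by
        funext τ
        unfold ex
        rw [Complex.coe_smul, smul_comm]
      have g := (hasDerivAt_exp_smul_const (𝕂 := ℝ) (Complex.I • A) (σ - τ))
      have g' := g.comp_const_sub σ τ
      rw [e1]
      have e2 : ex (((σ - τ : ℝ) : ℂ) • A) = NormedSpace.exp ((σ - τ) • (Complex.I • A)) := by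
        unfold ex
        rw [Complex.coe_smul, smul_comm]
      rw [e2]
      exact g'
    have g2 := T.hasDerivAt_moll v z r τ
    rw [← hy] at g2
    have g3 := (((ContinuousLinearMap.restrictScalarsL ℂ E E ℝ ℝ).hasFDerivAt).comp_hasDerivAt τ g1)
    have g4 := HasDerivAt.clm_apply g3 g2
    refine g4.congr_deriv ?_
    change -(ex (((σ - τ : ℝ) : ℂ) • A) (Complex.I • A (T.W ((τ : ℂ) • v) y)))
      + ex (((σ - τ : ℝ) : ℂ) • A) (((r : ℂ))⁻¹ • (T.orb v z (r + τ) - T.orb v z τ)) = _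
    rw [← map_neg, ← map_add]
    congr 1
    have e3 : T.orb v z (r + τ) - T.orb v z τ = T.W ((τ : ℂ) • v) (T.orb v z r - z) := by
      rw [map_sub, T.W_orb, add_comm]
      rfl
    rw [hcomm, e3, map_neg, map_smul, map_sub (T.W ((τ : ℂ) • v)) (A y), map_smul, smul_sub,
      smul_smul, mul_inv, ← mul_assoc, mul_inv_cancel₀ Complex.I_ne_zero, one_mul]
    abel
  have hb : ∀ τ ∈ Set.Ico (0:ℝ) σ, ‖ex (((σ - τ : ℝ) : ℂ) • A) (T.W ((τ : ℂ) • v)
        (-(Complex.I • (A y - (Complex.I * r)⁻¹ • (T.orb v z r - z)))))‖ ≤ 2 * κ' / r := by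
    intro τ _
    rw [norm_ex (hsa _), LinearIsometryEquiv.norm_map, norm_neg, norm_smul, Complex.norm_I,
      one_mul]
    exact h4
  have h5 := norm_image_sub_le_of_norm_deriv_le_segment'
    (fun τ _ => (hd τ).hasDerivWithinAt) hb σ ⟨hσ, le_refl σ⟩
  rw [sub_self, ofReal_zero, zero_smul, ex_zero, sub_zero, zero_smul, T.W_zero] at h5
  have h6 : ‖ex ((σ : ℂ) • A) z - ex ((σ : ℂ) • A) y‖ ≤ κ := by
    rw [← map_sub, norm_ex (hsa _), norm_sub_rev]
    exact h3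
  have h7 : ‖T.W ((σ : ℂ) • v) y - T.W ((σ : ℂ) • v) z‖ ≤ κ := by
    rw [← map_sub, LinearIsometryEquiv.norm_map]
    exact h3
  have h8 : ‖ex ((σ : ℂ) • A) y - T.W ((σ : ℂ) • v) y‖ ≤ σ * (2 * κ' / r) := by
    rw [norm_sub_rev, mul_comm]
    exact h5
  calc ‖ex ((σ : ℂ) • A) z - T.W ((σ : ℂ) • v) z‖
      = ‖(ex ((σ : ℂ) • A) z - ex ((σ : ℂ) • A) y)
        + ((ex ((σ : ℂ) • A) y - T.W ((σ : ℂ) • v) y)
          + (T.W ((σ : ℂ) • v) y - T.W ((σ : ℂ) • v) z))‖ := by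
        congr 1
        abel
    _ ≤ κ + (σ * (2 * κ' / r) + κ) :=
        (norm_add_le _ _).trans (add_le_add h6 ((norm_add_le _ _).trans (add_le_add h8 h7)))
    _ = _ := by ring

end WFam

end Vale.Agent.P367.B
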