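import Vale.Agent.P367.B.LBasic
import Vale.Agent.P367.B.Core1
import Vale.Agent.P367.B.Own2

/-! P367 block B, T2CORE part 2: chains of steps and their exact form. -/

namespace Vale.Agent.P367.A

open Complex Filter Topology MeasureTheory
open Vale.Agent.P367.B (famS cl exU ex gb ga WFam)

namespace LSys

variable {H K : Type} [NormedAddCommGroup H] [InnerProductSpace ℂ H] [CompleteSpace H]
  [NormedAddCommGroup K] [InnerProductSpace ℂ K] (L : LSys H K)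
  (hc : ∀ x : H, Tendsto (fun a => L.W a x) (𝓝 0) (𝓝 x))

/-- control vector of a step -/
noncomputable def vch (μ la : ℝ) (o r : Set ℝ) (V1 : H ≃ₗᵢ[ℂ] H) : K :=
  (μ : ℂ) • L.fv (L.pau 2) o V1 + (la : ℂ) • L.fv (L.pau 1) r V1

/-- batch control `-(s/mu) sg E_b` -/
noncomputable def Cch (s μ : ℝ) (sg : H →L[ℂ] H) (b : Set ℝ) : H →L[ℂ] H :=
  ((-(s / μ) : ℝ) : ℂ) • (sg * L.E b)

/-- reaction vector `iota (E_b V1^* C Z sin phi(v) V1 Om)` -/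
noncomputable def qch (v : K) (C : H →L[ℂ] H) (b : Set ℝ) (V1 : H ≃ₗᵢ[ℂ] H) : K :=
  L.iota (L.E b (V1⁻¹ (C (L.Z ((famS L.toSys hc).sn v (V1 L.Om))))))

/-- a chain of `N` steps with batches `b 0, ..., b (N-1)` and reserve `r` -/
structure Chain (𝔄 : Set (H →L[ℂ] H)) (G r : Set ℝ) (sg : H →L[ℂ] H)
    (s μ a la : ℝ) (N : ℕ) (b : ℕ → Set ℝ) (V V1 V2 : ℕ → (H ≃ₗᵢ[ℂ] H)) (co cr : ℕ → ℂ) :
    Prop where
  mG : MeasurableSet G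
  mr : MeasurableSet r
  Gr : Disjoint G r
  mb : ∀ i < N, MeasurableSet (b i)
  bG : ∀ i < N, b i ⊆ G
  bb : ∀ i < N, ∀ j < N, i ≠ j → Disjoint (b i) (b j)
  cV : ∀ i ≤ N, ∀ A ∈ 𝔄, ∀ x, A (V i x) = V i (A x)
  cV1 : ∀ i < N, ∀ A ∈ 𝔄, ∀ x, A (V1 i x) = V1 i (A x)
  cV2 : ∀ i < N, ∀ A ∈ 𝔄, ∀ x, A (V2 i x) = V2 i (A x)
  nco : ∀ i < N, ‖co i‖ = 1
  ncr : ∀ i < N, ‖cr i‖ = 1
  r1 : ∀ i < N, ∀ x, V1 i x
    = L.zr (-((a : ℂ) • L.fv (L.pau 2) r (V i))) (L.E (b i) (V i x))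
      + L.zr (-((a : ℂ) • L.fv (L.pau 2) (b i) (V i))) (L.E r (V i x))
      + (V i x - L.E (b i) (V i x) - L.E r (V i x))
  r2 : ∀ i < N, ∀ x, V2 i x
    = ex (gb L.toSys hc (L.Cch s μ sg (b i)) (L.vch μ la (G \ b i) r (V1 i)))
        (L.E (b i) (V1 i x))
      + co i • L.zr (-((μ : ℂ) • L.qch hc (L.vch μ la (G \ b i) r (V1 i))
          (L.Cch s μ sg (b i)) (b i) (V1 i))) (L.E (G \ b i) (V1 i x))
      + cr i • L.pw (L.pau 1) (-((la : ℂ) • L.qch hc (L.vch μ la (G \ b i) r (V1 i))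
          (L.Cch s μ sg (b i)) (b i) (V1 i))) (L.E r (V1 i x))
      + (V1 i x - L.E (b i) (V1 i x) - L.E (G \ b i) (V1 i x) - L.E r (V1 i x))
  r3 : ∀ i < N, ∀ x, V (i + 1) x
    = L.zr ((a : ℂ) • L.fv (L.pau 2) r (V2 i)) (L.E (b i) (V2 i x))
      + L.zr ((a : ℂ) • L.fv (L.pau 2) (b i) (V2 i)) (L.E r (V2 i x))
      + (V2 i x - L.E (b i) (V2 i x) - L.E r (V2 i x))

/-! ### the real subspace of admissible field vectors -/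

/-- admissible vectors `iota (T Om)`, `T` self-adjoint commuting with the controls -/
def RR (𝔄 : Set (H →L[ℂ] H)) : Set K :=
  {c | ∃ T : H →L[ℂ] H, Sa T ∧ (∀ a ∈ 𝔄, T * a = a * T) ∧ c = L.iota (T L.Om)}

variable {L} {𝔄 : Set (H →L[ℂ] H)}

omit [CompleteSpace H] in
lemma RR.W (hA : L.Ctl 𝔄) {c : K} (h : c ∈ L.RR 𝔄) {a : H →L[ℂ] H} (ha : a ∈ 𝔄) (x : H) :
    a (L.W c x) = L.W c (a x) := by
  obtain ⟨T, h1, h2, rfl⟩ := h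
  exact hA.W a ha T h1 h2 x

omit [CompleteSpace H] in
lemma RR.add {c d : K} (h : c ∈ L.RR 𝔄) (h' : d ∈ L.RR 𝔄) : c + d ∈ L.RR 𝔄 := by
  obtain ⟨T, h1, h2, rfl⟩ := h
  obtain ⟨T', h1', h2', rfl⟩ := h'
  refine ⟨T + T', fun x y => ?_, fun a ha => ?_, ?_⟩
  · rw [add_apply, add_apply, inner_add_left, inner_add_right, h1, h1']
  · rw [add_mul, mul_add, h2 a ha, h2' a ha]
  · rw [add_apply, map_add]

omit [CompleteSpace H] in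
lemma RR.smul {c : K} (h : c ∈ L.RR 𝔄) (t : ℝ) : (t : ℂ) • c ∈ L.RR 𝔄 := by
  obtain ⟨T, h1, h2, rfl⟩ := h
  refine ⟨(t : ℂ) • T, fun x y => ?_, fun a ha => ?_, ?_⟩
  · rw [smul_apply, smul_apply, inner_smul_left, inner_smul_right, h1, conj_ofReal]
  · rw [smul_mul_assoc, mul_smul_comm, h2 a ha]
  · rw [smul_apply, map_smul]

omit [CompleteSpace H] in
lemma RR.neg {c : K} (h : c ∈ L.RR 𝔄) : -c ∈ L.RR 𝔄 := by
  have := RR.smul h (-1)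
  rwa [ofReal_neg, ofReal_one, neg_one_smul] at this

omit [CompleteSpace H] in
lemma RR.sub {c d : K} (h : c ∈ L.RR 𝔄) (h' : d ∈ L.RR 𝔄) : c - d ∈ L.RR 𝔄 := by
  rw [sub_eq_add_neg]; exact RR.add h (RR.neg h')

omit [CompleteSpace H] in
lemma RR.zero : (0 : K) ∈ L.RR 𝔄 :=
  ⟨0, fun x y => by simp, fun a _ => by simp, by simp⟩

omit [CompleteSpace H] in
lemma E_mem (hA : L.Ctl 𝔄) {e : Set ℝ} (he : MeasurableSet e) : L.E e ∈ 𝔄 :=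
  hA.lab _ (Bm.ind he 1)

omit [CompleteSpace H] in
lemma comm_inv {U : H ≃ₗᵢ[ℂ] H} {a : H →L[ℂ] H} (h : ∀ x, a (U x) = U (a x)) (x : H) :
    a (U⁻¹ x) = U⁻¹ (a x) := by
  apply U.injective
  rw [← h, Sys.Ainv, Sys.Ainv]

omit [CompleteSpace H] in
/-- vectors `iota (E_e U^* B U Om)` are admissible -/
lemma RR.mk' (hA : L.Ctl 𝔄) {U : H ≃ₗᵢ[ℂ] H} (hU : ∀ a ∈ 𝔄, ∀ x, a (U x) = U (a x))
    {e : Set ℝ} (he : MeasurableSet e) (B : H →L[ℂ] H) (hB : Sa B)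
    (hBA : ∀ a ∈ 𝔄, ∀ x, a (B x) = B (a x)) : L.iota (L.E e (U⁻¹ (B (U L.Om)))) ∈ L.RR 𝔄 := by
  refine ⟨L.E e * (cl U⁻¹ * (B * cl U)), fun x y => ?_, fun a ha => ?_, rfl⟩
  · change inner ℂ (L.E e (U⁻¹ (B (U x)))) y = inner ℂ x (L.E e (U⁻¹ (B (U y))))
    rw [L.E_sa he, Sys.inner_invA, hB, comm_inv (hU _ (E_mem hA he)), hBA _ (E_mem hA he),
      hU _ (E_mem hA he)]
    have := Sys.inner_invA U⁻¹ x (B (U (L.E e y)))
    rw [inv_inv] at this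
    exact this
  · ext x
    change L.E e (U⁻¹ (B (U (a x)))) = a (L.E e (U⁻¹ (B (U x))))
    have h1 : ∀ y, L.E e (a y) = a (L.E e y) := fun y =>
      congrArg (fun T : H →L[ℂ] H => T y) (hA.comm _ _ (E_mem hA he) ha)
    rw [← hU a ha, ← hBA a ha, ← comm_inv (hU a ha), h1]

omit [CompleteSpace H] in
lemma ctl_pau (hA : L.Ctl 𝔄) {a : H →L[ℂ] H} (ha : a ∈ 𝔄) (P : Fin 3) (x : H) :
    a (L.pau P x) = L.pau P (a x) := by
  have hxr : ∀ t y, a (L.xr t y) = L.xr t (a y) := fun t y => by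
    rw [L.xr_apply, L.xr_apply, map_sub, map_smul, map_smul, hA.X a ha]
  fin_cases P
  · exact hA.X a ha x
  · change a (L.Zt _ x) = L.Zt _ (a x)
    rw [L.Zt_apply, L.Zt_apply, hxr, hA.Z a ha]
  · exact hA.Z a ha x

omit [CompleteSpace H] in
lemma RR.fv (hA : L.Ctl 𝔄) {U : H ≃ₗᵢ[ℂ] H} (hU : ∀ a ∈ 𝔄, ∀ x, a (U x) = U (a x))
    {e : Set ℝ} (he : MeasurableSet e) (P : Fin 3) : L.fv (L.pau P) e U ∈ L.RR 𝔄 :=
  RR.mk' hA hU he (cl (L.pau P)) (fun x y => L.inner_pau P x y) (fun a ha x => ctl_pau hA ha P x)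

omit [CompleteSpace H] in
lemma RR.sn (hA : L.Ctl 𝔄) {v : K} (hv : v ∈ L.RR 𝔄) {a : H →L[ℂ] H} (ha : a ∈ 𝔄) (x : H) :
    a ((famS L.toSys hc).sn v x) = (famS L.toSys hc).sn v (a x) := by
  rw [B.sn_apply', B.sn_apply', map_smul, map_sub, RR.W hA hv ha, RR.W hA (RR.neg hv) ha]

omit [CompleteSpace H] in
lemma RR.cs (hA : L.Ctl 𝔄) {v : K} (hv : v ∈ L.RR 𝔄) {a : H →L[ℂ] H} (ha : a ∈ 𝔄) (x : H) :
    a ((famS L.toSys hc).cs v x) = (famS L.toSys hc).cs v (a x) := by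
  rw [B.cs_apply', B.cs_apply', map_smul, map_add, RR.W hA hv ha, RR.W hA (RR.neg hv) ha]

omit [CompleteSpace H] in
lemma RR.zr (hA : L.Ctl 𝔄) {v : K} (hv : v ∈ L.RR 𝔄) {a : H →L[ℂ] H} (ha : a ∈ 𝔄) (x : H) :
    a (L.zr v x) = L.zr v (a x) := by
  rw [L.zr_apply, L.zr_apply]
  simp only [map_add, map_sub, map_smul, RR.W hA hv ha, RR.W hA (RR.neg hv) ha, hA.Z a ha]

end LSys

end Vale.Agent.P367.A
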