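import Vale.Agent.P367.B.StepD
import Vale.Agent.P367.B.Core2

/-! P367, block B, T2: chains of steps from the step relation. -/

namespace Vale.Agent.P367.A

open Complex Filter Topology MeasureTheory
open Vale.Agent.P367.B (famS ex gb)

namespace LSys

variable {H K : Type} [NormedAddCommGroup H] [InnerProductSpace ℂ H] [CompleteSpace H]
  [NormedAddCommGroup K] [InnerProductSpace ℂ K] (L : LSys H K)
  (hc : ∀ x : H, Tendsto (fun a => L.W a x) (𝓝 0) (𝓝 x))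

lemma cho_stC (b : Set ℝ) (sg : H →L[ℂ] H) (s mu : ℝ) : L.stC b sg s mu = L.Cch s mu sg b := by
  unfold stC Cch
  rw [Complex.ofReal_neg]

lemma cho_stv (G r b : Set ℝ) (mu la : ℝ) (V1 : H ≃ₗᵢ[ℂ] H) :
    L.stv G r b mu la V1 = L.vch mu la (G \ b) r V1 := rfl

lemma cho_stq (G r b : Set ℝ) (sg : H →L[ℂ] H) (s mu la : ℝ) (V1 : H ≃ₗᵢ[ℂ] H) :
    L.stq hc G r b sg s mu la V1
      = L.qch hc (L.vch mu la (G \ b) r V1) (L.Cch s mu sg b) b V1 := by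
  unfold stq qch
  rw [cho_stC, cho_stv]

/-- a sequence of steps is a chain -/
theorem chain_of_step {𝔄 : Set (H →L[ℂ] H)} {G r : Set ℝ} {sg : H →L[ℂ] H} {s mu a la : ℝ}
    {N : ℕ} {b : ℕ → Set ℝ} {V V1 V2 : ℕ → (H ≃ₗᵢ[ℂ] H)} {co cr : ℕ → ℂ}
    (mG : MeasurableSet G) (mr : MeasurableSet r) (hGr : Disjoint G r)
    (mb : ∀ i, MeasurableSet (b i)) (hbG : ∀ i, b i ⊆ G)
    (hbb : ∀ i j, i ≠ j → Disjoint (b i) (b j))
    (cV : ∀ i, ∀ a ∈ 𝔄, ∀ x, a (V i x) = V i (a x))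
    (cV1 : ∀ i, ∀ a ∈ 𝔄, ∀ x, a (V1 i x) = V1 i (a x))
    (cV2 : ∀ i, ∀ a ∈ 𝔄, ∀ x, a (V2 i x) = V2 i (a x))
    (hst : ∀ i, L.StepRel hc G r (b i) sg s mu a la (V i) (V1 i) (V2 i) (V (i + 1))
      (co i) (cr i)) :
    L.Chain hc 𝔄 G r sg s mu a la N b V V1 V2 co cr where
  mG := mG
  mr := mr
  Gr := hGr
  mb i _ := mb i
  bG i _ := hbG i
  bb i _ j _ h := hbb i j h
  cV i _ := cV i
  cV1 i _ := cV1 i
  cV2 i _ := cV2 i
  nco i _ := (hst i).nco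
  ncr i _ := (hst i).ncr
  r1 i _ x := (hst i).h1 x
  r2 i _ x := by
    rw [← L.cho_stq hc, ← L.cho_stC, ← L.cho_stv]
    exact (hst i).h2 x
  r3 i _ x := (hst i).h3 x

end LSys

end Vale.Agent.P367.A
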