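import Vale.Agent.P367.B.Core2

/-! P367 block B, T2CORE part 3: blocks of a chain. -/

namespace Vale.Agent.P367.A

open Complex Filter Topology MeasureTheory
open Vale.Agent.P367.B (famS cl exU ex gb ga WFam)

namespace LSys

variable {H K : Type} [NormedAddCommGroup H] [InnerProductSpace ℂ H] [CompleteSpace H]
  [NormedAddCommGroup K] [InnerProductSpace ℂ K] {L : LSys H K} {𝔄 : Set (H →L[ℂ] H)}

lemma ctl_smul (hA : L.Ctl 𝔄) {T : H →L[ℂ] H} (hT : T ∈ 𝔄) (c : ℂ) : c • T ∈ 𝔄 := by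
  have h := hA.mul _ _ (hA.lab _ (Bm.const c)) hT
  rw [L.lab_const, smul_mul_assoc, one_mul] at h
  exact h

lemma Cch_mem (hA : L.Ctl 𝔄) {sg : H →L[ℂ] H} (hsg : sg ∈ 𝔄) (s μ : ℝ) {b : Set ℝ}
    (hb : MeasurableSet b) : L.Cch s μ sg b ∈ 𝔄 :=
  ctl_smul hA (hA.mul _ _ hsg (E_mem hA hb)) _

lemma sa_comp {A B : H →L[ℂ] H} (h1 : Sa A) (h2 : Sa B) (h : ∀ x, A (B x) = B (A x)) :
    Sa (A * B) := by
  intro x y
  change inner ℂ (A (B x)) y = inner ℂ x (A (B y))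
  rw [h1, h2, h]

lemma sa_rsmul {A : H →L[ℂ] H} (h1 : Sa A) (t : ℝ) : Sa ((t : ℂ) • A) := by
  intro x y
  rw [smul_apply, smul_apply, inner_smul_left, inner_smul_right, h1, conj_ofReal]

lemma E_Sa {b : Set ℝ} (hb : MeasurableSet b) : Sa (L.E b) := fun x y => L.E_sa hb x y

lemma ctl_comm (hA : L.Ctl 𝔄) {S T : H →L[ℂ] H} (hS : S ∈ 𝔄) (hT : T ∈ 𝔄) (x : H) :
    S (T x) = T (S x) :=
  congrArg (fun R : H →L[ℂ] H => R x) (hA.comm _ _ hS hT)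

lemma Cch_sa (hA : L.Ctl 𝔄) {sg : H →L[ℂ] H} (hsg : sg ∈ 𝔄) (hs : Sa sg) (s μ : ℝ) {b : Set ℝ}
    (hb : MeasurableSet b) : Sa (L.Cch s μ sg b) :=
  sa_rsmul (sa_comp hs (E_Sa hb) (fun x => ctl_comm hA hsg (E_mem hA hb) x)) _

/-- `Sa` is self-adjointness -/
lemma isSA {A : H →L[ℂ] H} (h : Sa A) : IsSelfAdjoint A := by
  rw [isSelfAdjoint_iff, ContinuousLinearMap.star_eq_adjoint]
  symm
  rw [ContinuousLinearMap.eq_adjoint_iff]
  exact h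

lemma sa_of {A : H →L[ℂ] H} (h : IsSelfAdjoint A) : Sa A := by
  rw [isSelfAdjoint_iff, ContinuousLinearMap.star_eq_adjoint] at h
  have h' := h.symm
  rw [ContinuousLinearMap.eq_adjoint_iff] at h'
  exact h'

/-- commuting with an exponential -/
lemma comm_ex {A T : H →L[ℂ] H} (h : ∀ x, T (A x) = A (T x)) (x : H) :
    T (ex A x) = ex A (T x) := by
  have hc : Commute A T := by
    ext y
    exact (h y).symm
  have := B.ex_commute hc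
  exact (congrArg (fun R : H →L[ℂ] H => R x) this).symm

variable (hc : ∀ x : H, Tendsto (fun a => L.W a x) (𝓝 0) (𝓝 x))

lemma RR.vch (hA : L.Ctl 𝔄) (μ la : ℝ) {o r : Set ℝ} (ho : MeasurableSet o)
    (hr : MeasurableSet r) {V1 : H ≃ₗᵢ[ℂ] H} (hV : ∀ a ∈ 𝔄, ∀ x, a (V1 x) = V1 (a x)) :
    L.vch μ la o r V1 ∈ L.RR 𝔄 :=
  RR.add (RR.smul (RR.fv hA hV ho 2) μ) (RR.smul (RR.fv hA hV hr 1) la)

lemma RR.qch (hA : L.Ctl 𝔄) {v : K} (hv : v ∈ L.RR 𝔄) {C : H →L[ℂ] H} (hC : C ∈ 𝔄)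
    (hCs : Sa C) {b : Set ℝ} (hb : MeasurableSet b) {V1 : H ≃ₗᵢ[ℂ] H}
    (hV : ∀ a ∈ 𝔄, ∀ x, a (V1 x) = V1 (a x)) : L.qch hc v C b V1 ∈ L.RR 𝔄 := by
  refine RR.mk' hA hV hb (C * (cl L.Z * (famS L.toSys hc).sn v)) ?_ ?_
  · refine sa_comp hCs (sa_comp (fun x y => L.inner_Z x y) (sa_of ((famS L.toSys hc).sn_sa v)) ?_) ?_
    · intro x
      exact (B.sn_Z L.toSys hc v x).symm
    · intro x
      change C (L.Z ((famS L.toSys hc).sn v x)) = L.Z ((famS L.toSys hc).sn v (C x))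
      rw [hA.Z C hC, RR.sn hc hA hv hC]
  · intro a ha x
    change a (C (L.Z ((famS L.toSys hc).sn v x))) = C (L.Z ((famS L.toSys hc).sn v (a x)))
    rw [ctl_comm hA ha hC, hA.Z a ha, RR.sn hc hA hv ha]

lemma gb_comm (hA : L.Ctl 𝔄) {v : K} (hv : v ∈ L.RR 𝔄) {C : H →L[ℂ] H} (hC : C ∈ 𝔄)
    {T : H →L[ℂ] H} (hT : T ∈ 𝔄) (x : H) :
    T (gb L.toSys hc C v x) = gb L.toSys hc C v (T x) := by
  rw [B.gb_apply, B.gb_apply, map_neg, ctl_comm hA hT hC, hA.Z T hT, RR.cs hc hA hv hT]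

variable {G r : Set ℝ} {sg : H →L[ℂ] H} {s μ a la : ℝ} {N : ℕ} {b : ℕ → Set ℝ}
  {V V1 V2 : ℕ → (H ≃ₗᵢ[ℂ] H)} {co cr : ℕ → ℂ}

namespace Chain

variable {hc}

lemma mo (h : L.Chain hc 𝔄 G r sg s μ a la N b V V1 V2 co cr) {i : ℕ} (hi : i < N) :
    MeasurableSet (G \ b i) := h.mG.diff (h.mb i hi)

lemma br (h : L.Chain hc 𝔄 G r sg s μ a la N b V V1 V2 co cr) {i : ℕ} (hi : i < N) :
    Disjoint (b i) r := Set.disjoint_of_subset_left (h.bG i hi) h.Gr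

lemma or (h : L.Chain hc 𝔄 G r sg s μ a la N b V V1 V2 co cr) {i : ℕ} :
    Disjoint (G \ b i) r := Set.disjoint_of_subset_left Set.sdiff_subset h.Gr

variable (h : L.Chain hc 𝔄 G r sg s μ a la N b V V1 V2 co cr) (hA : L.Ctl 𝔄)
include h

lemma one_e {i : ℕ} (hi : i < N) {e : Set ℝ} (he : MeasurableSet e) (h1 : Disjoint e (b i))
    (h2 : Disjoint e r) (x : H) : L.E e (V1 i x) = L.E e (V i x) := by
  rw [h.r1 i hi, map_add, map_add, map_sub, map_sub, L.E_zr, L.E_zr, L.E_dis he (h.mb i hi) h1,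
    L.E_dis he h.mr h2]
  simp

lemma one_b {i : ℕ} (hi : i < N) (x : H) :
    L.E (b i) (V1 i x) = L.zr (-((a : ℂ) • L.fv (L.pau 2) r (V i))) (L.E (b i) (V i x)) := by
  rw [h.r1 i hi, map_add, map_add, map_sub, map_sub, L.E_zr, L.E_zr, L.E_E (h.mb i hi),
    L.E_dis (h.mb i hi) h.mr (h.br hi)]
  simp

lemma one_r {i : ℕ} (hi : i < N) (x : H) :
    L.E r (V1 i x) = L.zr (-((a : ℂ) • L.fv (L.pau 2) (b i) (V i))) (L.E r (V i x)) := by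
  rw [h.r1 i hi, map_add, map_add, map_sub, map_sub, L.E_zr, L.E_zr, L.E_E h.mr,
    L.E_dis h.mr (h.mb i hi) (h.br hi).symm]
  simp

lemma three_e {i : ℕ} (hi : i < N) {e : Set ℝ} (he : MeasurableSet e) (h1 : Disjoint e (b i))
    (h2 : Disjoint e r) (x : H) : L.E e (V (i + 1) x) = L.E e (V2 i x) := by
  rw [h.r3 i hi, map_add, map_add, map_sub, map_sub, L.E_zr, L.E_zr, L.E_dis he (h.mb i hi) h1,
    L.E_dis he h.mr h2]
  simp

lemma three_b {i : ℕ} (hi : i < N) (x : H) :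
    L.E (b i) (V (i + 1) x) = L.zr ((a : ℂ) • L.fv (L.pau 2) r (V2 i)) (L.E (b i) (V2 i x)) := by
  rw [h.r3 i hi, map_add, map_add, map_sub, map_sub, L.E_zr, L.E_zr, L.E_E (h.mb i hi),
    L.E_dis (h.mb i hi) h.mr (h.br hi)]
  simp

lemma three_r {i : ℕ} (hi : i < N) (x : H) :
    L.E r (V (i + 1) x) = L.zr ((a : ℂ) • L.fv (L.pau 2) (b i) (V2 i)) (L.E r (V2 i x)) := by
  rw [h.r3 i hi, map_add, map_add, map_sub, map_sub, L.E_zr, L.E_zr, L.E_E h.mr,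
    L.E_dis h.mr (h.mb i hi) (h.br hi).symm]
  simp

include hA

lemma vmem {i : ℕ} (hi : i < N) : L.vch μ la (G \ b i) r (V1 i) ∈ L.RR 𝔄 :=
  RR.vch hA μ la (h.mo hi) h.mr (h.cV1 i hi)

lemma ex_E (hsg : sg ∈ 𝔄) {i : ℕ} (hi : i < N) {e : Set ℝ} (he : MeasurableSet e) (x : H) :
    L.E e (ex (gb L.toSys hc (L.Cch s μ sg (b i)) (L.vch μ la (G \ b i) r (V1 i))) x)
      = ex (gb L.toSys hc (L.Cch s μ sg (b i)) (L.vch μ la (G \ b i) r (V1 i))) (L.E e x) :=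
  comm_ex (fun y => gb_comm hc hA (h.vmem hA hi) (Cch_mem hA hsg s μ (h.mb i hi))
    (E_mem hA he) y) x

lemma two_e (hsg : sg ∈ 𝔄) {i : ℕ} (hi : i < N) {e : Set ℝ} (he : MeasurableSet e)
    (h1 : e ⊆ G \ b i) (x : H) : L.E e (V2 i x)
      = co i • L.zr (-((μ : ℂ) • L.qch hc (L.vch μ la (G \ b i) r (V1 i))
          (L.Cch s μ sg (b i)) (b i) (V1 i))) (L.E e (V1 i x)) := by
  have d1 : Disjoint e (b i) := Set.disjoint_of_subset_left h1 Set.disjoint_sdiff_left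
  have d2 : Disjoint e r := Set.disjoint_of_subset_left h1 h.or
  rw [h.r2 i hi, map_add, map_add, map_add, map_sub, map_sub, map_sub, map_smul, map_smul,
    h.ex_E hA hsg hi he, L.E_zr, L.E_pw, L.E_dis he (h.mb i hi) d1, L.E_dis he h.mr d2,
    L.E_sub he (h.mo hi) h1, ← L.pwLin_apply 1, map_zero, map_zero]
  simp

lemma two_b (hsg : sg ∈ 𝔄) {i : ℕ} (hi : i < N) (x : H) : L.E (b i) (V2 i x)
      = ex (gb L.toSys hc (L.Cch s μ sg (b i)) (L.vch μ la (G \ b i) r (V1 i)))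
        (L.E (b i) (V1 i x)) := by
  rw [h.r2 i hi, map_add, map_add, map_add, map_sub, map_sub, map_sub, map_smul, map_smul,
    h.ex_E hA hsg hi (h.mb i hi), L.E_zr, L.E_pw, L.E_E (h.mb i hi),
    L.E_dis (h.mb i hi) h.mr (h.br hi), L.E_dis (h.mb i hi) (h.mo hi) Set.disjoint_sdiff_right,
    ← L.pwLin_apply 1, map_zero, map_zero]
  simp

lemma two_r (hsg : sg ∈ 𝔄) {i : ℕ} (hi : i < N) (x : H) : L.E r (V2 i x)
      = cr i • L.pw (L.pau 1) (-((la : ℂ) • L.qch hc (L.vch μ la (G \ b i) r (V1 i))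
          (L.Cch s μ sg (b i)) (b i) (V1 i))) (L.E r (V1 i x)) := by
  rw [h.r2 i hi, map_add, map_add, map_add, map_sub, map_sub, map_sub, map_smul, map_smul,
    h.ex_E hA hsg hi h.mr, L.E_zr, L.E_pw, L.E_E h.mr,
    L.E_dis h.mr (h.mb i hi) (h.br hi).symm, L.E_dis h.mr (h.mo hi) h.or.symm,
    map_zero, map_zero]
  simp

end Chain

end LSys

end Vale.Agent.P367.A
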