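import Vale.Agent.P367.B.Core3

/-! P367 block B, T2CORE part 4: exact form of the end of a chain. -/

namespace Vale.Agent.P367.A

open Complex Filter Topology MeasureTheory
open Vale.Agent.P367.B (famS cl exU ex gb ga WFam)

namespace LSys

variable {H K : Type} [NormedAddCommGroup H] [InnerProductSpace ℂ H] [CompleteSpace H]
  [NormedAddCommGroup K] [InnerProductSpace ℂ K] {L : LSys H K} {𝔄 : Set (H →L[ℂ] H)}

/-- change of the state on one block -/
lemma blk {e : Set ℝ} (he : MeasurableSet e) {U U' G : H ≃ₗᵢ[ℂ] H} {c : ℂ} (hc0 : c ≠ 0)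
    (hU : ∀ x, L.E e (U x) = U (L.E e x)) (hU' : ∀ x, L.E e (U' x) = U' (L.E e x))
    (hG : ∀ x, L.E e (G x) = G (L.E e x)) (h : ∀ x, L.E e (U' x) = c • G (L.E e (U x)))
    (B : H →ₗ[ℂ] H) (hB : ∀ x, L.E e (B x) = B (L.E e x)) (y : H) :
    L.E e (U'⁻¹ (B (U' y))) = L.E e (U⁻¹ (G⁻¹ (B (G (U y))))) := by
  have key : ∀ z, L.E e z = z → U'⁻¹ z = c⁻¹ • U⁻¹ (G⁻¹ z) := by
    intro z hz
    have hw : L.E e (c⁻¹ • U⁻¹ (G⁻¹ z)) = c⁻¹ • U⁻¹ (G⁻¹ z) := by
      rw [map_smul, comm_inv hU, comm_inv hG, hz]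
    apply Sys.inv_apply_eq
    rw [← hw, ← hU', h, map_smul, map_smul, map_smul, Sys.Ainv, ← hG, Sys.Ainv, hz,
      smul_smul, mul_inv_cancel₀ hc0, one_smul]
  have h2 : L.E e (B (L.E e (G (U y)))) = B (L.E e (G (U y))) := by
    rw [hB, L.E_E he]
  rw [comm_inv hU', hB, h, ← hG, map_smul, map_smul, key _ h2, smul_smul, mul_inv_cancel₀ hc0,
    one_smul, ← hB, ← comm_inv hG, ← comm_inv hU]

lemma fvZ_of {e : Set ℝ} (he : MeasurableSet e) {U U' G : H ≃ₗᵢ[ℂ] H} {c : ℂ} (hc0 : c ≠ 0)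
    (hU : ∀ x, L.E e (U x) = U (L.E e x)) (hU' : ∀ x, L.E e (U' x) = U' (L.E e x))
    (hG : ∀ x, L.E e (G x) = G (L.E e x)) (hGZ : ∀ x, L.Z (G x) = G (L.Z x))
    (h : ∀ x, L.E e (U' x) = c • G (L.E e (U x))) :
    L.fv (L.pau 2) e U' = L.fv (L.pau 2) e U := by
  unfold fv
  have := blk he hc0 hU hU' hG h (L.Z.toLinearEquiv.toLinearMap) (fun x => L.E_Z e x) L.Om
  change L.iota (L.E e (U'⁻¹ (L.Z (U' L.Om)))) = L.iota (L.E e (U⁻¹ (L.Z (U L.Om))))
  change L.E e (U'⁻¹ (L.Z (U' L.Om))) = L.E e (U⁻¹ (G⁻¹ (L.Z (G (U L.Om))))) at this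
  rw [this, hGZ, Sys.invA]

lemma fv_add {e e' : Set ℝ} (he : MeasurableSet e) (he' : MeasurableSet e') (hd : Disjoint e e')
    (Q U : H ≃ₗᵢ[ℂ] H) : L.fv Q (e ∪ e') U = L.fv Q e U + L.fv Q e' U := by
  unfold fv
  rw [L.E_union he he' hd, map_add]

lemma fv_split {e b : Set ℝ} (he : MeasurableSet e) (hb : MeasurableSet b)
    (Q U : H ≃ₗᵢ[ℂ] H) : L.fv Q e U = L.fv Q (e ∩ b) U + L.fv Q (e \ b) U := by
  rw [← fv_add (he.inter hb) (he.diff hb) (Set.disjoint_left.2 fun t h1 h2 => h2.2 h1.2),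
    Set.inter_union_sdiff]

variable {hc : ∀ x : H, Tendsto (fun a => L.W a x) (𝓝 0) (𝓝 x)}
  {G r : Set ℝ} {sg : H →L[ℂ] H} {s μ a la : ℝ} {N : ℕ} {b : ℕ → Set ℝ}
  {V V1 V2 : ℕ → (H ≃ₗᵢ[ℂ] H)} {co cr : ℕ → ℂ}

namespace Chain

variable (h : L.Chain hc 𝔄 G r sg s μ a la N b V V1 V2 co cr) (hA : L.Ctl 𝔄)

include h

lemma gbsa (hA : L.Ctl 𝔄) (hsg : sg ∈ 𝔄) (hs : Sa sg) {i : ℕ} (hi : i < N) :
    IsSelfAdjoint (gb L.toSys hc (L.Cch s μ sg (b i)) (L.vch μ la (G \ b i) r (V1 i))) := by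
  have hv := h.vmem hA hi
  have hC := Cch_mem hA hsg s μ (h.mb i hi)
  refine B.gb_sa L.toSys hc (isSA (Cch_sa hA hsg hs s μ (h.mb i hi))) ?_
    (fun x => RR.W hA hv hC x) (fun x => RR.W hA (RR.neg hv) hC x)
  ext x
  exact hA.Z _ hC x

include hA

/-- the field vector `x` of a subset of `G` does not change, first half step -/
lemma fv1 {i : ℕ} (hi : i < N) {e : Set ℝ} (he : MeasurableSet e) (heG : e ⊆ G) :
    L.fv (L.pau 2) e (V1 i) = L.fv (L.pau 2) e (V i) := by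
  have m1 := he.inter (h.mb i hi)
  have m2 := he.diff (h.mb i hi)
  rw [fv_split he (h.mb i hi), fv_split he (h.mb i hi) _ (V i)]
  have c0 : ∀ x, ∀ e, MeasurableSet e → L.E e (V i x) = V i (L.E e x) := fun x e hm =>
    h.cV i hi.le _ (E_mem hA hm) x
  have c1 : ∀ x, ∀ e, MeasurableSet e → L.E e (V1 i x) = V1 i (L.E e x) := fun x e hm =>
    h.cV1 i hi _ (E_mem hA hm) x
  congr 1
  · refine fvZ_of m1 (c := 1) one_ne_zero (fun x => c0 x _ m1) (fun x => c1 x _ m1)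
      (G := L.zr (-((a : ℂ) • L.fv (L.pau 2) r (V i)))) (fun x => L.E_zr _ _ x)
      (fun x => L.Z_zr _ x) (fun x => ?_)
    rw [← L.E_sub m1 (h.mb i hi) Set.inter_subset_right (V1 i x), h.one_b hi, one_smul, L.E_zr,
      L.E_sub m1 (h.mb i hi) Set.inter_subset_right]
  · refine fvZ_of m2 (c := 1) one_ne_zero (fun x => c0 x _ m2) (fun x => c1 x _ m2)
      (G := 1) (fun x => rfl) (fun x => rfl) (fun x => ?_)
    rw [one_smul]
    exact h.one_e hi m2 Set.disjoint_sdiff_left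
      (Set.disjoint_of_subset_left (Set.sdiff_subset.trans heG) h.Gr) x

lemma fv2 (hsg : sg ∈ 𝔄) (hs : Sa sg) {i : ℕ} (hi : i < N) {e : Set ℝ} (he : MeasurableSet e)
    (heG : e ⊆ G) : L.fv (L.pau 2) e (V2 i) = L.fv (L.pau 2) e (V1 i) := by
  have m1 := he.inter (h.mb i hi)
  have m2 := he.diff (h.mb i hi)
  rw [fv_split he (h.mb i hi), fv_split he (h.mb i hi) _ (V1 i)]
  have c0 : ∀ x, ∀ e, MeasurableSet e → L.E e (V1 i x) = V1 i (L.E e x) := fun x e hm =>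
    h.cV1 i hi _ (E_mem hA hm) x
  have c1 : ∀ x, ∀ e, MeasurableSet e → L.E e (V2 i x) = V2 i (L.E e x) := fun x e hm =>
    h.cV2 i hi _ (E_mem hA hm) x
  congr 1
  · refine fvZ_of m1 (c := 1) one_ne_zero (fun x => c0 x _ m1) (fun x => c1 x _ m1)
      (G := exU _ (h.gbsa hA hsg hs hi)) (fun x => ?_) (fun x => ?_) (fun x => ?_)
    · exact h.ex_E hA hsg hi m1 x
    · have hv := h.vmem hA hi
      have hC := Cch_mem hA hsg s μ (h.mb i hi)
      refine comm_ex (T := cl L.Z) (fun y => ?_) x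
      change L.Z (gb _ _ _ _ y) = gb _ _ _ _ (L.Z y)
      rw [B.gb_apply, B.gb_apply, map_neg, ← hA.Z _ hC, B.cs_Z]
    · rw [← L.E_sub m1 (h.mb i hi) Set.inter_subset_right (V2 i x), h.two_b hA hsg hi, one_smul,
        h.ex_E hA hsg hi m1, L.E_sub m1 (h.mb i hi) Set.inter_subset_right]
      rfl
  · have hne : co i ≠ 0 := by
      intro h0
      have := h.nco i hi
      rw [h0, norm_zero] at this
      exact zero_ne_one this
    refine fvZ_of m2 hne (fun x => c0 x _ m2) (fun x => c1 x _ m2)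
      (G := L.zr (-((μ : ℂ) • L.qch hc (L.vch μ la (G \ b i) r (V1 i))
          (L.Cch s μ sg (b i)) (b i) (V1 i)))) (fun x => L.E_zr _ _ x) (fun x => L.Z_zr _ x)
      (fun x => ?_)
    exact h.two_e hA hsg hi m2 (Set.sdiff_subset_sdiff_left heG) x

lemma fv3 {i : ℕ} (hi : i < N) {e : Set ℝ} (he : MeasurableSet e) (heG : e ⊆ G) :
    L.fv (L.pau 2) e (V (i + 1)) = L.fv (L.pau 2) e (V2 i) := by
  have m1 := he.inter (h.mb i hi)
  have m2 := he.diff (h.mb i hi)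
  rw [fv_split he (h.mb i hi), fv_split he (h.mb i hi) _ (V2 i)]
  have c0 : ∀ x, ∀ e, MeasurableSet e → L.E e (V2 i x) = V2 i (L.E e x) := fun x e hm =>
    h.cV2 i hi _ (E_mem hA hm) x
  have c1 : ∀ x, ∀ e, MeasurableSet e → L.E e (V (i + 1) x) = V (i + 1) (L.E e x) := fun x e hm =>
    h.cV (i + 1) (by omega) _ (E_mem hA hm) x
  congr 1
  · refine fvZ_of m1 (c := 1) one_ne_zero (fun x => c0 x _ m1) (fun x => c1 x _ m1)
      (G := L.zr ((a : ℂ) • L.fv (L.pau 2) r (V2 i))) (fun x => L.E_zr _ _ x)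
      (fun x => L.Z_zr _ x) (fun x => ?_)
    rw [← L.E_sub m1 (h.mb i hi) Set.inter_subset_right (V (i + 1) x), h.three_b hi, one_smul,
      L.E_zr, L.E_sub m1 (h.mb i hi) Set.inter_subset_right]
  · refine fvZ_of m2 (c := 1) one_ne_zero (fun x => c0 x _ m2) (fun x => c1 x _ m2)
      (G := 1) (fun x => rfl) (fun x => rfl) (fun x => ?_)
    rw [one_smul]
    exact h.three_e hi m2 Set.disjoint_sdiff_left
      (Set.disjoint_of_subset_left (Set.sdiff_subset.trans heG) h.Gr) x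

/-- field vectors of subsets of `G` are constant along the chain -/
lemma fvV (hsg : sg ∈ 𝔄) (hs : Sa sg) {e : Set ℝ} (he : MeasurableSet e) (heG : e ⊆ G) :
    ∀ i ≤ N, L.fv (L.pau 2) e (V i) = L.fv (L.pau 2) e (V 0) := by
  intro i
  induction i with
  | zero => intro _; rfl
  | succ i ih =>
    intro hi
    rw [h.fv3 hA (by omega) he heG, h.fv2 hA hsg hs (by omega) he heG,
      h.fv1 hA (by omega) he heG, ih (by omega)]

/-- the reaction displacement `-mu q_i` -/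
noncomputable def w (_h : L.Chain hc 𝔄 G r sg s μ a la N b V V1 V2 co cr) (i : ℕ) : K :=
  -((μ : ℂ) • L.qch hc (L.vch μ la (G \ b i) r (V1 i)) (L.Cch s μ sg (b i)) (b i) (V1 i))

/-- sum of the displacements of the batches before `i` -/
noncomputable def Wv (h : L.Chain hc 𝔄 G r sg s μ a la N b V V1 V2 co cr) (i : ℕ) : K :=
  ∑ j ∈ Finset.range i, h.w j

omit hA in
lemma norm_phase (t : ℝ) : ‖Complex.exp (-(Complex.I * (t : ℂ)))‖ = 1 := by
  rw [show -(Complex.I * (t : ℂ)) = ((-t : ℝ) : ℂ) * Complex.I by push_cast; ring,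
    Complex.norm_exp_ofReal_mul_I]

/-- blocks before their own step -/
lemma pre (hsg : sg ∈ 𝔄) {k : ℕ} (hk : k < N) : ∀ i ≤ k, ∃ c : ℂ, ‖c‖ = 1 ∧
    ∀ x, L.E (b k) (V i x) = c • L.zr (h.Wv i) (L.E (b k) (V 0 x)) := by
  intro i
  induction i with
  | zero =>
    intro _
    refine ⟨1, norm_one, fun x => ?_⟩
    rw [one_smul, Wv, Finset.range_zero, Finset.sum_empty, L.zr_zero]
  | succ i ih =>
    intro hi
    obtain ⟨c, hc1, hc2⟩ := ih (by omega)
    have hiN : i < N := by omega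
    have hd : Disjoint (b k) (b i) := h.bb k hk i hiN (by omega)
    have hsub : b k ⊆ G \ b i := fun t ht => ⟨h.bG k hk ht, fun h2 => hd.le_bot ⟨ht, h2⟩⟩
    refine ⟨co i * c * Complex.exp (-(Complex.I * (th (h.w i) (h.Wv i) : ℂ))), ?_, fun x => ?_⟩
    · rw [norm_mul, norm_mul, h.nco i hiN, hc1, h.norm_phase, one_mul, one_mul]
    · rw [h.three_e hiN (h.mb k hk) hd (h.br hk), h.two_e hA hsg hiN (h.mb k hk) hsub,
        h.one_e hiN (h.mb k hk) hd (h.br hk), hc2, map_smul]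
      change co i • c • L.zr (h.w i) (L.zr (h.Wv i) _) = _
      rw [L.zr_zr, smul_smul, smul_smul, Wv, Wv, Finset.sum_range_succ, add_comm (h.w i)]

/-- blocks after their own step -/
lemma post (hsg : sg ∈ 𝔄) {k : ℕ} (hk : k < N) : ∀ i, k + 1 ≤ i → i ≤ N → ∃ c : ℂ, ‖c‖ = 1 ∧
    ∀ x, L.E (b k) (V i x) = c • L.zr (h.Wv i - h.Wv (k + 1)) (L.E (b k) (V (k + 1) x)) := by
  intro i
  induction i with
  | zero => intro h1; omega
  | succ i ih =>
    intro h1 h2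
    rcases Nat.eq_or_lt_of_le h1 with h3 | h3
    · refine ⟨1, norm_one, fun x => ?_⟩
      rw [← h3, sub_self, L.zr_zero, one_smul]
    · obtain ⟨c, hc1, hc2⟩ := ih (by omega) (by omega)
      have hiN : i < N := by omega
      have hd : Disjoint (b k) (b i) := h.bb k hk i hiN (by omega)
      have hsub : b k ⊆ G \ b i := fun t ht => ⟨h.bG k hk ht, fun h2 => hd.le_bot ⟨ht, h2⟩⟩
      refine ⟨co i * c * Complex.exp (-(Complex.I * (th (h.w i) (h.Wv i - h.Wv (k + 1)) : ℂ))),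
        ?_, fun x => ?_⟩
      · rw [norm_mul, norm_mul, h.nco i hiN, hc1, h.norm_phase, one_mul, one_mul]
      · rw [h.three_e hiN (h.mb k hk) hd (h.br hk), h.two_e hA hsg hiN (h.mb k hk) hsub,
          h.one_e hiN (h.mb k hk) hd (h.br hk), hc2, map_smul]
        change co i • c • L.zr (h.w i) (L.zr (h.Wv i - h.Wv (k + 1)) _) = _
        rw [L.zr_zr, smul_smul, smul_smul]
        congr 3
        rw [Wv, Wv, Wv, Finset.sum_range_succ _ i]
        abel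

/-- the displacement seen by the batch `k` in its own step -/
noncomputable def cc (h : L.Chain hc 𝔄 G r sg s μ a la N b V V1 V2 co cr) (k : ℕ) : K :=
  (a : ℂ) • L.fv (L.pau 2) r (V k) - h.Wv k

/-- its shift -/
noncomputable def θ (h : L.Chain hc 𝔄 G r sg s μ a la N b V V1 V2 co cr) (k : ℕ) : ℝ :=
  2 * th (h.cc k) (L.vch μ la (G \ b k) r (V1 k))

lemma one_own (hsg : sg ∈ 𝔄) {k : ℕ} (hk : k < N) : ∃ c : ℂ, ‖c‖ = 1 ∧
    ∀ x, L.E (b k) (V1 k x) = c • L.zr (-(h.cc k)) (L.E (b k) (V 0 x)) := by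
  obtain ⟨c, hc1, hc2⟩ := h.pre hA hsg hk k le_rfl
  refine ⟨c * Complex.exp (-(Complex.I * (th (-((a : ℂ) • L.fv (L.pau 2) r (V k)))
    (h.Wv k) : ℂ))), ?_, fun x => ?_⟩
  · rw [norm_mul, hc1, h.norm_phase, one_mul]
  · rw [h.one_b hk, hc2, map_smul, L.zr_zr, smul_smul, cc]
    congr 3
    abel

end Chain

end LSys

end Vale.Agent.P367.A
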