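import Vale.Agent.P367.B.Core4

/-! P367 block B, T2CORE part 5: exact form of the own batch and of the reaction vectors. -/

namespace Vale.Agent.P367.A

open Complex Filter Topology MeasureTheory
open Vale.Agent.P367.B (famS cl exU ex gb ga WFam)

namespace LSys

variable {H K : Type} [NormedAddCommGroup H] [InnerProductSpace ℂ H] [CompleteSpace H]
  [NormedAddCommGroup K] [InnerProductSpace ℂ K] {L : LSys H K} {𝔄 : Set (H →L[ℂ] H)}
  {hc : ∀ x : H, Tendsto (fun a => L.W a x) (𝓝 0) (𝓝 x)}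
  {G r : Set ℝ} {sg : H →L[ℂ] H} {s μ a la : ℝ} {N : ℕ} {b : ℕ → Set ℝ}
  {V V1 V2 : ℕ → (H ≃ₗᵢ[ℂ] H)} {co cr : ℕ → ℂ}

namespace Chain

variable (h : L.Chain hc 𝔄 G r sg s μ a la N b V V1 V2 co cr) (hA : L.Ctl 𝔄)

include h hA

lemma wmem (hsg : sg ∈ 𝔄) (hs : Sa sg) {i : ℕ} (hi : i < N) : h.w i ∈ L.RR 𝔄 :=
  RR.neg (RR.smul (RR.qch hc hA (h.vmem hA hi) (Cch_mem hA hsg s μ (h.mb i hi))
    (Cch_sa hA hsg hs s μ (h.mb i hi)) (h.mb i hi) (h.cV1 i hi)) μ)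

lemma Wvmem (hsg : sg ∈ 𝔄) (hs : Sa sg) : ∀ i ≤ N, h.Wv i ∈ L.RR 𝔄 := by
  intro i
  induction i with
  | zero => intro _; rw [Wv, Finset.range_zero, Finset.sum_empty]; exact RR.zero
  | succ i ih =>
    intro hi
    have e : h.Wv (i + 1) = h.Wv i + h.w i := by rw [Wv, Wv, Finset.sum_range_succ]
    rw [e]
    exact RR.add (ih (by omega)) (h.wmem hA hsg hs (by omega))

lemma ccmem (hsg : sg ∈ 𝔄) (hs : Sa sg) {k : ℕ} (hk : k < N) : h.cc k ∈ L.RR 𝔄 :=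
  RR.sub (RR.smul (RR.fv hA (h.cV k hk.le) h.mr 2) a) (h.Wvmem hA hsg hs k hk.le)

/-- the own step of the batch `k` -/
lemma own_step (hsg : sg ∈ 𝔄) (hs : Sa sg) {k : ℕ} (hk : k < N) : ∃ c : ℂ, ‖c‖ = 1 ∧
    ∀ x, L.E (b k) (V (k + 1) x)
      = c • L.zr ((a : ℂ) • L.fv (L.pau 2) r (V2 k) - h.cc k)
        (ex (ga L.toSys hc (L.Cch s μ sg (b k)) (L.vch μ la (G \ b k) r (V1 k)) (h.θ k))
          (L.E (b k) (V 0 x))) := by
  obtain ⟨c, hc1, hc2⟩ := h.one_own hA hsg hk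
  have hC := Cch_mem hA hsg s μ (h.mb k hk)
  have hcc := h.ccmem hA hsg hs hk
  refine ⟨c * Complex.exp (-(Complex.I * (th ((a : ℂ) • L.fv (L.pau 2) r (V2 k))
    (-(h.cc k)) : ℂ))), ?_, fun x => ?_⟩
  · rw [norm_mul, hc1, h.norm_phase, one_mul]
  · rw [h.three_b hk, h.two_b hA hsg hk, hc2, map_smul, map_smul,
      B.ex_gb_zr L.toSys hc (fun y => hA.Z _ hC y) (fun y => RR.zr hA (RR.neg hcc) hC y),
      L.zr_zr, smul_smul, ← sub_eq_add_neg]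
    rfl

/-- **exact form of the batch `k` at the end of the chain** -/
lemma own (hsg : sg ∈ 𝔄) (hs : Sa sg) {k : ℕ} (hk : k < N) : ∃ c : ℂ, ‖c‖ = 1 ∧
    ∀ x, L.E (b k) (V N x)
      = c • L.zr (h.Wv N - h.w k + (a : ℂ) • (L.fv (L.pau 2) r (V2 k) - L.fv (L.pau 2) r (V k)))
        (ex (ga L.toSys hc (L.Cch s μ sg (b k)) (L.vch μ la (G \ b k) r (V1 k)) (h.θ k))
          (L.E (b k) (V 0 x))) := by
  obtain ⟨c, hc1, hc2⟩ := h.own_step hA hsg hs hk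
  obtain ⟨d, hd1, hd2⟩ := h.post hA hsg hk N hk le_rfl
  refine ⟨d * c * Complex.exp (-(Complex.I * (th (h.Wv N - h.Wv (k + 1))
    ((a : ℂ) • L.fv (L.pau 2) r (V2 k) - h.cc k) : ℂ))), ?_, fun x => ?_⟩
  · rw [norm_mul, norm_mul, hc1, hd1, h.norm_phase, one_mul, one_mul]
  · rw [hd2, hc2, map_smul, L.zr_zr, smul_smul, smul_smul]
    congr 3
    rw [cc, smul_sub, Wv, Wv, Wv, Finset.sum_range_succ _ k]
    abel

/-- **exact form of the reaction displacement** -/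
lemma w_eq (hsg : sg ∈ 𝔄) (hs : Sa sg) (hμ : μ ≠ 0) {k : ℕ} (hk : k < N) :
    h.w k = (s : ℂ) • L.iota (L.E (b k) ((V 0)⁻¹ (sg
      ((Real.cos (h.θ k) : ℂ) • L.Z ((famS L.toSys hc).sn (L.vch μ la (G \ b k) r (V1 k))
          (V 0 L.Om))
        + (Real.sin (h.θ k) : ℂ) • (famS L.toSys hc).cs (L.vch μ la (G \ b k) r (V1 k))
          (V 0 L.Om))))) := by
  obtain ⟨c, hc1, hc2⟩ := h.one_own hA hsg hk
  have hC := Cch_mem hA hsg s μ (h.mb k hk)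
  have hcc := h.ccmem hA hsg hs hk
  have hv := h.vmem hA hk
  have hb := h.mb k hk
  have hne : c ≠ 0 := by
    intro h0
    rw [h0, norm_zero] at hc1
    exact zero_ne_one hc1
  have hE := E_mem (L := L) hA hb
  have h1 := blk hb (U := V 0) (U' := V1 k) (G := L.zr (-(h.cc k))) hne
    (fun x => h.cV 0 (Nat.zero_le _) _ hE x) (fun x => h.cV1 k hk _ hE x)
    (fun x => L.E_zr _ _ x) (fun x => hc2 x)
    ((L.Cch s μ sg (b k) * (cl L.Z * (famS L.toSys hc).sn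
      (L.vch μ la (G \ b k) r (V1 k)))) : H →L[ℂ] H).toLinearMap
    (fun x => by
      change L.E (b k) (L.Cch s μ sg (b k) (L.Z ((famS L.toSys hc).sn _ x)))
        = L.Cch s μ sg (b k) (L.Z ((famS L.toSys hc).sn _ (L.E (b k) x)))
      rw [ctl_comm hA hE hC, L.E_Z, RR.sn hc hA hv hE]) L.Om
  change L.E (b k) ((V1 k)⁻¹ (L.Cch s μ sg (b k) (L.Z ((famS L.toSys hc).sn
      (L.vch μ la (G \ b k) r (V1 k)) (V1 k L.Om)))))
    = L.E (b k) ((V 0)⁻¹ ((L.zr (-(h.cc k)))⁻¹ (L.Cch s μ sg (b k) (L.Z ((famS L.toSys hc).sn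
      (L.vch μ la (G \ b k) r (V1 k)) (L.zr (-(h.cc k)) (V 0 L.Om))))))) at h1
  rw [B.react_zr L.toSys hc (fun y => RR.zr hA (RR.neg hcc) hC y), Sys.invA] at h1
  change -((μ : ℂ) • L.iota (L.E (b k) ((V1 k)⁻¹ (L.Cch s μ sg (b k) (L.Z
    ((famS L.toSys hc).sn (L.vch μ la (G \ b k) r (V1 k)) (V1 k L.Om))))))) = _
  rw [h1]
  change -((μ : ℂ) • L.iota (L.E (b k) ((V 0)⁻¹ (((-(s / μ) : ℝ) : ℂ) • (sg (L.E (b k)
    ((Real.cos (h.θ k) : ℂ) • L.Z ((famS L.toSys hc).sn (L.vch μ la (G \ b k) r (V1 k))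
          (V 0 L.Om))
        + (Real.sin (h.θ k) : ℂ) • (famS L.toSys hc).cs (L.vch μ la (G \ b k) r (V1 k))
          (V 0 L.Om)))))))) = _
  rw [map_smul, map_smul, map_smul, smul_smul, ← neg_smul]
  have e1 : -((μ : ℂ) * ((-(s / μ) : ℝ) : ℂ)) = (s : ℂ) := by
    have : (μ : ℂ) ≠ 0 := by exact_mod_cast hμ
    push_cast
    field_simp
  rw [e1]
  congr 2
  rw [ctl_comm hA hsg hE, ← comm_inv (fun x => h.cV 0 (Nat.zero_le _) _ hE x), L.E_E hb]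

end Chain

end LSys

end Vale.Agent.P367.A
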