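import Vale.Agent.P367.B.FA1

/-! P367, block B, T2: orthogonal block sums (helper739). -/

namespace Vale.Agent.P367.A

open Complex Filter Topology MeasureTheory

namespace LSys

variable {H K : Type*} [NormedAddCommGroup H] [InnerProductSpace ℂ H]
  [NormedAddCommGroup K] [InnerProductSpace ℂ K] (L : LSys H K)

/-- orthogonality of block sums, in the one-particle space -/
lemma ci_norm_sq_sum {N : ℕ} {b : ℕ → Set ℝ} (mb : ∀ i < N, MeasurableSet (b i))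
    (bb : ∀ i < N, ∀ j < N, i ≠ j → Disjoint (b i) (b j)) (y : ℕ → H) :
    ‖∑ j ∈ Finset.range N, L.iota (L.E (b j) (y j))‖ ^ 2
      = ∑ j ∈ Finset.range N, ‖L.E (b j) (y j)‖ ^ 2 := by
  rw [← map_sum, LinearIsometry.norm_map]
  exact L.fa_pyth mb bb y

/-- the same for vectors given up to equality -/
lemma ci_norm_sq_sum' {N : ℕ} {b : ℕ → Set ℝ} (mb : ∀ i < N, MeasurableSet (b i))
    (bb : ∀ i < N, ∀ j < N, i ≠ j → Disjoint (b i) (b j)) {w : ℕ → K} {y : ℕ → H}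
    (hw : ∀ i < N, w i = L.iota (L.E (b i) (y i))) :
    ‖∑ j ∈ Finset.range N, w j‖ ^ 2 = ∑ j ∈ Finset.range N, ‖w j‖ ^ 2 := by
  rw [Finset.sum_congr rfl fun i hi => hw i (Finset.mem_range.1 hi), L.ci_norm_sq_sum mb bb]
  refine Finset.sum_congr rfl fun i hi => ?_
  rw [hw i (Finset.mem_range.1 hi), LinearIsometry.norm_map]

/-- partial sums are bounded by total sums -/
lemma ci_norm_sq_subsum {N : ℕ} {b : ℕ → Set ℝ} (mb : ∀ i < N, MeasurableSet (b i))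
    (bb : ∀ i < N, ∀ j < N, i ≠ j → Disjoint (b i) (b j)) {w : ℕ → K} {y : ℕ → H}
    (hw : ∀ i < N, w i = L.iota (L.E (b i) (y i))) {s : Finset ℕ} (hs : s ⊆ Finset.range N) :
    ‖∑ j ∈ s, w j‖ ^ 2 ≤ ∑ j ∈ Finset.range N, ‖w j‖ ^ 2 := by
  classical
  have h1 : ∑ j ∈ s, w j = ∑ j ∈ Finset.range N, (if j ∈ s then w j else 0) := by
    rw [← Finset.sum_filter]
    refine Finset.sum_congr ?_ fun _ _ => rfl
    ext j
    simp only [Finset.mem_filter]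
    exact ⟨fun h => ⟨hs h, h⟩, fun h => h.2⟩
  rw [h1]
  have h2 : ∀ i < N, (fun j => if j ∈ s then w j else 0) i
      = L.iota (L.E (b i) ((fun j => if j ∈ s then y j else 0) i)) := by
    intro i hi
    by_cases h : i ∈ s
    · simp only [h, if_true]
      exact hw i hi
    · simp only [h, if_false, map_zero]
  rw [L.ci_norm_sq_sum' mb bb h2]
  refine Finset.sum_le_sum fun i _ => ?_
  by_cases h : i ∈ s
  · simp only [h, if_true]
    exact le_rfl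
  · simp only [h, if_false, norm_zero]
    rw [zero_pow two_ne_zero]
    exact sq_nonneg _

lemma ci_sg_E {G : Set ℝ} (hG : MeasurableSet G) {𝔄 : Set (H →L[ℂ] H)} {sg : H →L[ℂ] H}
    (h : L.Sgn G 𝔄 sg) (x : H) : sg (L.E G x) = sg x := by
  have h1 : sg (sg (x - L.E G x)) = 0 := by
    have := congrArg (fun T : H →L[ℂ] H => T (x - L.E G x)) h.2.2
    change sg (sg (x - L.E G x)) = L.E G (x - L.E G x) at this
    rw [this, map_sub, L.o_E_idem hG, sub_self]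
  have h2 : (inner ℂ (sg (x - L.E G x)) (sg (x - L.E G x)) : ℂ) = 0 := by
    rw [h.2.1, h1, inner_zero_right]
  rw [inner_self_eq_zero, map_sub, sub_eq_zero] at h2
  exact h2.symm

lemma ci_E_sg {G : Set ℝ} (hG : MeasurableSet G) {𝔄 : Set (H →L[ℂ] H)} {sg : H →L[ℂ] H}
    (h : L.Sgn G 𝔄 sg) (x : H) : L.E G (sg x) = sg x := by
  have h1 := congrArg (fun T : H →L[ℂ] H => T (sg x)) h.2.2
  change sg (sg (sg x)) = L.E G (sg x) at h1
  have h2 := congrArg (fun T : H →L[ℂ] H => T x) h.2.2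
  change sg (sg x) = L.E G x at h2
  rw [← h1, h2, L.ci_sg_E hG h]

lemma ci_norm_sg_le {G : Set ℝ} (hG : MeasurableSet G) {𝔄 : Set (H →L[ℂ] H)} {sg : H →L[ℂ] H}
    (h : L.Sgn G 𝔄 sg) (x : H) : ‖sg x‖ = ‖L.E G x‖ := by
  have h2 := congrArg (fun T : H →L[ℂ] H => T x) h.2.2
  change sg (sg x) = L.E G x at h2
  have h3 : (inner ℂ (sg x) (sg x) : ℂ) = inner ℂ (L.E G x) (L.E G x) := by
    rw [h.2.1, h2, L.o_E_sa G hG, L.o_E_idem hG]
  rw [inner_self_eq_norm_sq_to_K, inner_self_eq_norm_sq_to_K] at h3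
  have h4 : ‖sg x‖ ^ 2 = ‖L.E G x‖ ^ 2 := by exact_mod_cast h3
  exact (sq_eq_sq₀ (norm_nonneg _) (norm_nonneg _)).1 h4

/-- the field vector of a sign control is the sum of its batches -/
lemma ci_iota_sg {G : Set ℝ} {𝔄 : Set (H →L[ℂ] H)} {sg : H →L[ℂ] H}
    (h : L.Sgn G 𝔄 sg) {N : ℕ} {b : ℕ → Set ℝ} (mb : ∀ i < N, MeasurableSet (b i))
    (bb : ∀ i < N, ∀ j < N, i ≠ j → Disjoint (b i) (b j))
    (hG : (⋃ i ∈ Finset.range N, b i) = G) (x : H) :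
    L.iota (sg x) = ∑ j ∈ Finset.range N, L.iota (L.E (b j) (sg x)) := by
  have hGm : MeasurableSet G := by
    rw [← hG]
    exact Finset.measurableSet_biUnion _ fun i hi => mb i (Finset.mem_range.1 hi)
  rw [← map_sum, ← L.fa_E_sum mb bb hG.symm, L.ci_E_sg hGm h]

/-- sums of the block masses -/
lemma ci_sum_sq_E {G : Set ℝ} {N : ℕ} {b : ℕ → Set ℝ} (mb : ∀ i < N, MeasurableSet (b i))
    (bb : ∀ i < N, ∀ j < N, i ≠ j → Disjoint (b i) (b j))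
    (hG : (⋃ i ∈ Finset.range N, b i) = G) (x : H) :
    ∑ j ∈ Finset.range N, ‖L.E (b j) x‖ ^ 2 = ‖L.E G x‖ ^ 2 := by
  rw [L.fa_E_sum mb bb hG.symm, L.fa_pyth mb bb fun _ => x]

lemma ci_sum_sq_E_le {N : ℕ} {b : ℕ → Set ℝ} (mb : ∀ i < N, MeasurableSet (b i))
    (bb : ∀ i < N, ∀ j < N, i ≠ j → Disjoint (b i) (b j)) (x : H) :
    ∑ j ∈ Finset.range N, ‖L.E (b j) x‖ ^ 2 ≤ ‖x‖ ^ 2 := by
  have hGm : MeasurableSet (⋃ i ∈ Finset.range N, b i) :=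
    Finset.measurableSet_biUnion _ fun i hi => mb i (Finset.mem_range.1 hi)
  rw [L.ci_sum_sq_E mb bb rfl x]
  have h := L.o_norm_E_le hGm x
  gcongr

/-- Minkowski for block sums -/
lemma ci_minkowski {N : ℕ} (u v : ℕ → H) {A B : ℝ} (hA : 0 ≤ A) (hB : 0 ≤ B)
    (hu : ∑ i ∈ Finset.range N, ‖u i‖ ^ 2 ≤ A ^ 2) (hv : ∑ i ∈ Finset.range N, ‖v i‖ ^ 2 ≤ B ^ 2) :
    ∑ i ∈ Finset.range N, ‖u i + v i‖ ^ 2 ≤ (A + B) ^ 2 := by
  have h1 : ∑ i ∈ Finset.range N, ‖u i‖ * ‖v i‖ ≤ A * B := by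
    have h2 := Finset.sum_mul_sq_le_sq_mul_sq (Finset.range N) (fun i => ‖u i‖) (fun i => ‖v i‖)
    have h3 : (∑ i ∈ Finset.range N, ‖u i‖ * ‖v i‖) ^ 2 ≤ (A * B) ^ 2 := by
      refine h2.trans ?_
      rw [mul_pow]
      exact mul_le_mul hu hv (Finset.sum_nonneg fun i _ => by positivity) (by positivity)
    exact abs_le_of_sq_le_sq' h3 (by positivity) |>.2
  calc ∑ i ∈ Finset.range N, ‖u i + v i‖ ^ 2
      ≤ ∑ i ∈ Finset.range N, (‖u i‖ ^ 2 + 2 * (‖u i‖ * ‖v i‖) + ‖v i‖ ^ 2) := by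
        refine Finset.sum_le_sum fun i _ => ?_
        have h4 := norm_add_le (u i) (v i)
        have h5 : ‖u i + v i‖ ^ 2 ≤ (‖u i‖ + ‖v i‖) ^ 2 := by gcongr
        nlinarith
    _ = ∑ i ∈ Finset.range N, ‖u i‖ ^ 2 + 2 * ∑ i ∈ Finset.range N, ‖u i‖ * ‖v i‖
          + ∑ i ∈ Finset.range N, ‖v i‖ ^ 2 := by
        rw [Finset.sum_add_distrib, Finset.sum_add_distrib, Finset.mul_sum]
    _ ≤ (A + B) ^ 2 := by nlinarith

end LSys

end Vale.Agent.P367.A
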