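import Vale.Agent.P367.B.LSys

/-! P367, block B: label partitions of small mesh. -/

namespace Vale.Agent.P367.A

open Complex Filter Topology MeasureTheory

/-- finite measurable partitions of `G` into pieces of measure at most `δ` -/
def PartOf (μ : Measure ℝ) (δ : ENNReal) (G : Set ℝ) : Prop :=
  ∃ (n : ℕ) (b : ℕ → Set ℝ), (∀ i, MeasurableSet (b i)) ∧ (∀ i j, i ≠ j → Disjoint (b i) (b j)) ∧
    (⋃ i ∈ Finset.range n, b i) = G ∧ (∀ i, b i ⊆ G) ∧ (∀ i, n ≤ i → b i = ∅) ∧ ∀ i, μ (b i) ≤ δ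

lemma PartOf.single {μ : Measure ℝ} {δ : ENNReal} {A : Set ℝ} (hA : MeasurableSet A)
    (h : μ A ≤ δ) : PartOf μ δ A := by
  refine ⟨1, fun i => if i = 0 then A else ∅, ?_, ?_, ?_, ?_, ?_, ?_⟩
  · intro i; dsimp only; split_ifs
    · exact hA
    · exact MeasurableSet.empty
  · intro i j hij
    dsimp only
    split_ifs with h1 h2
    · exact absurd (h1.trans h2.symm) hij
    · exact disjoint_bot_right
    · exact disjoint_bot_left
    · exact disjoint_bot_left
  · simp
  · intro i; dsimp only; split_ifs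
    · exact le_rfl
    · exact Set.empty_subset _
  · intro i hi
    dsimp only
    rw [if_neg (by omega)]
  · intro i; dsimp only; split_ifs
    · exact h
    · simp

lemma PartOf.union {μ : Measure ℝ} {δ : ENNReal} {A V : Set ℝ} (hA : PartOf μ δ A)
    (hV : MeasurableSet V) (h : μ V ≤ δ) : PartOf μ δ (A ∪ V) := by
  obtain ⟨n, b, h1, h2, h3, h4, h5, h6⟩ := hA
  have hAm : MeasurableSet A := by
    rw [← h3]
    exact Finset.measurableSet_biUnion _ fun i _ => h1 i
  refine ⟨n + 1, fun i => if i = n then V \ A else b i, ?_, ?_, ?_, ?_, ?_, ?_⟩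
  · intro i; dsimp only; split_ifs
    · exact hV.diff hAm
    · exact h1 i
  · intro i j hij
    dsimp only
    split_ifs with g1 g2
    · exact absurd (g1.trans g2.symm) hij
    · exact (Set.disjoint_sdiff_left (s := A) (t := V)).mono_right (h4 j)
    · exact ((Set.disjoint_sdiff_left (s := A) (t := V)).mono_right (h4 i)).symm
    · exact h2 i j hij
  · ext t
    simp only [Set.mem_iUnion, Finset.mem_range, Set.mem_union, exists_prop]
    constructor
    · rintro ⟨i, hi, ht⟩
      split_ifs at ht with g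
      · exact Or.inr ht.1
      · exact Or.inl (h4 i ht)
    · intro ht
      by_cases hA : t ∈ A
      · rw [← h3] at hA
        simp only [Set.mem_iUnion, Finset.mem_range, exists_prop] at hA
        obtain ⟨i, hi, hti⟩ := hA
        exact ⟨i, by omega, by rw [if_neg (by omega)]; exact hti⟩
      · exact ⟨n, by omega, by rw [if_pos rfl]; exact ⟨ht.resolve_left hA, hA⟩⟩
  · intro i; dsimp only; split_ifs
    · exact fun t ht => Or.inr ht.1
    · exact fun t ht => Or.inl (h4 i ht)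
  · intro i hi
    dsimp only
    rw [if_neg (by omega)]
    exact h5 i (by omega)
  · intro i; dsimp only; split_ifs
    · exact (measure_mono Set.sdiff_subset).trans h
    · exact h6 i

/-- small partitions exist for atomless probability measures -/
theorem exists_partOf (μ : Measure ℝ) [IsProbabilityMeasure μ] (hat : ∀ t, μ {t} = 0)
    {G : Set ℝ} (hG : MeasurableSet G) {δ : ENNReal} (hδ : 0 < δ) : PartOf μ δ G := by
  have h1 : ∀ t : ℝ, ∃ U : Set ℝ, {t} ⊆ U ∧ IsOpen U ∧ μ U < δ := fun t => by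
    obtain ⟨U, hU1, hU2, hU3⟩ := Set.exists_isOpen_lt_of_lt {t} δ (by rw [hat t]; exact hδ)
    exact ⟨U, hU1, hU2, hU3⟩
  choose U hU1 hU2 hU3 using h1
  obtain ⟨C, hC1, hC2, hC3⟩ := hG.exists_isCompact_lt_add (measure_ne_top μ G) hδ.ne'
  obtain ⟨T, hT⟩ := hC2.elim_finite_subcover U hU2 (fun t _ =>
    Set.mem_iUnion.2 ⟨t, hU1 t rfl⟩)
  have h2 : ∀ T : Finset ℝ, PartOf μ δ ((G \ C) ∪ ⋃ t ∈ T, (U t ∩ G)) := by
    classical
    intro T
    induction T using Finset.induction_on with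
    | empty =>
      simp only [Finset.notMem_empty, Set.iUnion_of_empty, Set.iUnion_empty, Set.union_empty]
      refine PartOf.single (hG.diff hC2.measurableSet) ?_
      have h3 := measure_sdiff_le_iff_le_add hC2.measurableSet.nullMeasurableSet hC1
        (measure_ne_top μ C) (ε := δ)
      exact h3.2 hC3.le
    | insert a T _ ih =>
      have e : (G \ C) ∪ ⋃ t ∈ insert a T, (U t ∩ G)
          = ((G \ C) ∪ ⋃ t ∈ T, (U t ∩ G)) ∪ (U a ∩ G) := by
        rw [Finset.set_biUnion_insert]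
        ext t
        simp only [Set.mem_union]
        tauto
      rw [e]
      exact ih.union ((hU2 a).measurableSet.inter hG)
        ((measure_mono Set.inter_subset_left).trans (hU3 a).le)
  have h4 : (G \ C) ∪ ⋃ t ∈ T, (U t ∩ G) = G := by
    ext t
    simp only [Set.mem_union, Set.mem_sdiff, Set.mem_iUnion, Set.mem_inter_iff, exists_prop]
    constructor
    · rintro (h | ⟨_, _, _, h⟩)
      · exact h.1
      · exact h
    · intro ht
      by_cases hc : t ∈ C
      · obtain ⟨s, hs⟩ := Set.mem_iUnion.1 (hT hc)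
        obtain ⟨hs1, hs2⟩ := Set.mem_iUnion.1 hs
        exact Or.inr ⟨s, hs1, hs2, ht⟩
      · exact Or.inl ⟨ht, hc⟩
  have h5 := h2 T
  rwa [h4] at h5

namespace LSys

variable {H K : Type*} [NormedAddCommGroup H] [InnerProductSpace ℂ H]
  [NormedAddCommGroup K] [InnerProductSpace ℂ K] (L : LSys H K)

/-- **(P)**: label partitions of small mesh -/
theorem exists_part {G : Set ℝ} (hG : MeasurableSet G) {δ : ℝ} (hδ : 0 < δ) :
    ∃ (n : ℕ) (b : ℕ → Set ℝ), (∀ i, MeasurableSet (b i)) ∧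
      (∀ i j, i ≠ j → Disjoint (b i) (b j)) ∧ (⋃ i ∈ Finset.range n, b i) = G ∧
      (∀ i, b i ⊆ G) ∧ (∀ i, n ≤ i → b i = ∅) ∧ ∀ i, L.mu.real (b i) ≤ δ := by
  have := L.prob
  obtain ⟨n, b, h1, h2, h3, h4, h5, h6⟩ := exists_partOf L.mu L.noAtoms hG
    (ENNReal.ofReal_pos.2 hδ)
  refine ⟨n, b, h1, h2, h3, h4, h5, fun i => ?_⟩
  exact ENNReal.toReal_le_of_le_ofReal hδ.le (h6 i)

/-- **(P)**, version with `Fin n` -/
theorem exists_part_fin {G : Set ℝ} (hG : MeasurableSet G) {δ : ℝ} (hδ : 0 < δ) :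
    ∃ (n : ℕ) (b : Fin n → Set ℝ), (∀ i, MeasurableSet (b i)) ∧
      (Pairwise fun i j => Disjoint (b i) (b j)) ∧ (⋃ i, b i) = G ∧
      (∀ i, b i ⊆ G) ∧ ∀ i, L.mu.real (b i) ≤ δ := by
  obtain ⟨n, b, h1, h2, h3, h4, h5, h6⟩ := L.exists_part hG hδ
  refine ⟨n, fun i => b i, fun i => h1 i, fun i j hij => h2 i j fun h => hij (Fin.ext h), ?_,
    fun i => h4 i, fun i => h6 i⟩
  rw [← h3]
  ext t
  simp only [Set.mem_iUnion, Finset.mem_range, exists_prop]
  exact ⟨fun ⟨i, hi⟩ => ⟨i, i.2, hi⟩, fun ⟨i, hi, ht⟩ => ⟨⟨i, hi⟩, ht⟩⟩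

end LSys

end Vale.Agent.P367.A
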