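import Vale.Agent.P367.A.Basic

/-! P367, block B: label systems (spin-Weyl system with commuting label functions), closed
reachability predicates, statement of T2 and of the level step. -/

namespace Vale.Agent.P367.A

open Complex Filter Topology MeasureTheory

/-- bounded measurable label functions -/
def Bm (f : ℝ → ℂ) : Prop := Measurable f ∧ ∃ C : ℝ, ∀ x, ‖f x‖ ≤ C

/-- a spin-Weyl system with label functions commuting with everything -/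
structure LSys (H K : Type*) [NormedAddCommGroup H] [InnerProductSpace ℂ H]
    [NormedAddCommGroup K] [InnerProductSpace ℂ K] extends Sys H K where
  mu : Measure ℝ
  prob : IsProbabilityMeasure mu
  noAtoms : ∀ t, mu {t} = 0
  lab : (ℝ → ℂ) → H →L[ℂ] H
  lab_const : ∀ c : ℂ, lab (fun _ => c) = c • (1 : H →L[ℂ] H)
  lab_add : ∀ f g, Bm f → Bm g → lab (fun t => f t + g t) = lab f + lab g
  lab_mul : ∀ f g, Bm f → Bm g → lab (fun t => f t * g t) = lab f * lab g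
  lab_adj : ∀ f, Bm f → ∀ x y, inner ℂ (lab f x) y
    = inner ℂ x (lab (fun t => (starRingEnd ℂ) (f t)) y)
  lab_X : ∀ f x, lab f (X x) = X (lab f x)
  lab_Z : ∀ f x, lab f (Z x) = Z (lab f x)
  lab_W : ∀ f a x, lab f (W a x) = W a (lab f x)
  lab_vac : ∀ f, Bm f → ∀ a, inner ℂ Om (lab f (W a Om))
    = (∫ t, f t ∂mu) * Complex.exp (-((‖a‖ ^ 2 / 2 : ℝ) : ℂ))
  cyc : (Submodule.span ℂ {x : H | ∃ (T : H →L[ℂ] H) (a : K),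
      (∀ b y, W b (T y) = T (W b y)) ∧ (∀ f, Bm f → ∀ y, lab f (T y) = T (lab f y)) ∧
      x = T (W a Om)}).topologicalClosure = ⊤

namespace LSys

variable {H K : Type*} [NormedAddCommGroup H] [InnerProductSpace ℂ H]
  [NormedAddCommGroup K] [InnerProductSpace ℂ K] (L : LSys H K)

/-- label projection -/
noncomputable def E (b : Set ℝ) : H →L[ℂ] H := L.lab (b.indicator fun _ => 1)

/-- Pauli operators `X, Y, Z` -/
noncomputable def pau : Fin 3 → (H ≃ₗᵢ[ℂ] H) := ![L.X, L.Zt (-(Real.pi / 4)), L.Z]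

/-- `exp(-i P phi(v))` as a function on `H` -/
noncomputable def pw (P : H ≃ₗᵢ[ℂ] H) (v : K) (x : H) : H :=
  (1 / 2 : ℂ) • (L.W (-v) x + L.W v x) + (1 / 2 : ℂ) • (L.W (-v) (P x) - L.W v (P x))

/-- the field vector of the block `b`, `iota (E_b V^* Q V Om)` -/
noncomputable def fv (Q : H ≃ₗᵢ[ℂ] H) (b : Set ℝ) (V : H ≃ₗᵢ[ℂ] H) : K :=
  L.iota (L.E b (V⁻¹ (Q (V L.Om))))

/-- `U` is the block coupling `exp(-i c sum_{A,B} K_kl P_k Q_l)` at the state `V` -/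
def IsCoup (A B : Set ℝ) (P Q : Fin 3) (c : ℝ) (V U : H ≃ₗᵢ[ℂ] H) : Prop :=
  ∀ x, U x = L.pw (L.pau P) ((c : ℂ) • L.fv (L.pau Q) B V) (L.E A x)
    + L.pw (L.pau Q) ((c : ℂ) • L.fv (L.pau P) A V) (L.E B x)
    + (x - L.E A x - L.E B x)

/-- `U = exp(-i a P)` for a bounded operator `a` -/
def IsRot (a : H →L[ℂ] H) (P : Fin 3) (U : H ≃ₗᵢ[ℂ] H) : Prop :=
  ∀ x, U x = NormedSpace.exp ((-Complex.I) • (a * (L.pau P).toContinuousLinearEquiv.toContinuousLinearMap)) x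

/-- `U = exp(-i a)` -/
def IsPh (a : H →L[ℂ] H) (U : H ≃ₗᵢ[ℂ] H) : Prop :=
  ∀ x, U x = NormedSpace.exp ((-Complex.I) • a) x

/-- self-adjoint -/
def Sa (a : H →L[ℂ] H) : Prop := ∀ x y, inner ℂ (a x) y = inner ℂ x (a y)

/-- an algebra of commuting controls -/
structure Ctl (𝔄 : Set (H →L[ℂ] H)) : Prop where
  lab : ∀ f, Bm f → L.lab f ∈ 𝔄
  add : ∀ a b, a ∈ 𝔄 → b ∈ 𝔄 → a + b ∈ 𝔄
  mul : ∀ a b, a ∈ 𝔄 → b ∈ 𝔄 → a * b ∈ 𝔄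
  adj : ∀ a ∈ 𝔄, ∃ b ∈ 𝔄, ∀ x y, inner ℂ (a x) y = inner ℂ x (b y)
  comm : ∀ a b, a ∈ 𝔄 → b ∈ 𝔄 → a * b = b * a
  X : ∀ a ∈ 𝔄, ∀ x, a (L.X x) = L.X (a x)
  Z : ∀ a ∈ 𝔄, ∀ x, a (L.Z x) = L.Z (a x)
  /-- reality: for self-adjoint `T` in the commutant of `𝔄`, `W (iota (T Om))` commutes with `𝔄` -/
  W : ∀ a ∈ 𝔄, ∀ T : H →L[ℂ] H, Sa T → (∀ b ∈ 𝔄, T * b = b * T) →
    ∀ x, a (L.W (L.iota (T L.Om)) x) = L.W (L.iota (T L.Om)) (a x)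

/-- `Rch M R V`: a state which is `V` on the labels in `M`, untouched on the labels in `R`, and
arbitrary elsewhere can be reached (approximately). `G` = system labels. Closure properties. -/
structure Closed (G : Set ℝ) (𝔄 : Set (H →L[ℂ] H))
    (Rch : Set ℝ → Set ℝ → (H ≃ₗᵢ[ℂ] H) → Prop) : Prop where
  meas : ∀ M R V, Rch M R V → MeasurableSet M ∧ MeasurableSet R ∧ Disjoint M R ∧ G ⊆ M
  comm : ∀ M R V, Rch M R V → ∀ a ∈ 𝔄, ∀ x, a (V x) = V (a x)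
  lim : ∀ M R (V : ℕ → (H ≃ₗᵢ[ℂ] H)) (V0 : H ≃ₗᵢ[ℂ] H), (∀ n, Rch M R (V n)) →
    (∀ a ∈ 𝔄, ∀ x, a (V0 x) = V0 (a x)) →
    (∀ x, Tendsto (fun n => L.E M (V n x)) atTop (𝓝 (L.E M (V0 x)))) → Rch M R V0
  mono : ∀ M R R' V, Rch M R V → MeasurableSet R' → R' ⊆ R → Rch M R' V
  shrink : ∀ M M' R V, Rch M R V → MeasurableSet M' → M' ⊆ M → G ⊆ M' → Rch M' R V
  act : ∀ M R R0 V V', Rch M R V → MeasurableSet R0 → R0 ⊆ R →
    (∀ a ∈ 𝔄, ∀ x, a (V' x) = V' (a x)) →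
    (∀ x, L.E M (V' x) = L.E M (V x)) → (∀ x, L.E R0 (V' x) = L.E R0 x) →
    Rch (M ∪ R0) (R \ R0) V'
  /-- plain label rotations on the active labels -/
  rotl : ∀ M R V f P U, Rch M R V → Bm f → (∀ t, (f t).im = 0) → (∀ t, t ∉ M → f t = 0) →
    L.IsRot (L.lab f) P U → Rch M R (U * V)
  /-- controlled rotations on the system labels -/
  rot : ∀ M R V a P U, Rch M R V → a ∈ 𝔄 → Sa a → a * L.E G = a → L.IsRot a P U → Rch M R (U * V)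
  ph : ∀ M R V a U, Rch M R V → a ∈ 𝔄 → Sa a → IsPh a U → Rch M R (U * V)
  coup : ∀ M R V A B P Q c U, Rch M R V → MeasurableSet A → MeasurableSet B → A ⊆ M → B ⊆ M →
    Disjoint A B → L.IsCoup A B P Q c V U → Rch M R (U * V)

/-- the product unitary `exp(-i s [sg phi(x) + Z phi(iota (sg Om))])` on the labels of `G`, where
`sg` is a self-adjoint control with `sg^2 = E G` and `x = iota (E_G V^* Z V Om)` -/
def IsProd (G : Set ℝ) (sg : H →L[ℂ] H) (s : ℝ) (V U : H ≃ₗᵢ[ℂ] H) : Prop :=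
  ∀ x, U x = L.zr ((s : ℂ) • L.iota (sg L.Om))
      ((1 / 2 : ℂ) • (L.W (-((s : ℂ) • L.fv L.Z G V)) (L.E G x + sg x)
        + L.W ((s : ℂ) • L.fv L.Z G V) (L.E G x - sg x)))
    + (x - L.E G x)

/-- `sg` is a sign-valued control on `G` -/
def Sgn (G : Set ℝ) (𝔄 : Set (H →L[ℂ] H)) (sg : H →L[ℂ] H) : Prop :=
  sg ∈ 𝔄 ∧ Sa sg ∧ sg * sg = L.E G

/-- the conclusion of T2 (identity vertex) for one reachability predicate -/
def HasT2 (G : Set ℝ) (𝔄 : Set (H →L[ℂ] H)) (Rch : Set ℝ → Set ℝ → (H ≃ₗᵢ[ℂ] H) → Prop) :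
    Prop :=
  ∀ (M R R' : Set ℝ) (V : H ≃ₗᵢ[ℂ] H) (sg : H →L[ℂ] H) (s : ℝ),
      Rch M R V → MeasurableSet R' → R' ⊆ R → L.mu (R \ R') ≠ 0 → L.Sgn G 𝔄 sg →
      ∀ U, L.IsProd G sg s V U → Rch M R' (U * V)

/-- T2, the identity vertex -/
def T2Stmt : Prop :=
  ∀ (G : Set ℝ) (𝔄 : Set (H →L[ℂ] H)) (Rch : Set ℝ → Set ℝ → (H ≃ₗᵢ[ℂ] H) → Prop),
    MeasurableSet G → L.Ctl 𝔄 → L.Closed G 𝔄 Rch → L.HasT2 G 𝔄 Rch

/-- the control algebra generated by `𝔄` and the field `phi(y)` (closed under bounded strong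
sequential limits) -/
inductive Gen (𝔄 : Set (H →L[ℂ] H)) (y : K) : (H →L[ℂ] H) → Prop
  | base (a) : a ∈ 𝔄 → Gen 𝔄 y a
  | W (s : ℝ) : Gen 𝔄 y (L.W ((s : ℂ) • y)).toContinuousLinearEquiv.toContinuousLinearMap
  | add (a b) : Gen 𝔄 y a → Gen 𝔄 y b → Gen 𝔄 y (a + b)
  | mul (a b) : Gen 𝔄 y a → Gen 𝔄 y b → Gen 𝔄 y (a * b)
  | lim (a : ℕ → H →L[ℂ] H) (a0 : H →L[ℂ] H) (C : ℝ) : (∀ n, Gen 𝔄 y (a n)) → (∀ n, ‖a n‖ ≤ C) →
      (∀ x, Tendsto (fun n => a n x) atTop (𝓝 (a0 x))) → Gen 𝔄 y a0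

/-- the next control algebra -/
def nxt (𝔄 : Set (H →L[ℂ] H)) (y : K) : Set (H →L[ℂ] H) := {a | L.Gen 𝔄 y a}

/-- NEST0: the next control algebra is a control algebra. -/
def NestCtlStmt : Prop :=
  ∀ (𝔄 : Set (H →L[ℂ] H)) (psi : H →L[ℂ] H), L.Ctl 𝔄 → psi ∈ 𝔄 → Sa psi →
    L.Ctl (L.nxt 𝔄 (L.iota (psi L.Om)))

/-- NEST: level step. `psi = sum c_i sg_i` with sign-valued controls `sg_i`. -/
def NestStmt : Prop :=
  ∀ (G : Set ℝ) (𝔄 : Set (H →L[ℂ] H)) (Rch : Set ℝ → Set ℝ → (H ≃ₗᵢ[ℂ] H) → Prop),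
    MeasurableSet G → L.Ctl 𝔄 → L.Closed G 𝔄 Rch → L.HasT2 G 𝔄 Rch →
    ∀ (n : ℕ) (sg : Fin n → (H →L[ℂ] H)) (c : Fin n → ℝ), (∀ i, L.Sgn G 𝔄 (sg i)) →
    ∃ Rch' : Set ℝ → Set ℝ → (H ≃ₗᵢ[ℂ] H) → Prop,
      L.Closed G (L.nxt 𝔄 (L.iota ((∑ i, (c i : ℂ) • sg i) L.Om))) Rch' ∧
      (∀ M R V, Rch M R V →
        (∀ a ∈ L.nxt 𝔄 (L.iota ((∑ i, (c i : ℂ) • sg i) L.Om)), ∀ x, a (V x) = V (a x)) →
        Rch' M R V) ∧
      (∀ M R R' V, Rch' M R V → MeasurableSet R' → R' ⊆ R → L.mu (R \ R') ≠ 0 →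
        ∀ ε > 0, ∃ U, Rch M R' U ∧ ‖L.E M (L.xv U) - L.E M (L.xv V)‖ < ε)

end LSys

end Vale.Agent.P367.A
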