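import Vale.Agent.P367.B.Core1
import Vale.Agent.P367.B.LSys

/-! P367, block B, T2: one step of the sweep, existence of sweeps (statements). -/

namespace Vale.Agent.P367.A

open Complex Filter Topology MeasureTheory
open Vale.Agent.P367.B (famS ex gb)

namespace LSys

variable {H K : Type} [NormedAddCommGroup H] [InnerProductSpace ℂ H]
  [NormedAddCommGroup K] [InnerProductSpace ℂ K] (L : LSys H K)

/-- control vector of the function gate of the batch `b`, at the state `V1` -/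
noncomputable def stv (G r b : Set ℝ) (mu la : ℝ) (V1 : H ≃ₗᵢ[ℂ] H) : K :=
  (mu : ℂ) • L.fv L.Z (G \ b) V1 + (la : ℂ) • L.fv (L.pau 1) r V1

/-- amplitude `-(s/mu) sg E_b` of the function gate -/
noncomputable def stC (b : Set ℝ) (sg : H →L[ℂ] H) (s mu : ℝ) : H →L[ℂ] H :=
  (-((s / mu : ℝ) : ℂ)) • (sg * L.E b)

variable (hc : ∀ x : H, Tendsto (fun a => L.W a x) (𝓝 0) (𝓝 x))

/-- reaction vector `iota (E_b V1^-1 C Z sin phi(v) V1 Om)` -/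
noncomputable def stq (G r b : Set ℝ) (sg : H →L[ℂ] H) (s mu la : ℝ) (V1 : H ≃ₗᵢ[ℂ] H) : K :=
  L.iota (L.E b (V1⁻¹ (L.stC b sg s mu
    (L.Z ((famS L.toSys hc).sn (L.stv G r b mu la V1) (V1 L.Om))))))

/-- one step `A^-1 Bl A` of the sweep, at the batch `b`; `V1`, `V2` are the intermediate states -/
structure StepRel [CompleteSpace H] (G r b : Set ℝ) (sg : H →L[ℂ] H) (s mu a la : ℝ)
    (V V1 V2 V' : H ≃ₗᵢ[ℂ] H) (co cr : ℂ) : Prop where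
  nco : ‖co‖ = 1
  ncr : ‖cr‖ = 1
  h1 : ∀ x, V1 x = L.zr (-((a : ℂ) • L.fv L.Z r V)) (L.E b (V x))
    + L.zr (-((a : ℂ) • L.fv L.Z b V)) (L.E r (V x)) + (V x - L.E b (V x) - L.E r (V x))
  h2 : ∀ x, V2 x = ex (gb L.toSys hc (L.stC b sg s mu) (L.stv G r b mu la V1)) (L.E b (V1 x))
    + co • L.zr (-((mu : ℂ) • L.stq hc G r b sg s mu la V1)) (L.E (G \ b) (V1 x))
    + cr • L.pw (L.pau 1) (-((la : ℂ) • L.stq hc G r b sg s mu la V1)) (L.E r (V1 x))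
    + (V1 x - L.E b (V1 x) - L.E (G \ b) (V1 x) - L.E r (V1 x))
  h3 : ∀ x, V' x = L.zr ((a : ℂ) • L.fv L.Z r V2) (L.E b (V2 x))
    + L.zr ((a : ℂ) • L.fv L.Z b V2) (L.E r (V2 x)) + (V2 x - L.E b (V2 x) - L.E r (V2 x))

/-- (S) existence of sweeps -/
def SweepStmt [CompleteSpace H] : Prop :=
  ∀ (G : Set ℝ) (𝔄 : Set (H →L[ℂ] H)) (Rch : Set ℝ → Set ℝ → (H ≃ₗᵢ[ℂ] H) → Prop),
    MeasurableSet G → L.Ctl 𝔄 → L.Closed G 𝔄 Rch →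
    ∀ (M R r : Set ℝ) (V0 : H ≃ₗᵢ[ℂ] H) (sg : H →L[ℂ] H) (s mu a la : ℝ) (b : ℕ → Set ℝ),
      Rch M R V0 → MeasurableSet r → r ⊆ M → Disjoint G r → L.Sgn G 𝔄 sg →
      (∀ i, MeasurableSet (b i)) → (∀ i, b i ⊆ G) →
      ∃ (V V1 V2 : ℕ → (H ≃ₗᵢ[ℂ] H)) (co cr : ℕ → ℂ), V 0 = V0 ∧
        (∀ i, Rch M R (V i)) ∧ (∀ i, Rch M R (V1 i)) ∧ (∀ i, Rch M R (V2 i)) ∧
        (∀ i, L.StepRel hc G r (b i) sg s mu a la (V i) (V1 i) (V2 i) (V (i + 1)) (co i) (cr i)) ∧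
        (∀ i x, L.E (G ∪ r)ᶜ (V i x) = L.E (G ∪ r)ᶜ (V0 x))

end LSys

end Vale.Agent.P367.A
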