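import Vale.Agent.P367.B.FA1
import Vale.Agent.P367.B.StepD
import Vale.Agent.P367.B.LPart

/-! P367, block B, T2: the core statement of the sweep analysis and the final assembly of the
finite form of T2 (helper739). -/

namespace Vale.Agent.P367.A

open Complex Filter Topology MeasureTheory

namespace LSys

variable {H K : Type} [NormedAddCommGroup H] [InnerProductSpace ℂ H]
  [NormedAddCommGroup K] [InnerProductSpace ℂ K] (L : LSys H K)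

variable (hc : ∀ x : H, Tendsto (fun a => L.W a x) (𝓝 0) (𝓝 x))

/-- (CORE) sweep analysis: for small `mu` and fine partitions the end of a sweep is close to
`U V0` on `G`, up to block phases. -/
def CoreStmt [CompleteSpace H] : Prop :=
  ∀ (G r : Set ℝ) (𝔄 : Set (H →L[ℂ] H)) (sg : H →L[ℂ] H) (s : ℝ) (V0 U : H ≃ₗᵢ[ℂ] H),
    MeasurableSet G → MeasurableSet r → Disjoint G r → L.mu r ≠ 0 → L.Ctl 𝔄 → L.Sgn G 𝔄 sg →
    (∀ a ∈ 𝔄, ∀ x, a (V0 x) = V0 (a x)) → (∀ x, L.E r (V0 x) = L.E r x) →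
    L.IsProd G sg s V0 U →
    ∀ (F : Finset H) (ε : ℝ), 0 < ε →
      ∃ mu0 : ℝ, 0 < mu0 ∧ ∀ mu : ℝ, 0 < mu → mu < mu0 → ∃ de : ℝ, 0 < de ∧
        ∀ (N : ℕ) (b : ℕ → Set ℝ), (∀ i, MeasurableSet (b i)) →
          (∀ i j, i ≠ j → Disjoint (b i) (b j)) → (⋃ i ∈ Finset.range N, b i) = G →
          (∀ i, b i ⊆ G) → (∀ i, L.mu.real (b i) ≤ de) →
          ∀ (V V1 V2 : ℕ → (H ≃ₗᵢ[ℂ] H)) (co cr : ℕ → ℂ), V 0 = V0 →
            (∀ i, ∀ a ∈ 𝔄, ∀ x, a (V i x) = V i (a x)) →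
            (∀ i, ∀ a ∈ 𝔄, ∀ x, a (V1 i x) = V1 i (a x)) →
            (∀ i, ∀ a ∈ 𝔄, ∀ x, a (V2 i x) = V2 i (a x)) →
            (∀ i, L.StepRel hc G r (b i) sg s mu
              (Real.pi / (4 * mu ^ 2 * Real.sqrt (L.mu.real r)))
              (-(mu ^ 2 / Real.sqrt (L.mu.real r)))
              (V i) (V1 i) (V2 i) (V (i + 1)) (co i) (cr i)) →
            ∃ c : ℕ → ℂ, (∀ i < N, ‖c i‖ = 1) ∧ ∀ x ∈ F,
              ∑ i ∈ Finset.range N,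
                ‖c i • L.E (b i) (V N x) - L.E (b i) (U (V0 x))‖ ^ 2 ≤ ε ^ 2

/-- **(FA)** finite form of T2 from the sweep analysis and the existence of sweeps -/
theorem fa [CompleteSpace H] (hcore : L.CoreStmt hc) (hsweep : L.SweepStmt hc) : L.T2FinStmt := by
  intro G 𝔄 Rch hG hA hcl M R r V0 sg s hV0 hr hrM hGr hr0 hV0r hsg U hU F ε hε
  obtain ⟨mu0, hmu0, h1⟩ := hcore G r 𝔄 sg s V0 U hG hr hGr hr0 hA hsg (hcl.comm M R V0 hV0) hV0r hU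
    F ε hε
  obtain ⟨de, hde, h2⟩ := h1 (mu0 / 2) (by linarith) (by linarith)
  obtain ⟨N, b, hb, hbd, hbG, hbs, _, hbde⟩ := L.exists_part hG hde
  obtain ⟨V, V1, V2, co, cr, hV, hRV, hRV1, hRV2, hst, hoff⟩ := hsweep G 𝔄 Rch hG hA hcl M R r V0 sg s
    (mu0 / 2) (Real.pi / (4 * (mu0 / 2) ^ 2 * Real.sqrt (L.mu.real r)))
    (-((mu0 / 2) ^ 2 / Real.sqrt (L.mu.real r))) b hV0 hr hrM hGr hsg hb hbs
  obtain ⟨c, hc1, hc2⟩ := h2 N b hb hbd hbG hbs hbde V V1 V2 co cr hV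
    (fun i => hcl.comm M R _ (hRV i)) (fun i => hcl.comm M R _ (hRV1 i))
    (fun i => hcl.comm M R _ (hRV2 i)) hst
  obtain ⟨f, hf1, hf2, hf3, hf4⟩ := L.fa_phase (fun i _ => hb i) (fun i _ j _ hij => hbd i j hij)
    hbG.symm c hc1
  refine ⟨V N, f, hf1, hf2, hf3, hRV N, hoff N, fun x hx => ?_⟩
  have h3 := hf4 (V N x) (U (V0 x))
  have h4 := hc2 x hx
  rw [← h3] at h4
  exact (sq_le_sq₀ (norm_nonneg _) hε.le).1 h4

end LSys

end Vale.Agent.P367.A
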