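import Vale.Agent.P367.B.LUS

/-! P367, block B, T2: leaf A2, small displacements on the blocks of a partition. -/

namespace Vale.Agent.P367.A

open Complex Filter Topology MeasureTheory

namespace LSys

variable {H K : Type*} [NormedAddCommGroup H] [InnerProductSpace ℂ H]
  [NormedAddCommGroup K] [InnerProductSpace ℂ K] (L : LSys H K)

/-- (US), blocks indexed by `i < N` -/
theorem us_N (x : H) {κ : ℝ} (hκ : 0 < κ) : ∃ r > 0, ∀ (N : ℕ) (b : ℕ → Set ℝ),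
    (∀ i < N, MeasurableSet (b i)) → (∀ i < N, ∀ j < N, i ≠ j → Disjoint (b i) (b j)) →
    ∃ k : ℕ → ℝ, (∀ i, 0 ≤ k i) ∧ ∑ i ∈ Finset.range N, k i ^ 2 ≤ κ ^ 2 ∧
      ∀ i < N, ∀ w : K, ‖w‖ < r → ‖L.E (b i) (L.W w x) - L.E (b i) x‖ ≤ k i := by
  obtain ⟨r, hr, h⟩ := L.us x hκ
  refine ⟨r, hr, fun N b mb bb => ?_⟩
  obtain ⟨k, hk0, hk, h1⟩ := h N (fun i => b i) (fun i => mb i i.2)
    (fun i j hij => bb i i.2 j j.2 (fun e => hij (Fin.ext e)))
  refine ⟨fun i => if hi : i < N then k ⟨i, hi⟩ else 0, fun i => ?_, ?_, fun i hi w hw => ?_⟩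
  · dsimp only
    split_ifs with hi
    · exact hk0 _
    · exact le_rfl
  · rw [Finset.sum_range]
    refine le_trans (le_of_eq (Finset.sum_congr rfl fun i _ => ?_)) hk
    dsimp only
    rw [dif_pos i.2]
  · dsimp only
    rw [dif_pos hi]
    exact h1 ⟨i, hi⟩ w hw

/-- small displacements on blocks -/
theorem W_small (y : H) {ε : ℝ} (hε : 0 < ε) : ∃ r0 > 0, ∀ (N : ℕ) (b : ℕ → Set ℝ),
    (∀ i < N, MeasurableSet (b i)) → (∀ i < N, ∀ j < N, i ≠ j → Disjoint (b i) (b j)) →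
    ∀ del : ℕ → K, (∀ k < N, ‖del k‖ < r0) →
      ∑ k ∈ Finset.range N, ‖L.W (del k) (L.E (b k) y) - L.E (b k) y‖ ^ 2 ≤ ε ^ 2 := by
  obtain ⟨r, hr, h⟩ := L.us_N y hε
  refine ⟨r, hr, fun N b mb bb del hd => ?_⟩
  obtain ⟨k, hk0, hk, h1⟩ := h N b mb bb
  refine le_trans (Finset.sum_le_sum fun i hi => ?_) hk
  have hi' := Finset.mem_range.1 hi
  have h2 := h1 i hi' (del i) (hd i hi')
  rw [L.E_W] at h2
  exact pow_le_pow_left₀ (norm_nonneg _) h2 2

/-- small pulses on blocks -/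
theorem zr_small (y : H) {ε : ℝ} (hε : 0 < ε) : ∃ r0 > 0, ∀ (N : ℕ) (b : ℕ → Set ℝ),
    (∀ i < N, MeasurableSet (b i)) → (∀ i < N, ∀ j < N, i ≠ j → Disjoint (b i) (b j)) →
    ∀ del : ℕ → K, (∀ k < N, ‖del k‖ < r0) →
      ∑ k ∈ Finset.range N, ‖L.zr (del k) (L.E (b k) y) - L.E (b k) y‖ ^ 2 ≤ ε ^ 2 := by
  obtain ⟨r, hr, h⟩ := L.us_N y (half_pos hε)
  obtain ⟨r', hr', h'⟩ := L.us_N (L.Z y) (half_pos hε)
  refine ⟨min r r', lt_min hr hr', fun N b mb bb del hd => ?_⟩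
  obtain ⟨k, hk0, hk, h1⟩ := h N b mb bb
  obtain ⟨k', hk0', hk', h1'⟩ := h' N b mb bb
  have key : ∀ i ∈ Finset.range N, ‖L.zr (del i) (L.E (b i) y) - L.E (b i) y‖ ^ 2
      ≤ 2 * k i ^ 2 + 2 * k' i ^ 2 := by
    intro i hi
    have hi' := Finset.mem_range.1 hi
    have hn : ‖del i‖ < r := (hd i hi').trans_le (min_le_left _ _)
    have hn' : ‖del i‖ < r' := (hd i hi').trans_le (min_le_right _ _)
    have a1 := h1 i hi' (del i) hn
    have a2 := h1 i hi' (-del i) (by rwa [norm_neg])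
    have a3 := h1' i hi' (del i) hn'
    have a4 := h1' i hi' (-del i) (by rwa [norm_neg])
    rw [L.E_W] at a1 a2 a3 a4
    rw [L.E_Z] at a3 a4
    have e : L.zr (del i) (L.E (b i) y) - L.E (b i) y
        = (1 / 2 : ℂ) • ((L.W (-del i) (L.E (b i) y) - L.E (b i) y)
            + (L.W (del i) (L.E (b i) y) - L.E (b i) y))
          + (1 / 2 : ℂ) • ((L.W (-del i) (L.Z (L.E (b i) y)) - L.Z (L.E (b i) y))
            - (L.W (del i) (L.Z (L.E (b i) y)) - L.Z (L.E (b i) y))) := by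
      rw [L.zr_apply]
      module
    have hle : ‖L.zr (del i) (L.E (b i) y) - L.E (b i) y‖ ≤ k i + k' i := by
      rw [e]
      refine (norm_add_le _ _).trans ?_
      rw [norm_smul, norm_smul]
      have e2 : ‖(1 / 2 : ℂ)‖ = 1 / 2 := by simp
      rw [e2]
      have b1 := norm_add_le (L.W (-del i) (L.E (b i) y) - L.E (b i) y)
        (L.W (del i) (L.E (b i) y) - L.E (b i) y)
      have b2 := norm_sub_le (L.W (-del i) (L.Z (L.E (b i) y)) - L.Z (L.E (b i) y))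
        (L.W (del i) (L.Z (L.E (b i) y)) - L.Z (L.E (b i) y))
      linarith
    have h3 := pow_le_pow_left₀ (norm_nonneg _) hle 2
    nlinarith [sq_nonneg (k i - k' i)]
  refine (Finset.sum_le_sum key).trans ?_
  rw [Finset.sum_add_distrib, ← Finset.mul_sum, ← Finset.mul_sum]
  nlinarith

end LSys

end Vale.Agent.P367.A
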