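import Vale.Agent.P367.A.Basic

/-! P367 block B: parity and leakage of the reserve, in the abstract spin-Weyl system.
Reference vector `Om` (`X Om = Om`), pulses `pul t v` around axes in the `Z-Y` plane. -/

namespace Vale.Agent.P367.B.LKS

open Complex Vale.Agent.P367.A

variable {H K : Type*} [NormedAddCommGroup H] [InnerProductSpace ℂ H]
  [NormedAddCommGroup K] [InnerProductSpace ℂ K] (S : Sys H K)

/-- linear map of a Weyl operator -/
noncomputable def Wl (a : K) : H →ₗ[ℂ] H := (S.W a).toLinearEquiv.toLinearMap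

lemma Wl_apply (a : K) (x : H) : Wl S a x = S.W a x := rfl

/-- even (`s = 1`) or odd (`s = -1`) combinations of Weyl operators with labels in `L` -/
def Eo (L : Submodule ℂ K) (s : ℂ) : Submodule ℂ (H →ₗ[ℂ] H) :=
  Submodule.span ℂ {A | ∃ v ∈ L, A = Wl S v + s • Wl S (-v)}

variable {S}

lemma Eo.mem {L : Submodule ℂ K} {v : K} (hv : v ∈ L) (s : ℂ) :
    Wl S v + s • Wl S (-v) ∈ Eo S L s := Submodule.subset_span ⟨v, hv, rfl⟩

lemma Wl_comp (a b : K) : Wl S a ∘ₗ Wl S b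
    = Complex.exp (-(Complex.I * ((inner ℂ a b).im : ℂ))) • Wl S (a + b) := by
  ext x
  simp only [LinearMap.comp_apply, LinearMap.smul_apply, Wl_apply, S.WW]

lemma Wl_comp_neg (a b : K) : Wl S (-a) ∘ₗ Wl S (-b)
    = Complex.exp (-(Complex.I * ((inner ℂ a b).im : ℂ))) • Wl S (-(a + b)) := by
  rw [Wl_comp, inner_neg_neg, neg_add]

lemma Wl_comp_neg_left (a b : K) : Wl S (-a) ∘ₗ Wl S b
    = Complex.exp (Complex.I * ((inner ℂ a b).im : ℂ)) • Wl S (-(a - b)) := by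
  rw [Wl_comp, inner_neg_left]
  congr 2
  · simp
  · abel_nf

lemma Wl_comp_neg_right (a b : K) : Wl S a ∘ₗ Wl S (-b)
    = Complex.exp (Complex.I * ((inner ℂ a b).im : ℂ)) • Wl S (a - b) := by
  rw [Wl_comp, inner_neg_right]
  congr 2
  · simp
  · abel_nf

/-- products of even and odd elements -/
lemma Eo.comp {L : Submodule ℂ K} {s t : ℂ} (ht : t * t = 1)
    {A B : H →ₗ[ℂ] H} (hA : A ∈ Eo S L s) (hB : B ∈ Eo S L t) : A ∘ₗ B ∈ Eo S L (s * t) := by
  induction hA using Submodule.span_induction with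
  | mem A hA =>
    obtain ⟨v, hv, rfl⟩ := hA
    induction hB using Submodule.span_induction with
    | mem B hB =>
      obtain ⟨w, hw, rfl⟩ := hB
      have e : (Wl S v + s • Wl S (-v)) ∘ₗ (Wl S w + t • Wl S (-w))
          = Complex.exp (-(Complex.I * ((inner ℂ v w).im : ℂ))) •
              (Wl S (v + w) + (s * t) • Wl S (-(v + w)))
            + (t * Complex.exp (Complex.I * ((inner ℂ v w).im : ℂ))) •
              (Wl S (v - w) + (s * t) • Wl S (-(v - w))) := by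
        simp only [LinearMap.add_comp, LinearMap.comp_add, LinearMap.smul_comp,
          LinearMap.comp_smul]
        rw [Wl_comp v w, Wl_comp_neg v w, Wl_comp_neg_left, Wl_comp_neg_right]
        generalize Complex.exp (-(Complex.I * ((inner ℂ v w).im : ℂ))) = e1
        generalize Complex.exp (Complex.I * ((inner ℂ v w).im : ℂ)) = e2
        have h3 : s * e2 = t * e2 * (s * t) := by linear_combination -(s * e2) * ht
        have h4 : s • (e2 • Wl S (-(v - w))) = (t * e2) • ((s * t) • Wl S (-(v - w))) := by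
          rw [smul_smul, smul_smul, h3]
        rw [h4]
        module
      rw [e]
      exact Submodule.add_mem _ (Submodule.smul_mem _ _ (Eo.mem (L.add_mem hv hw) _))
        (Submodule.smul_mem _ _ (Eo.mem (L.sub_mem hv hw) _))
    | zero => simp
    | add B C _ _ hB hC => rw [LinearMap.comp_add]; exact Submodule.add_mem _ hB hC
    | smul c B _ hB => rw [LinearMap.comp_smul]; exact Submodule.smul_mem _ _ hB
  | zero => simp
  | add A C _ _ hA hC => rw [LinearMap.add_comp]; exact Submodule.add_mem _ hA hC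
  | smul c A _ hA => rw [LinearMap.smul_comp]; exact Submodule.smul_mem _ _ hA

lemma Eo.pp {L : Submodule ℂ K} {A B : H →ₗ[ℂ] H} (hA : A ∈ Eo S L 1) (hB : B ∈ Eo S L 1) :
    A ∘ₗ B ∈ Eo S L 1 := by
  have h := Eo.comp (by ring : (1 : ℂ) * 1 = 1) hA hB
  rwa [one_mul] at h

lemma Eo.pm {L : Submodule ℂ K} {A B : H →ₗ[ℂ] H} (hA : A ∈ Eo S L 1) (hB : B ∈ Eo S L (-1)) :
    A ∘ₗ B ∈ Eo S L (-1) := by
  have h := Eo.comp (by ring : (-1 : ℂ) * (-1) = 1) hA hB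
  rwa [one_mul] at h

lemma Eo.mp {L : Submodule ℂ K} {A B : H →ₗ[ℂ] H} (hA : A ∈ Eo S L (-1)) (hB : B ∈ Eo S L 1) :
    A ∘ₗ B ∈ Eo S L (-1) := by
  have h := Eo.comp (by ring : (1 : ℂ) * 1 = 1) hA hB
  rwa [mul_one] at h

lemma Eo.mm {L : Submodule ℂ K} {A B : H →ₗ[ℂ] H} (hA : A ∈ Eo S L (-1)) (hB : B ∈ Eo S L (-1)) :
    A ∘ₗ B ∈ Eo S L 1 := by
  have h := Eo.comp (by ring : (-1 : ℂ) * (-1) = 1) hA hB
  rwa [show (-1 : ℂ) * (-1) = 1 by ring] at h

lemma Eo.mono {L L' : Submodule ℂ K} (h : L ≤ L') (s : ℂ) : Eo S L s ≤ Eo S L' s := by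
  refine Submodule.span_mono ?_
  rintro _ ⟨v, hv, rfl⟩
  exact ⟨v, h hv, rfl⟩

/-- the combinations commute with `X` -/
lemma Eo_X {L : Submodule ℂ K} {s : ℂ} {A : H →ₗ[ℂ] H} (hA : A ∈ Eo S L s) (x : H) :
    A (S.X x) = S.X (A x) := by
  induction hA using Submodule.span_induction with
  | mem A hA =>
    obtain ⟨v, hv, rfl⟩ := hA
    simp only [LinearMap.add_apply, LinearMap.smul_apply, Wl_apply, S.WX, map_add, map_smul]
  | zero => simp
  | add A C _ _ hA hC => rw [LinearMap.add_apply, LinearMap.add_apply, map_add, hA, hC]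
  | smul c A _ hA => rw [LinearMap.smul_apply, LinearMap.smul_apply, map_smul, hA]

/-- the combinations commute with `Z` -/
lemma Eo_Z {L : Submodule ℂ K} {s : ℂ} {A : H →ₗ[ℂ] H} (hA : A ∈ Eo S L s) (x : H) :
    A (S.Z x) = S.Z (A x) := by
  induction hA using Submodule.span_induction with
  | mem A hA =>
    obtain ⟨v, hv, rfl⟩ := hA
    simp only [LinearMap.add_apply, LinearMap.smul_apply, Wl_apply, S.WZ, map_add, map_smul]
  | zero => simp
  | add A C _ _ hA hC => rw [LinearMap.add_apply, LinearMap.add_apply, map_add, hA, hC]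
  | smul c A _ hA => rw [LinearMap.smul_apply, LinearMap.smul_apply, map_smul, hA]

/-- odd elements have no vacuum expectation -/
lemma Eo.odd {L : Submodule ℂ K} {A : H →ₗ[ℂ] H} (hA : A ∈ Eo S L (-1)) :
    inner ℂ S.Om (A S.Om) = 0 := by
  induction hA using Submodule.span_induction with
  | mem A hA =>
    obtain ⟨v, hv, rfl⟩ := hA
    simp only [LinearMap.add_apply, LinearMap.smul_apply, Wl_apply, inner_add_right,
      inner_smul_right, S.vac, norm_neg]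
    ring
  | zero => simp
  | add A C _ _ hA hC => rw [LinearMap.add_apply, inner_add_right, hA, hC, add_zero]
  | smul c A _ hA => rw [LinearMap.smul_apply, inner_smul_right, hA, mul_zero]

/-- factorisation of vacuum expectations over orthogonal labels -/
lemma Eo.factor {L L' : Submodule ℂ K} (hL : ∀ v ∈ L, ∀ w ∈ L', inner ℂ v w = 0) {s t : ℂ}
    {A B : H →ₗ[ℂ] H} (hA : A ∈ Eo S L s) (hB : B ∈ Eo S L' t) :
    inner ℂ S.Om (A (B S.Om)) = inner ℂ S.Om (A S.Om) * inner ℂ S.Om (B S.Om) := by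
  have h0 : ∀ v ∈ L, ∀ w ∈ L', inner ℂ S.Om (S.W v (S.W w S.Om))
      = inner ℂ S.Om (S.W v S.Om) * inner ℂ S.Om (S.W w S.Om) := by
    intro v hv w hw
    rw [S.WW, hL v hv w hw, inner_smul_right, S.vac, S.vac, S.vac, ← Complex.exp_add,
      ← Complex.exp_add]
    congr 1
    have h1 := @norm_add_sq ℂ K _ _ _ v w
    rw [hL v hv w hw] at h1
    rw [h1]
    push_cast
    simp
    ring
  induction hA using Submodule.span_induction with
  | mem A hA =>
    obtain ⟨v, hv, rfl⟩ := hA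
    induction hB using Submodule.span_induction with
    | mem B hB =>
      obtain ⟨w, hw, rfl⟩ := hB
      simp only [LinearMap.add_apply, LinearMap.smul_apply, Wl_apply, inner_add_right,
        inner_smul_right, map_add, map_smul, smul_add]
      rw [h0 v hv w hw, h0 v hv (-w) (L'.neg_mem hw), h0 (-v) (L.neg_mem hv) w hw,
        h0 (-v) (L.neg_mem hv) (-w) (L'.neg_mem hw)]
      ring
    | zero => simp
    | add B C _ _ hB hC =>
      rw [LinearMap.add_apply B C, map_add, inner_add_right, hB, hC, inner_add_right]; ring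
    | smul c B _ hB =>
      rw [LinearMap.smul_apply c B, map_smul, inner_smul_right, hB, inner_smul_right]; ring
  | zero => simp
  | add A C _ _ hA hC =>
    rw [LinearMap.add_apply, inner_add_right, hA, hC, LinearMap.add_apply, inner_add_right]; ring
  | smul c A _ hA =>
    rw [LinearMap.smul_apply, inner_smul_right, hA, LinearMap.smul_apply, inner_smul_right]; ring

variable (S)

/-- operators which commute with `X (-1)^N` and only touch the modes `L` -/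
structure Par (L : Submodule ℂ K) (U : H → H) (a b c d : H →ₗ[ℂ] H) : Prop where
  ha : a ∈ Eo S L 1
  hb : b ∈ Eo S L 1
  hc : c ∈ Eo S L (-1)
  hd : d ∈ Eo S L (-1)
  eq : ∀ x, U x = a x + S.X (b x) + S.Z (c x) + S.Z (S.X (d x))

variable {S}

lemma Par.comp {L : Submodule ℂ K} {U V : H → H} {a b c d a' b' c' d' : H →ₗ[ℂ] H}
    (hU : Par S L U a b c d) (hV : Par S L V a' b' c' d') :
    Par S L (fun x => U (V x))
      (a ∘ₗ a' + b ∘ₗ b' + c ∘ₗ c' - d ∘ₗ d') (a ∘ₗ b' + b ∘ₗ a' + c ∘ₗ d' - d ∘ₗ c')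
      (a ∘ₗ c' - b ∘ₗ d' + c ∘ₗ a' + d ∘ₗ b') (a ∘ₗ d' - b ∘ₗ c' + c ∘ₗ b' + d ∘ₗ a') := by
  constructor
  · exact Submodule.sub_mem _ (Submodule.add_mem _ (Submodule.add_mem _ (Eo.pp hU.ha hV.ha)
      (Eo.pp hU.hb hV.hb)) (Eo.mm hU.hc hV.hc)) (Eo.mm hU.hd hV.hd)
  · exact Submodule.sub_mem _ (Submodule.add_mem _ (Submodule.add_mem _ (Eo.pp hU.ha hV.hb)
      (Eo.pp hU.hb hV.ha)) (Eo.mm hU.hc hV.hd)) (Eo.mm hU.hd hV.hc)
  · exact Submodule.add_mem _ (Submodule.add_mem _ (Submodule.sub_mem _ (Eo.pm hU.ha hV.hc)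
      (Eo.pm hU.hb hV.hd)) (Eo.mp hU.hc hV.ha)) (Eo.mp hU.hd hV.hb)
  · exact Submodule.add_mem _ (Submodule.add_mem _ (Submodule.sub_mem _ (Eo.pm hU.ha hV.hd)
      (Eo.pm hU.hb hV.hc)) (Eo.mp hU.hc hV.hb)) (Eo.mp hU.hd hV.ha)
  · intro x
    rw [hU.eq, hV.eq]
    simp only [map_add, LinearMap.add_apply, LinearMap.sub_apply, map_sub, LinearMap.comp_apply,
      Eo_X hU.ha, Eo_Z hU.ha, Eo_X hU.hb, Eo_Z hU.hb, Eo_X hU.hc, Eo_Z hU.hc, Eo_X hU.hd,
      Eo_Z hU.hd, S.XX, S.ZZ, S.XZ, map_neg]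
    abel

lemma Par.mono {L L' : Submodule ℂ K} (h : L ≤ L') {U : H → H} {a b c d : H →ₗ[ℂ] H}
    (hU : Par S L U a b c d) : Par S L' U a b c d :=
  ⟨Eo.mono h _ hU.ha, Eo.mono h _ hU.hb, Eo.mono h _ hU.hc, Eo.mono h _ hU.hd, hU.eq⟩

lemma inner_Om_X (x : H) : inner ℂ S.Om (S.X x) = inner ℂ S.Om x := by
  rw [← S.inner_X, S.XOm]

lemma inner_Om_Z_of {x : H} (h : S.X x = x) : inner ℂ S.Om (S.Z x) = 0 := by
  have h1 : inner ℂ S.Om (S.Z x) = -inner ℂ S.Om (S.Z x) := by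
    conv_lhs => rw [← inner_Om_X, S.XZ, h, inner_neg_right]
  have h2 : (2 : ℂ) * inner ℂ S.Om (S.Z x) = 0 := by linear_combination h1
  exact (mul_eq_zero.1 h2).resolve_left two_ne_zero

lemma Par.exp {L : Submodule ℂ K} {U : H → H} {a b c d : H →ₗ[ℂ] H} (hU : Par S L U a b c d) :
    inner ℂ S.Om (U S.Om) = inner ℂ S.Om (a S.Om) + inner ℂ S.Om (b S.Om) := by
  have hc : S.X (c S.Om) = c S.Om := by rw [← Eo_X hU.hc, S.XOm]
  have hd : S.X (d S.Om) = d S.Om := by rw [← Eo_X hU.hd, S.XOm]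
  rw [hU.eq, inner_add_right, inner_add_right, inner_add_right, inner_Om_X, hd,
    inner_Om_Z_of hc, inner_Om_Z_of hd, add_zero, add_zero]

/-- multiplicativity of the vacuum expectation over orthogonal modes -/
lemma Par.factor {L L' : Submodule ℂ K} (hL : ∀ v ∈ L, ∀ w ∈ L', inner ℂ v w = 0)
    {U V : H → H} {a b c d a' b' c' d' : H →ₗ[ℂ] H}
    (hU : Par S L U a b c d) (hV : Par S L' V a' b' c' d') :
    inner ℂ S.Om (U (V S.Om)) = inner ℂ S.Om (U S.Om) * inner ℂ S.Om (V S.Om) := by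
  have h1 := (hU.mono (le_sup_left : L ≤ L ⊔ L')).comp (hV.mono (le_sup_right : L' ≤ L ⊔ L'))
  rw [h1.exp, hU.exp, hV.exp]
  simp only [LinearMap.add_apply, LinearMap.sub_apply, LinearMap.comp_apply, inner_add_right,
    inner_sub_right]
  rw [Eo.factor hL hU.ha hV.ha, Eo.factor hL hU.hb hV.hb, Eo.factor hL hU.hc hV.hc,
    Eo.factor hL hU.hd hV.hd, Eo.factor hL hU.ha hV.hb, Eo.factor hL hU.hb hV.ha,
    Eo.factor hL hU.hc hV.hd, Eo.factor hL hU.hd hV.hc, Eo.odd hU.hc, Eo.odd hU.hd]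
  ring

variable (S)

/-- `X (-1)^N`-even operators on the modes `L` -/
def IsPar (L : Submodule ℂ K) (U : H → H) : Prop := ∃ a b c d, Par S L U a b c d

variable {S}

lemma IsPar.comp {L : Submodule ℂ K} {U V : H → H} (hU : IsPar S L U) (hV : IsPar S L V) :
    IsPar S L fun x => U (V x) := by
  obtain ⟨a, b, c, d, hU⟩ := hU
  obtain ⟨a', b', c', d', hV⟩ := hV
  exact ⟨_, _, _, _, hU.comp hV⟩

lemma IsPar.mul {L : Submodule ℂ K} {U V : H ≃ₗᵢ[ℂ] H} (hU : IsPar S L U) (hV : IsPar S L V) :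
    IsPar S L (U * V : H ≃ₗᵢ[ℂ] H) := by
  change IsPar S L fun x => U (V x)
  exact IsPar.comp (U := U) (V := V) hU hV

lemma IsPar.mono {L L' : Submodule ℂ K} (h : L ≤ L') {U : H → H} (hU : IsPar S L U) :
    IsPar S L' U := by
  obtain ⟨a, b, c, d, hU⟩ := hU
  exact ⟨_, _, _, _, hU.mono h⟩

lemma Eo.one (L : Submodule ℂ K) : (LinearMap.id : H →ₗ[ℂ] H) ∈ Eo S L 1 := by
  have h := Eo.mem (S := S) (L := L) L.zero_mem 1
  have e : (LinearMap.id : H →ₗ[ℂ] H) = (1 / 2 : ℂ) • (Wl S 0 + (1 : ℂ) • Wl S (-0)) := by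
    ext x
    simp only [LinearMap.id_apply, LinearMap.smul_apply, LinearMap.add_apply, Wl_apply, neg_zero,
      S.W_zero_apply]
    module
  rw [e]
  exact Submodule.smul_mem _ _ h

/-- scalar and `X`-rotations are allowed -/
lemma IsPar.rotX (L : Submodule ℂ K) {U : H → H} (c1 c2 : ℂ) (h : ∀ x, U x = c1 • x + c2 • S.X x) :
    IsPar S L U :=
  ⟨c1 • LinearMap.id, c2 • LinearMap.id, 0, 0, Submodule.smul_mem _ _ (Eo.one L),
    Submodule.smul_mem _ _ (Eo.one L), Submodule.zero_mem _, Submodule.zero_mem _, fun x => by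
      rw [h]; simp⟩

lemma IsPar.id (L : Submodule ℂ K) : IsPar S L fun x => x :=
  IsPar.rotX L 1 0 fun x => by rw [one_smul, zero_smul, add_zero]

lemma IsPar.xr (L : Submodule ℂ K) (b : ℝ) : IsPar S L (S.xr b) :=
  IsPar.rotX L (Real.cos b) (-(Complex.I * (Real.sin b : ℂ))) fun x => by
    rw [S.xr_apply, neg_smul, sub_eq_add_neg]

/-- pulses are allowed -/
lemma IsPar.pul {L : Submodule ℂ K} (t : ℝ) {v : K} (hv : v ∈ L) : IsPar S L (S.pul t v) := by
  refine ⟨(1 / 2 : ℂ) • (Wl S v + (1 : ℂ) • Wl S (-v)), 0,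
    (-(1 / 2) * (Real.cos (2 * t) : ℂ)) • (Wl S v + (-1 : ℂ) • Wl S (-v)),
    (-(1 / 2) * (Complex.I * (Real.sin (2 * t) : ℂ))) • (Wl S v + (-1 : ℂ) • Wl S (-v)),
    Submodule.smul_mem _ _ (Eo.mem hv _), Submodule.zero_mem _,
    Submodule.smul_mem _ _ (Eo.mem hv _), Submodule.smul_mem _ _ (Eo.mem hv _), fun x => ?_⟩
  rw [S.pul_apply]
  simp only [S.Zt_apply, S.xr_apply, LinearMap.smul_apply, LinearMap.add_apply, Wl_apply,
    LinearMap.zero_apply, map_zero, map_add, map_sub, map_smul, map_neg, S.XZ, S.WX, S.WZ]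
  module

lemma IsPar.zr {L : Submodule ℂ K} {v : K} (hv : v ∈ L) : IsPar S L (S.zr v) := by
  rw [← S.pul_time_zero]; exact IsPar.pul 0 hv

lemma IsPar.factor {L L' : Submodule ℂ K} (hL : ∀ v ∈ L, ∀ w ∈ L', inner ℂ v w = 0)
    {U V : H → H} (hU : IsPar S L U) (hV : IsPar S L' V) :
    inner ℂ S.Om (U (V S.Om)) = inner ℂ S.Om (U S.Om) * inner ℂ S.Om (V S.Om) := by
  obtain ⟨a, b, c, d, hU⟩ := hU
  obtain ⟨a', b', c', d', hV⟩ := hV
  exact hU.factor hL hV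

/-- `U (n-1) o ... o U 0` -/
noncomputable def cmp (U : ℕ → H → H) : ℕ → H → H
  | 0, x => x
  | n + 1, x => U n (cmp U n x)

/-- the composition only touches the union of the modes -/
lemma isPar_cmp {L : ℕ → Submodule ℂ K} {U : ℕ → H → H} {n : ℕ}
    (hU : ∀ i < n, IsPar S (L i) (U i)) : ∀ m ≤ n, IsPar S (⨆ i ∈ Finset.range m, L i) (cmp U m) := by
  intro m
  induction m with
  | zero => intro _; exact IsPar.id _
  | succ m ih =>
    intro hm
    change IsPar S _ (fun x => U m (cmp U m x))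
    refine IsPar.comp (U := U m) (V := cmp U m) (IsPar.mono ?_ (hU m (by omega)))
      (IsPar.mono ?_ (ih (by omega)))
    · exact le_iSup₂_of_le m (Finset.self_mem_range_succ m) le_rfl
    · refine iSup₂_le fun i hi => ?_
      exact le_iSup₂_of_le i (Finset.mem_range.2 (by have := Finset.mem_range.1 hi; omega)) le_rfl

/-- **Leakage formula** -/
theorem inner_cmp {L : ℕ → Submodule ℂ K} {U : ℕ → H → H} {n : ℕ}
    (hL : ∀ i j, i < j → j < n → ∀ v ∈ L i, ∀ w ∈ L j, inner ℂ v w = 0)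
    (hU : ∀ i < n, IsPar S (L i) (U i)) : ∀ m ≤ n,
    inner ℂ S.Om (cmp U m S.Om) = ∏ i ∈ Finset.range m, inner ℂ S.Om (U i S.Om) := by
  intro m
  induction m with
  | zero =>
    intro _
    simp only [cmp, Finset.range_zero, Finset.prod_empty]
    rw [inner_self_eq_norm_sq_to_K, S.nOm]
    simp
  | succ m ih =>
    intro hm
    rw [Finset.prod_range_succ, ← ih (by omega), mul_comm]
    change inner ℂ S.Om (U m (cmp U m S.Om)) = _
    refine IsPar.factor ?_ (hU m (by omega)) (isPar_cmp hU m (by omega))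
    intro v hv w hw
    have h3 : (⨆ i ∈ Finset.range m, L i) ≤ (Submodule.span ℂ {v})ᗮ := by
      refine iSup₂_le fun i hi => ?_
      intro u hu
      rw [Submodule.mem_orthogonal_singleton_iff_inner_left]
      exact hL i m (Finset.mem_range.1 hi) (by omega) u hu v hv
    have h4 := h3 hw
    rwa [Submodule.mem_orthogonal_singleton_iff_inner_right] at h4

/-- distance of a unit vector to the line of `e` -/
lemma one_sub_inner_le {E : Type*} [NormedAddCommGroup E] [InnerProductSpace ℂ E] {e x : E}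
    (he : ‖e‖ = 1) (hx : ‖x‖ = 1) (c : ℂ) : 1 - ‖inner ℂ e x‖ ^ 2 ≤ ‖x - c • e‖ ^ 2 := by
  have h := @norm_sub_sq ℂ E _ _ _ x (c • e)
  rw [norm_smul, he, hx, inner_smul_right, mul_one] at h
  rw [h]
  have h1 : RCLike.re (c * inner ℂ x e) ≤ ‖c‖ * ‖inner ℂ e x‖ := by
    refine (RCLike.re_le_norm _).trans ?_
    rw [norm_mul, norm_inner_symm]
  nlinarith [sq_nonneg (‖c‖ - ‖inner ℂ e x‖)]

lemma exists_phase {E : Type*} [NormedAddCommGroup E] [InnerProductSpace ℂ E] {e x : E}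
    (he : ‖e‖ = 1) (hx : ‖x‖ = 1) : ∃ c : ℂ, ‖c‖ = 1 ∧
      ‖x - c • e‖ ^ 2 ≤ 2 * (1 - ‖inner ℂ e x‖ ^ 2) := by
  set z : ℂ := inner ℂ e x with hz
  have hz1 : ‖z‖ ≤ 1 := by
    have := norm_inner_le_norm (𝕜 := ℂ) e x
    rwa [he, hx, one_mul, ← hz] at this
  have key : ∀ c : ℂ, ‖c‖ = 1 → RCLike.re (c * inner ℂ x e) = ‖z‖ →
      ‖x - c • e‖ ^ 2 ≤ 2 * (1 - ‖z‖ ^ 2) := by
    intro c hc h1
    have h := @norm_sub_sq ℂ E _ _ _ x (c • e)
    rw [norm_smul, he, hx, inner_smul_right, mul_one, hc, h1] at h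
    rw [h]
    nlinarith [norm_nonneg z]
  by_cases h0 : z = 0
  · refine ⟨1, norm_one, key 1 norm_one ?_⟩
    rw [one_mul, ← inner_conj_symm, ← hz, h0]
    simp
  · have hn : (‖z‖ : ℂ) ≠ 0 := by
      exact_mod_cast norm_ne_zero_iff.2 h0
    have hc : ‖z / (‖z‖ : ℂ)‖ = 1 := by
      rw [norm_div, Complex.norm_real, norm_norm]
      exact div_self (norm_ne_zero_iff.2 h0)
    refine ⟨z / (‖z‖ : ℂ), hc, key _ hc ?_⟩
    have e1 : (inner ℂ x e : ℂ) = (starRingEnd ℂ) z := by rw [hz, inner_conj_symm]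
    rw [e1]
    have e2 : z / (‖z‖ : ℂ) * (starRingEnd ℂ) z = (‖z‖ : ℂ) := by
      rw [div_mul_eq_mul_div, Complex.mul_conj, Complex.normSq_eq_norm_sq]
      push_cast
      field_simp
    rw [e2]
    simp

lemma one_sub_prod_le {n : ℕ} {r : ℕ → ℝ} (h0 : ∀ i < n, 0 ≤ r i) (h1 : ∀ i < n, r i ≤ 1) :
    1 - ∏ i ∈ Finset.range n, r i ≤ ∑ i ∈ Finset.range n, (1 - r i) := by
  have key : ∀ m ≤ n, 0 ≤ ∏ i ∈ Finset.range m, r i ∧ ∏ i ∈ Finset.range m, r i ≤ 1 ∧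
      1 - ∏ i ∈ Finset.range m, r i ≤ ∑ i ∈ Finset.range m, (1 - r i) := by
    intro m
    induction m with
    | zero => intro _; simp
    | succ m ih =>
      intro hm
      obtain ⟨a, b, c⟩ := ih (by omega)
      have h2 := h0 m (by omega)
      have h3 := h1 m (by omega)
      rw [Finset.prod_range_succ, Finset.sum_range_succ]
      refine ⟨mul_nonneg a h2, by nlinarith, ?_⟩
      nlinarith
  exact (key n le_rfl).2.2

omit [InnerProductSpace ℂ H] in
lemma norm_cmp {U : ℕ → H → H} {n : ℕ} (hn : ∀ i < n, ∀ x, ‖U i x‖ = ‖x‖) (x : H) :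
    ∀ m ≤ n, ‖cmp U m x‖ = ‖x‖ := by
  intro m
  induction m with
  | zero => intro _; rfl
  | succ m ih =>
    intro hm
    change ‖U m (cmp U m x)‖ = ‖x‖
    rw [hn m (by omega), ih (by omega)]

/-- **Leakage estimate** -/
theorem leakage {L : ℕ → Submodule ℂ K} {U : ℕ → H → H} {n : ℕ}
    (hL : ∀ i j, i < j → j < n → ∀ v ∈ L i, ∀ w ∈ L j, inner ℂ v w = 0)
    (hU : ∀ i < n, IsPar S (L i) (U i)) (hn : ∀ i < n, ∀ x, ‖U i x‖ = ‖x‖)
    (c : ℕ → ℂ) (m : ℕ) (hm : m ≤ n) : ∃ θ : ℂ, ‖θ‖ = 1 ∧ ‖cmp U m S.Om - θ • S.Om‖ ^ 2 ≤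
      2 * ∑ i ∈ Finset.range m, ‖U i S.Om - c i • S.Om‖ ^ 2 := by
  have hnorm : ‖cmp U m S.Om‖ = 1 := by rw [norm_cmp hn S.Om m hm, S.nOm]
  obtain ⟨θ, h1, h2⟩ := exists_phase S.nOm hnorm
  refine ⟨θ, h1, h2.trans ?_⟩
  rw [inner_cmp hL hU m hm, norm_prod, ← Finset.prod_pow]
  have h3 := one_sub_prod_le (n := m) (r := fun i => ‖inner ℂ S.Om (U i S.Om)‖ ^ 2)
    (fun i _ => by positivity) (fun i hi => by
      have := norm_inner_le_norm (𝕜 := ℂ) S.Om (U i S.Om)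
      rw [hn i (by omega), S.nOm, one_mul] at this
      exact pow_le_one₀ (norm_nonneg _) this)
  have h4 : ∑ i ∈ Finset.range m, (1 - ‖inner ℂ S.Om (U i S.Om)‖ ^ 2)
      ≤ ∑ i ∈ Finset.range m, ‖U i S.Om - c i • S.Om‖ ^ 2 := by
    refine Finset.sum_le_sum fun i hi => ?_
    exact one_sub_inner_le S.nOm
      (by rw [hn i (by have := Finset.mem_range.1 hi; omega), S.nOm]) (c i)
  linarith

/-- the `X = -1` component -/
lemma norm_sub_X_le (x : H) (θ : ℂ) : ‖x - S.X x‖ ≤ 2 * ‖x - θ • S.Om‖ := by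
  have e : x - S.X x = (x - θ • S.Om) - S.X (x - θ • S.Om) := by
    rw [map_sub, map_smul, S.XOm]; abel
  rw [e]
  refine (norm_sub_le _ _).trans ?_
  rw [LinearIsometryEquiv.norm_map, two_mul]

/-- small displacements of displaced vacua -/
lemma norm_W_zr_Om (v q : K) : ‖S.W q (S.zr v S.Om) - S.zr v S.Om‖ ^ 2
    ≤ ‖q‖ ^ 2 * (1 + 4 * ‖v‖ ^ 2) := by
  have h1 := @norm_sub_sq ℂ H _ _ _ (S.W q (S.zr v S.Om)) (S.zr v S.Om)
  rw [LinearIsometryEquiv.norm_map, LinearIsometryEquiv.norm_map, S.nOm] at h1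
  set f : ℝ := th (-v) q with hf
  have h2 : S.zr (-v) (S.W q (S.zr v S.Om)) = S.W q (S.rot 0 f S.Om) := by
    rw [S.zr_W, S.zr_neg_zr]
  have h3 : (inner ℂ (S.W q (S.zr v S.Om)) (S.zr v S.Om) : ℂ)
      = (Real.cos (2 * f) * Real.exp (-(‖q‖ ^ 2 / 2)) : ℝ) := by
    have e1 : (inner ℂ (S.W q (S.zr v S.Om)) (S.zr v S.Om) : ℂ)
        = inner ℂ (S.zr (-v) (S.W q (S.zr v S.Om))) S.Om := by
      rw [S.inner_zr, neg_neg]
    have e2 : (inner ℂ (S.W q S.Om) S.Om : ℂ) = (Real.exp (-(‖q‖ ^ 2 / 2)) : ℝ) := by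
      rw [← inner_conj_symm, S.vac, Complex.ofReal_exp, ← Complex.exp_conj]
      congr 1
      rw [map_neg, Complex.conj_ofReal]
      push_cast
      ring
    have e3 : (inner ℂ (S.Z (S.W q S.Om)) S.Om : ℂ) = 0 := by
      rw [← inner_conj_symm, inner_Om_Z_of, map_zero]
      rw [← S.WX, S.XOm]
    rw [e1, h2, S.rot_apply, S.Zt_zero, map_add, map_smul, map_smul, S.WZ, inner_add_left,
      inner_smul_left, inner_smul_left, e3, e2, mul_zero, add_zero, Complex.conj_ofReal]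
    push_cast
    ring
  rw [h3] at h1
  have h4 : RCLike.re (((Real.cos (2 * f) * Real.exp (-(‖q‖ ^ 2 / 2)) : ℝ) : ℂ))
      = Real.cos (2 * f) * Real.exp (-(‖q‖ ^ 2 / 2)) := by
    rw [RCLike.re_to_complex, Complex.ofReal_re]
  rw [h4] at h1
  have h5 : 1 - ‖q‖ ^ 2 / 2 ≤ Real.exp (-(‖q‖ ^ 2 / 2)) := by
    have := Real.add_one_le_exp (-(‖q‖ ^ 2 / 2)); linarith
  have h6 : 1 - (2 * f) ^ 2 / 2 ≤ Real.cos (2 * f) := Real.one_sub_sq_div_two_le_cos
  have h7 : Real.exp (-(‖q‖ ^ 2 / 2)) ≤ 1 := Real.exp_le_one_iff.2 (by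
    have := sq_nonneg ‖q‖; linarith)
  have h8 : 0 < Real.exp (-(‖q‖ ^ 2 / 2)) := Real.exp_pos _
  have h9 : Real.cos (2 * f) ≤ 1 := Real.cos_le_one _
  have h10 : f ^ 2 ≤ ‖v‖ ^ 2 * ‖q‖ ^ 2 := by
    have := abs_th_le (-v) q
    rw [norm_neg, ← hf] at this
    have h := sq_le_sq' (by linarith [neg_abs_le f, this]) ((le_abs_self f).trans this)
    nlinarith
  nlinarith [mul_nonneg h8.le (sub_nonneg.2 h9), mul_nonneg h8.le (sub_nonneg.2 h6),
    sq_nonneg f, mul_le_mul_of_nonneg_left h7 (sq_nonneg f)]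

/-- small pulses -/
lemma norm_pul_sub_sq (t : ℝ) (q : K) (x : H) : ‖S.pul t q x - x‖ ^ 2
    ≤ ‖S.W (-q) x - x‖ ^ 2 + ‖S.W q x - x‖ ^ 2 := by
  have e : S.pul t q x - x = S.Pp t (S.W (-q) x - x) + S.Pm t (S.W q x - x) := by
    have h := S.Pp_add_Pm t x
    rw [S.pul_eq_P, S.W_Pp, S.W_Pm]
    calc S.Pp t (S.W (-q) x) + S.Pm t (S.W q x) - x
        = S.Pp t (S.W (-q) x) + S.Pm t (S.W q x) - (S.Pp t x + S.Pm t x) := by rw [h]
      _ = S.Pp t (S.W (-q) x - x) + S.Pm t (S.W q x - x) := by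
        simp only [Sys.Pp, Sys.Pm, map_sub]
        module
  have h1 := @norm_add_sq ℂ H _ _ _ (S.Pp t (S.W (-q) x - x)) (S.Pm t (S.W q x - x))
  rw [S.inner_Pp_Pm, map_zero, mul_zero, add_zero] at h1
  rw [e, h1]
  have h2 := S.norm_Pp_le t (S.W (-q) x - x)
  have h3 := S.norm_Pm_le t (S.W q x - x)
  gcongr

/-- the effect of one batch on the reserve -/
lemma norm_kick_sub (t : ℝ) (v q : K) :
    ‖S.zr (-v) (S.pul t q (S.zr v S.Om)) - S.Om‖ ^ 2 ≤ 2 * (‖q‖ ^ 2 * (1 + 4 * ‖v‖ ^ 2)) := by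
  have e : ‖S.zr (-v) (S.pul t q (S.zr v S.Om)) - S.Om‖
      = ‖S.pul t q (S.zr v S.Om) - S.zr v S.Om‖ := by
    rw [← LinearIsometryEquiv.norm_map (S.zr v)
      (S.zr (-v) (S.pul t q (S.zr v S.Om)) - S.Om), map_sub, S.zr_zr_neg]
  rw [e]
  refine (norm_pul_sub_sq t q _).trans ?_
  have h1 := norm_W_zr_Om (S := S) v q
  have h2 := norm_W_zr_Om (S := S) v (-q)
  rw [norm_neg] at h2
  linarith

lemma isPar_kick {L : Submodule ℂ K} (t : ℝ) {v q : K} (hv : v ∈ L) (hq : q ∈ L) :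
    IsPar S L fun x => S.zr (-v) (S.pul t q (S.zr v x)) :=
  IsPar.comp (IsPar.zr (L.neg_mem hv)) (IsPar.comp (IsPar.pul t hq) (IsPar.zr hv))

/-- **Leakage of the reserve**: after the batches `0, ..., m-1` the reserve vector is
`θ • Om` up to the root of `4 ∑ ‖q i‖² (1 + 4 ‖v i‖²)`. -/
theorem leak_kicks {n : ℕ} (t : ℕ → ℝ) (v q : ℕ → K) (L : ℕ → Submodule ℂ K)
    (hv : ∀ i < n, v i ∈ L i) (hq : ∀ i < n, q i ∈ L i)
    (hL : ∀ i j, i < j → j < n → ∀ v ∈ L i, ∀ w ∈ L j, inner ℂ v w = 0) (m : ℕ) (hm : m ≤ n) :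
    ∃ θ : ℂ, ‖θ‖ = 1 ∧
      ‖cmp (fun i x => S.zr (-v i) (S.pul (t i) (q i) (S.zr (v i) x))) m S.Om - θ • S.Om‖ ^ 2 ≤
      4 * ∑ i ∈ Finset.range m, ‖q i‖ ^ 2 * (1 + 4 * ‖v i‖ ^ 2) := by
  obtain ⟨θ, h1, h2⟩ := leakage (S := S) (L := L) (n := n)
    (U := fun i x => S.zr (-v i) (S.pul (t i) (q i) (S.zr (v i) x))) hL
    (fun i hi => isPar_kick (t i) (hv i hi) (hq i hi))
    (fun i _ x => by
      rw [LinearIsometryEquiv.norm_map, LinearIsometryEquiv.norm_map, LinearIsometryEquiv.norm_map])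
    (fun _ => 1) m hm
  refine ⟨θ, h1, h2.trans ?_⟩
  have h3 : ∑ i ∈ Finset.range m, ‖S.zr (-v i) (S.pul (t i) (q i) (S.zr (v i) S.Om))
      - (1 : ℂ) • S.Om‖ ^ 2 ≤ ∑ i ∈ Finset.range m, 2 * (‖q i‖ ^ 2 * (1 + 4 * ‖v i‖ ^ 2)) := by
    refine Finset.sum_le_sum fun i _ => ?_
    rw [one_smul]
    exact norm_kick_sub (t i) (v i) (q i)
  rw [← Finset.mul_sum] at h3
  linarith

/-! ### label projections: vectors of the reserve -/

/-- the span of the vectors `σ W(v) Om`, `σ` in the spin algebra -/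
def SW (S : Sys H K) : Submodule ℂ H :=
  Submodule.span ℂ {x | ∃ v : K, x = S.W v S.Om ∨ x = S.Z (S.W v S.Om)}

lemma SW.W (v : K) : S.W v S.Om ∈ SW S := Submodule.subset_span ⟨v, Or.inl rfl⟩

lemma SW.ZW (v : K) : S.Z (S.W v S.Om) ∈ SW S := Submodule.subset_span ⟨v, Or.inr rfl⟩

lemma SW.Om : S.Om ∈ SW S := by
  have := SW.W (S := S) 0
  rwa [S.W_zero_apply] at this

lemma SW.mapW {x : H} (hx : x ∈ SW S) (a : K) : S.W a x ∈ SW S := by
  induction hx using Submodule.span_induction with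
  | mem x hx =>
    obtain ⟨v, rfl | rfl⟩ := hx
    · rw [S.WW]; exact Submodule.smul_mem _ _ (SW.W _)
    · rw [S.WZ, S.WW, map_smul]; exact Submodule.smul_mem _ _ (SW.ZW _)
  | zero => rw [map_zero]; exact Submodule.zero_mem _
  | add x y _ _ hx hy => rw [map_add]; exact Submodule.add_mem _ hx hy
  | smul c x _ hx => rw [map_smul]; exact Submodule.smul_mem _ _ hx

lemma SW.mapX {x : H} (hx : x ∈ SW S) : S.X x ∈ SW S := by
  induction hx using Submodule.span_induction with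
  | mem x hx =>
    obtain ⟨v, rfl | rfl⟩ := hx
    · rw [← S.WX, S.XOm]; exact SW.W _
    · rw [S.XZ, ← S.WX, S.XOm]; exact Submodule.neg_mem _ (SW.ZW _)
  | zero => rw [map_zero]; exact Submodule.zero_mem _
  | add x y _ _ hx hy => rw [map_add]; exact Submodule.add_mem _ hx hy
  | smul c x _ hx => rw [map_smul]; exact Submodule.smul_mem _ _ hx

lemma SW.mapZ {x : H} (hx : x ∈ SW S) : S.Z x ∈ SW S := by
  induction hx using Submodule.span_induction with
  | mem x hx =>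
    obtain ⟨v, rfl | rfl⟩ := hx
    · exact SW.ZW _
    · rw [S.ZZ]; exact SW.W _
  | zero => rw [map_zero]; exact Submodule.zero_mem _
  | add x y _ _ hx hy => rw [map_add]; exact Submodule.add_mem _ hx hy
  | smul c x _ hx => rw [map_smul]; exact Submodule.smul_mem _ _ hx

lemma SW.mapxr {x : H} (hx : x ∈ SW S) (b : ℝ) : S.xr b x ∈ SW S := by
  rw [S.xr_apply]
  exact Submodule.sub_mem _ (Submodule.smul_mem _ _ hx) (Submodule.smul_mem _ _ (SW.mapX hx))

lemma SW.mapZt {x : H} (hx : x ∈ SW S) (t : ℝ) : S.Zt t x ∈ SW S := by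
  rw [S.Zt_apply]; exact SW.mapxr (SW.mapZ hx) _

lemma SW.mappul {x : H} (hx : x ∈ SW S) (t : ℝ) (v : K) : S.pul t v x ∈ SW S := by
  rw [S.pul_apply]
  exact Submodule.add_mem _ (Submodule.smul_mem _ _ (Submodule.add_mem _ (SW.mapW hx _)
    (SW.mapW hx _))) (Submodule.smul_mem _ _ (Submodule.sub_mem _ (SW.mapW (SW.mapZt hx t) _)
    (SW.mapW (SW.mapZt hx t) _)))

lemma SW.mapzr {x : H} (hx : x ∈ SW S) (v : K) : S.zr v x ∈ SW S := by
  rw [← S.pul_time_zero]; exact SW.mappul hx 0 v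

lemma SW.cmp {n : ℕ} {U : ℕ → H → H} (hU : ∀ i < n, ∀ x ∈ SW S, U i x ∈ SW S) {x : H}
    (hx : x ∈ SW S) : ∀ m ≤ n, cmp U m x ∈ SW S := by
  intro m
  induction m with
  | zero => intro _; exact hx
  | succ m ih => intro hm; exact hU m (by omega) _ (ih (by omega))

/-- a projection `E` commuting with the spin and the Weyl operators, with weight `ρ` -/
lemma inner_E {E : H →ₗ[ℂ] H} {ρ : ℝ} (hX : ∀ x, E (S.X x) = S.X (E x))
    (hZ : ∀ x, E (S.Z x) = S.Z (E x)) (hW : ∀ v x, E (S.W v x) = S.W v (E x))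
    (hvac : ∀ v, inner ℂ S.Om (E (S.W v S.Om)) = (ρ : ℂ) * inner ℂ S.Om (S.W v S.Om))
    {x y : H} (hx : x ∈ SW S) (hy : y ∈ SW S) : inner ℂ x (E y) = (ρ : ℂ) * inner ℂ x y := by
  have hXEOm : ∀ w, S.X (E (S.W w S.Om)) = E (S.W w S.Om) := by
    intro w; rw [← hX, ← S.WX, S.XOm]
  have hEW : ∀ v w, inner ℂ (S.W v S.Om) (E (S.W w S.Om))
      = (ρ : ℂ) * inner ℂ (S.W v S.Om) (S.W w S.Om) := by
    intro v w
    rw [S.inner_W, S.inner_W, ← hW, S.WW, map_smul, inner_smul_right, inner_smul_right, hvac]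
    ring
  have hZ0 : ∀ v, inner ℂ S.Om (S.Z (E (S.W v S.Om))) = 0 := fun v => inner_Om_Z_of (hXEOm v)
  have hZ1 : ∀ v, inner ℂ S.Om (S.Z (S.W v S.Om)) = 0 := fun v =>
    inner_Om_Z_of (by rw [← S.WX, S.XOm])
  have hEZW : ∀ v w, inner ℂ (S.W v S.Om) (S.Z (E (S.W w S.Om))) = 0 := by
    intro v w
    rw [S.inner_W, S.WZ, ← hW, S.WW, map_smul, map_smul, inner_smul_right, hZ0, mul_zero]
  have hZW : ∀ v w, inner ℂ (S.W v S.Om) (S.Z (S.W w S.Om)) = 0 := by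
    intro v w
    rw [S.inner_W, S.WZ, S.WW, map_smul, inner_smul_right, hZ1, mul_zero]
  induction hx using Submodule.span_induction with
  | mem x hx =>
    induction hy using Submodule.span_induction with
    | mem y hy =>
      obtain ⟨v, rfl | rfl⟩ := hx <;> obtain ⟨w, rfl | rfl⟩ := hy
      · exact hEW v w
      · rw [hZ, hEZW, hZW, mul_zero]
      · rw [S.inner_Z, S.inner_Z, hEZW, hZW, mul_zero]
      · rw [hZ, S.inner_Z, S.inner_Z, S.ZZ, S.ZZ, hEW]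
    | zero => simp
    | add y z _ _ hy hz => rw [map_add, inner_add_right, inner_add_right, hy, hz]; ring
    | smul c y _ hy => rw [map_smul, inner_smul_right, inner_smul_right, hy]; ring
  | zero => simp
  | add x z _ _ hx hz => rw [inner_add_left, inner_add_left, hx, hz]; ring
  | smul c x _ hx => rw [inner_smul_left, inner_smul_left, hx]; ring

/-- norms on the reserve -/
lemma norm_E {E : H →ₗ[ℂ] H} {ρ : ℝ} (hX : ∀ x, E (S.X x) = S.X (E x))
    (hZ : ∀ x, E (S.Z x) = S.Z (E x)) (hW : ∀ v x, E (S.W v x) = S.W v (E x))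
    (hE : ∀ x, E (E x) = E x) (hadj : ∀ x y, inner ℂ (E x) y = inner ℂ x (E y))
    (hvac : ∀ v, inner ℂ S.Om (E (S.W v S.Om)) = (ρ : ℂ) * inner ℂ S.Om (S.W v S.Om))
    {x : H} (hx : x ∈ SW S) : ‖E x‖ ^ 2 = ρ * ‖x‖ ^ 2 := by
  have h := inner_E hX hZ hW hvac hx hx
  have h1 : (inner ℂ (E x) (E x) : ℂ) = (ρ : ℂ) * inner ℂ x x := by
    rw [hadj, hE, h]
  rw [inner_self_eq_norm_sq_to_K, inner_self_eq_norm_sq_to_K] at h1
  have h2 : ((‖E x‖ ^ 2 : ℝ) : ℂ) = ((ρ * ‖x‖ ^ 2 : ℝ) : ℂ) := by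
    push_cast
    exact h1
  exact Complex.ofReal_injective h2

end Vale.Agent.P367.B.LKS
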