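import Vale.Agent.P367.B.LBasic
import Vale.Agent.P367.B.LeakS

/-! P367, block B: uniform smallness of small displacements over label partitions (US). -/

namespace Vale.Agent.P367.A

open Complex Filter Topology MeasureTheory

namespace LSys

variable {H K : Type*} [NormedAddCommGroup H] [InnerProductSpace ℂ H]
  [NormedAddCommGroup K] [InnerProductSpace ℂ K] (L : LSys H K)

/-- displacement differences on a label block, uniformly small relative to `sqrt (mu b)` -/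
def UsGood (y : H) : Prop := ∃ C : ℝ, 0 ≤ C ∧ ∀ b : Set ℝ, MeasurableSet b → ∀ w : K,
  ‖L.E b (L.W w y) - L.E b y‖ ≤ C * ‖w‖ * Real.sqrt (L.mu.real b)

lemma norm_E_SW {b : Set ℝ} (hb : MeasurableSet b) {x : H} (hx : x ∈ B.LKS.SW L.toSys) :
    ‖L.E b x‖ ^ 2 = L.mu.real b * ‖x‖ ^ 2 := by
  refine B.LKS.norm_E (S := L.toSys) (E := (L.E b).toLinearMap) ?_ ?_ ?_ ?_ ?_ ?_ hx
  · exact fun x => L.E_X b x
  · exact fun x => L.E_Z b x
  · exact fun v x => L.E_W b v x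
  · exact fun x => L.E_E hb x
  · exact fun x y => L.E_sa hb x y
  · intro v
    change inner ℂ L.Om (L.E b (L.W v L.Om)) = _
    rw [L.vacE hb, L.vac]

lemma us_norm_W_Om_sub (w : K) : ‖L.W w L.Om - L.Om‖ ≤ ‖w‖ := by
  have h := B.LKS.norm_W_zr_Om (S := L.toSys) 0 w
  rw [L.zr_zero, norm_zero] at h
  refine (sq_le_sq₀ (norm_nonneg _) (norm_nonneg _)).1 ?_
  linarith

lemma us_norm_W_W_Om_sub (w a : K) : ‖L.W w (L.W a L.Om) - L.W a L.Om‖ ≤ (2 * ‖a‖ + 1) * ‖w‖ := by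
  rw [L.Wx w a, ← map_smul, ← map_sub, LinearIsometryEquiv.norm_map]
  set p : ℂ := Complex.exp (-(2 * Complex.I * (th w a : ℂ))) with hp
  have e : p • L.W w L.Om - L.Om = p • (L.W w L.Om - L.Om) + (p - 1) • L.Om := by
    rw [smul_sub, sub_smul, one_smul]; abel
  have hp1 : ‖p‖ = 1 := by
    rw [hp, show -(2 * Complex.I * (th w a : ℂ)) = ((-(2 * th w a) : ℝ) : ℂ) * Complex.I by
      push_cast; ring, Complex.norm_exp_ofReal_mul_I]
  have hp2 : ‖p - 1‖ ≤ 2 * (‖w‖ * ‖a‖) := by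
    have h1 := Real.norm_exp_I_mul_ofReal_sub_one_le (x := -(2 * th w a))
    rw [show Complex.I * ((-(2 * th w a) : ℝ) : ℂ) = -(2 * Complex.I * (th w a : ℂ)) by
      push_cast; ring, ← hp, Real.norm_eq_abs, abs_neg, abs_mul, abs_two] at h1
    have h2 := abs_th_le w a
    linarith
  rw [e]
  refine (norm_add_le _ _).trans ?_
  rw [norm_smul, norm_smul, hp1, L.nOm, one_mul, mul_one]
  have := L.us_norm_W_Om_sub w
  nlinarith

lemma UsGood.gen {T : H →L[ℂ] H} {a : K} (h1 : ∀ b y, L.W b (T y) = T (L.W b y))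
    (h2 : ∀ f, Bm f → ∀ y, L.lab f (T y) = T (L.lab f y)) : L.UsGood (T (L.W a L.Om)) := by
  refine ⟨‖T‖ * (2 * ‖a‖ + 1), by positivity, fun b hb w => ?_⟩
  have e : L.E b (L.W w (T (L.W a L.Om))) - L.E b (T (L.W a L.Om))
      = T (L.E b (L.W w (L.W a L.Om) - L.W a L.Om)) := by
    rw [h1]
    unfold LSys.E
    rw [h2 _ (Bm.ind hb 1), h2 _ (Bm.ind hb 1), map_sub, map_sub]
  rw [e]
  refine (T.le_opNorm _).trans ?_
  have hm : L.W w (L.W a L.Om) - L.W a L.Om ∈ B.LKS.SW L.toSys :=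
    Submodule.sub_mem _ (B.LKS.SW.mapW (B.LKS.SW.W a) w) (B.LKS.SW.W a)
  have h3 := L.norm_E_SW hb hm
  have h4 : ‖L.E b (L.W w (L.W a L.Om) - L.W a L.Om)‖
      = Real.sqrt (L.mu.real b) * ‖L.W w (L.W a L.Om) - L.W a L.Om‖ := by
    rw [← Real.sqrt_sq (norm_nonneg (L.E b (L.W w (L.W a L.Om) - L.W a L.Om))), h3,
      Real.sqrt_mul measureReal_nonneg, Real.sqrt_sq (norm_nonneg _)]
  rw [h4]
  have h5 := L.us_norm_W_W_Om_sub w a
  have h6 := Real.sqrt_nonneg (L.mu.real b)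
  calc ‖T‖ * (Real.sqrt (L.mu.real b) * ‖L.W w (L.W a L.Om) - L.W a L.Om‖)
      ≤ ‖T‖ * (Real.sqrt (L.mu.real b) * ((2 * ‖a‖ + 1) * ‖w‖)) := by gcongr
    _ = _ := by ring

lemma UsGood.span {y : H} (hy : y ∈ Submodule.span ℂ {x : H | ∃ (T : H →L[ℂ] H) (a : K),
      (∀ b y, L.W b (T y) = T (L.W b y)) ∧ (∀ f, Bm f → ∀ y, L.lab f (T y) = T (L.lab f y)) ∧
      x = T (L.W a L.Om)}) : L.UsGood y := by
  induction hy using Submodule.span_induction with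
  | mem x hx =>
    obtain ⟨T, a, h1, h2, rfl⟩ := hx
    exact UsGood.gen L h1 h2
  | zero => exact ⟨0, le_rfl, fun b _ w => by simp⟩
  | add x y _ _ hx hy =>
    obtain ⟨C, hC, h1⟩ := hx
    obtain ⟨D, hD, h2⟩ := hy
    refine ⟨C + D, by positivity, fun b hb w => ?_⟩
    have e : L.E b (L.W w (x + y)) - L.E b (x + y)
        = (L.E b (L.W w x) - L.E b x) + (L.E b (L.W w y) - L.E b y) := by
      simp only [map_add]; abel
    rw [e]
    refine (norm_add_le _ _).trans ?_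
    have := h1 b hb w
    have := h2 b hb w
    linarith
  | smul c x _ hx =>
    obtain ⟨C, hC, h1⟩ := hx
    refine ⟨‖c‖ * C, by positivity, fun b hb w => ?_⟩
    have e : L.E b (L.W w (c • x)) - L.E b (c • x) = c • (L.E b (L.W w x) - L.E b x) := by
      simp only [map_smul, smul_sub]
    rw [e, norm_smul]
    have := h1 b hb w
    calc ‖c‖ * ‖L.E b (L.W w x) - L.E b x‖ ≤ ‖c‖ * (C * ‖w‖ * Real.sqrt (L.mu.real b)) := by gcongr
      _ = _ := by ring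

/-- Bessel inequality for disjoint label blocks -/
lemma us_bessel {n : ℕ} (b : Fin n → Set ℝ) (hb : ∀ i, MeasurableSet (b i))
    (hd : Pairwise fun i j => Disjoint (b i) (b j)) (z : H) : ∑ i, ‖L.E (b i) z‖ ^ 2 ≤ ‖z‖ ^ 2 := by
  set P := ∑ i, L.E (b i) z with hP
  have h1 : ∀ i, (inner ℂ (L.E (b i) z) z : ℂ) = ((‖L.E (b i) z‖ ^ 2 : ℝ) : ℂ) := by
    intro i
    have : (inner ℂ (L.E (b i) z) z : ℂ) = inner ℂ (L.E (b i) z) (L.E (b i) z) := by
      rw [← L.E_sa (hb i), L.E_E (hb i)]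
    rw [this, inner_self_eq_norm_sq_to_K]
    push_cast
    rfl
  have h2 : (inner ℂ P z : ℂ) = ((∑ i, ‖L.E (b i) z‖ ^ 2 : ℝ) : ℂ) := by
    rw [hP, sum_inner, Finset.sum_congr rfl fun i _ => h1 i]
    push_cast
    rfl
  have h3 : (inner ℂ P P : ℂ) = ((∑ i, ‖L.E (b i) z‖ ^ 2 : ℝ) : ℂ) := by
    conv_lhs => rw [hP, sum_inner]
    have : ∀ i ∈ Finset.univ, (inner ℂ (L.E (b i) z) (∑ j, L.E (b j) z) : ℂ)
        = ((‖L.E (b i) z‖ ^ 2 : ℝ) : ℂ) := by
      intro i _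
      rw [inner_sum, Finset.sum_eq_single i]
      · rw [inner_self_eq_norm_sq_to_K]
        push_cast
        rfl
      · intro j _ hj
        exact L.inner_E_dis (hb i) (hb j) (hd hj.symm) z z
      · intro h; exact absurd (Finset.mem_univ i) h
    rw [Finset.sum_congr rfl this]
    push_cast
    rfl
  set s : ℝ := ∑ i, ‖L.E (b i) z‖ ^ 2 with hs
  have hs0 : 0 ≤ s := Finset.sum_nonneg fun i _ => by positivity
  have h4 : ‖P‖ ^ 2 = s := by
    rw [inner_self_eq_norm_sq_to_K] at h3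
    apply Complex.ofReal_injective
    rw [← h3, Complex.ofReal_pow]
    rfl
  have h5 : s ≤ ‖P‖ * ‖z‖ := by
    have := norm_inner_le_norm (𝕜 := ℂ) P z
    rw [h2, Complex.norm_real, Real.norm_eq_abs, abs_of_nonneg hs0] at this
    exact this
  nlinarith [norm_nonneg P, norm_nonneg z, sq_nonneg (‖P‖ - ‖z‖)]

/-- **(US)** -/
theorem us (x : H) {κ : ℝ} (hκ : 0 < κ) : ∃ r > 0, ∀ (n : ℕ) (b : Fin n → Set ℝ),
    (∀ i, MeasurableSet (b i)) → (Pairwise fun i j => Disjoint (b i) (b j)) →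
    ∃ k : Fin n → ℝ, (∀ i, 0 ≤ k i) ∧ ∑ i, k i ^ 2 ≤ κ ^ 2 ∧
      ∀ i (w : K), ‖w‖ < r → ‖L.E (b i) (L.W w x) - L.E (b i) x‖ ≤ k i := by
  have hx : x ∈ (Submodule.span ℂ {x : H | ∃ (T : H →L[ℂ] H) (a : K),
      (∀ b y, L.W b (T y) = T (L.W b y)) ∧ (∀ f, Bm f → ∀ y, L.lab f (T y) = T (L.lab f y)) ∧
      x = T (L.W a L.Om)}).topologicalClosure := by rw [L.cyc]; trivial
  obtain ⟨y, hy, hxy⟩ := Metric.mem_closure_iff.1 hx (κ / 4) (by positivity)
  obtain ⟨C, hC, hCy⟩ := UsGood.span L hy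
  rw [dist_eq_norm] at hxy
  refine ⟨κ / (2 * (C + 1)), by positivity, fun n b hb hd => ?_⟩
  set r := κ / (2 * (C + 1)) with hr
  have hr0 : 0 < r := by positivity
  have hCr : C * r ≤ κ / 2 := by
    rw [hr, mul_div_assoc', div_le_div_iff₀ (by positivity) (by positivity)]
    nlinarith
  refine ⟨fun i => 2 * ‖L.E (b i) (x - y)‖ + C * r * Real.sqrt (L.mu.real (b i)),
    fun i => by positivity, ?_, fun i w hw => ?_⟩
  · have h1 := L.us_bessel b hb hd (x - y)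
    have h2 := L.us_bessel b hb hd L.Om
    rw [L.nOm] at h2
    have h3 : ∀ i, (2 * ‖L.E (b i) (x - y)‖ + C * r * Real.sqrt (L.mu.real (b i))) ^ 2
        ≤ 8 * ‖L.E (b i) (x - y)‖ ^ 2 + 2 * (C * r) ^ 2 * ‖L.E (b i) L.Om‖ ^ 2 := by
      intro i
      have h4 : Real.sqrt (L.mu.real (b i)) ^ 2 = ‖L.E (b i) L.Om‖ ^ 2 := by
        rw [Real.sq_sqrt measureReal_nonneg, L.norm_E_Om (hb i)]
      nlinarith [sq_nonneg (2 * ‖L.E (b i) (x - y)‖ - C * r * Real.sqrt (L.mu.real (b i)))]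
    calc ∑ i, (2 * ‖L.E (b i) (x - y)‖ + C * r * Real.sqrt (L.mu.real (b i))) ^ 2
        ≤ ∑ i, (8 * ‖L.E (b i) (x - y)‖ ^ 2 + 2 * (C * r) ^ 2 * ‖L.E (b i) L.Om‖ ^ 2) :=
          Finset.sum_le_sum fun i _ => h3 i
      _ = 8 * ∑ i, ‖L.E (b i) (x - y)‖ ^ 2 + 2 * (C * r) ^ 2 * ∑ i, ‖L.E (b i) L.Om‖ ^ 2 := by
          rw [Finset.sum_add_distrib, Finset.mul_sum, Finset.mul_sum]
      _ ≤ 8 * (κ / 4) ^ 2 + 2 * (κ / 2) ^ 2 * 1 := by
          have h5 : ‖x - y‖ ^ 2 ≤ (κ / 4) ^ 2 := by gcongr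
          have h6 : (C * r) ^ 2 ≤ (κ / 2) ^ 2 := by gcongr
          have h7 : 0 ≤ ∑ i, ‖L.E (b i) L.Om‖ ^ 2 := Finset.sum_nonneg fun i _ => by positivity
          have h8 : 2 * (C * r) ^ 2 * ∑ i, ‖L.E (b i) L.Om‖ ^ 2 ≤ 2 * (κ / 2) ^ 2 * 1 := by
            refine mul_le_mul (by linarith) (by linarith) h7 (by positivity)
          linarith
      _ = κ ^ 2 := by ring
  · have e : L.E (b i) (L.W w x) - L.E (b i) x
        = (L.W w (L.E (b i) (x - y)) - L.E (b i) (x - y))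
          + (L.E (b i) (L.W w y) - L.E (b i) y) := by
      rw [← L.E_W, map_sub, map_sub, map_sub]; abel
    rw [e]
    refine (norm_add_le _ _).trans ?_
    have h1 := norm_sub_le (L.W w (L.E (b i) (x - y))) (L.E (b i) (x - y))
    rw [LinearIsometryEquiv.norm_map] at h1
    have h2 := hCy (b i) (hb i) w
    have h3 : C * ‖w‖ * Real.sqrt (L.mu.real (b i)) ≤ C * r * Real.sqrt (L.mu.real (b i)) := by
      gcongr
    change _ ≤ 2 * ‖L.E (b i) (x - y)‖ + C * r * Real.sqrt (L.mu.real (b i))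
    linarith

/-- small displacements -/
theorem small_W (x : H) {κ : ℝ} (hκ : 0 < κ) : ∃ r > 0, ∀ w : K, ‖w‖ < r → ‖L.W w x - x‖ ≤ κ := by
  obtain ⟨r, hr, h⟩ := L.us x hκ
  refine ⟨r, hr, fun w hw => ?_⟩
  obtain ⟨k, hk0, hk, h1⟩ := h 1 (fun _ => Set.univ) (fun _ => MeasurableSet.univ)
    (fun i j hij => absurd (Subsingleton.elim i j) hij)
  have h2 := h1 0 w hw
  rw [L.E_univ, L.E_univ] at h2
  refine h2.trans ?_
  rw [Fin.sum_univ_one] at hk
  exact (sq_le_sq₀ (hk0 0) hκ.le).1 hk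

/-- strong continuity of the Weyl operators at the origin -/
theorem tendsto_W0 (x : H) : Tendsto (fun a => L.W a x) (𝓝 0) (𝓝 x) := by
  rw [Metric.tendsto_nhds_nhds]
  intro ε hε
  obtain ⟨r, hr, h⟩ := L.small_W x (half_pos hε)
  refine ⟨r, hr, fun {w} hw => ?_⟩
  rw [dist_zero_right] at hw
  rw [dist_eq_norm]
  exact (h w hw).trans_lt (half_lt_self hε)

end LSys

end Vale.Agent.P367.A
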