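import Vale.Agent.P367.B.Core3
import Vale.Agent.P367.B.LUS

/-! P367 block B, T2CORE leaf A: the own-batch estimate. -/

namespace Vale.Agent.P367.B

open Filter Topology Complex

section oe

variable {K E : Type} [NormedAddCommGroup K] [InnerProductSpace ℂ K]
  [NormedAddCommGroup E] [InnerProductSpace ℂ E] [CompleteSpace E] (T : WFam K E)

/-- exponentials agree on a vector killed by the difference -/
lemma oe_ex_congr {A B : E →L[ℂ] E} (hA : IsSelfAdjoint A) (hB : IsSelfAdjoint B)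
    (h : Commute A B) {z : E} (hz : A z = B z) : ex A z = ex B z := by
  have h1 := norm_ex_sub_ex_le hA hB h z
  rw [sub_apply, hz, sub_self, norm_zero] at h1
  exact sub_eq_zero.1 (norm_le_zero_iff.1 h1)

lemma oe_ex_W_pos (v : K) (z : E) {σ : ℝ} (hσ : 0 ≤ σ) {ε : ℝ} (hε : 0 < ε) :
    ∃ m > 0, ∀ μ : ℝ, 0 < μ → μ < m →
      ‖ex ((σ : ℂ) • ((μ : ℂ)⁻¹ • T.sn ((μ : ℂ) • v))) z - T.W ((σ : ℂ) • v) z‖ ≤ ε := by
  obtain ⟨δ, hδ, h1⟩ := T.small z (κ := ε / 4) (by positivity)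
  set r := δ / (2 * (‖v‖ + 1)) with hr
  have hr0 : 0 < r := by positivity
  have key : ∀ d : ℝ, 0 < d → d / (2 * (‖v‖ + 1)) * ‖v‖ < d := by
    intro d hd
    rw [div_mul_eq_mul_div, div_lt_iff₀ (by positivity)]
    have : 0 ≤ d * ‖v‖ := by positivity
    nlinarith
  have h1' : ∀ t ∈ Set.Icc (0:ℝ) r, ‖T.orb v z t - z‖ ≤ ε / 4 := by
    intro t ht
    apply h1
    rw [norm_smul, norm_real, Real.norm_eq_abs, abs_of_nonneg ht.1]
    calc t * ‖v‖ ≤ r * ‖v‖ := by gcongr; exact ht.2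
      _ < δ := key δ hδ
  obtain ⟨δ', hδ', h2⟩ := T.small z (κ := ε * r / (4 * (σ + 1))) (by positivity)
  refine ⟨δ' / (2 * (‖v‖ + 1)), by positivity, fun μ hμ hμm => ?_⟩
  have h2' : ∀ t ∈ Set.Icc (-μ) μ, ‖T.orb v z t - z‖ ≤ ε * r / (4 * (σ + 1)) := by
    intro t ht
    apply h2
    rw [norm_smul, norm_real, Real.norm_eq_abs]
    have h3 : |t| ≤ μ := abs_le.2 ht
    calc |t| * ‖v‖ ≤ δ' / (2 * (‖v‖ + 1)) * ‖v‖ := by gcongr; linarith
      _ < δ' := key δ' hδ'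
  refine (T.norm_ex_sub_W_le v z hr0 hμ hσ h1' h2').trans ?_
  have h4 : σ * (2 * (ε * r / (4 * (σ + 1))) / r) = ε / 2 * (σ / (σ + 1)) := by
    field_simp
    ring
  rw [h4]
  have h5 : σ / (σ + 1) ≤ 1 := by
    rw [div_le_one (by positivity)]
    linarith
  nlinarith

lemma oe_ex_W (v : K) (z : E) (σ : ℝ) {ε : ℝ} (hε : 0 < ε) :
    ∃ m > 0, ∀ μ : ℝ, 0 < μ → μ < m →
      ‖ex ((σ : ℂ) • ((μ : ℂ)⁻¹ • T.sn ((μ : ℂ) • v))) z - T.W ((σ : ℂ) • v) z‖ ≤ ε := by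
  rcases le_total 0 σ with h | h
  · exact oe_ex_W_pos T v z h hε
  · obtain ⟨m, hm, h1⟩ := oe_ex_W_pos T (-v) z (σ := -σ) (by linarith) hε
    refine ⟨m, hm, fun μ hμ hμm => ?_⟩
    have h2 := h1 μ hμ hμm
    have e1 : T.sn ((μ : ℂ) • (-v)) = -T.sn ((μ : ℂ) • v) := by
      unfold WFam.sn
      rw [smul_neg, neg_neg, ← neg_sub (T.op ((μ : ℂ) • v)), smul_neg]
    rw [e1] at h2
    simpa only [ofReal_neg, smul_neg, neg_smul, neg_neg] using h2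

end oe

end Vale.Agent.P367.B

namespace Vale.Agent.P367.A

open Complex Filter Topology MeasureTheory
open Vale.Agent.P367.B (famS cl exU ex gb ga WFam)

namespace LSys

variable {H K : Type} [NormedAddCommGroup H] [InnerProductSpace ℂ H] [CompleteSpace H]
  [NormedAddCommGroup K] [InnerProductSpace ℂ K] {L : LSys H K} {𝔄 : Set (H →L[ℂ] H)}
  (hc : ∀ x : H, Tendsto (fun a => L.W a x) (𝓝 0) (𝓝 x))

omit [CompleteSpace H] in
lemma oe_Com (hA : L.Ctl 𝔄) {v : K} (hv : v ∈ L.RR 𝔄) {a : H →L[ℂ] H} (ha : a ∈ 𝔄) :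
    (famS L.toSys hc).Com a v := by
  intro t
  ext x
  exact RR.W hA (RR.smul hv t) ha x

omit [CompleteSpace H] in
lemma oe_norm_sg {G : Set ℝ} (mG : MeasurableSet G) {sg : H →L[ℂ] H} (hs : Sa sg)
    (hsq : sg * sg = L.E G) (x : H) : ‖sg x‖ = ‖L.E G x‖ := by
  have h1 : (inner ℂ (sg x) (sg x) : ℂ) = inner ℂ (L.E G x) (L.E G x) := by
    rw [hs, L.E_sa mG, L.E_E mG, ← hsq]
    rfl
  have h2 := congrArg Complex.re h1
  rw [show (inner ℂ (sg x) (sg x) : ℂ).re = ‖sg x‖ ^ 2 from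
      (norm_sq_eq_re_inner (𝕜 := ℂ) _).symm,
    show (inner ℂ (L.E G x) (L.E G x) : ℂ).re = ‖L.E G x‖ ^ 2 from
      (norm_sq_eq_re_inner (𝕜 := ℂ) _).symm] at h2
  exact (sq_eq_sq₀ (norm_nonneg _) (norm_nonneg _)).1 h2

/-- the limit of the own gate -/
noncomputable def oeD (L : LSys H K) (s : ℝ) (X : K) (sg : H →L[ℂ] H) (y : H) : H :=
  (1 / 2 : ℂ) • (L.W (-((s : ℂ) • X)) (y + sg y) + L.W ((s : ℂ) • X) (y - sg y))

lemma oe_D_E (hA : L.Ctl 𝔄) {sg : H →L[ℂ] H} (hsg : sg ∈ 𝔄) (s : ℝ) (X : K) {b : Set ℝ}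
    (hb : MeasurableSet b) (y : H) : oeD L s X sg (L.E b y) = L.E b (oeD L s X sg y) := by
  unfold oeD
  rw [(L.E b).map_smul, (L.E b).map_add, L.E_W, L.E_W, (L.E b).map_add, (L.E b).map_sub,
    ctl_comm hA hsg (E_mem hA hb)]

/-- the bounded gate converges on the whole of `G` -/
lemma oe_lim (hA : L.Ctl 𝔄) {G : Set ℝ} (mG : MeasurableSet G) {sg : H →L[ℂ] H} (hsg : sg ∈ 𝔄)
    (hs : Sa sg) (hsq : sg * sg = L.E G) {X : K} (hX : X ∈ L.RR 𝔄) (s : ℝ) (z : H) {ε : ℝ}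
    (hε : 0 < ε) : ∃ m > 0, ∀ μ : ℝ, 0 < μ → μ < m →
      ‖ex ((famS L.toSys hc).gen (((-s : ℝ) : ℂ) • sg) X μ) (L.E G z)
        - oeD L s X sg (L.E G z)‖ ≤ ε := by
  set T := famS L.toSys hc with hT
  set y := L.E G z with hy
  have hyy : L.E G y = y := L.E_E mG z
  set p := (1 / 2 : ℂ) • (y + sg y) with hp
  set q := (1 / 2 : ℂ) • (y - sg y) with hq
  have hss : sg (sg y) = y := by
    have : sg (sg y) = (sg * sg) y := rfl
    rw [this, hsq, hyy]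
  have hsp : sg p = p := by
    rw [hp, map_smul, map_add, hss, add_comm]
  have hsq' : sg q = -q := by
    rw [hq, map_smul, map_sub, hss, ← smul_neg, neg_sub]
  have hpq : y = p + q := by
    rw [hp, hq]; module
  obtain ⟨m1, hm1, h1⟩ := B.oe_ex_W T X p (-s) (half_pos hε)
  obtain ⟨m2, hm2, h2⟩ := B.oe_ex_W T X q s (half_pos hε)
  refine ⟨min m1 m2, lt_min hm1 hm2, fun μ hμ hμm => ?_⟩
  have h1' := h1 μ hμ (hμm.trans_le (min_le_left _ _))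
  have h2' := h2 μ hμ (hμm.trans_le (min_le_right _ _))
  have hCm : (((-s : ℝ) : ℂ) • sg) ∈ 𝔄 := ctl_smul hA hsg _
  have hCs : IsSelfAdjoint (((-s : ℝ) : ℂ) • sg) := isSA (sa_rsmul hs _)
  have hCom : T.Com (((-s : ℝ) : ℂ) • sg) X := oe_Com hc hA hX hCm
  have hA1 := T.gen_sa hCs hCom μ
  have hAs : IsSelfAdjoint ((μ : ℂ)⁻¹ • T.sn ((μ : ℂ) • X)) := by
    rw [isSelfAdjoint_iff, star_smul, (T.sn_sa _).star_eq]
    congr 1
    rw [star_inv₀]; simp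
  have hBs : ∀ t : ℝ, IsSelfAdjoint ((t : ℂ) • ((μ : ℂ)⁻¹ • T.sn ((μ : ℂ) • X))) :=
    fun t => B.sa_real_smul hAs t
  have hBc : ∀ t : ℝ, Commute (T.gen (((-s : ℝ) : ℂ) • sg) X μ)
      ((t : ℂ) • ((μ : ℂ)⁻¹ • T.sn ((μ : ℂ) • X))) := by
    intro t
    unfold WFam.gen
    refine (Commute.smul_left ?_ _)
    refine Commute.smul_right (Commute.smul_right ?_ _) _
    exact (hCom.sn μ).mul_left (Commute.refl _)
  have sc : ∀ x, sg (T.sn ((μ : ℂ) • X) x) = T.sn ((μ : ℂ) • X) (sg x) := fun x =>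
    RR.sn hc hA (RR.smul hX μ) hsg x
  have g : ∀ x, T.gen (((-s : ℝ) : ℂ) • sg) X μ x
      = (μ : ℂ)⁻¹ • (((-s : ℝ) : ℂ) • T.sn ((μ : ℂ) • X) (sg x)) := by
    intro x
    rw [← sc]
    rfl
  have ep : ex (T.gen (((-s : ℝ) : ℂ) • sg) X μ) p
      = ex (((-s : ℝ) : ℂ) • ((μ : ℂ)⁻¹ • T.sn ((μ : ℂ) • X))) p := by
    refine B.oe_ex_congr hA1 (hBs _) (hBc _) ?_
    rw [g, hsp, smul_apply, smul_apply, smul_comm]
  have eq : ex (T.gen (((-s : ℝ) : ℂ) • sg) X μ) q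
      = ex ((s : ℂ) • ((μ : ℂ)⁻¹ • T.sn ((μ : ℂ) • X))) q := by
    refine B.oe_ex_congr hA1 (hBs _) (hBc _) ?_
    rw [g, hsq', smul_apply, smul_apply, map_neg, smul_neg, ofReal_neg, neg_smul, neg_neg,
      smul_comm]
  have eD : oeD L s X sg y = L.W (((-s : ℝ) : ℂ) • X) p + L.W ((s : ℂ) • X) q := by
    unfold oeD
    rw [hp, hq, map_smul, map_smul, ← smul_add, ofReal_neg, neg_smul]
  rw [eD]
  conv_lhs => rw [hpq, map_add, ep, eq]
  calc _ = ‖(ex (((-s : ℝ) : ℂ) • ((μ : ℂ)⁻¹ • T.sn ((μ : ℂ) • X))) p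
          - L.W (((-s : ℝ) : ℂ) • X) p)
        + (ex ((s : ℂ) • ((μ : ℂ)⁻¹ • T.sn ((μ : ℂ) • X))) q - L.W ((s : ℂ) • X) q)‖ := by
        congr 1; abel
    _ ≤ ε / 2 + ε / 2 := (norm_add_le _ _).trans (add_le_add h1' h2')
    _ = ε := by ring

omit [CompleteSpace H] in
lemma oe_norm_zr_sub (v : K) (x : H) : ‖L.zr v x - x‖ ≤ 2 * ‖L.W v x - x‖ := by
  have e : L.zr v x - x = (1 / 2 : ℂ) • ((L.W (-v) x - x) + (L.W v x - x))
      + (1 / 2 : ℂ) • (L.Z (L.W (-v) x - x) - L.Z (L.W v x - x)) := by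
    rw [L.zr_apply, map_sub, map_sub, ← L.WZ, ← L.WZ]
    module
  have hn : ‖L.W (-v) x - x‖ = ‖L.W v x - x‖ := by
    rw [← (L.W v).norm_map (L.W (-v) x - x), map_sub, L.W_W_neg, norm_sub_rev]
  rw [e]
  refine (norm_add_le _ _).trans ?_
  rw [norm_smul, norm_smul]
  have h1 := norm_add_le (L.W (-v) x - x) (L.W v x - x)
  have h2 := norm_sub_le (L.Z (L.W (-v) x - x)) (L.Z (L.W v x - x))
  rw [LinearIsometryEquiv.norm_map, LinearIsometryEquiv.norm_map] at h2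
  rw [hn] at h1 h2
  have h3 : ‖(1 / 2 : ℂ)‖ = 1 / 2 := by simp
  rw [h3]
  linarith

/-- one block -/
lemma oe_one (hA : L.Ctl 𝔄) {G : Set ℝ} (mG : MeasurableSet G) {sg : H →L[ℂ] H} (hsg : sg ∈ 𝔄)
    (hs : Sa sg) (hsq : sg * sg = L.E G) {X : K} (hX : X ∈ L.RR 𝔄) (s : ℝ) (z : H)
    {μ : ℝ} (hμ : 0 < μ) {b : Set ℝ} (hb : MeasurableSet b) (hbG : b ⊆ G) {v d : K} {θ r0 κ κ' : ℝ}
    (hv : v ∈ L.RR 𝔄) (hXv : (inner ℂ X v : ℂ).im = 0) (hθ : |θ - Real.pi / 2| ≤ r0 * μ)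
    (hκ : ∀ t ∈ Set.Icc (0:ℝ) 1, ‖L.W ((t : ℂ) • (v - X)) (L.E b z) - L.E b z‖ ≤ κ)
    (hκ' : ‖L.W d (oeD L s X sg (L.E b z)) - oeD L s X sg (L.E b z)‖ ≤ κ') :
    ‖L.zr d (ex (ga L.toSys hc (L.Cch s μ sg b) ((μ : ℂ) • v) θ) (L.E b z))
      - oeD L s X sg (L.E b z)‖ ≤ 2 * |s| * r0 * ‖L.E b z‖ + (2 + |s|) * κ
        + ‖L.E b (ex ((famS L.toSys hc).gen (((-s : ℝ) : ℂ) • sg) X μ) (L.E G z)
        - oeD L s X sg (L.E G z))‖ + 2 * κ' := by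
  set T := famS L.toSys hc with hT
  set y := L.E b z with hy
  have hyy : L.E b y = y := L.E_E hb z
  have hsn1 : ‖sg‖ ≤ 1 := by
    refine ContinuousLinearMap.opNorm_le_bound _ zero_le_one fun x => ?_
    rw [oe_norm_sg mG hs hsq, one_mul]
    exact L.norm_E_le mG x
  have hEb1 : ‖L.E b‖ ≤ 1 := by
    refine ContinuousLinearMap.opNorm_le_bound _ zero_le_one fun x => ?_
    rw [one_mul]
    exact L.norm_E_le hb x
  have hCm : (((-s : ℝ) : ℂ) • sg) ∈ 𝔄 := ctl_smul hA hsg _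
  have hCs : IsSelfAdjoint (((-s : ℝ) : ℂ) • sg) := isSA (sa_rsmul hs _)
  have hCn : ‖((-s : ℝ) : ℂ) • sg‖ ≤ |s| := by
    rw [norm_smul, norm_real, Real.norm_eq_abs, abs_neg]
    exact mul_le_of_le_one_right (abs_nonneg _) hsn1
  have hC0m := Cch_mem hA hsg s μ hb
  have hC0s := Cch_sa hA hsg hs s μ hb
  have hC0n : ‖L.Cch s μ sg b‖ ≤ |s| / μ := by
    unfold Cch
    rw [norm_smul, norm_real, Real.norm_eq_abs, abs_neg, abs_div, abs_of_pos hμ]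
    refine mul_le_of_le_one_right (by positivity) ((norm_mul_le _ _).trans ?_)
    exact mul_le_one₀ hsn1 (norm_nonneg _) hEb1
  -- 1. remove the residual Pauli
  have hμv : (μ : ℂ) • v ∈ L.RR 𝔄 := RR.smul hv μ
  have s1 : ‖ex (ga L.toSys hc (L.Cch s μ sg b) ((μ : ℂ) • v) θ) y
      - ex (L.Cch s μ sg b * T.sn ((μ : ℂ) • v)) y‖ ≤ 2 * |s| * r0 * ‖y‖ := by
    refine (B.norm_ex_ga_sub_le L.toSys hc (isSA hC0s) ?_ (fun x => RR.W hA hμv hC0m x)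
      (fun x => RR.W hA (RR.neg hμv) hC0m x) θ y).trans ?_
    · ext x
      exact hA.Z _ hC0m x
    · have e1 : |Real.sin θ - 1| ≤ |θ - Real.pi / 2| := by
        have := Real.abs_sin_sub_sin_le θ (Real.pi / 2)
        rwa [Real.sin_pi_div_two] at this
      have e2 : |Real.cos θ| ≤ |θ - Real.pi / 2| := by
        have := Real.abs_cos_sub_cos_le θ (Real.pi / 2)
        rwa [Real.cos_pi_div_two, sub_zero] at this
      calc _ ≤ |s| / μ * ((r0 * μ + r0 * μ) * ‖y‖) := by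
            gcongr
            · exact e1.trans hθ
            · exact e2.trans hθ
        _ = _ := by field_simp; ring
  -- 2. pass to the global control
  have hComv : T.Com (((-s : ℝ) : ℂ) • sg) v := oe_Com hc hA hv hCm
  have hComX : T.Com (((-s : ℝ) : ℂ) • sg) X := oe_Com hc hA hX hCm
  have hCom0 : T.Com (L.Cch s μ sg b) v := oe_Com hc hA hv hC0m
  have s2 : ex (L.Cch s μ sg b * T.sn ((μ : ℂ) • v)) y
      = ex (T.gen (((-s : ℝ) : ℂ) • sg) v μ) y := by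
    refine B.oe_ex_congr (B.sa_mul (isSA hC0s) (T.sn_sa _) (hCom0.sn μ))
      (T.gen_sa hCs hComv μ) ?_ ?_
    · unfold WFam.gen
      refine Commute.smul_right ?_ _
      have c1 : Commute (L.Cch s μ sg b) (((-s : ℝ) : ℂ) • sg) := hA.comm _ _ hC0m hCm
      exact ((c1.mul_right (hCom0.sn μ))).mul_left
        (((hComv.sn μ).symm).mul_right (Commute.refl _))
    · have e : L.E b (T.sn ((μ : ℂ) • v) y) = T.sn ((μ : ℂ) • v) y := by
        rw [RR.sn hc hA hμv (E_mem hA hb), hyy]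
      change ((-(s / μ) : ℝ) : ℂ) • sg (L.E b (T.sn ((μ : ℂ) • v) y))
        = (μ : ℂ)⁻¹ • (((-s : ℝ) : ℂ) • sg (T.sn ((μ : ℂ) • v) y))
      rw [e, smul_smul]
      congr 1
      push_cast
      rw [div_eq_mul_inv]
      ring
  -- 3. replace the field vector
  have s3 : ‖ex (T.gen (((-s : ℝ) : ℂ) • sg) v μ) y - ex (T.gen (((-s : ℝ) : ℂ) • sg) X μ) y‖
      ≤ (2 + |s|) * κ := by
    have hκ0 : 0 ≤ κ := (norm_nonneg _).trans (hκ 0 ⟨le_rfl, zero_le_one⟩)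
    refine (T.norm_ex_gen_sub_le hCs hComX hComv hXv hμ y hκ).trans ?_
    gcongr
  -- 4. the limit
  have hyG : y = L.E b (L.E G z) := (L.E_sub hb mG hbG z).symm
  have s4 : ex (T.gen (((-s : ℝ) : ℂ) • sg) X μ) y - oeD L s X sg y
      = L.E b (ex (T.gen (((-s : ℝ) : ℂ) • sg) X μ) (L.E G z) - oeD L s X sg (L.E G z)) := by
    rw [map_sub, ← oe_D_E hA hsg s X hb, ← hyG]
    congr 1
    rw [hyG]
    symm
    refine comm_ex (fun x => ?_) _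
    change L.E b ((μ : ℂ)⁻¹ • (((-s : ℝ) : ℂ) • sg (T.sn ((μ : ℂ) • X) x)))
      = (μ : ℂ)⁻¹ • (((-s : ℝ) : ℂ) • sg (T.sn ((μ : ℂ) • X) (L.E b x)))
    rw [(L.E b).map_smul, (L.E b).map_smul, ctl_comm hA (E_mem hA hb) hsg,
      RR.sn hc hA (RR.smul hX μ) (E_mem hA hb)]
  -- 5. assembly
  set u1 := ex (ga L.toSys hc (L.Cch s μ sg b) ((μ : ℂ) • v) θ) y
  set u2 := ex (L.Cch s μ sg b * T.sn ((μ : ℂ) • v)) y
  set u3 := ex (T.gen (((-s : ℝ) : ℂ) • sg) X μ) y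
  set D := oeD L s X sg y
  have s5 : ‖L.zr d D - D‖ ≤ 2 * κ' := (oe_norm_zr_sub d D).trans (by linarith)
  rw [← s2] at s3
  have s6 : ‖u3 - D‖ = ‖L.E b (ex (T.gen (((-s : ℝ) : ℂ) • sg) X μ) (L.E G z)
      - oeD L s X sg (L.E G z))‖ := by rw [← s4]
  calc ‖L.zr d u1 - D‖ = ‖(L.zr d (u1 - D)) + (L.zr d D - D)‖ := by
        rw [map_sub]; congr 1; abel
    _ ≤ ‖u1 - D‖ + 2 * κ' := by
        refine (norm_add_le _ _).trans ?_
        rw [LinearIsometryEquiv.norm_map]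
        gcongr
    _ = ‖(u1 - u2) + ((u2 - u3) + (u3 - D))‖ + 2 * κ' := by
        congr 2; abel
    _ ≤ _ := by
        have := (norm_add_le (u1 - u2) ((u2 - u3) + (u3 - D)))
        have := (norm_add_le (u2 - u3) (u3 - D))
        linarith

/-- **(OE)** own-batch estimate, summed over all batches -/
theorem own_est (hA : L.Ctl 𝔄) {G : Set ℝ} (mG : MeasurableSet G) {sg : H →L[ℂ] H}
    (hsg : sg ∈ 𝔄) (hs : Sa sg) (hsq : sg * sg = L.E G) {V0 : H ≃ₗᵢ[ℂ] H}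
    (hV0 : ∀ a ∈ 𝔄, ∀ x, a (V0 x) = V0 (a x)) (s : ℝ) (z : H) {ε : ℝ} (hε : 0 < ε) :
    ∃ r0 > 0, ∃ mu1 > 0, ∀ μ : ℝ, 0 < μ → μ < mu1 → ∀ (N : ℕ) (b : ℕ → Set ℝ),
      (∀ i < N, MeasurableSet (b i)) → (∀ i < N, ∀ j < N, i ≠ j → Disjoint (b i) (b j)) →
      (∀ i < N, b i ⊆ G) → ∀ (vh del : ℕ → K) (θ : ℕ → ℝ),
      (∀ k < N, vh k ∈ L.RR 𝔄) →
      (∀ k < N, (inner ℂ (L.fv (L.pau 2) G V0) (vh k) : ℂ).im = 0) →
      (∀ k < N, ‖vh k - L.fv (L.pau 2) G V0‖ < r0) →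
      (∀ k < N, |θ k - Real.pi / 2| < r0 * μ) → (∀ k < N, ‖del k‖ < r0) →
      ∑ k ∈ Finset.range N,
        ‖L.zr (del k) (ex (ga L.toSys hc (L.Cch s μ sg (b k)) ((μ : ℂ) • vh k) (θ k))
            (L.E (b k) z))
          - (1 / 2 : ℂ) • (L.W (-((s : ℂ) • L.fv (L.pau 2) G V0)) (L.E (b k) z + sg (L.E (b k) z))
            + L.W ((s : ℂ) • L.fv (L.pau 2) G V0) (L.E (b k) z - sg (L.E (b k) z)))‖ ^ 2
        ≤ ε ^ 2 := by
  set X := L.fv (L.pau 2) G V0 with hXd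
  have hX : X ∈ L.RR 𝔄 := RR.fv hA hV0 mG 2
  have hk1 : 0 < ε / (4 * (2 + |s|)) := by positivity
  obtain ⟨r1, hr1, h1⟩ := L.us z hk1
  obtain ⟨r2, hr2, h2⟩ := L.us (oeD L s X sg z) (κ := ε / 8) (by positivity)
  obtain ⟨m, hm, h3⟩ := oe_lim hc hA mG hsg hs hsq hX s z (ε := ε / 4) (by positivity)
  set r3 := ε / (8 * (|s| + 1) * (‖z‖ + 1)) with hr3
  have hr30 : 0 < r3 := by positivity
  refine ⟨min r1 (min r2 r3), lt_min hr1 (lt_min hr2 hr30), m, hm, ?_⟩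
  intro μ hμ hμm N b hb hd hG vh del θ hv hXv hvX hθ hdel
  obtain ⟨k1, hk10, hk1s, hk1b⟩ := h1 N (fun i => b i) (fun i => hb i i.2)
    (fun i j hij => hd i i.2 j j.2 (fun h => hij (Fin.ext h)))
  obtain ⟨k2, hk20, hk2s, hk2b⟩ := h2 N (fun i => b i) (fun i => hb i i.2)
    (fun i j hij => hd i i.2 j j.2 (fun h => hij (Fin.ext h)))
  have h3' := h3 μ hμ hμm
  set g := ex ((famS L.toSys hc).gen (((-s : ℝ) : ℂ) • sg) X μ) (L.E G z)
        - oeD L s X sg (L.E G z) with hg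
  have bess : ∀ x : H, ∑ i : Fin N, ‖L.E (b i) x‖ ^ 2 ≤ ‖x‖ ^ 2 := fun x =>
    L.us_bessel (fun i : Fin N => b i) (fun i => hb i i.2)
      (fun i j hij => hd i i.2 j j.2 (fun h => hij (Fin.ext h))) x
  rw [Finset.sum_range]
  have main : ∀ i : Fin N, ‖L.zr (del i) (ex (ga L.toSys hc (L.Cch s μ sg (b i))
      ((μ : ℂ) • vh i) (θ i)) (L.E (b i) z)) - oeD L s X sg (L.E (b i) z)‖ ^ 2
      ≤ 4 * ((2 * |s| * r3) ^ 2 * ‖L.E (b i) z‖ ^ 2 + (2 + |s|) ^ 2 * k1 i ^ 2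
        + ‖L.E (b i) g‖ ^ 2 + 4 * k2 i ^ 2) := by
    intro i
    have e := oe_one hc hA mG hsg hs hsq hX s z hμ (hb i i.2) (hG i i.2) (d := del i)
      (θ := θ i) (r0 := r3) (κ := k1 i) (κ' := k2 i) (hv i i.2) (hXv i i.2) ?_ ?_ ?_
    · rw [← hg] at e
      have e0 : 0 ≤ ‖L.zr (del i) (ex (ga L.toSys hc (L.Cch s μ sg (b i))
        ((μ : ℂ) • vh i) (θ i)) (L.E (b i) z)) - oeD L s X sg (L.E (b i) z)‖ := norm_nonneg _
      calc _ ≤ (2 * |s| * r3 * ‖L.E (b i) z‖ + (2 + |s|) * k1 i + ‖L.E (b i) g‖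
            + 2 * k2 i) ^ 2 := by gcongr
        _ ≤ _ := by
          generalize 2 * |s| * r3 = a
          generalize ‖L.E (b i) z‖ = p
          generalize (2 + |s|) = c
          generalize ‖L.E (b i) g‖ = q
          nlinarith [sq_nonneg (a * p - c * k1 i), sq_nonneg (a * p - q),
            sq_nonneg (a * p - 2 * k2 i), sq_nonneg (c * k1 i - q),
            sq_nonneg (c * k1 i - 2 * k2 i), sq_nonneg (q - 2 * k2 i)]
    · refine (hθ i i.2).le.trans ?_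
      gcongr
      exact (min_le_right _ _).trans (min_le_right _ _)
    · intro t ht
      rw [← L.E_W]
      refine hk1b i _ ?_
      rw [norm_smul, norm_real, Real.norm_eq_abs, abs_of_nonneg ht.1]
      have h4 := (hvX i i.2).trans_le (min_le_left _ _)
      have h5 : t * ‖vh i - X‖ ≤ 1 * ‖vh i - X‖ := by
        gcongr
        exact ht.2
      linarith
    · rw [oe_D_E hA hsg s X (hb i i.2), ← L.E_W]
      refine hk2b i _ ?_
      exact (hdel i i.2).trans_le ((min_le_right _ _).trans (min_le_left _ _))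
  calc _ ≤ ∑ i : Fin N, 4 * ((2 * |s| * r3) ^ 2 * ‖L.E (b i) z‖ ^ 2 + (2 + |s|) ^ 2 * k1 i ^ 2
        + ‖L.E (b i) g‖ ^ 2 + 4 * k2 i ^ 2) := Finset.sum_le_sum fun i _ => main i
    _ = 4 * ((2 * |s| * r3) ^ 2 * ∑ i : Fin N, ‖L.E (b i) z‖ ^ 2
        + (2 + |s|) ^ 2 * ∑ i : Fin N, k1 i ^ 2
        + ∑ i : Fin N, ‖L.E (b i) g‖ ^ 2 + 4 * ∑ i : Fin N, k2 i ^ 2) := by
        rw [← Finset.mul_sum, Finset.sum_add_distrib, Finset.sum_add_distrib,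
          Finset.sum_add_distrib, ← Finset.mul_sum, ← Finset.mul_sum, ← Finset.mul_sum]
    _ ≤ 4 * ((2 * |s| * r3) ^ 2 * ‖z‖ ^ 2 + (2 + |s|) ^ 2 * (ε / (4 * (2 + |s|))) ^ 2
        + (ε / 4) ^ 2 + 4 * (ε / 8) ^ 2) := by
        have b1 := bess z
        have b2 := bess g
        have b3 : ‖g‖ ^ 2 ≤ (ε / 4) ^ 2 := by gcongr
        gcongr
        exact b2.trans b3
    _ ≤ ε ^ 2 := by
        have c1 : (2 * |s| * r3) ^ 2 * ‖z‖ ^ 2 ≤ (ε / 4) ^ 2 := by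
          rw [← mul_pow]
          have : 2 * |s| * r3 * ‖z‖ ≤ ε / 4 := by
            rw [hr3]
            have c2 : |s| / (|s| + 1) ≤ 1 := by
              rw [div_le_one (by positivity)]; linarith
            have c3 : ‖z‖ / (‖z‖ + 1) ≤ 1 := by
              rw [div_le_one (by positivity)]; linarith
            have c4 : 0 ≤ ‖z‖ / (‖z‖ + 1) := by positivity
            have c5 : 2 * |s| * (ε / (8 * (|s| + 1) * (‖z‖ + 1))) * ‖z‖
                = ε / 4 * (|s| / (|s| + 1) * (‖z‖ / (‖z‖ + 1))) := by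
              field_simp
              ring
            rw [c5]
            have c6 : |s| / (|s| + 1) * (‖z‖ / (‖z‖ + 1)) ≤ 1 := mul_le_one₀ c2 c4 c3
            nlinarith
          gcongr
        have c7 : (2 + |s|) ^ 2 * (ε / (4 * (2 + |s|))) ^ 2 = (ε / 4) ^ 2 := by
          rw [← mul_pow]
          congr 1
          field_simp
        rw [c7]
        nlinarith

end LSys

end Vale.Agent.P367.A
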