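import Vale.Agent.P367.B.LRes

/-! P367, block B: reserve estimates along a chain (RES). -/

namespace Vale.Agent.P367.B.LKS

open Complex
open Vale.Agent.P367.A

variable {H K : Type*} [NormedAddCommGroup H] [InnerProductSpace ℂ H]
  [NormedAddCommGroup K] [InnerProductSpace ℂ K] {S : Sys H K}

/-- factorization over orthogonal modes, three factors -/
lemma Eo.factor3 {L N : Submodule ℂ K} (hL : ∀ v ∈ N, ∀ w ∈ L, inner ℂ v w = 0) {s t s' : ℂ}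
    {A B P : H →ₗ[ℂ] H} (hA : A ∈ Eo S L s) (hB : B ∈ Eo S L t) (hP : P ∈ Eo S N s') :
    inner ℂ (A S.Om) (P (B S.Om)) = inner ℂ S.Om (P S.Om) * inner ℂ (A S.Om) (B S.Om) := by
  have h0 : ∀ u ∈ L, ∀ v ∈ N, ∀ w ∈ L, inner ℂ (S.W u S.Om) (S.W v (S.W w S.Om))
      = inner ℂ S.Om (S.W v S.Om) * inner ℂ (S.W u S.Om) (S.W w S.Om) := by
    intro u hu v hv w hw
    have e1 : (inner ℂ v w : ℂ) = 0 := hL v hv w hw
    have e2 : ∀ z : K, inner ℂ (S.W u S.Om) (S.W z S.Om)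
        = Complex.exp (-(Complex.I * (th (-u) z : ℂ)))
          * Complex.exp (-((‖-u + z‖ ^ 2 / 2 : ℝ) : ℂ)) := by
      intro z
      rw [S.inner_W, S.WW', inner_smul_right, S.vac]
    have e3 : th (-u) (v + w) = th (-u) w := by
      rw [th_add_right]
      have : th (-u) v = 0 := by
        unfold th
        rw [inner_neg_left, ← inner_conj_symm u v, hL v hv u hu]
        simp
      rw [this, zero_add]
    have e4 : ‖-u + (v + w)‖ ^ 2 = ‖v‖ ^ 2 + ‖-u + w‖ ^ 2 := by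
      rw [show -u + (v + w) = v + (-u + w) by abel, @norm_add_sq ℂ K, inner_add_right,
        inner_neg_right, hL v hv u hu, hL v hv w hw]
      simp
    have e5 : th v w = 0 := by unfold th; rw [e1]; simp
    rw [S.WW', e5, inner_smul_right, e2, e2, e3, e4, S.vac, ← Complex.exp_add, ← Complex.exp_add,
      ← Complex.exp_add, ← Complex.exp_add]
    congr 1
    push_cast
    ring
  induction hA using Submodule.span_induction with
  | mem A hA =>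
    obtain ⟨u, hu, rfl⟩ := hA
    induction hB using Submodule.span_induction with
    | mem B hB =>
      obtain ⟨w, hw, rfl⟩ := hB
      induction hP using Submodule.span_induction with
      | mem P hP =>
        obtain ⟨v, hv, rfl⟩ := hP
        simp only [LinearMap.add_apply, LinearMap.smul_apply, Wl_apply, inner_add_right,
          inner_smul_right, inner_add_left, inner_smul_left, map_add, map_smul]
        rw [h0 u hu v hv w hw, h0 u hu v hv (-w) (L.neg_mem hw), h0 u hu (-v) (N.neg_mem hv) w hw,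
          h0 u hu (-v) (N.neg_mem hv) (-w) (L.neg_mem hw), h0 (-u) (L.neg_mem hu) v hv w hw,
          h0 (-u) (L.neg_mem hu) v hv (-w) (L.neg_mem hw),
          h0 (-u) (L.neg_mem hu) (-v) (N.neg_mem hv) w hw,
          h0 (-u) (L.neg_mem hu) (-v) (N.neg_mem hv) (-w) (L.neg_mem hw)]
        ring
      | zero => simp
      | add P Q _ _ hP hQ =>
        simp only [LinearMap.add_apply, inner_add_right] at *
        rw [hP, hQ]; ring
      | smul c P _ hP =>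
        simp only [LinearMap.smul_apply, inner_smul_right] at *
        rw [hP]; ring
    | zero => simp
    | add B C _ _ hB hC =>
      simp only [LinearMap.add_apply, inner_add_right, map_add] at *
      rw [hB, hC]; ring
    | smul c B _ hB =>
      simp only [LinearMap.smul_apply, inner_smul_right, map_smul] at *
      rw [hB]; ring
  | zero => simp
  | add A C _ _ hA hC =>
    simp only [LinearMap.add_apply, inner_add_left] at *
    rw [hA, hC]; ring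
  | smul c A _ hA =>
    simp only [LinearMap.smul_apply, inner_smul_left] at *
    rw [hA]; ring

lemma inner_Z_of {x y : H} (hx : S.X x = x) (hy : S.X y = y) : inner ℂ x (S.Z y) = 0 := by
  have h1 : inner ℂ x (S.Z y) = -inner ℂ x (S.Z y) := by
    conv_lhs => rw [← hx, S.inner_X, S.XZ, hy, inner_neg_right]
  have h2 : (2 : ℂ) * inner ℂ x (S.Z y) = 0 := by linear_combination h1
  exact (mul_eq_zero.1 h2).resolve_left two_ne_zero

/-- quadratic form of a new-mode unitary at a vector made from orthogonal modes -/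
lemma par_quad {L N : Submodule ℂ K} (hL : ∀ v ∈ N, ∀ w ∈ L, inner ℂ v w = 0)
    {V T : H → H} (hV : IsPar S L V) (hT : IsPar S N T) : ∃ α β : ℝ, 0 ≤ α ∧ 0 ≤ β ∧
      α + β = ‖V S.Om‖ ^ 2 ∧ inner ℂ (V S.Om) (T (V S.Om))
        = (α : ℂ) * inner ℂ S.Om (T S.Om) + (β : ℂ) * inner ℂ (S.Z S.Om) (T (S.Z S.Om)) := by
  obtain ⟨a, b, c, d, hV⟩ := hV
  obtain ⟨a', b', c', d', hT⟩ := hT
  have hab : a + b ∈ Eo S L 1 := Submodule.add_mem _ hV.ha hV.hb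
  have hcd : c + d ∈ Eo S L (-1) := Submodule.add_mem _ hV.hc hV.hd
  have habp : a' + b' ∈ Eo S N 1 := Submodule.add_mem _ hT.ha hT.hb
  have habm : a' - b' ∈ Eo S N 1 := Submodule.sub_mem _ hT.ha hT.hb
  have hcdp : c' + d' ∈ Eo S N (-1) := Submodule.add_mem _ hT.hc hT.hd
  have hcdm : c' - d' ∈ Eo S N (-1) := Submodule.sub_mem _ hT.hc hT.hd
  have X1 : ∀ {s : ℂ} {A : H →ₗ[ℂ] H}, A ∈ Eo S L s → S.X (A S.Om) = A S.Om := by
    intro s A hA; rw [← Eo_X hA, S.XOm]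
  have X2 : ∀ {s t : ℂ} {A P : H →ₗ[ℂ] H}, A ∈ Eo S L s → P ∈ Eo S N t →
      S.X (P (A S.Om)) = P (A S.Om) := by
    intro s t A P hA hP; rw [← Eo_X hP, X1 hA]
  have X3 : ∀ {t : ℂ} {P : H →ₗ[ℂ] H}, P ∈ Eo S N t → S.X (P S.Om) = P S.Om := by
    intro t P hP; rw [← Eo_X hP, S.XOm]
  set x := (a + b) S.Om with hx
  set y := (c + d) S.Om with hy
  have hXx : S.X x = x := X1 hab
  have hXy : S.X y = y := X1 hcd
  have eV : V S.Om = x + S.Z y := by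
    rw [hV.eq, ← Eo_X hV.hb, S.XOm, ← Eo_X hV.hd, S.XOm, hx, hy, LinearMap.add_apply,
      LinearMap.add_apply, map_add]
    abel
  have eT : T (x + S.Z y) = ((a' + b') x + (c' - d') y) + S.Z ((c' + d') x + (a' - b') y) := by
    rw [hT.eq]
    simp only [map_add, LinearMap.add_apply, LinearMap.sub_apply, map_sub]
    rw [← Eo_X hT.hb, hXx, ← Eo_X hT.hb (S.Z y), ← Eo_X hT.hd x, hXx, ← Eo_X hT.hd (S.Z y)]
    rw [S.XZ, hXy, Eo_Z hT.ha, Eo_Z hT.hc, map_neg, map_neg, Eo_Z hT.hb, Eo_Z hT.hd, S.ZZ,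
      map_neg, S.ZZ]
    abel
  have XT1 : S.X ((a' + b') x + (c' - d') y) = (a' + b') x + (c' - d') y := by
    rw [map_add, hx, hy, X2 hab habp, X2 hcd hcdm]
  have XT2 : S.X ((c' + d') x + (a' - b') y) = (c' + d') x + (a' - b') y := by
    rw [map_add, hx, hy, X2 hab hcdp, X2 hcd habm]
  refine ⟨‖x‖ ^ 2, ‖y‖ ^ 2, by positivity, by positivity, ?_, ?_⟩
  · rw [eV, @norm_add_sq ℂ H, inner_Z_of hXx hXy, LinearIsometryEquiv.norm_map]
    simp
  · have z1 : inner ℂ x (S.Z ((c' + d') x + (a' - b') y)) = 0 := inner_Z_of hXx XT2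
    have z2 : inner ℂ (S.Z y) ((a' + b') x + (c' - d') y) = 0 := by
      rw [S.inner_Z]
      exact inner_Z_of hXy XT1
    have z3 : inner ℂ (S.Z y) (S.Z ((c' + d') x + (a' - b') y))
        = inner ℂ y ((c' + d') x + (a' - b') y) := S.Z.inner_map_map _ _
    have f1 : inner ℂ x ((a' + b') x) = inner ℂ S.Om ((a' + b') S.Om) * inner ℂ x x :=
      Eo.factor3 hL hab hab habp
    have f2 : inner ℂ x ((c' - d') y) = inner ℂ S.Om ((c' - d') S.Om) * inner ℂ x y :=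
      Eo.factor3 hL hab hcd hcdm
    have f3 : inner ℂ y ((c' + d') x) = inner ℂ S.Om ((c' + d') S.Om) * inner ℂ y x :=
      Eo.factor3 hL hcd hab hcdp
    have f4 : inner ℂ y ((a' - b') y) = inner ℂ S.Om ((a' - b') S.Om) * inner ℂ y y :=
      Eo.factor3 hL hcd hcd habm
    rw [Eo.odd hcdm, zero_mul] at f2
    rw [Eo.odd hcdp, zero_mul] at f3
    have g1 : inner ℂ S.Om (T S.Om) = inner ℂ S.Om ((a' + b') S.Om) := by
      rw [hT.exp, LinearMap.add_apply, inner_add_right]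
    have g2 : inner ℂ (S.Z S.Om) (T (S.Z S.Om)) = inner ℂ S.Om ((a' - b') S.Om) := by
      have e : T (S.Z S.Om) = (c' - d') S.Om + S.Z ((a' - b') S.Om) := by
        rw [hT.eq, ← Eo_X hT.hb, ← Eo_X hT.hd, S.XZ, S.XOm, Eo_Z hT.ha, Eo_Z hT.hc, map_neg,
          map_neg, Eo_Z hT.hb, Eo_Z hT.hd, S.ZZ, map_neg, S.ZZ]
        simp only [LinearMap.sub_apply, map_sub]
        abel
      rw [e, inner_add_right, S.Z.inner_map_map, S.inner_Z,
        inner_Z_of S.XOm (X3 hcdm), zero_add]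
    rw [eV, eT, inner_add_left, inner_add_right, inner_add_right (S.Z y), z1, z2, z3,
      inner_add_right, inner_add_right, f1, f2, f3, f4, g1, g2, inner_self_eq_norm_sq_to_K,
      inner_self_eq_norm_sq_to_K]
    push_cast
    simp only [add_zero, zero_add]
    ring_nf
    rfl

/-- a unitary of new modes moves a vector of the old modes as little as it moves the vacuum -/
theorem par_near {L N : Submodule ℂ K} (hL : ∀ v ∈ N, ∀ w ∈ L, inner ℂ v w = 0)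
    {V T : H → H} (hV : IsPar S L V) (hT : IsPar S N T) (hTn : ∀ x, ‖T x‖ = ‖x‖) {B : ℝ}
    (h1 : ‖T S.Om - S.Om‖ ^ 2 ≤ B) (h2 : ‖T (S.Z S.Om) - S.Z S.Om‖ ^ 2 ≤ B) :
    ‖T (V S.Om) - V S.Om‖ ^ 2 ≤ B * ‖V S.Om‖ ^ 2 := by
  obtain ⟨α, β, hα, hβ, hs, hq⟩ := par_quad hL hV hT
  have key : ∀ z : H, ‖T z - z‖ ^ 2 = 2 * ‖z‖ ^ 2 - 2 * (inner ℂ z (T z) : ℂ).re := by
    intro z
    rw [@norm_sub_sq ℂ H, hTn, ← inner_conj_symm (T z) z]
    have : RCLike.re ((starRingEnd ℂ) (inner ℂ z (T z) : ℂ)) = (inner ℂ z (T z) : ℂ).re :=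
      Complex.conj_re _
    rw [this]
    ring
  rw [key, hq, ← hs]
  rw [key, S.nOm] at h1
  rw [key, LinearIsometryEquiv.norm_map, S.nOm] at h2
  simp only [Complex.add_re, Complex.re_ofReal_mul]
  nlinarith

end Vale.Agent.P367.B.LKS

namespace Vale.Agent.P367.A

open Complex Filter Topology MeasureTheory
open Vale.Agent.P367.B.LKS (IsPar par_near cmp isPar_cmp norm_cmp leakage SW)

namespace LSys

variable {H K : Type*} [NormedAddCommGroup H] [InnerProductSpace ℂ H]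
  [NormedAddCommGroup K] [InnerProductSpace ℂ K] (L : LSys H K)

lemma res_Z_pw1 (v : K) (x : H) : L.Z (L.pw (L.pau 1) v x) = L.pw (L.pau 1) (-v) (L.Z x) := by
  have h : ∀ y, L.Z (L.pau 1 y) = -L.pau 1 (L.Z y) := by
    intro y
    rw [L.pau_one, L.Zt_apply, L.Zt_apply, L.Z_xr, L.xr_apply, L.xr_apply,
      show 2 * -(Real.pi / 4) = -(Real.pi / 2) by ring, neg_neg, Real.cos_neg, Real.sin_neg,
      Real.cos_pi_div_two, Real.sin_pi_div_two]
    push_cast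
    module
  simp only [pw, map_add, map_smul, map_sub, ← L.WZ, neg_neg, h, map_neg]
  module

lemma res_pau1_zr (v : K) (x : H) : L.pau 1 (L.zr v x) = L.zr (-v) (L.pau 1 x) := by
  have h : ∀ y, L.pau 1 (L.Z y) = -L.Z (L.pau 1 y) := by
    intro y
    rw [L.pau_one, L.Zt_apply, L.Zt_apply, L.Z_xr, L.xr_apply, L.xr_apply,
      show 2 * -(Real.pi / 4) = -(Real.pi / 2) by ring, neg_neg, Real.cos_neg, Real.sin_neg,
      Real.cos_pi_div_two, Real.sin_pi_div_two]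
    push_cast
    module
  rw [L.zr_apply, L.zr_apply]
  simp only [map_add, map_smul, map_sub, ← L.W_pau, neg_neg, h, map_neg]
  module

lemma res_comm_inv {U : H ≃ₗᵢ[ℂ] H} {r : Set ℝ} (h : ∀ x, L.E r (U x) = U (L.E r x)) (x : H) :
    L.E r (U⁻¹ x) = U⁻¹ (L.E r x) := by
  apply U.injective
  rw [← h, Sys.Ainv, Sys.Ainv]

/-- change of the state on the reserve -/
lemma res_blk {r : Set ℝ} (hr : MeasurableSet r) {U U' T : H ≃ₗᵢ[ℂ] H} {c : ℂ} (hc0 : ‖c‖ = 1)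
    (hU : ∀ x, L.E r (U x) = U (L.E r x)) (hU' : ∀ x, L.E r (U' x) = U' (L.E r x))
    (hT : ∀ x, L.E r (T x) = T (L.E r x)) (h : ∀ x, L.E r (U' x) = c • T (L.E r (U x)))
    (Q : Fin 3) : L.fv (L.pau Q) r U' = L.iota (U⁻¹ (T⁻¹ (L.pau Q (T (L.E r (U L.Om)))))) := by
  have hc : c ≠ 0 := by
    intro h0; rw [h0, norm_zero] at hc0; exact zero_ne_one hc0
  have key : ∀ z, L.E r z = z → U'⁻¹ z = c⁻¹ • U⁻¹ (T⁻¹ z) := by
    intro z hz
    have hw : L.E r (c⁻¹ • U⁻¹ (T⁻¹ z)) = c⁻¹ • U⁻¹ (T⁻¹ z) := by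
      rw [map_smul, L.res_comm_inv hU, L.res_comm_inv hT, hz]
    apply Sys.inv_apply_eq
    rw [← hw, ← hU', h, map_smul, map_smul, map_smul, Sys.Ainv, ← hT, Sys.Ainv, hz,
      smul_smul, mul_inv_cancel₀ hc, one_smul]
  unfold fv
  congr 1
  rw [L.res_comm_inv hU', L.E_pau, h, map_smul, map_smul, key, smul_smul,
    mul_inv_cancel₀ hc, one_smul]
  rw [L.E_pau, hT, L.E_E hr]

lemma res_fv {r : Set ℝ} {U : H ≃ₗᵢ[ℂ] H}
    (hU : ∀ x, L.E r (U x) = U (L.E r x)) (Q : Fin 3) :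
    L.fv (L.pau Q) r U = L.iota (U⁻¹ (L.pau Q (L.E r (U L.Om)))) := by
  unfold fv
  rw [L.res_comm_inv hU, L.E_pau]

/-- modes of one batch -/
def res_sp (u p : K) : Submodule ℂ K := Submodule.span ℂ {u, p}

lemma res_sp_orth {u p u' p' : K} (h1 : inner ℂ u u' = (0 : ℂ)) (h2 : inner ℂ u p' = (0 : ℂ))
    (h3 : inner ℂ p u' = (0 : ℂ)) (h4 : inner ℂ p p' = (0 : ℂ)) :
    ∀ v ∈ res_sp u p, ∀ w ∈ res_sp u' p', inner ℂ v w = (0 : ℂ) := by
  intro v hv w hw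
  obtain ⟨a, b, rfl⟩ := Submodule.mem_span_pair.1 hv
  obtain ⟨a', b', rfl⟩ := Submodule.mem_span_pair.1 hw
  simp only [inner_add_left, inner_add_right, inner_smul_left, inner_smul_right, h1, h2, h3, h4]
  ring

/-- small moves of the reserve vector by unitaries of the modes `u, p` -/
def ResSmall (r : Set ℝ) (u p : K) (ζ : H) : Prop :=
  ∀ (T : H → H), IsPar L.toSys (res_sp u p) T → (∀ x, ‖T x‖ = ‖x‖) →
      (∀ x, L.E r (T x) = T (L.E r x)) → (∀ x ∈ SW L.toSys, T x ∈ SW L.toSys) → ∀ B : ℝ,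
      ‖T L.Om - L.Om‖ ^ 2 ≤ B → ‖T (L.Z L.Om) - L.Z L.Om‖ ^ 2 ≤ B →
      ‖T ζ - ζ‖ ^ 2 ≤ L.mu.real r * B

lemma res_mzr (v : K) : ‖L.zr v L.Om - L.Om‖ ^ 2 ≤ 2 * ‖v‖ ^ 2 := by
  have h := B.LKS.norm_pul_sub_sq (S := L.toSys) 0 v L.Om
  rw [L.pul_time_zero] at h
  have a1 := L.us_norm_W_Om_sub v
  have a2 := L.us_norm_W_Om_sub (-v)
  rw [norm_neg] at a2
  have a3 := norm_nonneg (L.W v L.Om - L.Om)
  have a4 := norm_nonneg (L.W (-v) L.Om - L.Om)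
  nlinarith

lemma res_zr2 {r : Set ℝ} {u p : K} {ζ : H} (hs : L.ResSmall r u p ζ) :
    ‖L.zr (-u) (L.zr (-u) ζ) - ζ‖ ≤ 4 * (Real.sqrt (L.mu.real r) * ‖u‖) := by
  have hρ0 : 0 ≤ L.mu.real r := measureReal_nonneg
  have hu : u ∈ res_sp u p := Submodule.subset_span (by simp)
  have b1 : ‖L.zr (-u) (L.zr (-u) L.Om) - L.Om‖ ^ 2 ≤ 8 * ‖u‖ ^ 2 := by
    have : L.zr (-u) (L.zr (-u) L.Om) = L.zr (-u + -u) L.Om := by
      rw [L.zr_zr, th_self]; simp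
    rw [this]
    refine (L.res_mzr _).trans ?_
    have : ‖-u + -u‖ ≤ 2 * ‖u‖ := by
      refine (norm_add_le _ _).trans ?_
      rw [norm_neg]; linarith
    have := norm_nonneg (-u + -u)
    have := norm_nonneg u
    nlinarith
  have e4 : ‖L.zr (-u) (L.zr (-u) ζ) - ζ‖ ^ 2 ≤ L.mu.real r * (8 * ‖u‖ ^ 2) := by
    refine hs (fun x => L.zr (-u) (L.zr (-u) x)) ?_ ?_ ?_ ?_ _ b1 ?_
    · exact IsPar.comp (U := L.zr (-u)) (V := L.zr (-u))
        (IsPar.zr (Submodule.neg_mem _ hu)) (IsPar.zr (Submodule.neg_mem _ hu))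
    · intro x
      rw [LinearIsometryEquiv.norm_map, LinearIsometryEquiv.norm_map]
    · intro x
      rw [L.E_zr, L.E_zr]
    · intro x hx; exact SW.mapzr (SW.mapzr hx _) _
    · have : L.zr (-u) (L.zr (-u) (L.Z L.Om)) - L.Z L.Om
          = L.Z (L.zr (-u) (L.zr (-u) L.Om) - L.Om) := by
        rw [map_sub, L.Z_zr, L.Z_zr]
      rw [this, LinearIsometryEquiv.norm_map]
      exact b1
  refine abs_le_of_sq_le_sq' ?_ (by positivity) |>.2
  have : (4 * (Real.sqrt (L.mu.real r) * ‖u‖)) ^ 2 = 16 * L.mu.real r * ‖u‖ ^ 2 := by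
    rw [mul_pow, mul_pow, Real.sq_sqrt hρ0]; ring
  rw [this]
  have := mul_nonneg hρ0 (sq_nonneg ‖u‖)
  nlinarith

lemma res_kick_small {r : Set ℝ} {u p : K} {ζ : H} (hs : L.ResSmall r u p ζ) (q : K)
    (hq : q ∈ res_sp u p) (hqn : ‖q‖ = ‖p‖) :
    ‖L.kick 1 u q ζ - ζ‖ ≤ 2 * Real.sqrt (L.mu.real r) * ‖p‖ * (1 + 2 * ‖u‖) := by
  have hρ0 : 0 ≤ L.mu.real r := measureReal_nonneg
  have hu : u ∈ res_sp u p := Submodule.subset_span (by simp)
  have b1 : ‖L.kick 1 u q L.Om - L.Om‖ ^ 2 ≤ 2 * (‖p‖ ^ 2 * (1 + 4 * ‖u‖ ^ 2)) := by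
    have := L.norm_kick_Om_sub (c := 1) (by simp) u q
    rwa [one_smul, hqn] at this
  have b2 : ‖L.kick 1 u (-q) L.Om - L.Om‖ ^ 2 ≤ 2 * (‖p‖ ^ 2 * (1 + 4 * ‖u‖ ^ 2)) := by
    have := L.norm_kick_Om_sub (c := 1) (by simp) u (-q)
    rwa [one_smul, norm_neg, hqn] at this
  have b3 : ‖L.kick 1 u q ζ - ζ‖ ^ 2 ≤ L.mu.real r * (2 * (‖p‖ ^ 2 * (1 + 4 * ‖u‖ ^ 2))) := by
    refine hs _ (L.kick_par 1 hu hq) (fun x => L.norm_kick (by simp) _ _ x)
      (fun x => L.kick_E _ _ _ _ _) (fun x hx => L.kick_SW _ _ _ hx) _ b1 ?_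
    have : L.kick 1 u q (L.Z L.Om) - L.Z L.Om = L.Z (L.kick 1 u (-q) L.Om - L.Om) := by
      unfold kick
      rw [one_smul, one_smul, map_sub, L.Z_zr, L.res_Z_pw1, neg_neg, L.Z_zr]
    rw [this, LinearIsometryEquiv.norm_map]
    exact b2
  refine abs_le_of_sq_le_sq' (b3.trans ?_) (by positivity) |>.2
  have b4 : (2 * Real.sqrt (L.mu.real r) * ‖p‖ * (1 + 2 * ‖u‖)) ^ 2
      = 4 * L.mu.real r * (‖p‖ ^ 2 * (1 + 2 * ‖u‖) ^ 2) := by
    rw [mul_pow, mul_pow, mul_pow, Real.sq_sqrt hρ0]; ring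
  rw [b4]
  have b5 : 1 + 4 * ‖u‖ ^ 2 ≤ (1 + 2 * ‖u‖) ^ 2 := by nlinarith [norm_nonneg u]
  have b6 : L.mu.real r * (‖p‖ ^ 2 * (1 + 4 * ‖u‖ ^ 2))
      ≤ L.mu.real r * (‖p‖ ^ 2 * (1 + 2 * ‖u‖) ^ 2) := by gcongr
  have b7 : 0 ≤ L.mu.real r * (‖p‖ ^ 2 * (1 + 2 * ‖u‖) ^ 2) := by positivity
  linarith

/-- (R1) for one step -/
lemma res_R1 {r : Set ℝ} (hr : MeasurableSet r) {V V1 : H ≃ₗᵢ[ℂ] H} {u p : K} {ζ : H}
    (cV : ∀ x, L.E r (V x) = V (L.E r x)) (cV1 : ∀ x, L.E r (V1 x) = V1 (L.E r x))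
    (h1 : ∀ x, L.E r (V1 x) = L.zr (-u) (L.E r (V x))) (hζ : L.E r (V L.Om) = ζ)
    (hn : ‖ζ‖ ^ 2 = L.mu.real r) (hs : L.ResSmall r u p ζ) {D : ℝ} {t : ℂ}
    (ht : ‖ζ - t • L.E r L.Om‖ ^ 2 ≤ L.mu.real r * (4 * D)) :
    |th (L.fv (L.pau 2) r V) (L.fv (L.pau 1) r V1) + L.mu.real r|
        ≤ L.mu.real r * (8 * D + 4 * ‖u‖) := by
  have hρ0 : 0 ≤ L.mu.real r := measureReal_nonneg
  have hnn : ‖ζ‖ = Real.sqrt (L.mu.real r) := by rw [← hn, Real.sqrt_sq (norm_nonneg _)]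
  have sq4 : Real.sqrt (L.mu.real r) * Real.sqrt (L.mu.real r) = L.mu.real r :=
    Real.mul_self_sqrt hρ0
  have hX : ‖ζ - L.X ζ‖ ≤ 2 * ‖ζ - t • L.E r L.Om‖ := by
    have e : ζ - L.X ζ = (ζ - t • L.E r L.Om) - L.X (ζ - t • L.E r L.Om) := by
      have e0 : L.X (L.E r L.Om) = L.E r L.Om := by rw [← L.E_X, L.XOm]
      rw [map_sub, map_smul, e0]; abel
    rw [e]
    refine (norm_sub_le _ _).trans ?_
    rw [LinearIsometryEquiv.norm_map, two_mul]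
  have hX2 : ‖ζ - L.X ζ‖ ^ 2 ≤ 16 * L.mu.real r * D := by
    have := norm_nonneg (ζ - L.X ζ)
    have := norm_nonneg (ζ - t • L.E r L.Om)
    nlinarith
  have hX3 : ‖ζ - L.X ζ‖ ^ 2 = 2 * L.mu.real r - 2 * (inner ℂ ζ (L.X ζ) : ℂ).re := by
    rw [@norm_sub_sq ℂ H, LinearIsometryEquiv.norm_map, hn]
    change L.mu.real r - 2 * (inner ℂ ζ (L.X ζ) : ℂ).re + L.mu.real r = _
    ring
  have e1 : L.fv (L.pau 1) r V1 = L.iota (V⁻¹ (L.pau 1 (L.zr (-u) (L.zr (-u) ζ)))) := by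
    rw [L.res_blk hr (c := 1) (by simp) cV cV1 (T := L.zr (-u))
      (fun x => L.E_zr _ _ x) (fun x => by rw [one_smul]; exact h1 x) 1, hζ]
    congr 2
    apply Sys.inv_apply_eq
    rw [← L.res_pau1_zr u, L.zr_zr_neg]
  have e2 : L.fv (L.pau 2) r V = L.iota (V⁻¹ (L.Z ζ)) := by
    rw [L.res_fv cV, hζ]; rfl
  have e3 : (inner ℂ (L.fv (L.pau 2) r V) (L.fv (L.pau 1) r V1) : ℂ)
      = -(Complex.I * inner ℂ ζ (L.X ζ))
        + inner ℂ (L.Z ζ) (L.pau 1 (L.zr (-u) (L.zr (-u) ζ) - ζ)) := by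
    rw [e1, e2, L.iota.inner_map_map, LinearIsometryEquiv.inner_map_map]
    have : L.pau 1 ζ = Complex.I • L.X (L.Z ζ) := by
      rw [L.pau_one, L.Zt_apply, show 2 * -(Real.pi / 4) = -(Real.pi / 2) by ring,
        L.xr_neg_pi_div_two]
    have h6 : (inner ℂ (L.Z ζ) (L.pau 1 ζ) : ℂ) = -(Complex.I * inner ℂ ζ (L.X ζ)) := by
      rw [this, inner_smul_right, L.XZ, inner_neg_right, L.Z.inner_map_map]
      ring
    rw [← h6, map_sub, inner_sub_right]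
    ring
  have e5 := L.res_zr2 hs
  have e6 : |(inner ℂ (L.Z ζ) (L.pau 1 (L.zr (-u) (L.zr (-u) ζ) - ζ)) : ℂ).im|
      ≤ L.mu.real r * (4 * ‖u‖) := by
    refine (Complex.abs_im_le_norm _).trans ((norm_inner_le_norm _ _).trans ?_)
    rw [LinearIsometryEquiv.norm_map, LinearIsometryEquiv.norm_map, hnn]
    calc Real.sqrt (L.mu.real r) * ‖L.zr (-u) (L.zr (-u) ζ) - ζ‖
        ≤ Real.sqrt (L.mu.real r) * (4 * (Real.sqrt (L.mu.real r) * ‖u‖)) := by gcongr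
      _ = (Real.sqrt (L.mu.real r) * Real.sqrt (L.mu.real r)) * (4 * ‖u‖) := by ring
      _ = _ := by rw [sq4]
  unfold th
  rw [e3, Complex.add_im, Complex.neg_im, Complex.I_mul_im]
  have e7 : 0 ≤ L.mu.real r - (inner ℂ ζ (L.X ζ) : ℂ).re := by
    have := sq_nonneg ‖ζ - L.X ζ‖
    linarith
  have e8 : L.mu.real r - (inner ℂ ζ (L.X ζ) : ℂ).re ≤ 8 * L.mu.real r * D := by linarith
  rw [abs_le] at e6 ⊢
  constructor <;> nlinarith [e6.1, e6.2]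

/-- (R2) for one step -/
lemma res_R2 {r : Set ℝ} (hr : MeasurableSet r) {V V1 V2 : H ≃ₗᵢ[ℂ] H} {u p : K} {ζ : H}
    {c : ℂ} (hc : ‖c‖ = 1)
    (cV : ∀ x, L.E r (V x) = V (L.E r x)) (cV2 : ∀ x, L.E r (V2 x) = V2 (L.E r x))
    (h1 : ∀ x, L.E r (V1 x) = L.zr (-u) (L.E r (V x)))
    (h2 : ∀ x, L.E r (V2 x) = c • L.pw (L.pau 1) (-p) (L.E r (V1 x)))
    (hζ : L.E r (V L.Om) = ζ) (hs : L.ResSmall r u p ζ) :
    ‖L.fv (L.pau 2) r V2 - L.fv (L.pau 2) r V‖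
        ≤ 4 * Real.sqrt (L.mu.real r) * ‖p‖ * (1 + 2 * ‖u‖) := by
  have hp : p ∈ res_sp u p := Submodule.subset_span (by simp)
  have e1 : L.fv (L.pau 2) r V2
      = L.iota (V⁻¹ ((L.pwU 1 (-p) * L.zr (-u))⁻¹ (L.Z ((L.pwU 1 (-p) * L.zr (-u)) ζ)))) := by
    rw [L.res_blk hr hc cV cV2 (T := L.pwU 1 (-p) * L.zr (-u))
      (fun x => by
        change L.E r (L.pw (L.pau 1) (-p) (L.zr (-u) x))
          = L.pw (L.pau 1) (-p) (L.zr (-u) (L.E r x))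
        rw [L.E_pw, L.E_zr])
      (fun x => by rw [h2, h1]; rfl) 2, hζ]
    rfl
  have e2 : L.fv (L.pau 2) r V = L.iota (V⁻¹ (L.Z ζ)) := by
    rw [L.res_fv cV, hζ]; rfl
  have e3 : ‖L.fv (L.pau 2) r V2 - L.fv (L.pau 2) r V‖
      = ‖L.Z (L.pw (L.pau 1) (-p) (L.zr (-u) ζ)) - L.pw (L.pau 1) (-p) (L.zr (-u) (L.Z ζ))‖ := by
    rw [e1, e2, ← map_sub, L.norm_iota, ← map_sub, LinearIsometryEquiv.norm_map,
      ← LinearIsometryEquiv.norm_map (L.pwU 1 (-p) * L.zr (-u)), map_sub, Sys.Ainv]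
    rfl
  obtain ⟨y, hy⟩ : ∃ y, y = L.zr (-u) ζ := ⟨_, rfl⟩
  have e4 : L.Z (L.pw (L.pau 1) (-p) (L.zr (-u) ζ)) - L.pw (L.pau 1) (-p) (L.zr (-u) (L.Z ζ))
      = (L.pw (L.pau 1) p (L.Z y) - L.Z y) - (L.pw (L.pau 1) (-p) (L.Z y) - L.Z y) := by
    rw [L.res_Z_pw1, neg_neg, ← L.Z_zr, hy]
    abel
  have e5 : ∀ q : K, L.pw (L.pau 1) q (L.Z y) = L.Z (L.pw (L.pau 1) (-q) y) := by
    intro q; rw [L.res_Z_pw1, neg_neg]
  have e6 : ∀ q : K, ‖L.pw (L.pau 1) q y - y‖ = ‖L.kick 1 u q ζ - ζ‖ := by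
    intro q
    unfold kick
    rw [one_smul, ← LinearIsometryEquiv.norm_map (L.zr u) (L.pw (L.pau 1) q y - y), map_sub,
      hy, L.zr_zr_neg]
  rw [e3, e4]
  refine (norm_sub_le _ _).trans ?_
  rw [e5, e5, ← map_sub, ← map_sub, LinearIsometryEquiv.norm_map, LinearIsometryEquiv.norm_map,
    e6, e6, neg_neg]
  have c1 := L.res_kick_small hs (-p) (Submodule.neg_mem _ hp) (norm_neg _)
  have c2 := L.res_kick_small hs p hp rfl
  linarith

variable {r : Set ℝ} {N : ℕ} {V V1 V2 : ℕ → (H ≃ₗᵢ[ℂ] H)} {u p : ℕ → K} {c : ℕ → ℂ}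

/-- **(RES)** reserve estimates along a chain -/
theorem res (hr : MeasurableSet r)
    (cV : ∀ i ≤ N, ∀ x, L.E r (V i x) = V i (L.E r x))
    (cV1 : ∀ i < N, ∀ x, L.E r (V1 i x) = V1 i (L.E r x))
    (cV2 : ∀ i < N, ∀ x, L.E r (V2 i x) = V2 i (L.E r x))
    (h0 : ∀ x, L.E r (V 0 x) = L.E r x)
    (h1 : ∀ i < N, ∀ x, L.E r (V1 i x) = L.zr (-(u i)) (L.E r (V i x)))
    (hcn : ∀ i < N, ‖c i‖ = 1)
    (h2 : ∀ i < N, ∀ x, L.E r (V2 i x) = c i • L.pw (L.pau 1) (-(p i)) (L.E r (V1 i x)))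
    (h3 : ∀ i < N, ∀ x, L.E r (V (i + 1) x) = L.zr (u i) (L.E r (V2 i x)))
    (huu : ∀ i < N, ∀ j < N, i ≠ j → inner ℂ (u i) (u j) = (0 : ℂ))
    (hup : ∀ i < N, ∀ j < N, i ≠ j → inner ℂ (u i) (p j) = (0 : ℂ))
    (hpp : ∀ i < N, ∀ j < N, i ≠ j → inner ℂ (p i) (p j) = (0 : ℂ)) :
    ∀ i < N,
      |th (L.fv (L.pau 2) r (V i)) (L.fv (L.pau 1) r (V1 i)) + L.mu.real r|
        ≤ L.mu.real r * (8 * ∑ j ∈ Finset.range i, ‖p j‖ ^ 2 * (1 + 4 * ‖u j‖ ^ 2) + 4 * ‖u i‖) ∧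
      ‖L.fv (L.pau 2) r (V2 i) - L.fv (L.pau 2) r (V i)‖
        ≤ 4 * Real.sqrt (L.mu.real r) * ‖p i‖ * (1 + 2 * ‖u i‖) := by
  intro i hi
  -- modes
  have hL : ∀ j k, j < k → k < N → ∀ v ∈ res_sp (u j) (p j), ∀ w ∈ res_sp (u k) (p k),
      inner ℂ v w = (0 : ℂ) := by
    intro j k hjk hk
    refine res_sp_orth (huu j (by omega) k hk (by omega)) (hup j (by omega) k hk (by omega)) ?_
      (hpp j (by omega) k hk (by omega))
    rw [← inner_conj_symm, hup k hk j (by omega) (by omega), map_zero]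
  have hmu : ∀ j, u j ∈ res_sp (u j) (p j) := fun j => Submodule.subset_span (by simp)
  have hmp : ∀ j, p j ∈ res_sp (u j) (p j) := fun j => Submodule.subset_span (by simp)
  set U : ℕ → H → H := fun j => L.kick (c j) (u j) (-(p j)) with hUd
  have hUp : ∀ j < N, IsPar L.toSys (res_sp (u j) (p j)) (U j) := fun j _ =>
    L.kick_par (c j) (hmu j) (Submodule.neg_mem _ (hmp j))
  have hUn : ∀ j < N, ∀ x, ‖U j x‖ = ‖x‖ := fun j hj x => L.norm_kick (hcn j hj) _ _ x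
  -- the reserve state
  have hst : ∀ k ≤ N, ∀ x, L.E r (V k x) = L.E r (cmp U k x) := by
    intro k
    induction k with
    | zero => intro _ x; exact h0 x
    | succ k ih =>
      intro hk x
      rw [h3 k (by omega), h2 k (by omega), h1 k (by omega), ih (by omega), map_smul]
      change c k • L.zr (u k) (L.pw (L.pau 1) (-(p k)) (L.zr (-(u k)) (L.E r (cmp U k x)))) = _
      exact (L.kick_E (c k) (u k) (-(p k)) r (cmp U k x)).symm
  have hSW : ∀ k ≤ N, cmp U k L.Om ∈ SW L.toSys := fun k hk =>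
    SW.cmp (n := N) (fun j _ x hx => L.kick_SW _ _ _ hx) SW.Om k hk
  obtain ⟨z, hz⟩ : ∃ z, z = cmp U i L.Om := ⟨_, rfl⟩
  have hSWz : z ∈ SW L.toSys := by rw [hz]; exact hSW i hi.le
  have hz1 : ‖z‖ = 1 := by rw [hz, norm_cmp (n := N) hUn L.Om i hi.le, L.nOm]
  have hzr : L.E r (V i L.Om) = L.E r z := by rw [hz]; exact hst i hi.le L.Om
  have hρ0 : 0 ≤ L.mu.real r := measureReal_nonneg
  have hEz : ‖L.E r z‖ ^ 2 = L.mu.real r := by
    rw [L.norm_E_SW hr hSWz, hz1, one_pow, mul_one]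
  have hzP : IsPar L.toSys (⨆ j ∈ Finset.range i, res_sp (u j) (p j)) (cmp U i) :=
    isPar_cmp (n := N) hUp i hi.le
  have hLi : ∀ v ∈ res_sp (u i) (p i), ∀ w ∈ (⨆ j ∈ Finset.range i, res_sp (u j) (p j)),
      inner ℂ v w = (0 : ℂ) := by
    intro v hv w hw
    have hle : (⨆ j ∈ Finset.range i, res_sp (u j) (p j)) ≤ (ℂ ∙ v)ᗮ := by
      refine iSup₂_le fun j hj => ?_
      intro x hx
      rw [Submodule.mem_orthogonal_singleton_iff_inner_right, ← inner_conj_symm,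
        hL j i (Finset.mem_range.1 hj) hi x hx v hv, map_zero]
    exact Submodule.mem_orthogonal_singleton_iff_inner_right.1 (hle hw)
  -- small moves by the new modes
  have small : L.ResSmall r (u i) (p i) (L.E r z) := by
    intro T hT hTn hTE hTS B hB1 hB2
    rw [← hTE, ← map_sub, L.norm_E_SW hr (Submodule.sub_mem _ (hTS _ hSWz) hSWz)]
    refine mul_le_mul_of_nonneg_left ?_ hρ0
    have := par_near hLi hzP hT hTn hB1 hB2
    rwa [← hz, hz1, one_pow, mul_one] at this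
  obtain ⟨t, ht, hleak⟩ := leakage (S := L.toSys) (L := fun j => res_sp (u j) (p j)) (n := N)
    (U := U) hL hUp hUn c i hi.le
  rw [← hz] at hleak
  have hleak2 : ‖z - t • L.Om‖ ^ 2
      ≤ 4 * ∑ j ∈ Finset.range i, ‖p j‖ ^ 2 * (1 + 4 * ‖u j‖ ^ 2) := by
    refine hleak.trans ?_
    have h5 : ∑ j ∈ Finset.range i, ‖U j L.Om - c j • L.Om‖ ^ 2
        ≤ ∑ j ∈ Finset.range i, 2 * (‖p j‖ ^ 2 * (1 + 4 * ‖u j‖ ^ 2)) := by
      refine Finset.sum_le_sum fun j hj => ?_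
      have := L.norm_kick_Om_sub (hcn j (by have := Finset.mem_range.1 hj; omega)) (u j) (-(p j))
      rwa [norm_neg] at this
    rw [← Finset.mul_sum] at h5
    change 2 * ∑ j ∈ Finset.range i, ‖U j L.Om - c j • L.Om‖ ^ 2 ≤ _
    linarith
  have hζt : ‖L.E r z - t • L.E r L.Om‖ ^ 2
      ≤ L.mu.real r * (4 * ∑ j ∈ Finset.range i, ‖p j‖ ^ 2 * (1 + 4 * ‖u j‖ ^ 2)) := by
    rw [← map_smul, ← map_sub, L.norm_E_SW hr (Submodule.sub_mem _ hSWz
      (Submodule.smul_mem _ _ SW.Om))]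
    exact mul_le_mul_of_nonneg_left hleak2 hρ0
  exact ⟨L.res_R1 hr (cV i hi.le) (cV1 i hi) (h1 i hi) hzr hEz small hζt,
    L.res_R2 hr (hcn i hi) (cV i hi.le) (cV2 i hi) (h1 i hi) (h2 i hi) hzr small⟩

end LSys

end Vale.Agent.P367.A
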