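import Vale.Agent.P367.B.CoreNum
import Vale.Agent.P367.B.OwnEst
import Vale.Agent.P367.B.OwnA2
import Vale.Agent.P367.B.Res
import Vale.Agent.P367.B.CoreIneq
import Vale.Agent.P367.B.FA

/-! P367 block B, T2CORE part 6: bookkeeping. -/

namespace Vale.Agent.P367.A

open Complex Filter Topology MeasureTheory
open Vale.Agent.P367.B (famS cl exU ex gb ga WFam)

namespace LSys

variable {H K : Type} [NormedAddCommGroup H] [InnerProductSpace ℂ H] [CompleteSpace H]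
  [NormedAddCommGroup K] [InnerProductSpace ℂ K] {L : LSys H K} {𝔄 : Set (H →L[ℂ] H)}
  {hc : ∀ x : H, Tendsto (fun a => L.W a x) (𝓝 0) (𝓝 x)}
  {G r : Set ℝ} {sg : H →L[ℂ] H} {s μ a la : ℝ} {N : ℕ} {b : ℕ → Set ℝ}
  {V V1 V2 : ℕ → (H ≃ₗᵢ[ℂ] H)} {co cr : ℕ → ℂ}

omit [CompleteSpace H] in
lemma cf_Cch (s μ : ℝ) (sg : H →L[ℂ] H) (b : Set ℝ) : L.Cch s μ sg b = L.stC b sg s μ := by
  unfold Cch stC
  rw [ofReal_neg]

/-- a sequence of steps is a chain -/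
lemma cf_chain (hG : MeasurableSet G) (hr : MeasurableSet r) (hGr : Disjoint G r)
    (hb : ∀ i, MeasurableSet (b i)) (hbd : ∀ i j, i ≠ j → Disjoint (b i) (b j))
    (hbs : ∀ i, b i ⊆ G) (hV : ∀ i, ∀ a ∈ 𝔄, ∀ x, a (V i x) = V i (a x))
    (hV1 : ∀ i, ∀ a ∈ 𝔄, ∀ x, a (V1 i x) = V1 i (a x))
    (hV2 : ∀ i, ∀ a ∈ 𝔄, ∀ x, a (V2 i x) = V2 i (a x))
    (hst : ∀ i, L.StepRel hc G r (b i) sg s μ a la (V i) (V1 i) (V2 i) (V (i + 1)) (co i) (cr i))
    (N : ℕ) : L.Chain hc 𝔄 G r sg s μ a la N b V V1 V2 co cr where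
  mG := hG
  mr := hr
  Gr := hGr
  mb i _ := hb i
  bG i _ := hbs i
  bb i _ j _ hij := hbd i j hij
  cV i _ := hV i
  cV1 i _ := hV1 i
  cV2 i _ := hV2 i
  nco i _ := (hst i).nco
  ncr i _ := (hst i).ncr
  r1 i _ := (hst i).h1
  r2 i _ x := by
    rw [cf_Cch]
    exact (hst i).h2 x
  r3 i _ := (hst i).h3

/-- the product unitary on a block -/
lemma cf_prod (hA : L.Ctl 𝔄) (hG : MeasurableSet G) (hsg : sg ∈ 𝔄) {V0 U : H ≃ₗᵢ[ℂ] H}
    (hU : L.IsProd G sg s V0 U) {e : Set ℝ} (he : MeasurableSet e) (heG : e ⊆ G) (y : H) :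
    L.E e (U y) = L.zr ((s : ℂ) • L.iota (sg L.Om))
      ((1 / 2 : ℂ) • (L.W (-((s : ℂ) • L.fv (L.pau 2) G V0)) (L.E e y + sg (L.E e y))
        + L.W ((s : ℂ) • L.fv (L.pau 2) G V0) (L.E e y - sg (L.E e y)))) := by
  have hE := E_mem (L := L) hA he
  rw [hU y, (L.E e).map_add, (L.E e).map_sub y, L.E_sub he hG heG, sub_self, add_zero, L.E_zr,
    (L.E e).map_smul, (L.E e).map_add, L.E_W, L.E_W, (L.E e).map_add, (L.E e).map_sub,
    L.E_sub he hG heG, ctl_comm hA hE hsg]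
  rfl

omit [CompleteSpace H] in
/-- splitting of a displacement up to a phase -/
lemma cf_phase (c : ℂ) (hc1 : ‖c‖ = 1) (w0 δ : K) :
    ∃ c' : ℂ, ‖c'‖ = 1 ∧ ∀ y : H, c' • c • L.zr (w0 + δ) y = L.zr w0 (L.zr δ y) := by
  have hne : c ≠ 0 := by
    intro h0
    rw [h0, norm_zero] at hc1
    exact zero_ne_one hc1
  refine ⟨Complex.exp (-(Complex.I * (th w0 δ : ℂ))) * c⁻¹, ?_, fun y => ?_⟩
  · rw [norm_mul, norm_inv, hc1, inv_one, mul_one,
      show -(Complex.I * (th w0 δ : ℂ)) = ((-(th w0 δ) : ℝ) : ℂ) * Complex.I by push_cast; ring,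
      Complex.norm_exp_ofReal_mul_I]
  · rw [smul_smul, mul_assoc, inv_mul_cancel₀ hne, mul_one, L.zr_zr]

/-- bound for the shift -/
lemma cf_theta {ρ μ T η θ a la : ℝ} (hρ : 0 < ρ) (hμ : 0 < μ)
    (ha : a = Real.pi / (4 * μ ^ 2 * Real.sqrt ρ)) (hla : la = -(μ ^ 2 / Real.sqrt ρ))
    (hθ' : θ = 2 * a * la * T)
    (hT : |T + ρ| ≤ ρ * η) : |θ - Real.pi / 2| ≤ 2 * η := by
  have hθ : θ = 2 * (Real.pi / (4 * μ ^ 2 * Real.sqrt ρ)) * (-(μ ^ 2 / Real.sqrt ρ)) * T := by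
    rw [hθ', ha, hla]
  have hs : 0 < Real.sqrt ρ := Real.sqrt_pos.2 hρ
  have hs2 : Real.sqrt ρ * Real.sqrt ρ = ρ := Real.mul_self_sqrt hρ.le
  have e1 : θ - Real.pi / 2 = -(Real.pi / (2 * ρ)) * (T + ρ) := by
    rw [hθ]
    have : 2 * (Real.pi / (4 * μ ^ 2 * Real.sqrt ρ)) * (-(μ ^ 2 / Real.sqrt ρ))
        = -(Real.pi / (2 * ρ)) := by
      have e2 : 2 * (Real.pi / (4 * μ ^ 2 * Real.sqrt ρ)) * (-(μ ^ 2 / Real.sqrt ρ))
          = -(Real.pi / (2 * (Real.sqrt ρ * Real.sqrt ρ))) := by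
        field_simp
        ring
      rw [e2, hs2]
    rw [this]
    field_simp
    ring
  have hη : 0 ≤ η := by
    have := (abs_nonneg _).trans hT
    by_contra h
    push Not at h
    nlinarith
  rw [e1, abs_mul, abs_neg, abs_of_pos (by positivity)]
  calc Real.pi / (2 * ρ) * |T + ρ| ≤ Real.pi / (2 * ρ) * (ρ * η) := by gcongr
    _ = Real.pi / 2 * η := by field_simp
    _ ≤ 2 * η := by
      have := Real.pi_le_four
      gcongr
      linarith

namespace Chain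

variable (h : L.Chain hc 𝔄 G r sg s μ a la N b V V1 V2 co cr) (hA : L.Ctl 𝔄)

/-- reserve displacement -/
noncomputable def cf_u (_h : L.Chain hc 𝔄 G r sg s μ a la N b V V1 V2 co cr) (i : ℕ) : K :=
  (a : ℂ) • L.fv (L.pau 2) (b i) (V i)

/-- reserve kick -/
noncomputable def cf_p (_h : L.Chain hc 𝔄 G r sg s μ a la N b V V1 V2 co cr) (i : ℕ) : K :=
  (la : ℂ) • L.qch hc (L.vch μ la (G \ b i) r (V1 i)) (L.Cch s μ sg (b i)) (b i) (V1 i)

lemma cf_p_eq (i : ℕ) : h.cf_p i = (la : ℂ) • L.iota (L.E (b i) ((V1 i)⁻¹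
    (L.Cch s μ sg (b i) (L.Z ((famS L.toSys hc).sn
      (L.vch μ la (G \ b i) r (V1 i)) (V1 i L.Om)))))) := rfl

lemma cf_norm_p (hμ : 0 < μ) (i : ℕ) : ‖h.cf_p i‖ = |la| / μ * ‖h.w i‖ := by
  unfold cf_p w
  rw [norm_neg, norm_smul, norm_smul, norm_real, norm_real, Real.norm_eq_abs, Real.norm_eq_abs,
    abs_of_pos hμ]
  field_simp

include h hA in
lemma cf_norm_u (ha : 0 ≤ a) {i : ℕ} (hi : i < N) :
    ‖h.cf_u i‖ = a * Real.sqrt (L.mu.real (b i)) := by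
  unfold cf_u
  rw [norm_smul, norm_real, Real.norm_eq_abs, abs_of_nonneg ha,
    num_norm_fv (h.mb i hi) (h.cV i hi.le _ (E_mem hA (h.mb i hi)))]

include h hA in
/-- reserve estimates for a chain -/
lemma cf_res (hsg : L.Sgn G 𝔄 sg) (h0 : ∀ x, L.E r (V 0 x) = L.E r x) {i : ℕ} (hi : i < N) :
    |th (L.fv (L.pau 2) r (V i)) (L.fv (L.pau 1) r (V1 i)) + L.mu.real r|
        ≤ L.mu.real r * (8 * ∑ j ∈ Finset.range i, ‖h.cf_p j‖ ^ 2 * (1 + 4 * ‖h.cf_u j‖ ^ 2)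
          + 4 * ‖h.cf_u i‖) ∧
      ‖L.fv (L.pau 2) r (V2 i) - L.fv (L.pau 2) r (V i)‖
        ≤ 4 * Real.sqrt (L.mu.real r) * ‖h.cf_p i‖ * (1 + 2 * ‖h.cf_u i‖) := by
  have hE := E_mem (L := L) hA h.mr
  refine L.res (u := h.cf_u) (p := h.cf_p) (c := cr) h.mr (fun i hi => h.cV i hi _ hE)
    (fun i hi => h.cV1 i hi _ hE) (fun i hi => h.cV2 i hi _ hE) h0
    (fun i hi x => h.one_r hi x) h.ncr (fun i hi x => h.two_r hA hsg.1 hi x)
    (fun i hi x => ?_) ?_ ?_ ?_ i hi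
  · rw [h.three_r hi, h.fv2 hA hsg.1 hsg.2.1 hi (h.mb i hi) (h.bG i hi),
      h.fv1 hA hi (h.mb i hi) (h.bG i hi)]
    rfl
  · intro i hi j hj hij
    unfold cf_u
    rw [inner_smul_left, inner_smul_right, num_fv_orth (h.mb i hi) (h.mb j hj) (h.bb i hi j hj hij)]
    simp
  · intro i hi j hj hij
    rw [cf_p_eq]
    unfold cf_u fv
    rw [inner_smul_left, inner_smul_right, num_orth (h.mb i hi) (h.mb j hj) (h.bb i hi j hj hij)]
    simp
  · intro i hi j hj hij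
    rw [cf_p_eq, cf_p_eq, inner_smul_left, inner_smul_right,
      num_orth (h.mb i hi) (h.mb j hj) (h.bb i hi j hj hij)]
    simp

include h hA in
/-- the total reaction is close to its limit -/
lemma cf_Wv (hsg : L.Sgn G 𝔄 sg) (hμ : μ ≠ 0) (hU : (⋃ i ∈ Finset.range N, b i) = G)
    {t κ : ℝ} (ht0 : 0 ≤ t) (hκ0 : 0 ≤ κ) (ht : ∀ k < N, |h.θ k - Real.pi / 2| ≤ t) {k : ℕ → ℝ}
    (hk : ∑ i ∈ Finset.range N, k i ^ 2 ≤ κ ^ 2)
    (hkb : ∀ i < N, ‖L.E (b i) (L.W (L.vch μ la (G \ b i) r (V1 i)) (V 0 L.Om))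
      - L.E (b i) (V 0 L.Om)‖ ≤ k i) :
    ‖h.Wv N - (s : ℂ) • L.iota (sg L.Om)‖ ≤ |s| * (3 * t + 2 * κ) := by
  have h1 := h.num_Wv_sub_sq (k := N) le_rfl
  rw [num_sum_sg hA h.mG hsg h.mb h.bb hU] at h1
  refine (sq_le_sq₀ (norm_nonneg _) (by positivity)).1 ?_
  rw [h1]
  have hm := L.ci_sum_sq_E_le h.mb h.bb L.Om
  rw [L.nOm, one_pow] at hm
  have h2 : ∀ j ∈ Finset.range N, ‖h.w j - (s : ℂ) • L.iota (L.E (b j) (sg L.Om))‖ ^ 2
      ≤ |s| ^ 2 * (8 * t ^ 2 * ‖L.E (b j) L.Om‖ ^ 2 + 2 * k j ^ 2) := by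
    intro j hj
    have hj' := Finset.mem_range.1 hj
    have h3 := h.num_w_sub_le hA hsg hμ hj'
    have h4 : Real.sqrt (L.mu.real (b j)) = ‖L.E (b j) L.Om‖ := by
      rw [← L.norm_E_Om (h.mb j hj'), Real.sqrt_sq (norm_nonneg _)]
    rw [h4] at h3
    have h5 := ht j hj'
    have h6 := hkb j hj'
    have h7 : ‖h.w j - (s : ℂ) • L.iota (L.E (b j) (sg L.Om))‖
        ≤ |s| * (2 * t * ‖L.E (b j) L.Om‖ + k j) := by
      refine h3.trans ?_
      gcongr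
    calc _ ≤ (|s| * (2 * t * ‖L.E (b j) L.Om‖ + k j)) ^ 2 := by gcongr
      _ = |s| ^ 2 * (2 * t * ‖L.E (b j) L.Om‖ + k j) ^ 2 := by ring
      _ ≤ _ := by
        gcongr
        nlinarith [sq_nonneg (2 * t * ‖L.E (b j) L.Om‖ - k j)]
  refine (Finset.sum_le_sum h2).trans ?_
  rw [← Finset.mul_sum, Finset.sum_add_distrib, ← Finset.mul_sum, ← Finset.mul_sum, mul_pow]
  gcongr
  have h8 : 8 * t ^ 2 * ∑ j ∈ Finset.range N, ‖L.E (b j) L.Om‖ ^ 2 ≤ 8 * t ^ 2 * 1 := by gcongr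
  nlinarith [mul_nonneg ht0 hκ0]

include h hA in
/-- the batches at the end of the chain, against the product unitary -/
lemma cf_fin (hsg : L.Sgn G 𝔄 sg) (hμ : μ ≠ 0) {U : H ≃ₗᵢ[ℂ] H} (hU : L.IsProd G sg s (V 0) U)
    {del : ℕ → K} (hdel : ∀ k < N, h.Wv N - h.w k
      + (a : ℂ) • (L.fv (L.pau 2) r (V2 k) - L.fv (L.pau 2) r (V k))
        = (s : ℂ) • L.iota (sg L.Om) + del k) :
    ∃ c : ℕ → ℂ, (∀ i < N, ‖c i‖ = 1) ∧ ∀ i < N, ∀ x,
      ‖c i • L.E (b i) (V N x) - L.E (b i) (U (V 0 x))‖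
        = ‖L.zr (del i) (ex (ga L.toSys hc (L.Cch s μ sg (b i))
            ((μ : ℂ) • ((μ⁻¹ : ℝ) : ℂ) • L.vch μ la (G \ b i) r (V1 i)) (h.θ i))
            (L.E (b i) (V 0 x)))
          - (1 / 2 : ℂ) • (L.W (-((s : ℂ) • L.fv (L.pau 2) G (V 0)))
              (L.E (b i) (V 0 x) + sg (L.E (b i) (V 0 x)))
            + L.W ((s : ℂ) • L.fv (L.pau 2) G (V 0))
              (L.E (b i) (V 0 x) - sg (L.E (b i) (V 0 x))))‖ := by
  have key : ∀ i, ∃ c : ℂ, i < N → ‖c‖ = 1 ∧ ∀ x,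
      ‖c • L.E (b i) (V N x) - L.E (b i) (U (V 0 x))‖
        = ‖L.zr (del i) (ex (ga L.toSys hc (L.Cch s μ sg (b i))
            ((μ : ℂ) • ((μ⁻¹ : ℝ) : ℂ) • L.vch μ la (G \ b i) r (V1 i)) (h.θ i))
            (L.E (b i) (V 0 x)))
          - (1 / 2 : ℂ) • (L.W (-((s : ℂ) • L.fv (L.pau 2) G (V 0)))
              (L.E (b i) (V 0 x) + sg (L.E (b i) (V 0 x)))
            + L.W ((s : ℂ) • L.fv (L.pau 2) G (V 0))
              (L.E (b i) (V 0 x) - sg (L.E (b i) (V 0 x))))‖ := by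
    intro i
    by_cases hi : i < N
    · obtain ⟨c, hc1, hc2⟩ := h.own hA hsg.1 hsg.2.1 hi
      rw [hdel i hi] at hc2
      obtain ⟨c', hc1', hc2'⟩ := cf_phase (L := L) c hc1 ((s : ℂ) • L.iota (sg L.Om)) (del i)
      refine ⟨c', fun _ => ⟨hc1', fun x => ?_⟩⟩
      have hv : (μ : ℂ) • ((μ⁻¹ : ℝ) : ℂ) • L.vch μ la (G \ b i) r (V1 i)
          = L.vch μ la (G \ b i) r (V1 i) := by
        rw [smul_smul]
        have : (μ : ℂ) * ((μ⁻¹ : ℝ) : ℂ) = 1 := by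
          push_cast
          exact mul_inv_cancel₀ (by exact_mod_cast hμ)
        rw [this, one_smul]
      rw [hv, hc2, hc2', cf_prod hA h.mG hsg.1 hU (h.mb i hi) (h.bG i hi), ← map_sub,
        LinearIsometryEquiv.norm_map]
    · exact ⟨1, fun h' => absurd h' hi⟩
  choose c hc using key
  exact ⟨c, fun i hi => (hc i hi).1, fun i hi => (hc i hi).2⟩

include h hA in
/-- quantitative reserve estimates -/
lemma cf_num (hsg : L.Sgn G 𝔄 sg) (h0 : ∀ x, L.E r (V 0 x) = L.E r x) (hμ : 0 < μ)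
    (hρ : 0 < L.mu.real r) (ha : a = Real.pi / (4 * μ ^ 2 * Real.sqrt (L.mu.real r)))
    (hla : la = -(μ ^ 2 / Real.sqrt (L.mu.real r))) {τ : ℝ} (hτ2 : τ ≤ 1 / 2)
    (hτ : ∀ i < N, a * Real.sqrt (L.mu.real (b i)) ≤ τ) {k : ℕ} (hk : k < N) :
    |h.θ k - Real.pi / 2| ≤ 32 * |s| ^ 2 * μ ^ 2 / L.mu.real r + 8 * τ ∧
      ‖(a : ℂ) • (L.fv (L.pau 2) r (V2 k) - L.fv (L.pau 2) r (V k))‖ ≤ 8 * |s| * μ * τ := by
  obtain ⟨R1, R2⟩ := h.cf_res hA hsg h0 hk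
  have hθ := h.num_θ hA hsg.1 hsg.2.1 hk
  set ρ := L.mu.real r with hρd
  have hsρ : 0 < Real.sqrt ρ := Real.sqrt_pos.2 hρ
  have hs2 : Real.sqrt ρ * Real.sqrt ρ = ρ := Real.mul_self_sqrt hρ.le
  have ha0 : 0 < a := by rw [ha]; positivity
  have hτ0 : 0 ≤ τ := le_trans (by positivity) (hτ k hk)
  have hu : ∀ i < N, ‖h.cf_u i‖ ≤ τ := fun i hi => by
    rw [h.cf_norm_u hA ha0.le hi]; exact hτ i hi
  have hp : ∀ i < N, ‖h.cf_p i‖ ≤ μ / Real.sqrt ρ * (|s| * Real.sqrt (L.mu.real (b i))) := by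
    intro i hi
    rw [h.cf_norm_p hμ]
    have h1 : |la| / μ = μ / Real.sqrt ρ := by
      rw [hla, abs_neg, abs_of_pos (by positivity)]
      field_simp
    rw [h1]
    have := h.num_w_le hA hsg hi
    gcongr
  have hm := L.ci_sum_sq_E_le h.mb h.bb L.Om
  rw [L.nOm, one_pow] at hm
  have hsum : ∑ j ∈ Finset.range k, ‖h.cf_p j‖ ^ 2 * (1 + 4 * ‖h.cf_u j‖ ^ 2)
      ≤ 2 * |s| ^ 2 * μ ^ 2 / ρ := by
    have h1 : ∀ j ∈ Finset.range k, ‖h.cf_p j‖ ^ 2 * (1 + 4 * ‖h.cf_u j‖ ^ 2)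
        ≤ 2 * |s| ^ 2 * μ ^ 2 / ρ * ‖L.E (b j) L.Om‖ ^ 2 := by
      intro j hj
      have hj' : j < N := lt_trans (Finset.mem_range.1 hj) hk
      have h2 : ‖h.cf_p j‖ ^ 2 ≤ |s| ^ 2 * μ ^ 2 / ρ * ‖L.E (b j) L.Om‖ ^ 2 := by
        calc ‖h.cf_p j‖ ^ 2
            ≤ (μ / Real.sqrt ρ * (|s| * Real.sqrt (L.mu.real (b j)))) ^ 2 := by
              have := hp j hj'
              gcongr
          _ = |s| ^ 2 * μ ^ 2 / (Real.sqrt ρ * Real.sqrt ρ) * (Real.sqrt (L.mu.real (b j))) ^ 2 := by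
              field_simp
          _ = _ := by
              rw [hs2, Real.sq_sqrt measureReal_nonneg, L.norm_E_Om (h.mb j hj')]
      have h3 : 1 + 4 * ‖h.cf_u j‖ ^ 2 ≤ 2 := by
        have := hu j hj'
        have := norm_nonneg (h.cf_u j)
        nlinarith
      calc _ ≤ |s| ^ 2 * μ ^ 2 / ρ * ‖L.E (b j) L.Om‖ ^ 2 * 2 := by
            refine mul_le_mul h2 h3 (by positivity) (by positivity)
        _ = _ := by ring
    refine (Finset.sum_le_sum h1).trans ?_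
    rw [← Finset.mul_sum]
    have h4 : ∑ j ∈ Finset.range k, ‖L.E (b j) L.Om‖ ^ 2 ≤ 1 := by
      refine le_trans (Finset.sum_le_sum_of_subset_of_nonneg ?_ fun _ _ _ => by positivity) hm
      intro j hj
      rw [Finset.mem_range] at hj ⊢
      omega
    calc _ ≤ 2 * |s| ^ 2 * μ ^ 2 / ρ * 1 := by gcongr
      _ = _ := mul_one _
  constructor
  · refine (cf_theta hρ hμ ha hla hθ R1).trans ?_
    have := hu k hk
    calc _ ≤ 2 * (8 * (2 * |s| ^ 2 * μ ^ 2 / ρ) + 4 * τ) := by gcongr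
      _ = _ := by ring
  · rw [norm_smul, norm_real, Real.norm_eq_abs, abs_of_pos ha0]
    have h5 := hu k hk
    have h6 := hp k hk
    calc a * ‖L.fv (L.pau 2) r (V2 k) - L.fv (L.pau 2) r (V k)‖
        ≤ a * (4 * Real.sqrt ρ * (μ / Real.sqrt ρ * (|s| * Real.sqrt (L.mu.real (b k))))
            * (1 + 2 * (1 / 2))) := by
          refine mul_le_mul_of_nonneg_left (R2.trans ?_) ha0.le
          gcongr
          linarith
      _ = 8 * |s| * μ * (a * Real.sqrt (L.mu.real (b k))) := by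
          field_simp
          ring
      _ ≤ _ := by
          have := hτ k hk
          gcongr

end Chain

omit [NormedAddCommGroup H] [InnerProductSpace ℂ H] [CompleteSpace H] in
lemma cf_min (F : Finset H) (R : H → ℝ) (hR : ∀ x, 0 < R x) : ∃ r > 0, ∀ x ∈ F, r ≤ R x := by
  classical
  induction F using Finset.induction_on with
  | empty => exact ⟨1, one_pos, fun x hx => absurd hx (Finset.notMem_empty x)⟩
  | insert y F _ ih =>
    obtain ⟨r, hr, h⟩ := ih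
    refine ⟨min r (R y), lt_min hr (hR y), fun x hx => ?_⟩
    rcases Finset.mem_insert.1 hx with rfl | hx
    · exact min_le_right _ _
    · exact (min_le_left _ _).trans (h x hx)

/-- **(CORE)** -/
theorem coreStmt (L : LSys H K) (hc : ∀ x : H, Tendsto (fun a => L.W a x) (𝓝 0) (𝓝 x)) :
    L.CoreStmt hc := by
  intro G r 𝔄 sg s V0 U hG hr hGr hr0 hA hsg hV0 hV0r hU F ε hε
  have hown := fun x : H => own_est hc hA hG hsg.1 hsg.2.1 hsg.2.2 hV0 s (V0 x) hε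
  choose R0 hR0 M0 hM0 hown using hown
  obtain ⟨r0, hr00, hr0F⟩ := cf_min F R0 hR0
  obtain ⟨m0, hm00, hm0F⟩ := cf_min F M0 hM0
  have hprob := L.prob
  have hρ : 0 < L.mu.real r := by
    rw [measureReal_def]
    exact ENNReal.toReal_pos hr0 (measure_ne_top _ _)
  have hS : 0 < |s| + 1 := by positivity
  obtain ⟨rU, hrU, hus⟩ := L.us_N (V0 L.Om) (κ := r0 / (16 * (|s| + 1))) (by positivity)
  obtain ⟨mu0, hmu0, hmu⟩ : ∃ mu0 : ℝ, 0 < mu0 ∧ mu0 ≤ m0 ∧ mu0 ≤ 1 ∧ mu0 ≤ r0 / 4 ∧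
      mu0 ≤ rU / 2 ∧ mu0 ≤ r0 / (24 * (|s| + 1)) * L.mu.real r / (64 * (|s| + 1) ^ 2) := by
    refine ⟨min m0 (min 1 (min (r0 / 4) (min (rU / 2)
      (r0 / (24 * (|s| + 1)) * L.mu.real r / (64 * (|s| + 1) ^ 2))))), ?_, min_le_left _ _,
      (min_le_right _ _).trans (min_le_left _ _),
      (min_le_right _ _).trans ((min_le_right _ _).trans (min_le_left _ _)),
      (min_le_right _ _).trans ((min_le_right _ _).trans ((min_le_right _ _).trans
        (min_le_left _ _))),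
      (min_le_right _ _).trans ((min_le_right _ _).trans ((min_le_right _ _).trans
        (min_le_right _ _)))⟩
    refine lt_min hm00 (lt_min one_pos (lt_min (by positivity) (lt_min (by positivity)
      (by positivity))))
  obtain ⟨hmu1, hmu2, hmu3, hmu4, hmu5⟩ := hmu
  refine ⟨mu0, hmu0, fun μ hμ hμlt => ?_⟩
  have ha0 : 0 < Real.pi / (4 * μ ^ 2 * Real.sqrt (L.mu.real r)) := by
    have := Real.sqrt_pos.2 hρ
    positivity
  set a : ℝ := Real.pi / (4 * μ ^ 2 * Real.sqrt (L.mu.real r)) with had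
  set la : ℝ := -(μ ^ 2 / Real.sqrt (L.mu.real r)) with hlad
  set q : ℝ := r0 / (24 * (|s| + 1)) with hq
  have hq0 : 0 < q := by positivity
  -- the mesh
  obtain ⟨d, hd0, hd1, hd2⟩ : ∃ d : ℝ, 0 < d ∧ d ≤ r0 / (8 * (|s| + 1)) ∧
      a * d ≤ min (1 / 2) (min (q * μ / 16) (q / (16 * (|s| + 1)))) := by
    refine ⟨min (r0 / (8 * (|s| + 1)))
      (min (1 / 2) (min (q * μ / 16) (q / (16 * (|s| + 1)))) / a), ?_, min_le_left _ _, ?_⟩
    · refine lt_min (by positivity) (div_pos (lt_min (by norm_num) (lt_min (by positivity)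
        (by positivity))) ha0)
    · rw [mul_comm, ← le_div_iff₀ ha0]
      exact min_le_right _ _
  refine ⟨d ^ 2, by positivity, ?_⟩
  intro N b hb hbd hbG hbs hbde V V1 V2 co cr hV hcV hcV1 hcV2 hst
  have hch := cf_chain (co := co) (cr := cr) hG hr hGr hb hbd hbs hcV hcV1 hcV2 hst N
  have hVm : ∀ i, Real.sqrt (L.mu.real (b i)) ≤ d := by
    intro i
    rw [Real.sqrt_le_left hd0.le]
    exact hbde i
  set τ : ℝ := a * d with hτd
  have hτ1 : τ ≤ 1 / 2 := hd2.trans (min_le_left _ _)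
  have hτ2 : τ ≤ q * μ / 16 := hd2.trans ((min_le_right _ _).trans (min_le_left _ _))
  have hτ3 : τ ≤ q / (16 * (|s| + 1)) := hd2.trans ((min_le_right _ _).trans (min_le_right _ _))
  have hτ0 : 0 ≤ τ := by positivity
  have hμ1 : μ ≤ 1 := by linarith
  have h0r : ∀ x, L.E r (V 0 x) = L.E r x := fun x => by rw [hV]; exact hV0r x
  have hs0 := abs_nonneg s
  -- numbers
  have num : ∀ k < N, |hch.θ k - Real.pi / 2| < q * μ ∧
      ‖(a : ℂ) • (L.fv (L.pau 2) r (V2 k) - L.fv (L.pau 2) r (V k))‖ ≤ q := by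
    intro k hk
    obtain ⟨h1, h2⟩ := hch.cf_num hA hsg h0r hμ hρ had hlad hτ1
      (fun i _ => mul_le_mul_of_nonneg_left (hVm i) ha0.le) hk
    constructor
    · have h3 : 32 * |s| ^ 2 * μ ^ 2 / L.mu.real r < q * μ / 2 := by
        have h4 : μ < q * L.mu.real r / (64 * (|s| + 1) ^ 2) := by linarith
        rw [lt_div_iff₀ (by positivity)] at h4
        rw [div_lt_iff₀ hρ]
        have h5 : |s| ^ 2 ≤ (|s| + 1) ^ 2 := by gcongr; linarith
        nlinarith [mul_pos hμ hμ]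
      linarith
    · refine h2.trans ?_
      rw [le_div_iff₀ (by positivity)] at hτ3
      have h5 : |s| * μ * τ ≤ (|s| + 1) * 1 * τ := by gcongr; linarith
      nlinarith
  -- total reaction
  obtain ⟨kk, hkk0, hkk, hkb⟩ := hus N b (fun i _ => hb i) (fun i _ j _ hij => hbd i j hij)
  have hlaμ : |la| * Real.sqrt (L.mu.real r) = μ ^ 2 := by
    rw [hlad, abs_neg, abs_of_pos (by have := Real.sqrt_pos.2 hρ; positivity)]
    have := (Real.sqrt_pos.2 hρ).ne'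
    field_simp
  have hvn : ∀ k < N, ‖L.vch μ la (G \ b k) r (V1 k)‖ < rU := by
    intro k hk
    refine lt_of_le_of_lt (hch.num_v_le hA hk) ?_
    rw [hlaμ, abs_of_pos hμ]
    nlinarith
  have hWv := hch.cf_Wv hA hsg hμ.ne' hbG (t := q * μ) (κ := r0 / (16 * (|s| + 1)))
    (by positivity) (by positivity) (fun k hk => (num k hk).1.le) hkk
    (fun i hi => by rw [hV]; exact hkb i hi _ (hvn i hi))
  have hWv2 : ‖hch.Wv N - (s : ℂ) • L.iota (sg L.Om)‖ ≤ r0 / 4 := by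
    refine hWv.trans ?_
    have e1 : 3 * (q * μ) ≤ r0 / (8 * (|s| + 1)) := by
      calc 3 * (q * μ) ≤ 3 * (q * 1) := by gcongr
        _ = _ := by rw [hq]; field_simp; ring
    calc |s| * (3 * (q * μ) + 2 * (r0 / (16 * (|s| + 1))))
        ≤ (|s| + 1) * (r0 / (8 * (|s| + 1)) + 2 * (r0 / (16 * (|s| + 1)))) := by
          gcongr
          linarith
      _ = r0 / 4 := by field_simp; ring
  set del : ℕ → K := fun k => hch.Wv N - hch.w k
    + (a : ℂ) • (L.fv (L.pau 2) r (V2 k) - L.fv (L.pau 2) r (V k))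
    - (s : ℂ) • L.iota (sg L.Om) with hdel
  have hdn : ∀ k < N, ‖del k‖ < r0 := by
    intro k hk
    have e : del k = (hch.Wv N - (s : ℂ) • L.iota (sg L.Om)) - hch.w k
        + (a : ℂ) • (L.fv (L.pau 2) r (V2 k) - L.fv (L.pau 2) r (V k)) := by
      simp only [hdel]
      abel
    rw [e]
    refine lt_of_le_of_lt ((norm_add_le _ _).trans (add_le_add (norm_sub_le _ _) le_rfl)) ?_
    have h1 := (num k hk).2
    have h2 := hch.num_w_le hA hsg hk
    have h3 : |s| * Real.sqrt (L.mu.real (b k)) ≤ r0 / 8 := by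
      calc _ ≤ (|s| + 1) * (r0 / (8 * (|s| + 1))) := by
            gcongr
            · linarith
            · exact (hVm k).trans hd1
        _ = r0 / 8 := by field_simp
    have h4 : q ≤ r0 / 24 := by
      rw [hq]
      gcongr
      linarith
    linarith
  have hU' : L.IsProd G sg s (V 0) U := by rw [hV]; exact hU
  obtain ⟨c, hc1, hc2⟩ := hch.cf_fin hA hsg hμ.ne' hU' (del := del)
    (fun k _ => (add_sub_cancel _ _).symm)
  refine ⟨c, hc1, fun x hx => ?_⟩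
  have hfin := hown x μ hμ (by have := hm0F x hx; linarith) N b (fun i _ => hb i)
    (fun i _ j _ hij => hbd i j hij) (fun i _ => hbs i)
    (fun k => ((μ⁻¹ : ℝ) : ℂ) • L.vch μ la (G \ b k) r (V1 k)) del hch.θ
    (fun k hk => RR.smul (hch.vmem hA hk) _)
    (fun k hk => ?_) (fun k hk => ?_) (fun k hk => ?_) (fun k hk => ?_)
  · refine le_trans (le_of_eq (Finset.sum_congr rfl fun i hi => ?_)) hfin
    have := hc2 i (Finset.mem_range.1 hi) x
    rw [hV] at this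
    rw [this]
  · have h1 := hch.num_v_real hA hsg hk hG (subset_refl G)
    rw [hV] at h1
    change th (L.fv (L.pau 2) G V0) (((μ⁻¹ : ℝ) : ℂ) • L.vch μ la (G \ b k) r (V1 k)) = 0
    rw [th_smul_right, h1, mul_zero]
  · have h1 := hch.num_v_sub_le hA hsg hμ.ne' hk
    rw [hV] at h1
    refine lt_of_le_of_lt h1 ?_
    have h2 : |la / μ| * Real.sqrt (L.mu.real r) = μ := by
      rw [abs_div, abs_of_pos hμ, div_mul_eq_mul_div, hlaμ]
      field_simp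
    have h3 : r0 / (8 * (|s| + 1)) ≤ r0 / 8 := by
      gcongr
      linarith
    have h4 := hVm k
    have h5 := hr0F x hx
    rw [h2]
    linarith
  · refine lt_of_lt_of_le (num k hk).1 ?_
    have h4 : q ≤ r0 / 24 := by
      rw [hq]
      gcongr
      linarith
    have h5 := hr0F x hx
    gcongr
    linarith
  · exact lt_of_lt_of_le (hdn k hk) (hr0F x hx)

end LSys

end Vale.Agent.P367.A
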