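import Vale.Agent.P367.B.Core5

/-! P367 block B, T2CORE: orthogonality, reality and norm estimates for a chain (helper96). -/

namespace Vale.Agent.P367.A

open Complex Filter Topology MeasureTheory
open Vale.Agent.P367.B (famS cl exU ex gb ga WFam)

namespace LSys

variable {H K : Type} [NormedAddCommGroup H] [InnerProductSpace ℂ H] [CompleteSpace H]
  [NormedAddCommGroup K] [InnerProductSpace ℂ K] {L : LSys H K} {𝔄 : Set (H →L[ℂ] H)}

omit [CompleteSpace H] in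
lemma num_iota (x y : H) : (inner ℂ (L.iota x) (L.iota y) : ℂ) = inner ℂ x y :=
  L.iota.inner_map_map x y

omit [CompleteSpace H] in
lemma num_norm_iota (x : H) : ‖L.iota x‖ = ‖x‖ := L.iota.norm_map x

omit [CompleteSpace H] in
/-- orthogonality of disjoint blocks -/
lemma num_orth {e e' : Set ℝ} (he : MeasurableSet e) (he' : MeasurableSet e')
    (hd : Disjoint e e') (x y : H) :
    (inner ℂ (L.iota (L.E e x)) (L.iota (L.E e' y)) : ℂ) = 0 := by
  rw [num_iota, L.inner_E_dis he he' hd]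

omit [CompleteSpace H] in
lemma num_fv_orth {e e' : Set ℝ} (he : MeasurableSet e) (he' : MeasurableSet e')
    (hd : Disjoint e e') (Q Q' U U' : H ≃ₗᵢ[ℂ] H) :
    (inner ℂ (L.fv Q e U) (L.fv Q' e' U') : ℂ) = 0 := num_orth he he' hd _ _

omit [CompleteSpace H] in
/-- reality: commuting self-adjoint operators -/
lemma num_real {e e' : Set ℝ} (he : MeasurableSet e) (he' : MeasurableSet e')
    {U : H ≃ₗᵢ[ℂ] H} (hU : ∀ x, L.E e (U x) = U (L.E e x))
    (hU' : ∀ x, L.E e' (U x) = U (L.E e' x)) {A B : H →L[ℂ] H} (hA : Sa A) (hB : Sa B)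
    (hAe : ∀ x, L.E e (A x) = A (L.E e x)) (hAe' : ∀ x, L.E e' (A x) = A (L.E e' x))
    (hBe : ∀ x, L.E e (B x) = B (L.E e x)) (hBe' : ∀ x, L.E e' (B x) = B (L.E e' x))
    (hAB : ∀ x, A (B x) = B (A x)) :
    th (L.iota (L.E e (U⁻¹ (A (U L.Om))))) (L.iota (L.E e' (U⁻¹ (B (U L.Om))))) = 0 := by
  set z := U L.Om with hz
  have h1 : (inner ℂ (L.iota (L.E e (U⁻¹ (A z)))) (L.iota (L.E e' (U⁻¹ (B z)))) : ℂ)
      = inner ℂ (A z) (L.E e (L.E e' (B z))) := by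
    rw [num_iota, L.E_sa he, comm_inv hU', comm_inv hU, (U⁻¹).inner_map_map]
  have h2 : (inner ℂ (A z) (L.E e (L.E e' (B z))) : ℂ) = inner ℂ (L.E e (L.E e' (B z))) (A z) := by
    have e1 : (inner ℂ (L.E e (L.E e' (B z))) (A z) : ℂ)
        = inner ℂ z (L.E e (L.E e' (A (B z)))) := by
      rw [L.E_sa he, L.E_sa he', hB, ← hBe', ← hBe, ← hAB, L.E_comm he he']
    rw [hA, ← hAe, ← hAe', e1]
  unfold th
  rw [h1]
  have h3 := congrArg Complex.im h2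
  rw [← inner_conj_symm (L.E e (L.E e' (B z))), Complex.conj_im] at h3
  linarith

omit [CompleteSpace H] in
/-- norm of a block of a unitary state -/
lemma num_norm_E_state {e : Set ℝ} (he : MeasurableSet e) {U : H ≃ₗᵢ[ℂ] H}
    (hU : ∀ x, L.E e (U x) = U (L.E e x)) : ‖L.E e (U L.Om)‖ = Real.sqrt (L.mu.real e) := by
  rw [hU, LinearIsometryEquiv.norm_map, ← L.norm_E_Om he, Real.sqrt_sq (norm_nonneg _)]

omit [CompleteSpace H] in
lemma num_norm_fv {e : Set ℝ} (he : MeasurableSet e) {U : H ≃ₗᵢ[ℂ] H}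
    (hU : ∀ x, L.E e (U x) = U (L.E e x)) (P : Fin 3) :
    ‖L.fv (L.pau P) e U‖ = Real.sqrt (L.mu.real e) := by
  unfold fv
  rw [num_norm_iota, comm_inv hU, LinearIsometryEquiv.norm_map, L.E_pau,
    LinearIsometryEquiv.norm_map, num_norm_E_state he hU]

omit [CompleteSpace H] in
lemma num_mu_le (e : Set ℝ) : Real.sqrt (L.mu.real e) ≤ 1 := by
  have := L.prob
  rw [Real.sqrt_le_one]
  exact measureReal_le_one

omit [CompleteSpace H] in
/-- a sign control is a contraction -/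
lemma num_sgn_le {G : Set ℝ} (mG : MeasurableSet G) {sg : H →L[ℂ] H} (hs : Sa sg)
    (h2 : sg * sg = L.E G) (x : H) : ‖sg x‖ ≤ ‖x‖ := by
  have h3 : (inner ℂ (sg x) (sg x) : ℂ) = inner ℂ (L.E G x) (L.E G x) := by
    rw [hs, ← mul_apply_eq_comp, h2, L.E_sa mG, L.E_E mG]
  have h4 : ‖sg x‖ ^ 2 = ‖L.E G x‖ ^ 2 := by
    have := congrArg Complex.re h3
    rw [show (inner ℂ (sg x) (sg x) : ℂ).re = ‖sg x‖ ^ 2 from
        (norm_sq_eq_re_inner (𝕜 := ℂ) _).symm,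
      show (inner ℂ (L.E G x) (L.E G x) : ℂ).re = ‖L.E G x‖ ^ 2 from
        (norm_sq_eq_re_inner (𝕜 := ℂ) _).symm] at this
    exact this
  have h5 : ‖sg x‖ = ‖L.E G x‖ := (sq_eq_sq₀ (norm_nonneg _) (norm_nonneg _)).1 h4
  rw [h5]
  exact L.norm_E_le mG x

omit [CompleteSpace H] in
/-- Pythagoras for a sum over disjoint blocks -/
lemma num_sum_sq {N : ℕ} {b : ℕ → Set ℝ} (mb : ∀ i < N, MeasurableSet (b i))
    (bb : ∀ i < N, ∀ j < N, i ≠ j → Disjoint (b i) (b j)) (y : ℕ → H) :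
    ∀ k ≤ N, ‖∑ j ∈ Finset.range k, L.iota (L.E (b j) (y j))‖ ^ 2
      = ∑ j ∈ Finset.range k, ‖L.iota (L.E (b j) (y j))‖ ^ 2 := by
  intro k
  induction k with
  | zero => intro _; simp
  | succ k ih =>
    intro hk
    rw [Finset.sum_range_succ, Finset.sum_range_succ, ← ih (by omega), @norm_add_sq ℂ K]
    have : (inner ℂ (∑ j ∈ Finset.range k, L.iota (L.E (b j) (y j)))
        (L.iota (L.E (b k) (y k))) : ℂ) = 0 := by
      rw [sum_inner]
      refine Finset.sum_eq_zero fun j hj => ?_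
      have hj' := Finset.mem_range.1 hj
      exact num_orth (mb j (by omega)) (mb k (by omega)) (bb j (by omega) k (by omega) (by omega))
        _ _
    rw [this]
    simp

variable {hc : ∀ x : H, Tendsto (fun a => L.W a x) (𝓝 0) (𝓝 x)}
  {G r : Set ℝ} {sg : H →L[ℂ] H} {s μ a la : ℝ} {N : ℕ} {b : ℕ → Set ℝ}
  {V V1 V2 : ℕ → (H ≃ₗᵢ[ℂ] H)} {co cr : ℕ → ℂ}

namespace Chain

variable (h : L.Chain hc 𝔄 G r sg s μ a la N b V V1 V2 co cr)

/-- the operator in `w k` -/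
noncomputable def num_y (_h : L.Chain hc 𝔄 G r sg s μ a la N b V V1 V2 co cr) (k : ℕ) : H :=
  -((μ : ℂ) • ((V1 k)⁻¹ (L.Cch s μ sg (b k) (L.Z ((famS L.toSys hc).sn
    (L.vch μ la (G \ b k) r (V1 k)) (V1 k L.Om))))))

lemma num_w_eq (k : ℕ) : h.w k = L.iota (L.E (b k) (h.num_y k)) := by
  unfold w num_y qch
  simp only [map_neg, map_smul]

/-- (B1) -/
lemma num_w_orth {i j : ℕ} (hi : i < N) (hj : j < N) (hij : i ≠ j) :
    (inner ℂ (h.w i) (h.w j) : ℂ) = 0 := by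
  rw [num_w_eq, num_w_eq]
  exact num_orth (h.mb i hi) (h.mb j hj) (h.bb i hi j hj hij) _ _

lemma num_w_fv_orth {i : ℕ} (hi : i < N) {e : Set ℝ} (he : MeasurableSet e)
    (hd : Disjoint (b i) e) (Q U : H ≃ₗᵢ[ℂ] H) : (inner ℂ (h.w i) (L.fv Q e U) : ℂ) = 0 := by
  rw [num_w_eq]
  exact num_orth (h.mb i hi) he hd _ _

lemma num_w_fv_r {i : ℕ} (hi : i < N) (Q U : H ≃ₗᵢ[ℂ] H) :
    (inner ℂ (h.w i) (L.fv Q r U) : ℂ) = 0 := h.num_w_fv_orth hi h.mr (h.br hi) Q U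

include h

lemma num_fv_r {e : Set ℝ} (he : MeasurableSet e) (heG : e ⊆ G) (Q Q' U U' : H ≃ₗᵢ[ℂ] H) :
    (inner ℂ (L.fv Q r U) (L.fv Q' e U') : ℂ) = 0 :=
  num_fv_orth h.mr he (Set.disjoint_of_subset_left heG h.Gr).symm _ _ _ _

lemma num_fv_r' {e : Set ℝ} (he : MeasurableSet e) (heG : e ⊆ G) (Q Q' U U' : H ≃ₗᵢ[ℂ] H) :
    (inner ℂ (L.fv Q' e U') (L.fv Q r U) : ℂ) = 0 :=
  num_fv_orth he h.mr (Set.disjoint_of_subset_left heG h.Gr) _ _ _ _

/-- (B2) -/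
lemma num_B2 (hA : L.Ctl 𝔄) (hsg : sg ∈ 𝔄) (hs : Sa sg) {b' e : Set ℝ} (hb : MeasurableSet b')
    (he : MeasurableSet e) :
    th (L.iota (L.E b' (sg L.Om))) (L.fv (L.pau 2) e (V 0)) = 0 := by
  have c0 : ∀ A ∈ 𝔄, ∀ x, A (V 0 x) = V 0 (A x) := h.cV 0 (Nat.zero_le _)
  have e1 : L.iota (L.E b' (sg L.Om)) = L.iota (L.E b' ((V 0)⁻¹ (sg (V 0 L.Om)))) := by
    rw [c0 sg hsg, Sys.invA]
  rw [e1]
  exact num_real (A := sg) (B := cl L.Z) hb he (c0 _ (E_mem hA hb)) (c0 _ (E_mem hA he)) hs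
    (fun x y => L.inner_Z x y) (fun x => ctl_comm hA (E_mem hA hb) hsg x)
    (fun x => ctl_comm hA (E_mem hA he) hsg x) (fun x => L.E_Z _ x) (fun x => L.E_Z _ x)
    (fun x => hA.Z sg hsg x)

/-- (B2'), the exact form -/
lemma num_w_real (hA : L.Ctl 𝔄) (hsg : sg ∈ 𝔄) (hs : Sa sg) {j : ℕ} (hj : j < N) {e : Set ℝ}
    (he : MeasurableSet e) (heG : e ⊆ G) : th (h.w j) (L.fv (L.pau 2) e (V 0)) = 0 := by
  rw [← h.fvV hA hsg hs he heG j hj.le, ← h.fv1 hA hj he heG]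
  have hv := h.vmem hA hj
  have hC := Cch_mem hA hsg s μ (h.mb j hj)
  have hCs := Cch_sa hA hsg hs s μ (h.mb j hj)
  have c1 := h.cV1 j hj
  set v := L.vch μ la (G \ b j) r (V1 j) with hvd
  set C := L.Cch s μ sg (b j) with hCd
  unfold w
  rw [th_neg_left, ← hvd, ← hCd, th_smul_left]
  unfold qch
  have key : th (L.iota (L.E (b j) ((V1 j)⁻¹ (C (L.Z ((famS L.toSys hc).sn v (V1 j L.Om)))))))
      (L.fv (L.pau 2) e (V1 j)) = 0 := by
    refine num_real (A := C * (cl L.Z * (famS L.toSys hc).sn v)) (B := cl L.Z) (h.mb j hj) he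
      (c1 _ (E_mem hA (h.mb j hj))) (c1 _ (E_mem hA he)) ?_ (fun x y => L.inner_Z x y) ?_ ?_
      (fun x => L.E_Z _ x) (fun x => L.E_Z _ x) ?_
    · refine sa_comp hCs (sa_comp (fun x y => L.inner_Z x y)
        (sa_of ((famS L.toSys hc).sn_sa v)) (fun x => (B.sn_Z L.toSys hc v x).symm)) fun x => ?_
      change C (L.Z ((famS L.toSys hc).sn v x)) = L.Z ((famS L.toSys hc).sn v (C x))
      rw [hA.Z C hC, RR.sn hc hA hv hC]
    · intro x
      change L.E (b j) (C (L.Z ((famS L.toSys hc).sn v x)))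
        = C (L.Z ((famS L.toSys hc).sn v (L.E (b j) x)))
      rw [ctl_comm hA (E_mem hA (h.mb j hj)) hC, L.E_Z, RR.sn hc hA hv (E_mem hA (h.mb j hj))]
    · intro x
      change L.E e (C (L.Z ((famS L.toSys hc).sn v x)))
        = C (L.Z ((famS L.toSys hc).sn v (L.E e x)))
      rw [ctl_comm hA (E_mem hA he) hC, L.E_Z, RR.sn hc hA hv (E_mem hA he)]
    · intro x
      change C (L.Z ((famS L.toSys hc).sn v (L.Z x))) = L.Z (C (L.Z ((famS L.toSys hc).sn v x)))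
      rw [B.sn_Z, hA.Z C hC]
  rw [key]
  simp

/-- (B3): the shift, exactly -/
lemma num_θ (hA : L.Ctl 𝔄) (hsg : sg ∈ 𝔄) (hs : Sa sg) {k : ℕ} (hk : k < N) :
    h.θ k = 2 * a * la * th (L.fv (L.pau 2) r (V k)) (L.fv (L.pau 1) r (V1 k)) := by
  have e1 : L.fv (L.pau 2) (G \ b k) (V1 k) = L.fv (L.pau 2) (G \ b k) (V 0) := by
    rw [h.fv1 hA hk (h.mo hk) Set.sdiff_subset,
      h.fvV hA hsg hs (h.mo hk) Set.sdiff_subset k hk.le]
  have t1 : th (L.fv (L.pau 2) r (V k)) (L.fv (L.pau 2) (G \ b k) (V1 k)) = 0 := by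
    unfold th
    rw [h.num_fv_r (h.mo hk) Set.sdiff_subset]
    rfl
  have t2 : th (h.Wv k) (L.fv (L.pau 2) (G \ b k) (V1 k)) = 0 := by
    rw [e1]
    unfold Wv th
    rw [sum_inner, Complex.im_sum]
    refine Finset.sum_eq_zero fun j hj => ?_
    exact h.num_w_real hA hsg hs (lt_trans (Finset.mem_range.1 hj) hk) (h.mo hk)
      Set.sdiff_subset
  have t3 : th (h.Wv k) (L.fv (L.pau 1) r (V1 k)) = 0 := by
    unfold Wv th
    rw [sum_inner, Complex.im_sum]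
    refine Finset.sum_eq_zero fun j hj => ?_
    rw [h.num_w_fv_r (lt_trans (Finset.mem_range.1 hj) hk)]
    rfl
  unfold θ cc vch
  rw [th_sub_left, th_add_right, th_add_right]
  simp only [th_smul_left, th_smul_right]
  rw [t1, t2, t3]
  ring

/-- (B4) -/
lemma num_w_le (hA : L.Ctl 𝔄) (hsg : L.Sgn G 𝔄 sg) {k : ℕ} (hk : k < N) :
    ‖h.w k‖ ≤ |s| * Real.sqrt (L.mu.real (b k)) := by
  have hE := E_mem (L := L) hA (h.mb k hk)
  have hC := Cch_mem hA hsg.1 s μ (h.mb k hk)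
  have hv := h.vmem hA hk
  have c1 := h.cV1 k hk
  unfold w qch
  rw [norm_neg, norm_smul, Complex.norm_real, Real.norm_eq_abs, num_norm_iota,
    comm_inv (c1 _ hE), LinearIsometryEquiv.norm_map, ctl_comm hA hE hC, L.E_Z,
    RR.sn hc hA hv hE]
  have h1 : ‖L.Cch s μ sg (b k) (L.Z ((famS L.toSys hc).sn (L.vch μ la (G \ b k) r (V1 k))
      (L.E (b k) (V1 k L.Om))))‖ ≤ |s / μ| * Real.sqrt (L.mu.real (b k)) := by
    change ‖((-(s / μ) : ℝ) : ℂ) • (sg (L.E (b k) _))‖ ≤ _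
    rw [norm_smul, Complex.norm_real, Real.norm_eq_abs, abs_neg]
    gcongr
    refine (num_sgn_le h.mG hsg.2.1 hsg.2.2 _).trans ((L.norm_E_le (h.mb k hk) _).trans ?_)
    rw [LinearIsometryEquiv.norm_map]
    refine ((famS L.toSys hc).norm_sn_le' _ _).trans ?_
    rw [num_norm_E_state (h.mb k hk) (c1 _ hE)]
  have h2 : |μ| * |s / μ| ≤ |s| := by
    rw [← abs_mul]
    rcases eq_or_ne μ 0 with h0 | h0
    · rw [h0, zero_mul, abs_zero]; exact abs_nonneg s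
    · rw [mul_div_cancel₀ _ h0]
  calc _ ≤ |μ| * (|s / μ| * Real.sqrt (L.mu.real (b k))) := by gcongr
    _ = |μ| * |s / μ| * Real.sqrt (L.mu.real (b k)) := by ring
    _ ≤ _ := by gcongr

omit h in
omit [CompleteSpace H] in
lemma num_W_neg {e : Set ℝ} (v : K) (z : H) :
    ‖L.E e (L.W (-v) z) - L.E e z‖ = ‖L.E e (L.W v z) - L.E e z‖ := by
  have : L.E e (L.W v z) - L.E e z = -(L.W v (L.E e (L.W (-v) z) - L.E e z)) := by
    rw [map_sub, ← L.E_W, ← L.E_W, L.W_W_neg]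
    abel
  rw [this, norm_neg, LinearIsometryEquiv.norm_map]

omit h in
omit [CompleteSpace H] in
lemma num_cs_le {e : Set ℝ} (v : K) (z : H) :
    ‖L.E e ((famS L.toSys hc).cs v z) - L.E e z‖ ≤ ‖L.E e (L.W v z) - L.E e z‖ := by
  have e1 : L.E e ((famS L.toSys hc).cs v z) - L.E e z
      = (2 : ℂ)⁻¹ • ((L.E e (L.W v z) - L.E e z) + (L.E e (L.W (-v) z) - L.E e z)) := by
    rw [B.cs_apply', map_smul, map_add]
    module
  rw [e1, norm_smul, norm_inv]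
  have h1 := norm_add_le (L.E e (L.W v z) - L.E e z) (L.E e (L.W (-v) z) - L.E e z)
  rw [num_W_neg v z] at h1
  have h2 : ‖(2 : ℂ)‖ = 2 := by simp
  rw [h2]
  linarith

omit h in
omit [CompleteSpace H] in
lemma num_sin_sub (t : ℝ) : |Real.sin t - 1| ≤ |t - Real.pi / 2| := by
  have h1 : Real.sin t - 1 = Real.cos (t - Real.pi / 2) - 1 := by
    rw [Real.cos_sub_pi_div_two]
  rw [h1]
  have h2 := Real.cos_le_one (t - Real.pi / 2)
  rw [abs_of_nonpos (by linarith)]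
  rcases le_or_gt |t - Real.pi / 2| 2 with h3 | h3
  · have h4 := Real.one_sub_sq_div_two_le_cos (x := t - Real.pi / 2)
    have h5 : (t - Real.pi / 2) ^ 2 = |t - Real.pi / 2| ^ 2 := (sq_abs _).symm
    have h6 := abs_nonneg (t - Real.pi / 2)
    nlinarith
  · have h4 := Real.neg_one_le_cos (t - Real.pi / 2)
    linarith

/-- the vector `w_k - s iota E_b sg Om` -/
lemma num_w_sub (k : ℕ) : h.w k - (s : ℂ) • L.iota (L.E (b k) (sg L.Om))
    = L.iota (L.E (b k) (h.num_y k - (s : ℂ) • sg L.Om)) := by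
  rw [num_w_eq, map_sub, map_sub, map_smul, map_smul]

/-- (B5) -/
lemma num_w_sub_le (hA : L.Ctl 𝔄) (hsg : L.Sgn G 𝔄 sg) (hμ : μ ≠ 0) {k : ℕ} (hk : k < N) :
    ‖h.w k - (s : ℂ) • L.iota (L.E (b k) (sg L.Om))‖
      ≤ |s| * (2 * |h.θ k - Real.pi / 2| * Real.sqrt (L.mu.real (b k))
        + ‖L.E (b k) (L.W (L.vch μ la (G \ b k) r (V1 k)) (V 0 L.Om))
          - L.E (b k) (V 0 L.Om)‖) := by
  have hb := h.mb k hk
  have hE := E_mem (L := L) hA hb
  have hv := h.vmem hA hk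
  have c0 : ∀ A ∈ 𝔄, ∀ x, A (V 0 x) = V 0 (A x) := h.cV 0 (Nat.zero_le _)
  set v := L.vch μ la (G \ b k) r (V1 k) with hvd
  have e1 : sg L.Om = (V 0)⁻¹ (sg (V 0 L.Om)) := by rw [c0 sg hsg.1, Sys.invA]
  set z := V 0 L.Om with hz
  have e2 : h.w k - (s : ℂ) • L.iota (L.E (b k) (sg L.Om))
      = (s : ℂ) • L.iota ((V 0)⁻¹ (sg (
        (Real.cos (h.θ k) : ℂ) • L.Z ((famS L.toSys hc).sn v (L.E (b k) z))
        + (((Real.sin (h.θ k) - 1 : ℝ) : ℂ) • (famS L.toSys hc).cs v (L.E (b k) z)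
        + (L.E (b k) ((famS L.toSys hc).cs v z) - L.E (b k) z))))) := by
    rw [h.w_eq hA hsg.1 hsg.2.1 hμ hk, e1, ← smul_sub, ← map_sub, ← map_sub, ← map_sub, ← map_sub,
      comm_inv (c0 _ hE), ctl_comm hA hE hsg.1]
    congr 4
    rw [map_sub, map_add, map_smul, map_smul, L.E_Z, RR.sn hc hA hv hE, ← RR.cs hc hA hv hE]
    push_cast
    module
  rw [e2, norm_smul, Complex.norm_real, Real.norm_eq_abs, num_norm_iota,
    LinearIsometryEquiv.norm_map]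
  gcongr
  refine (num_sgn_le h.mG hsg.2.1 hsg.2.2 _).trans ?_
  have n0 : ‖L.E (b k) z‖ = Real.sqrt (L.mu.real (b k)) := num_norm_E_state hb (c0 _ hE)
  have n1 : ‖(Real.cos (h.θ k) : ℂ) • L.Z ((famS L.toSys hc).sn v (L.E (b k) z))‖
      ≤ |h.θ k - Real.pi / 2| * Real.sqrt (L.mu.real (b k)) := by
    rw [norm_smul, Complex.norm_real, Real.norm_eq_abs, LinearIsometryEquiv.norm_map, ← n0]
    have := Real.abs_sin_le_abs (x := Real.pi / 2 - h.θ k)
    rw [Real.sin_pi_div_two_sub, abs_sub_comm] at this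
    exact mul_le_mul this ((famS L.toSys hc).norm_sn_le' _ _) (norm_nonneg _) (abs_nonneg _)
  have n2 : ‖((Real.sin (h.θ k) - 1 : ℝ) : ℂ) • (famS L.toSys hc).cs v (L.E (b k) z)‖
      ≤ |h.θ k - Real.pi / 2| * Real.sqrt (L.mu.real (b k)) := by
    rw [norm_smul, Complex.norm_real, Real.norm_eq_abs, ← n0]
    have := num_sin_sub (h.θ k)
    exact mul_le_mul this ((famS L.toSys hc).norm_cs_le' _ _) (norm_nonneg _) (abs_nonneg _)
  have n3 := num_cs_le (L := L) (hc := hc) (e := b k) v z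
  refine (norm_add_le _ _).trans ?_
  have n4 := norm_add_le (((Real.sin (h.θ k) - 1 : ℝ) : ℂ) • (famS L.toSys hc).cs v (L.E (b k) z))
    (L.E (b k) ((famS L.toSys hc).cs v z) - L.E (b k) z)
  linarith

/-- Pythagoras for the reaction vectors -/
lemma num_Wv_sub_sq {k : ℕ} (hk : k ≤ N) :
    ‖h.Wv k - (s : ℂ) • ∑ j ∈ Finset.range k, L.iota (L.E (b j) (sg L.Om))‖ ^ 2
      = ∑ j ∈ Finset.range k, ‖h.w j - (s : ℂ) • L.iota (L.E (b j) (sg L.Om))‖ ^ 2 := by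
  unfold Wv
  rw [Finset.smul_sum, ← Finset.sum_sub_distrib]
  simp only [num_w_sub]
  exact num_sum_sq h.mb h.bb _ k hk

lemma num_fvZG (hA : L.Ctl 𝔄) (hsg : L.Sgn G 𝔄 sg) {k : ℕ} (hk : k < N) :
    L.fv (L.pau 2) (G \ b k) (V1 k) = L.fv (L.pau 2) (G \ b k) (V 0) := by
  rw [h.fv1 hA hk (h.mo hk) Set.sdiff_subset,
    h.fvV hA hsg.1 hsg.2.1 (h.mo hk) Set.sdiff_subset k hk.le]

/-- (B6): reality of the control vector -/
lemma num_v_real (hA : L.Ctl 𝔄) (hsg : L.Sgn G 𝔄 sg) {k : ℕ} (hk : k < N) {e : Set ℝ}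
    (he : MeasurableSet e) (heG : e ⊆ G) :
    th (L.fv (L.pau 2) e (V 0)) (L.vch μ la (G \ b k) r (V1 k)) = 0 := by
  have c0 : ∀ A ∈ 𝔄, ∀ x, A (V 0 x) = V 0 (A x) := h.cV 0 (Nat.zero_le _)
  unfold vch
  rw [h.num_fvZG hA hsg hk, th_add_right, th_smul_right, th_smul_right]
  have h1 : th (L.fv (L.pau 2) e (V 0)) (L.fv (L.pau 1) r (V1 k)) = 0 := by
    unfold th
    rw [h.num_fv_r' he heG]
    rfl
  have h2 : th (L.fv (L.pau 2) e (V 0)) (L.fv (L.pau 2) (G \ b k) (V 0)) = 0 :=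
    num_real (A := cl L.Z) (B := cl L.Z) he (h.mo hk) (c0 _ (E_mem hA he))
      (c0 _ (E_mem hA (h.mo hk))) (fun x y => L.inner_Z x y) (fun x y => L.inner_Z x y)
      (fun x => L.E_Z _ x) (fun x => L.E_Z _ x) (fun x => L.E_Z _ x) (fun x => L.E_Z _ x)
      (fun x => rfl)
  rw [h1, h2]
  ring

/-- (B7) -/
lemma num_v_le (hA : L.Ctl 𝔄) {k : ℕ} (hk : k < N) :
    ‖L.vch μ la (G \ b k) r (V1 k)‖ ≤ |μ| + |la| * Real.sqrt (L.mu.real r) := by
  unfold vch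
  refine (norm_add_le _ _).trans ?_
  rw [norm_smul, norm_smul, Complex.norm_real, Complex.norm_real, Real.norm_eq_abs,
    Real.norm_eq_abs, num_norm_fv h.mr (h.cV1 k hk _ (E_mem hA h.mr)),
    num_norm_fv (h.mo hk) (h.cV1 k hk _ (E_mem hA (h.mo hk)))]
  have := num_mu_le (L := L) (G \ b k)
  have h2 := abs_nonneg μ
  nlinarith

/-- (B7') the normalised control vector is close to `x` -/
lemma num_v_sub_le (hA : L.Ctl 𝔄) (hsg : L.Sgn G 𝔄 sg) (hμ : μ ≠ 0) {k : ℕ} (hk : k < N) :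
    ‖((μ⁻¹ : ℝ) : ℂ) • L.vch μ la (G \ b k) r (V1 k) - L.fv (L.pau 2) G (V 0)‖
      ≤ Real.sqrt (L.mu.real (b k)) + |la / μ| * Real.sqrt (L.mu.real r) := by
  have c0 : ∀ A ∈ 𝔄, ∀ x, A (V 0 x) = V 0 (A x) := h.cV 0 (Nat.zero_le _)
  have hb := h.mb k hk
  have e1 : L.fv (L.pau 2) G (V 0)
      = L.fv (L.pau 2) (b k) (V 0) + L.fv (L.pau 2) (G \ b k) (V 0) := by
    rw [fv_split h.mG hb, Set.inter_eq_right.2 (h.bG k hk)]
  have e2 : ((μ⁻¹ : ℝ) : ℂ) • L.vch μ la (G \ b k) r (V1 k) - L.fv (L.pau 2) G (V 0)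
      = ((la / μ : ℝ) : ℂ) • L.fv (L.pau 1) r (V1 k) - L.fv (L.pau 2) (b k) (V 0) := by
    have hμ' : (μ : ℂ) ≠ 0 := by exact_mod_cast hμ
    unfold vch
    rw [e1, h.num_fvZG hA hsg hk, smul_add, smul_smul, smul_smul]
    have e3 : ((μ⁻¹ : ℝ) : ℂ) * (μ : ℂ) = 1 := by
      push_cast
      exact inv_mul_cancel₀ hμ'
    have e4 : ((μ⁻¹ : ℝ) : ℂ) * (la : ℂ) = ((la / μ : ℝ) : ℂ) := by
      push_cast
      field_simp
    rw [e3, e4, one_smul]
    abel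
  rw [e2]
  refine (norm_sub_le _ _).trans ?_
  rw [norm_smul, Complex.norm_real, Real.norm_eq_abs,
    num_norm_fv h.mr (h.cV1 k hk _ (E_mem hA h.mr)), num_norm_fv hb (c0 _ (E_mem hA hb)), add_comm]

end Chain

/-- `sg = sg E_G` -/
lemma num_sg_EG {G : Set ℝ} (hA : L.Ctl 𝔄) (mG : MeasurableSet G) {sg : H →L[ℂ] H}
    (hsg : L.Sgn G 𝔄 sg) (x : H) : L.E G (sg x) = sg x := by
  have h1 : sg (x - L.E G x) = 0 := by
    have h2 : (inner ℂ (sg (x - L.E G x)) (sg (x - L.E G x)) : ℂ) = 0 := by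
      rw [hsg.2.1, ← mul_apply_eq_comp, hsg.2.2, map_sub, L.E_E mG, sub_self, inner_zero_right]
    exact inner_self_eq_zero.1 h2
  rw [map_sub, sub_eq_zero] at h1
  rw [ctl_comm hA (E_mem hA mG) hsg.1, ← h1]

omit [CompleteSpace H] in
/-- sum of the projections over a finite disjoint family -/
lemma num_sum_E {N : ℕ} {b : ℕ → Set ℝ} (mb : ∀ i < N, MeasurableSet (b i))
    (bb : ∀ i < N, ∀ j < N, i ≠ j → Disjoint (b i) (b j)) (x : H) :
    ∀ k ≤ N, ∑ j ∈ Finset.range k, L.E (b j) x = L.E (⋃ j ∈ Finset.range k, b j) x := by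
  intro k
  induction k with
  | zero =>
    intro _
    simp [L.E_empty]
  | succ k ih =>
    intro hk
    have hm : MeasurableSet (⋃ j ∈ Finset.range k, b j) :=
      Finset.measurableSet_biUnion _ fun j hj => mb j (by have := Finset.mem_range.1 hj; omega)
    have hd : Disjoint (⋃ j ∈ Finset.range k, b j) (b k) := by
      rw [Set.disjoint_iUnion₂_left]
      intro j hj
      have := Finset.mem_range.1 hj
      exact bb j (by omega) k (by omega) (by omega)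
    have e : (⋃ j ∈ Finset.range (k + 1), b j) = (⋃ j ∈ Finset.range k, b j) ∪ b k := by
      rw [Finset.range_add_one, Finset.set_biUnion_insert, Set.union_comm]
    rw [Finset.sum_range_succ, ih (by omega), e, L.E_union hm (mb k (by omega)) hd]

/-- `iota (sg Om)` is the sum of its blocks -/
lemma num_sum_sg {G : Set ℝ} (hA : L.Ctl 𝔄) (mG : MeasurableSet G) {sg : H →L[ℂ] H}
    (hsg : L.Sgn G 𝔄 sg) {N : ℕ} {b : ℕ → Set ℝ} (mb : ∀ i < N, MeasurableSet (b i))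
    (bb : ∀ i < N, ∀ j < N, i ≠ j → Disjoint (b i) (b j))
    (hU : (⋃ i ∈ Finset.range N, b i) = G) :
    ∑ j ∈ Finset.range N, L.iota (L.E (b j) (sg L.Om)) = L.iota (sg L.Om) := by
  rw [← map_sum, num_sum_E mb bb _ N le_rfl, hU, num_sg_EG hA mG hsg]

end LSys

end Vale.Agent.P367.A
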