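import Vale.Agent.P367.B.Dens2

/-! P367 block B: the label density lemma, final forms. -/

namespace Vale.Agent.P367.B

open Complex MeasureTheory Filter Topology RealInnerProductSpace
open scoped Matrix Matrix.Norms.L2Operator

section seq

variable {E : Type*} [NormedAddCommGroup E] [InnerProductSpace ℝ E]
  [MeasurableSpace E] [BorelSpace E] {μ : Measure E} [IsFiniteMeasure μ]

/-- members of the closure are a.e. limits of sequences of words -/
theorem ClsE.seq {U : E → M2} (hU : ClsE μ U) :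
    ∃ w : ℕ → List (LG E), ∀ᵐ z ∂μ, Tendsto (fun n => lw (w n) z) atTop (𝓝 (U z)) := by
  choose w hw using fun n : ℕ => hU.app ((1 / 2) ^ n) (by positivity)
  refine ⟨w, ?_⟩
  have hint : ∀ n, Integrable (fun z => ‖lw (w n) z - U z‖) μ := fun n =>
    integrable_subE (lw_meas (μ := μ) (w n)) hU.meas (lw_le (w n)) hU.le
  have h1 : ∫⁻ z, ∑' n, ENNReal.ofReal ‖lw (w n) z - U z‖ ∂μ ≠ ⊤ := by
    rw [lintegral_tsum fun n => (hint n).aestronglyMeasurable.aemeasurable.ennreal_ofReal]
    have h2 : ∀ n, ∫⁻ z, ENNReal.ofReal ‖lw (w n) z - U z‖ ∂μ ≤ ENNReal.ofReal ((1 / 2) ^ n) := by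
      intro n
      rw [← ofReal_integral_eq_lintegral_ofReal (hint n)
        (Eventually.of_forall fun z => norm_nonneg _)]
      exact ENNReal.ofReal_le_ofReal (hw n).le
    refine (lt_of_le_of_lt (ENNReal.tsum_le_tsum h2) ?_).ne
    rw [← ENNReal.ofReal_tsum_of_nonneg (fun n => by positivity)
      (summable_geometric_of_lt_one (by norm_num) (by norm_num))]
    exact ENNReal.ofReal_lt_top
  have hm : AEMeasurable (fun z => ∑' n, ENNReal.ofReal ‖lw (w n) z - U z‖) μ :=
    AEMeasurable.tsum fun n => (hint n).aestronglyMeasurable.aemeasurable.ennreal_ofReal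
  filter_upwards [ae_lt_top' hm h1] with z hz
  have h3 := ENNReal.tendsto_atTop_zero_of_tsum_ne_top hz.ne
  have h4 : Tendsto (fun n => ‖lw (w n) z - U z‖) atTop (𝓝 0) := by
    have h5 := (ENNReal.tendsto_toReal ENNReal.zero_ne_top).comp h3
    simp only [ENNReal.toReal_zero] at h5
    refine h5.congr fun n => ?_
    simp only [Function.comp]
    rw [ENNReal.toReal_ofReal (norm_nonneg _)]
  exact tendsto_iff_norm_sub_tendsto_zero.2 h4

end seq

/-- coordinates of a special unitary matrix -/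
lemma su_of_mem {U : M2} (h : U ∈ Matrix.specialUnitaryGroup (Fin 2) ℂ) :
    U = su (U 0 0).re (-(U 1 0).im) (U 1 0).re (-(U 0 0).im) ∧
      (U 0 0).re ^ 2 + (-(U 1 0).im) ^ 2 + (U 1 0).re ^ 2 + (-(U 0 0).im) ^ 2 = 1 := by
  rw [Matrix.mem_specialUnitaryGroup_iff, Matrix.mem_unitaryGroup_iff'] at h
  obtain ⟨h1, h2⟩ := h
  have h3 : star U = U.adjugate := by
    have h4 : star U * (U * U.adjugate) = U.adjugate := by rw [← mul_assoc, h1, one_mul]
    rwa [Matrix.mul_adjugate, h2, one_smul, mul_one] at h4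
  rw [Matrix.adjugate_fin_two] at h3
  have e00 : (starRingEnd ℂ) (U 0 0) = U 1 1 := by
    have := congrFun (congrFun h3 0) 0
    simpa using this
  have e01 : (starRingEnd ℂ) (U 1 0) = -U 0 1 := by
    have := congrFun (congrFun h3 0) 1
    simpa using this
  have n0 : (starRingEnd ℂ) (U 0 0) * U 0 0 + (starRingEnd ℂ) (U 1 0) * U 1 0 = 1 := by
    have := congrFun (congrFun h1 0) 0
    simpa [Matrix.mul_apply, Fin.sum_univ_two] using this
  refine ⟨?_, ?_⟩
  · have e01' : U 0 1 = -(starRingEnd ℂ) (U 1 0) := by rw [e01, neg_neg]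
    ext i j
    fin_cases i <;> fin_cases j
    · apply Complex.ext <;> simp [su, sN, sX, sY, sZ]
    · change U 0 1 = _
      rw [e01']
      apply Complex.ext <;> simp [su, sN, sX, sY, sZ]
    · apply Complex.ext <;> simp [su, sN, sX, sY, sZ]
    · change U 1 1 = _
      rw [← e00]
      apply Complex.ext <;> simp [su, sN, sX, sY, sZ]
  · have h5 := congrArg Complex.re n0
    simp only [Complex.add_re, Complex.mul_re, Complex.conj_re, Complex.conj_im,
      Complex.one_re] at h5
    nlinarith [h5]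

section main

variable {E : Type*} [NormedAddCommGroup E] [InnerProductSpace ℝ E] [CompleteSpace E]
  [SecondCountableTopology E] [MeasurableSpace E] [BorelSpace E]
  {μ : Measure E} [IsFiniteMeasure μ]

/-- THE LABEL DENSITY LEMMA: every measurable `u : E → SU(2)` with `u(-z) = X u(z) X` is an
`L¹(μ)`-limit of words in `exp(-i b X)`, `exp(-i (k.z) Z)`. -/
theorem clsE_of_su2 {u : E → M2} (hm : ∀ i j, Measurable fun z => u z i j)
    (hu : ∀ z, u z ∈ Matrix.specialUnitaryGroup (Fin 2) ℂ)
    (he : ∀ z, u (-z) = sX * u z * sX) : ClsE μ u := by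
  have h0 : ∀ z, u (-z) 0 0 = (starRingEnd ℂ) (u z 0 0) := by
    intro z
    have h := (su_of_mem (hu z)).1
    have e : u z 1 1 = (starRingEnd ℂ) (u z 0 0) := by
      conv_lhs => rw [h]
      apply Complex.ext <;> simp [su, sN, sX, sY, sZ]
    rw [he, ← e]
    simp [sX, Matrix.mul_apply, Fin.sum_univ_two, Matrix.vecMul, dotProduct]
  have h1 : ∀ z, u (-z) 1 0 = -(starRingEnd ℂ) (u z 1 0) := by
    intro z
    have h := (su_of_mem (hu z)).1
    have e : u z 0 1 = -(starRingEnd ℂ) (u z 1 0) := by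
      conv_lhs => rw [h]
      apply Complex.ext <;> simp [su, sN, sX, sY, sZ]
    rw [he, ← e]
    simp [sX, Matrix.mul_apply, Fin.sum_univ_two, Matrix.vecMul, dotProduct]
  have h := clsE_su (μ := μ) (a := fun z => (u z 0 0).re) (b := fun z => -(u z 1 0).im)
    (c := fun z => (u z 1 0).re) (d := fun z => -(u z 0 0).im)
    (Complex.measurable_re.comp (hm 0 0)) (Complex.measurable_im.comp (hm 1 0)).neg
    (Complex.measurable_re.comp (hm 1 0)) (Complex.measurable_im.comp (hm 0 0)).neg
    (fun z => (su_of_mem (hu z)).2)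
    (fun z => by simp [h0]) (fun z => by simp [h1]) (fun z => by simp [h1]) (fun z => by simp [h0])
  have e : (fun z => su (u z 0 0).re (-(u z 1 0).im) (u z 1 0).re (-(u z 0 0).im)) = u := by
    funext z
    exact ((su_of_mem (hu z)).1).symm
  rwa [e] at h

end main

section pi

variable {ι : Type*} [Fintype ι]

/-- matrix of a word at label `z : ι → ℝ` -/
noncomputable def lwp : List (LG (ι → ℝ)) → (ι → ℝ) → M2
  | [], _ => 1
  | LG.B b :: w, z => Er sX b * lwp w z
  | LG.G k :: w, z => Er sZ (∑ i, k i * z i) * lwp w z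

/-- change of coordinates for words -/
def toPi : LG (EuclideanSpace ℝ ι) → LG (ι → ℝ)
  | LG.B b => LG.B b
  | LG.G k => LG.G (WithLp.ofLp k)

lemma lwp_toPi (w : List (LG (EuclideanSpace ℝ ι))) (z : EuclideanSpace ℝ ι) :
    lwp (w.map toPi) (WithLp.ofLp z) = lw w z := by
  induction w with
  | nil => rfl
  | cons g w ih =>
    cases g with
    | B b => simp only [List.map_cons, toPi, lwp, lw, ih]
    | G k =>
      simp only [List.map_cons, toPi, lwp, lw, ih]
      congr 2

/-- the label density lemma for `ι → ℝ`: a.e. convergence of a sequence of words -/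
theorem dens_pi (μ : Measure (ι → ℝ)) [IsFiniteMeasure μ] {u : (ι → ℝ) → M2}
    (hm : ∀ i j, Measurable fun z => u z i j)
    (hu : ∀ z, u z ∈ Matrix.specialUnitaryGroup (Fin 2) ℂ)
    (he : ∀ z, u (-z) = sX * u z * sX) :
    ∃ w : ℕ → List (LG (ι → ℝ)), ∀ᵐ z ∂μ, Tendsto (fun n => lwp (w n) z) atTop (𝓝 (u z)) := by
  let e : (ι → ℝ) ≃ᵐ EuclideanSpace ℝ ι := MeasurableEquiv.toLp 2 (ι → ℝ)
  have hcl : ClsE (μ.map e) (fun z : EuclideanSpace ℝ ι => u (WithLp.ofLp z)) := by
    refine clsE_of_su2 (fun i j => (hm i j).comp e.symm.measurable) (fun z => hu _) fun z => ?_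
    rw [← he]
    rfl
  obtain ⟨w, hw⟩ := hcl.seq
  refine ⟨fun n => (w n).map toPi, ?_⟩
  have h2 := ae_of_ae_map e.measurable.aemeasurable hw
  filter_upwards [h2] with z hz
  refine hz.congr fun n => ?_
  rw [← lwp_toPi]
  rfl

end pi

section gates

open Vale.Agent.P367.NI (Gate)

/-- words with one label as lists of gates -/
def toGate : LG ℝ → Gate
  | LG.B b => Gate.B b
  | LG.G k => Gate.G k

lemma mw_toGate (w : List (LG ℝ)) (z : ℝ) : mw (w.map toGate) z = lw w z := by
  induction w with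
  | nil => rfl
  | cons g w ih =>
    cases g with
    | B b => simp only [List.map_cons, toGate, mw, lw, ih]
    | G k =>
      simp only [List.map_cons, toGate, mw, lw, ih]
      congr 2

lemma noC_toGate (w : List (LG ℝ)) : NoC (w.map toGate) := by
  intro g hg c
  obtain ⟨x, _, rfl⟩ := List.mem_map.1 hg
  cases x <;> simp [toGate]

/-- the label density lemma for one label, in terms of gates: `L¹` form -/
theorem cls_of_su2 {μ : Measure ℝ} [IsFiniteMeasure μ] {u : ℝ → M2}
    (hm : ∀ i j, Measurable fun z => u z i j)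
    (hu : ∀ z, u z ∈ Matrix.specialUnitaryGroup (Fin 2) ℂ)
    (he : ∀ z, u (-z) = sX * u z * sX) : Cls μ u := by
  have h := clsE_of_su2 (μ := μ) hm hu he
  refine ⟨h.meas, h.le, fun ε hε => ?_⟩
  obtain ⟨w, hw⟩ := h.app ε hε
  refine ⟨w.map toGate, noC_toGate w, ?_⟩
  simpa only [mw_toGate] using hw

/-- the label density lemma for one label, in terms of gates: a.e. form -/
theorem dens_gate (μ : Measure ℝ) [IsFiniteMeasure μ] {u : ℝ → M2}
    (hm : ∀ i j, Measurable fun z => u z i j)
    (hu : ∀ z, u z ∈ Matrix.specialUnitaryGroup (Fin 2) ℂ)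
    (he : ∀ z, u (-z) = sX * u z * sX) :
    ∃ w : ℕ → List Gate, (∀ n, NoC (w n)) ∧
      ∀ᵐ z ∂μ, Tendsto (fun n => mw (w n) z) atTop (𝓝 (u z)) := by
  obtain ⟨w, hw⟩ := (clsE_of_su2 (μ := μ) hm hu he).seq
  refine ⟨fun n => (w n).map toGate, fun n => noC_toGate _, ?_⟩
  simpa only [mw_toGate] using hw

end gates

end Vale.Agent.P367.B
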