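import Mathlib

/-! P367 block B: density of trigonometric polynomials in `L^2` of a finite measure; a.e.
approximation of even (odd) functions by even (odd) trigonometric polynomials. -/

namespace Vale.Agent.P367.B

open MeasureTheory Filter Topology RealInnerProductSpace

section basic

variable {E : Type*} [NormedAddCommGroup E] [InnerProductSpace ℝ E]

/-- cosine of a linear form -/
noncomputable def cosB (k : E) : BoundedContinuousFunction E ℝ :=
  BoundedContinuousFunction.ofNormedAddCommGroup (fun z => Real.cos (inner ℝ z k)) (by fun_prop) 1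
    (fun z => by simpa using Real.abs_cos_le_one _)

/-- sine of a linear form -/
noncomputable def sinB (k : E) : BoundedContinuousFunction E ℝ :=
  BoundedContinuousFunction.ofNormedAddCommGroup (fun z => Real.sin (inner ℝ z k)) (by fun_prop) 1
    (fun z => by simpa using Real.abs_sin_le_one _)

@[simp] lemma cosB_apply (k z : E) : cosB k z = Real.cos (inner ℝ z k) := rfl
@[simp] lemma sinB_apply (k z : E) : sinB k z = Real.sin (inner ℝ z k) := rfl

/-- even trigonometric polynomials -/
def trigE (E : Type*) [NormedAddCommGroup E] [InnerProductSpace ℝ E] :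
    Submodule ℝ (BoundedContinuousFunction E ℝ) := Submodule.span ℝ (Set.range cosB)

/-- odd trigonometric polynomials -/
def trigO (E : Type*) [NormedAddCommGroup E] [InnerProductSpace ℝ E] :
    Submodule ℝ (BoundedContinuousFunction E ℝ) := Submodule.span ℝ (Set.range sinB)

lemma trigE_even {p : BoundedContinuousFunction E ℝ} (hp : p ∈ trigE E) (z : E) : p (-z) = p z := by
  unfold trigE at hp
  induction hp using Submodule.span_induction with
  | mem x hx => obtain ⟨k, rfl⟩ := hx; simp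
  | zero => simp
  | add x y _ _ hx hy => simp [hx, hy]
  | smul c x _ hx => simp [hx]

lemma trigO_odd {p : BoundedContinuousFunction E ℝ} (hp : p ∈ trigO E) (z : E) : p (-z) = -p z := by
  unfold trigO at hp
  induction hp using Submodule.span_induction with
  | mem x hx => obtain ⟨k, rfl⟩ := hx; simp
  | zero => simp
  | add x y _ _ hx hy => simp [hx, hy]; ring
  | smul c x _ hx => simp [hx]

end basic

variable {E : Type*} [NormedAddCommGroup E] [InnerProductSpace ℝ E] [CompleteSpace E]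
  [SecondCountableTopology E] [MeasurableSpace E] [BorelSpace E]

variable (μ : Measure E) [IsFiniteMeasure μ]

/-- a function orthogonal to all sines and cosines vanishes -/
lemma ae_zero_of_orth (g : Lp ℝ 2 μ) (hc : ∀ k : E, ∫ z, Real.cos (inner ℝ z k) * g z ∂μ = 0)
    (hs : ∀ k : E, ∫ z, Real.sin (inner ℝ z k) * g z ∂μ = 0) : g = 0 := by
  have hgm : AEStronglyMeasurable g μ := Lp.aestronglyMeasurable g
  have hgi : Integrable g μ := (Lp.memLp g).integrable (by norm_num)
  obtain ⟨g0, hg0m, hg0⟩ := hgm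
  have hg0i : Integrable g0 μ := hgi.congr hg0
  have hm : Measurable g0 := hg0m.measurable
  have hc0 : ∀ k : E, ∫ z, Real.cos (inner ℝ z k) * g0 z ∂μ = 0 := by
    intro k
    rw [← hc k]
    refine integral_congr_ae ?_
    filter_upwards [hg0] with z hz
    rw [hz]
  have hs0 : ∀ k : E, ∫ z, Real.sin (inner ℝ z k) * g0 z ∂μ = 0 := by
    intro k
    rw [← hs k]
    refine integral_congr_ae ?_
    filter_upwards [hg0] with z hz
    rw [hz]
  let μ1 := μ.withDensity fun z => ENNReal.ofReal (g0 z)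
  let μ2 := μ.withDensity fun z => ENNReal.ofReal (-g0 z)
  have f1 : IsFiniteMeasure μ1 := isFiniteMeasure_withDensity_ofReal hg0i.2
  have f2 : IsFiniteMeasure μ2 := isFiniteMeasure_withDensity_ofReal hg0i.neg.2
  have key : μ1 = μ2 := by
    apply Measure.ext_of_charFun
    ext t
    rw [charFun_apply, charFun_apply, integral_withDensity_eq_integral_toReal_smul (by fun_prop)
      (by simp), integral_withDensity_eq_integral_toReal_smul (by fun_prop) (by simp)]
    have hb : ∀ z : E, ‖Complex.exp ((inner ℝ z t : ℝ) * Complex.I)‖ = 1 := by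
      intro z
      rw [Complex.norm_exp_ofReal_mul_I]
    have hi1 : Integrable (fun z => (ENNReal.ofReal (g0 z)).toReal •
        Complex.exp ((inner ℝ z t : ℝ) * Complex.I)) μ := by
      refine Integrable.mono' hg0i.abs (by fun_prop) (Eventually.of_forall fun z => ?_)
      rw [norm_smul, hb, mul_one, ENNReal.toReal_ofReal', Real.norm_eq_abs]
      rcases le_total 0 (g0 z) with h | h
      · rw [max_eq_left h]
      · rw [max_eq_right h, abs_zero]; exact abs_nonneg _
    have hi2 : Integrable (fun z => (ENNReal.ofReal (-g0 z)).toReal •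
        Complex.exp ((inner ℝ z t : ℝ) * Complex.I)) μ := by
      refine Integrable.mono' hg0i.abs (by fun_prop) (Eventually.of_forall fun z => ?_)
      rw [norm_smul, hb, mul_one, ENNReal.toReal_ofReal', Real.norm_eq_abs]
      rcases le_total 0 (g0 z) with h | h
      · rw [max_eq_right (by linarith), abs_zero]; exact abs_nonneg _
      · rw [max_eq_left (by linarith), abs_neg]
    rw [← sub_eq_zero, ← integral_sub hi1 hi2]
    have e : ∀ z, ((ENNReal.ofReal (g0 z)).toReal • Complex.exp ((inner ℝ z t : ℝ) * Complex.I)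
        - (ENNReal.ofReal (-g0 z)).toReal • Complex.exp ((inner ℝ z t : ℝ) * Complex.I))
        = ((Real.cos (inner ℝ z t) * g0 z : ℝ) : ℂ)
          + ((Real.sin (inner ℝ z t) * g0 z : ℝ) : ℂ) * Complex.I := by
      intro z
      rw [← sub_smul, Complex.exp_mul_I, ENNReal.toReal_ofReal', ENNReal.toReal_ofReal']
      have : max (g0 z) 0 - max (-g0 z) 0 = g0 z := by
        rcases le_total 0 (g0 z) with h | h
        · rw [max_eq_left h, max_eq_right (by linarith)]; ring
        · rw [max_eq_right h, max_eq_left (by linarith)]; ring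
      rw [this, Complex.real_smul]
      push_cast
      ring
    simp_rw [e]
    have i1 : Integrable (fun z => Real.cos (inner ℝ z t) * g0 z) μ := by
      refine Integrable.mono' hg0i.abs (by fun_prop) (Eventually.of_forall fun z => ?_)
      rw [norm_mul]
      have := Real.abs_cos_le_one (inner ℝ z t)
      simp only [Real.norm_eq_abs]
      nlinarith [abs_nonneg (g0 z)]
    have i2 : Integrable (fun z => Real.sin (inner ℝ z t) * g0 z) μ := by
      refine Integrable.mono' hg0i.abs (by fun_prop) (Eventually.of_forall fun z => ?_)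
      rw [norm_mul]
      have := Real.abs_sin_le_one (inner ℝ z t)
      simp only [Real.norm_eq_abs]
      nlinarith [abs_nonneg (g0 z)]
    rw [integral_add i1.ofReal (i2.ofReal.mul_const _), integral_mul_const]
    rw [integral_complex_ofReal, integral_complex_ofReal, hc0, hs0]
    simp
  have h3 : (fun z => ENNReal.ofReal (g0 z)) =ᵐ[μ] fun z => ENNReal.ofReal (-g0 z) :=
    (withDensity_eq_iff_of_sigmaFinite (by fun_prop) (by fun_prop)).1 key
  have h4 : g0 =ᵐ[μ] 0 := by
    filter_upwards [h3] with z hz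
    by_contra hne
    rcases lt_or_gt_of_ne hne with h | h
    · have h5 : ENNReal.ofReal (g0 z) = 0 := ENNReal.ofReal_eq_zero.2 h.le
      rw [h5] at hz
      have h6 := ENNReal.ofReal_eq_zero.1 hz.symm
      simp only [Pi.zero_apply] at h
      linarith
    · have h5 : ENNReal.ofReal (-g0 z) = 0 := ENNReal.ofReal_eq_zero.2 (by
        simp only [Pi.zero_apply] at h; linarith)
      rw [h5] at hz
      have h6 := ENNReal.ofReal_eq_zero.1 hz
      simp only [Pi.zero_apply] at h
      linarith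
  exact Lp.ext ((hg0.trans h4).trans (Lp.coeFn_zero _ _ _).symm)


/-- trigonometric polynomials are dense in real `L^2` -/
lemma trig_dense : ((trigE E ⊔ trigO E).map
    (BoundedContinuousFunction.toLp (E := ℝ) 2 μ ℝ).toLinearMap).topologicalClosure = ⊤ := by
  rw [Submodule.topologicalClosure_eq_top_iff, Submodule.eq_bot_iff]
  intro g hg
  rw [Submodule.mem_orthogonal] at hg
  have h1 : ∀ p ∈ trigE E ⊔ trigO E, ∫ z, p z * g z ∂μ = 0 := by
    intro p hp
    have h2 := hg (BoundedContinuousFunction.toLp (E := ℝ) 2 μ ℝ p)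
      (Submodule.mem_map_of_mem (f := (BoundedContinuousFunction.toLp (E := ℝ) 2 μ ℝ).toLinearMap) hp)
    rw [L2.inner_def] at h2
    rw [← h2]
    refine integral_congr_ae ?_
    filter_upwards [BoundedContinuousFunction.coeFn_toLp (p := 2) (𝕜 := ℝ) (μ := μ) (f := p)] with z hz
    rw [hz]
    simp [mul_comm]
  refine ae_zero_of_orth μ g (fun k => ?_) fun k => ?_
  · exact h1 (cosB k) (Submodule.mem_sup_left (Submodule.subset_span ⟨k, rfl⟩))
  · exact h1 (sinB k) (Submodule.mem_sup_right (Submodule.subset_span ⟨k, rfl⟩))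

/-- approximation of bounded functions in the mean square -/
lemma exists_trig (f : E → ℝ) (hf : Measurable f) {C : ℝ} (hC : ∀ z, |f z| ≤ C) {ε : ℝ} (hε : 0 < ε) :
    ∃ p ∈ trigE E, ∃ q ∈ trigO E, ∫ z, (f z - (p z + q z)) ^ 2 ∂μ < ε := by
  have hfm : MemLp f 2 μ := MemLp.of_bound hf.aestronglyMeasurable C
    (Eventually.of_forall fun z => by simpa using hC z)
  have h1 : hfm.toLp f ∈ closure (((trigE E ⊔ trigO E).map
    (BoundedContinuousFunction.toLp (E := ℝ) 2 μ ℝ).toLinearMap : Submodule ℝ (Lp ℝ 2 μ)) :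
      Set (Lp ℝ 2 μ)) := by
    rw [← Submodule.topologicalClosure_coe, trig_dense]
    trivial
  obtain ⟨y, hy, hd⟩ := Metric.mem_closure_iff.1 h1 (Real.sqrt ε) (Real.sqrt_pos.2 hε)
  obtain ⟨r, hr, rfl⟩ := hy
  obtain ⟨p, hp, q, hq, rfl⟩ := Submodule.mem_sup.1 hr
  refine ⟨p, hp, q, hq, ?_⟩
  rw [dist_eq_norm] at hd
  have h2 : ‖hfm.toLp f - (BoundedContinuousFunction.toLp (E := ℝ) 2 μ ℝ) (p + q)‖ ^ 2
      = ∫ z, (f z - (p z + q z)) ^ 2 ∂μ := by
    rw [← real_inner_self_eq_norm_sq, L2.inner_def]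
    refine integral_congr_ae ?_
    filter_upwards [BoundedContinuousFunction.coeFn_toLp (p := 2) (𝕜 := ℝ) (μ := μ) (f := p + q),
      hfm.coeFn_toLp, Lp.coeFn_sub (hfm.toLp f)
        ((BoundedContinuousFunction.toLp (E := ℝ) 2 μ ℝ) (p + q))] with z h3 h4 h5
    rw [h5, Pi.sub_apply, h3, h4]
    simp
  rw [← h2]
  have h3 : ‖hfm.toLp f - (BoundedContinuousFunction.toLp (E := ℝ) 2 μ ℝ) (p + q)‖ ^ 2
      < Real.sqrt ε ^ 2 := by
    have h4 := norm_nonneg (hfm.toLp f - (BoundedContinuousFunction.toLp (E := ℝ) 2 μ ℝ) (p + q))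
    exact pow_lt_pow_left₀ hd h4 (by norm_num)
  rwa [Real.sq_sqrt hε.le] at h3

omit [CompleteSpace E] [SecondCountableTopology E] [InnerProductSpace ℝ E] in
lemma sym_le (a b : E → ℝ) (ha : Measurable a) (hb : Measurable b) {C : ℝ}
    (hC : ∀ z, |a z| ≤ C ∧ |b z| ≤ C) (hae : ∀ z, a (-z) = a z) (hbo : ∀ z, b (-z) = -b z) :
    ∫ z, (a z) ^ 2 ∂μ + ∫ z, (b z) ^ 2 ∂μ ≤ ∫ z, (a z + b z) ^ 2 ∂(μ + μ.map (fun z => -z)) := by
  have hbd : ∀ g : E → ℝ, Measurable g → ∀ D : ℝ, (∀ z, |g z| ≤ D) → Integrable g μ := fun g hg D hD =>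
    (MemLp.of_bound (p := 1) hg.aestronglyMeasurable D
      (Eventually.of_forall fun z => by simpa using hD z)).integrable le_rfl
  have hsq : ∀ x : ℝ, ∀ D : ℝ, |x| ≤ D → |x ^ 2| ≤ D ^ 2 := by
    intro x D h
    rw [abs_pow]
    exact pow_le_pow_left₀ (abs_nonneg _) h 2
  have ia : Integrable (fun z => (a z) ^ 2) μ := hbd _ (ha.pow_const 2) (C ^ 2) fun z => hsq _ _ (hC z).1
  have ib : Integrable (fun z => (b z) ^ 2) μ := hbd _ (hb.pow_const 2) (C ^ 2) fun z => hsq _ _ (hC z).2
  have hm : Measurable (fun z : E => (a z + b z) ^ 2) := (ha.add hb).pow_const 2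
  have hab : ∀ z, |(a z + b z) ^ 2| ≤ (C + C) ^ 2 := fun z => hsq _ _ ((abs_add_le _ _).trans
    (add_le_add (hC z).1 (hC z).2))
  have i1 : Integrable (fun z => (a z + b z) ^ 2) μ := hbd _ hm _ hab
  have i2 : Integrable (fun z => (a z + b z) ^ 2) (μ.map fun z => -z) := by
    rw [integrable_map_measure hm.aestronglyMeasurable measurable_neg.aemeasurable]
    exact hbd _ (hm.comp measurable_neg) ((C + C) ^ 2) fun z => hab _
  have i3 : Integrable (fun z => (a z - b z) ^ 2) μ := by
    refine hbd _ ((ha.sub hb).pow_const 2) ((C + C) ^ 2) fun z => hsq _ _ ?_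
    exact (abs_sub _ _).trans (add_le_add (hC z).1 (hC z).2)
  rw [integral_add_measure i1 i2, integral_map measurable_neg.aemeasurable hm.aestronglyMeasurable]
  have e1 : ∫ z, (a (-z) + b (-z)) ^ 2 ∂μ = ∫ z, (a z - b z) ^ 2 ∂μ := by
    refine integral_congr_ae (Eventually.of_forall fun z => ?_)
    simp only [hae, hbo]
    ring
  rw [e1, ← integral_add i1 i3, ← integral_add ia ib]
  refine integral_mono (ia.add ib) (i1.add i3) fun z => ?_
  simp only
  nlinarith [sq_nonneg (a z), sq_nonneg (b z)]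

/-- even version -/
lemma exists_trig_even (f : E → ℝ) (hf : Measurable f) {C : ℝ} (hC : ∀ z, |f z| ≤ C)
    (he : ∀ z, f (-z) = f z) {ε : ℝ} (hε : 0 < ε) :
    ∃ p ∈ trigE E, ∫ z, (f z - p z) ^ 2 ∂μ < ε := by
  obtain ⟨p, hp, q, hq, h⟩ := exists_trig (μ + μ.map (fun z => -z)) f hf hC hε
  refine ⟨p, hp, lt_of_le_of_lt ?_ h⟩
  have h1 := sym_le μ (fun z => f z - p z) (fun z => -q z) (hf.sub p.continuous.measurable)
    q.continuous.measurable.neg (C := C + ‖p‖ + ‖q‖) (fun z => ⟨?_, ?_⟩)
    (fun z => by simp [he, trigE_even hp]) (fun z => by simp [trigO_odd hq])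
  · have h2 : 0 ≤ ∫ z, (-q z) ^ 2 ∂μ := integral_nonneg fun z => sq_nonneg _
    have h3 : ∫ z, (f z - p z + -q z) ^ 2 ∂(μ + μ.map (fun z => -z))
        = ∫ z, (f z - (p z + q z)) ^ 2 ∂(μ + μ.map (fun z => -z)) := by
      refine integral_congr_ae (Eventually.of_forall fun z => ?_)
      simp only
      ring
    linarith
  · have h2 := p.norm_coe_le_norm z
    rw [Real.norm_eq_abs] at h2
    exact (abs_sub _ _).trans (by linarith [hC z, norm_nonneg q])
  · have h2 := q.norm_coe_le_norm z
    rw [Real.norm_eq_abs] at h2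
    have h3 : 0 ≤ C := (abs_nonneg _).trans (hC 0)
    rw [abs_neg]
    linarith [norm_nonneg p]

/-- odd version -/
lemma exists_trig_odd (f : E → ℝ) (hf : Measurable f) {C : ℝ} (hC : ∀ z, |f z| ≤ C)
    (he : ∀ z, f (-z) = -f z) {ε : ℝ} (hε : 0 < ε) :
    ∃ p ∈ trigO E, ∫ z, (f z - p z) ^ 2 ∂μ < ε := by
  obtain ⟨p, hp, q, hq, h⟩ := exists_trig (μ + μ.map (fun z => -z)) f hf hC hε
  refine ⟨q, hq, lt_of_le_of_lt ?_ h⟩
  have h1 := sym_le μ (fun z => -p z) (fun z => f z - q z) p.continuous.measurable.neg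
    (hf.sub q.continuous.measurable) (C := C + ‖p‖ + ‖q‖) (fun z => ⟨?_, ?_⟩)
    (fun z => by simp [trigE_even hp]) (fun z => by simp [he, trigO_odd hq]; ring)
  · have h2 : 0 ≤ ∫ z, (-p z) ^ 2 ∂μ := integral_nonneg fun z => sq_nonneg _
    have h3 : ∫ z, (-p z + (f z - q z)) ^ 2 ∂(μ + μ.map (fun z => -z))
        = ∫ z, (f z - (p z + q z)) ^ 2 ∂(μ + μ.map (fun z => -z)) := by
      refine integral_congr_ae (Eventually.of_forall fun z => ?_)
      simp only
      ring
    linarith
  · have h2 := p.norm_coe_le_norm z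
    rw [Real.norm_eq_abs] at h2
    have h3 : 0 ≤ C := (abs_nonneg _).trans (hC 0)
    rw [abs_neg]
    linarith [norm_nonneg q]
  · have h2 := q.norm_coe_le_norm z
    rw [Real.norm_eq_abs] at h2
    exact (abs_sub _ _).trans (by linarith [hC z, norm_nonneg p])

omit [InnerProductSpace ℝ E] [CompleteSpace E] [SecondCountableTopology E] in
/-- mean square approximation implies a.e. approximation along a sequence -/
lemma ae_seq (f : E → ℝ) (hf : Measurable f) {C : ℝ} (hC : ∀ z, |f z| ≤ C)
    (S : Submodule ℝ (BoundedContinuousFunction E ℝ))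
    (h : ∀ ε > 0, ∃ p ∈ S, ∫ z, (f z - p z) ^ 2 ∂μ < ε) :
    ∃ p : ℕ → BoundedContinuousFunction E ℝ, (∀ n, p n ∈ S) ∧
      ∀ᵐ z ∂μ, Tendsto (fun n => p n z) atTop (𝓝 (f z)) := by
  choose p hp hi using fun n : ℕ => h ((1 / 2) ^ n) (by positivity)
  refine ⟨p, hp, ?_⟩
  have hm : ∀ n, Measurable fun z => (f z - p n z) ^ 2 := fun n =>
    (hf.sub (p n).continuous.measurable).pow_const 2
  have hint : ∀ n, Integrable (fun z => (f z - p n z) ^ 2) μ := by
    intro n
    refine (MemLp.of_bound (p := 1) (hm n).aestronglyMeasurable ((C + ‖p n‖) ^ 2)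
      (Eventually.of_forall fun z => ?_)).integrable le_rfl
    have h2 := (p n).norm_coe_le_norm z
    rw [Real.norm_eq_abs] at h2
    rw [Real.norm_eq_abs, abs_pow]
    exact pow_le_pow_left₀ (abs_nonneg _) ((abs_sub _ _).trans (add_le_add (hC z) h2)) 2
  have h1 : ∫⁻ z, ∑' n, ENNReal.ofReal ((f z - p n z) ^ 2) ∂μ < ⊤ := by
    rw [lintegral_tsum fun n => (hm n).ennreal_ofReal.aemeasurable]
    have h2 : ∀ n, ∫⁻ z, ENNReal.ofReal ((f z - p n z) ^ 2) ∂μ ≤ ENNReal.ofReal ((1 / 2) ^ n) := by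
      intro n
      rw [← ofReal_integral_eq_lintegral_ofReal (hint n)
        (Eventually.of_forall fun z => sq_nonneg _)]
      exact ENNReal.ofReal_le_ofReal (hi n).le
    refine lt_of_le_of_lt (ENNReal.tsum_le_tsum h2) ?_
    rw [← ENNReal.ofReal_tsum_of_nonneg (fun n => by positivity)
      (summable_geometric_of_lt_one (by norm_num) (by norm_num))]
    exact ENNReal.ofReal_lt_top
  filter_upwards [ae_lt_top (Measurable.tsum fun n => (hm n).ennreal_ofReal) h1.ne] with z hz
  have h3 := ENNReal.tendsto_atTop_zero_of_tsum_ne_top hz.ne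
  have h4 : Tendsto (fun n => (f z - p n z) ^ 2) atTop (𝓝 0) := by
    have h5 := (ENNReal.tendsto_toReal ENNReal.zero_ne_top).comp h3
    simp only [ENNReal.toReal_zero] at h5
    refine h5.congr fun n => ?_
    simp only [Function.comp]
    rw [ENNReal.toReal_ofReal (sq_nonneg _)]
  have h5 : Tendsto (fun n => |f z - p n z|) atTop (𝓝 0) := by
    have h6 := h4.sqrt
    simp only [Real.sqrt_sq_eq_abs, Real.sqrt_zero] at h6
    exact h6
  have h6 := (tendsto_zero_iff_abs_tendsto_zero _).2 h5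
  have h7 := (tendsto_const_nhds (x := f z)).sub h6
  simpa using h7

lemma ae_seq_even (f : E → ℝ) (hf : Measurable f) {C : ℝ} (hC : ∀ z, |f z| ≤ C)
    (he : ∀ z, f (-z) = f z) :
    ∃ p : ℕ → BoundedContinuousFunction E ℝ, (∀ n, p n ∈ trigE E) ∧
      ∀ᵐ z ∂μ, Tendsto (fun n => p n z) atTop (𝓝 (f z)) :=
  ae_seq μ f hf hC _ fun _ hε => exists_trig_even μ f hf hC he hε

lemma ae_seq_odd (f : E → ℝ) (hf : Measurable f) {C : ℝ} (hC : ∀ z, |f z| ≤ C)
    (he : ∀ z, f (-z) = -f z) :
    ∃ p : ℕ → BoundedContinuousFunction E ℝ, (∀ n, p n ∈ trigO E) ∧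
      ∀ᵐ z ∂μ, Tendsto (fun n => p n z) atTop (𝓝 (f z)) :=
  ae_seq μ f hf hC _ fun _ hε => exists_trig_odd μ f hf hC he hε

end Vale.Agent.P367.B
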