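import Mathlib
import Vale.Agent.P367.B.Trotter
import Vale.Agent.P367.NI.Defs

/-! P367 block B, T1: words in the gates `B b`, `G k` are dense in the label dependent one-site
rotations (odd functions times `Z`, `Y`, even functions times `X`). -/

namespace Vale.Agent.P367.B

open Complex MeasureTheory Filter Topology
open Vale.Agent.P367.NI (Gate)
open scoped Matrix Matrix.Norms.L2Operator

/-- 2 x 2 matrices -/
abbrev M2 : Type := Matrix (Fin 2) (Fin 2) ℂ

/-- `exp(-i θ P)` for an involution `P` -/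
noncomputable def Er {𝔸 : Type*} [Ring 𝔸] [Algebra ℂ 𝔸] (P : 𝔸) (θ : ℝ) : 𝔸 :=
  (Real.cos θ : ℂ) • (1 : 𝔸) - (Complex.I * (Real.sin θ : ℂ)) • P

section alg

variable {𝔸 : Type*} [NormedRing 𝔸] [NormedAlgebra ℂ 𝔸] [CompleteSpace 𝔸]

omit [CompleteSpace 𝔸] in
lemma Er_add {P : 𝔸} (hP : P * P = 1) (a b : ℝ) : Er P a * Er P b = Er P (a + b) := by
  unfold Er
  rw [Real.cos_add, Real.sin_add]
  simp only [sub_mul, mul_sub, smul_mul_smul_comm, hP, one_mul, mul_one]
  push_cast
  have hI := Complex.I_mul_I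
  have e : (Complex.cos a : ℂ) * Complex.cos b + (Complex.I * (Complex.sin a : ℂ))
      * (Complex.I * (Complex.sin b : ℂ))
      = Complex.cos a * Complex.cos b - Complex.sin a * Complex.sin b := by
    linear_combination ((Complex.sin a : ℂ) * Complex.sin b) * hI
  rw [← e]
  module

/-- spectral homomorphism of an involution -/
noncomputable def specHom {P : 𝔸} (hP : P * P = 1) : ℂ × ℂ →ₐ[ℂ] 𝔸 :=
  AlgHom.ofLinearMap
    { toFun := fun z => (z.1 * (1 / 2)) • (1 + P) + (z.2 * (1 / 2)) • (1 - P)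
      map_add' := by
        intro x y
        simp only [Prod.fst_add, Prod.snd_add]
        module
      map_smul' := by
        intro c x
        simp only [Prod.smul_fst, Prod.smul_snd, smul_eq_mul, RingHom.id_apply]
        module }
    (by
      simp only [LinearMap.coe_mk, AddHom.coe_mk, Prod.fst_one, Prod.snd_one]
      module)
    (by
      intro x y
      simp only [LinearMap.coe_mk, AddHom.coe_mk, Prod.fst_mul, Prod.snd_mul]
      simp only [add_mul, mul_add, sub_mul, mul_sub, smul_mul_smul_comm, hP, one_mul, mul_one]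
      module)

omit [CompleteSpace 𝔸] in
lemma exp_inv {P : 𝔸} (hP : P * P = 1) (θ : ℝ) :
    NormedSpace.exp ((-(Complex.I * (θ : ℂ))) • P) = Er P θ := by
  let _ : NormedAlgebra ℚ 𝔸 := NormedAlgebra.restrictScalars ℚ ℂ 𝔸
  have hc : Continuous (specHom hP) := by
    have : (specHom hP : ℂ × ℂ → 𝔸)
        = fun z => (z.1 * (1 / 2)) • (1 + P) + (z.2 * (1 / 2)) • (1 - P) := rfl
    rw [this]
    fun_prop
  have h := NormedSpace.map_exp (specHom hP) hc (-(Complex.I * (θ : ℂ)), (Complex.I * (θ : ℂ)))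
  have e1 : specHom hP (-(Complex.I * (θ : ℂ)), (Complex.I * (θ : ℂ)))
      = (-(Complex.I * (θ : ℂ))) • P := by
    change ((-(Complex.I * (θ : ℂ))) * (1 / 2)) • (1 + P)
      + ((Complex.I * (θ : ℂ)) * (1 / 2)) • (1 - P) = _
    module
  rw [← e1, ← h]
  have f1 := Prod.fst_exp (-(Complex.I * (θ : ℂ)), (Complex.I * (θ : ℂ)))
  have f2 := Prod.snd_exp (-(Complex.I * (θ : ℂ)), (Complex.I * (θ : ℂ)))
  have e2 : ∀ x : ℂ × ℂ, specHom hP x
      = (x.1 * (1 / 2)) • (1 + P) + (x.2 * (1 / 2)) • (1 - P) := fun x => rfl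
  rw [e2, f1, f2]
  simp only
  rw [← Complex.exp_eq_exp_ℂ]
  have g1 : Complex.exp (-(Complex.I * (θ : ℂ))) = Real.cos θ - Complex.I * Real.sin θ := by
    rw [show -(Complex.I * (θ : ℂ)) = ((-θ : ℝ) : ℂ) * Complex.I by push_cast; ring,
      Complex.exp_mul_I]
    push_cast
    rw [Complex.cos_neg, Complex.sin_neg]
    ring
  have g2 : Complex.exp (Complex.I * (θ : ℂ)) = Real.cos θ + Complex.I * Real.sin θ := by
    rw [mul_comm, Complex.exp_mul_I]
    push_cast
    ring
  rw [g1, g2]
  unfold Er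
  module

end alg

/-! ### matrices -/

/-- Pauli matrices -/
def sX : M2 := !![0, 1; 1, 0]
def sY : M2 := !![0, -Complex.I; Complex.I, 0]
def sZ : M2 := !![1, 0; 0, -1]

lemma sX_sq : sX * sX = 1 := by
  ext i j; fin_cases i <;> fin_cases j <;> simp [sX, Matrix.mul_apply, Fin.sum_univ_two]

lemma sY_sq : sY * sY = 1 := by
  ext i j; fin_cases i <;> fin_cases j <;> simp [sY, Matrix.mul_apply, Fin.sum_univ_two]

lemma sZ_sq : sZ * sZ = 1 := by
  ext i j; fin_cases i <;> fin_cases j <;> simp [sZ, Matrix.mul_apply, Fin.sum_univ_two]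

/-- rotated Pauli matrix in the XY plane -/
noncomputable def sP (α : ℝ) : M2 := (Real.cos α : ℂ) • sX + (Real.sin α : ℂ) • sY

lemma cs1 (α : ℝ) : (Complex.cos α : ℂ) * Complex.cos α + Complex.sin α * Complex.sin α = 1 := by
  have := Complex.cos_sq_add_sin_sq (α : ℂ)
  linear_combination this

lemma sP_sq (α : ℝ) : sP α * sP α = 1 := by
  have h := cs1 α
  have hI := Complex.I_mul_I
  ext i j; fin_cases i <;> fin_cases j <;>
    simp [sP, sX, sY, Matrix.mul_apply, Fin.sum_univ_two]
  · linear_combination h - (Complex.sin α * Complex.sin α) * hI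
  · linear_combination h - (Complex.sin α * Complex.sin α) * hI

/-- conjugation by a `Z` rotation -/
lemma conj_Z (s θ : ℝ) : Er sZ s * Er sX θ * Er sZ (-s) = Er (sP (2 * s)) θ := by
  have h := cs1 s
  have hI := Complex.I_mul_I
  have h2 : Complex.cos (2 * s) = Complex.cos s * Complex.cos s - Complex.sin s * Complex.sin s := by
    rw [Complex.cos_two_mul]; linear_combination h
  have h3 : Complex.sin (2 * s) = 2 * Complex.sin s * Complex.cos s := Complex.sin_two_mul _
  ext i j; fin_cases i <;> fin_cases j <;>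
    simp [sP, sX, sY, sZ, Er, Matrix.mul_apply, Fin.sum_univ_two, h2, h3, Real.cos_neg,
      Real.sin_neg]
  · linear_combination (Complex.cos θ) * h - (Complex.cos θ * Complex.sin s * Complex.sin s) * hI
  · linear_combination (Complex.I * Complex.sin θ * Complex.sin s * Complex.sin s) * hI
  · linear_combination (Complex.I * Complex.sin θ * Complex.sin s * Complex.sin s) * hI
  · linear_combination (Complex.cos θ) * h - (Complex.cos θ * Complex.sin s * Complex.sin s) * hI

/-- conjugation by an `X` rotation by `π/4` turns `Y` into `Z` -/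
lemma conj_X (θ : ℝ) : Er sX (Real.pi / 4) * Er sY θ * Er sX (-(Real.pi / 4)) = Er sZ θ := by
  have h : ((Real.sqrt 2 : ℝ) : ℂ) * ((Real.sqrt 2 : ℝ) : ℂ) = 2 := by
    rw [← Complex.ofReal_mul, Real.mul_self_sqrt (by norm_num)]
    norm_num
  have hI := Complex.I_mul_I
  have c1 : ((Real.cos (Real.pi / 4) : ℝ) : ℂ) = ((Real.sqrt 2 : ℝ) : ℂ) / 2 := by
    rw [Real.cos_pi_div_four]; push_cast; ring
  have s1 : ((Real.sin (Real.pi / 4) : ℝ) : ℂ) = ((Real.sqrt 2 : ℝ) : ℂ) / 2 := by
    rw [Real.sin_pi_div_four]; push_cast; ring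
  unfold Er
  rw [Real.cos_neg, Real.sin_neg, Complex.ofReal_neg, c1, s1]
  set r : ℂ := ((Real.sqrt 2 : ℝ) : ℂ)
  set c : ℂ := ((Real.cos θ : ℝ) : ℂ)
  set t : ℂ := ((Real.sin θ : ℝ) : ℂ)
  ext i j; fin_cases i <;> fin_cases j <;>
    simp [sX, sY, sZ, Matrix.mul_apply, Fin.sum_univ_two]
  · linear_combination ((c * (1 - Complex.I * Complex.I)
      + 2 * Complex.I * Complex.I * Complex.I * t) / 4) * h + (-c / 2 + Complex.I * t) * hI
  · linear_combination (r * r / 4 * Complex.I * Complex.I * t) * hI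
  · linear_combination (-r * r / 4 * Complex.I * Complex.I * t) * hI
  · linear_combination ((c * (1 - Complex.I * Complex.I)
      - 2 * Complex.I * Complex.I * Complex.I * t) / 4) * h + (-c / 2 - Complex.I * t) * hI

/-! ### words -/

/-- matrix of a word at label `η` (`C` gates are ignored); the head of the list is the last gate -/
noncomputable def mw : List Gate → ℝ → M2
  | [], _ => 1
  | Gate.B b :: w, η => Er sX b * mw w η
  | Gate.G k :: w, η => Er sZ (k * η) * mw w η
  | Gate.C _ :: w, η => mw w η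

/-- words without `C` gates -/
def NoC (w : List Gate) : Prop := ∀ g ∈ w, ∀ c, g ≠ Gate.C c

lemma mw_append (w w' : List Gate) (η : ℝ) : mw (w ++ w') η = mw w η * mw w' η := by
  induction w with
  | nil => simp [mw]
  | cons g w ih =>
    cases g <;> simp [mw, ih, mul_assoc]

lemma NoC.append {w w' : List Gate} (h : NoC w) (h' : NoC w') : NoC (w ++ w') := by
  intro g hg c
  rcases List.mem_append.1 hg with hg | hg
  · exact h g hg c
  · exact h' g hg c

/-- repetition of a word -/
def rep (w : List Gate) : ℕ → List Gate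
  | 0 => []
  | n + 1 => w ++ rep w n

lemma mw_rep (w : List Gate) (n : ℕ) (η : ℝ) : mw (rep w n) η = mw w η ^ n := by
  induction n with
  | zero => simp [rep, mw]
  | succ n ih => rw [rep, mw_append, ih, pow_succ']

lemma NoC.rep {w : List Gate} (h : NoC w) (n : ℕ) : NoC (rep w n) := by
  induction n with
  | zero => intro g hg; simp [B.rep] at hg
  | succ n ih => exact h.append ih

lemma Er_star {P : M2} (hP : star P = P) (hP2 : P * P = 1) (θ : ℝ) : Er P θ ∈ unitary M2 := by
  have h1 : star (Er P θ) = Er P (-θ) := by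
    unfold Er
    rw [star_sub, star_smul, star_smul, hP, star_one]
    simp only [RCLike.star_def, map_mul, Complex.conj_I, Complex.conj_ofReal, Real.cos_neg,
      Real.sin_neg, Complex.ofReal_neg]
    module
  rw [Unitary.mem_iff, h1, Er_add hP2, Er_add hP2]
  have : Er P 0 = 1 := by simp [Er]
  constructor <;> simpa using this

lemma star_sX : star sX = sX := by
  ext i j; fin_cases i <;> fin_cases j <;> simp [sX]

lemma star_sZ : star sZ = sZ := by
  ext i j; fin_cases i <;> fin_cases j <;> simp [sZ]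

lemma star_sY : star sY = sY := by
  ext i j; fin_cases i <;> fin_cases j <;> simp [sY]

lemma mw_unitary (w : List Gate) (η : ℝ) : mw w η ∈ unitary M2 := by
  induction w with
  | nil => exact one_mem _
  | cons g w ih =>
    cases g with
    | B b => exact mul_mem (Er_star star_sX sX_sq b) ih
    | G k => exact mul_mem (Er_star star_sZ sZ_sq _) ih
    | C c => exact ih

lemma norm_of_unitary {A : M2} (h : A ∈ unitary M2) : ‖A‖ = 1 := by
  have := CStarRing.norm_of_mem_unitary h
  exact this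

lemma continuous_Er (P : M2) : Continuous (fun θ : ℝ => Er P θ) := by
  unfold Er
  fun_prop

lemma continuous_mw (w : List Gate) : Continuous (mw w) := by
  induction w with
  | nil => exact continuous_const
  | cons g w ih =>
    cases g with
    | B b => exact continuous_const.mul ih
    | G k => exact ((continuous_Er sZ).comp (continuous_const.mul continuous_id)).mul ih
    | C c => exact ih

/-- `U` is an `L¹` limit of words -/
structure Cls (μ : Measure ℝ) (U : ℝ → M2) : Prop where
  meas : AEStronglyMeasurable U μ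
  le : ∀ η, ‖U η‖ ≤ 1
  app : ∀ ε > 0, ∃ w, NoC w ∧ ∫ η, ‖mw w η - U η‖ ∂μ < ε

section cls

variable {μ : Measure ℝ} [IsFiniteMeasure μ]

lemma integrable_sub {U V : ℝ → M2} (hU : AEStronglyMeasurable U μ)
    (hV : AEStronglyMeasurable V μ) (h1 : ∀ η, ‖U η‖ ≤ 1) (h2 : ∀ η, ‖V η‖ ≤ 1) :
    Integrable (fun η => ‖U η - V η‖) μ := by
  refine Integrable.of_bound (hU.sub hV).norm 2 (ae_of_all _ fun η => ?_)
  rw [norm_norm]
  have := norm_sub_le (U η) (V η)
  linarith [h1 η, h2 η]

omit [IsFiniteMeasure μ] in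
lemma Cls.word {w : List Gate} (hw : NoC w) : Cls μ (mw w) where
  meas := (continuous_mw w).aestronglyMeasurable
  le η := (norm_of_unitary (mw_unitary w η)).le
  app ε hε := ⟨w, hw, by simpa using hε⟩

lemma mw_meas (w : List Gate) : AEStronglyMeasurable (mw w) μ :=
  (continuous_mw w).aestronglyMeasurable

lemma mw_le (w : List Gate) (η : ℝ) : ‖mw w η‖ ≤ 1 := (norm_of_unitary (mw_unitary w η)).le

lemma Cls.mul {U V : ℝ → M2} (hU : Cls μ U) (hV : Cls μ V) : Cls μ (fun η => U η * V η) where
  meas := hU.meas.mul hV.meas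
  le η := (norm_mul_le _ _).trans (mul_le_one₀ (hU.le η) (norm_nonneg _) (hV.le η))
  app ε hε := by
    obtain ⟨w, hw, h1⟩ := hU.app (ε / 2) (half_pos hε)
    obtain ⟨w', hw', h2⟩ := hV.app (ε / 2) (half_pos hε)
    refine ⟨w ++ w', hw.append hw', ?_⟩
    have i1 := integrable_sub (mw_meas (μ := μ) w) hU.meas (mw_le w) hU.le
    have i2 := integrable_sub (mw_meas (μ := μ) w') hV.meas (mw_le w') hV.le
    have : ∫ η, ‖mw (w ++ w') η - U η * V η‖ ∂μ
        ≤ ∫ η, (‖mw w η - U η‖ + ‖mw w' η - V η‖) ∂μ := by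
      refine integral_mono_of_nonneg (ae_of_all _ fun η => norm_nonneg _) (i1.add i2)
        (ae_of_all _ fun η => ?_)
      simp only [mw_append]
      have e : mw w η * mw w' η - U η * V η
          = (mw w η - U η) * mw w' η + U η * (mw w' η - V η) := by noncomm_ring
      rw [e]
      refine (norm_add_le _ _).trans (add_le_add ?_ ?_)
      · refine (norm_mul_le _ _).trans ?_
        exact mul_le_of_le_one_right (norm_nonneg _) (mw_le w' η)
      · refine (norm_mul_le _ _).trans ?_
        exact mul_le_of_le_one_left (norm_nonneg _) (hU.le η)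
    rw [integral_add i1 i2] at this
    linarith

/-- closure under pointwise limits -/
lemma Cls.lim {U : ℕ → ℝ → M2} {V : ℝ → M2} (hU : ∀ n, Cls μ (U n))
    (hV : ∀ η, ‖V η‖ ≤ 1) (h : ∀ᵐ η ∂μ, Tendsto (fun n => U n η) atTop (𝓝 (V η))) :
    Cls μ V where
  meas := aestronglyMeasurable_of_tendsto_ae atTop (fun n => (hU n).meas) h
  le := hV
  app ε hε := by
    have hVm : AEStronglyMeasurable V μ :=
      aestronglyMeasurable_of_tendsto_ae atTop (fun n => (hU n).meas) h
    have h0 : Tendsto (fun n => ∫ η, ‖U n η - V η‖ ∂μ) atTop (𝓝 (∫ _η : ℝ, (0 : ℝ) ∂μ)) := by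
      refine tendsto_integral_of_dominated_convergence (fun _ => 2)
        (fun n => ((hU n).meas.sub hVm).norm) (integrable_const 2)
        (fun n => ae_of_all _ fun η => ?_) ?_
      · rw [norm_norm]
        have := norm_sub_le (U n η) (V η)
        linarith [(hU n).le η, hV η]
      · filter_upwards [h] with η hη
        have := (hη.sub_const (V η)).norm
        simpa using this
    simp only [integral_zero] at h0
    obtain ⟨n, hn⟩ := (h0.eventually (gt_mem_nhds (half_pos hε))).exists
    obtain ⟨w, hw, h1⟩ := (hU n).app (ε / 2) (half_pos hε)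
    refine ⟨w, hw, ?_⟩
    have i1 := integrable_sub (mw_meas (μ := μ) w) (hU n).meas (mw_le w) (hU n).le
    have i2 := integrable_sub (hU n).meas hVm (hU n).le hV
    have : ∫ η, ‖mw w η - V η‖ ∂μ ≤ ∫ η, (‖mw w η - U n η‖ + ‖U n η - V η‖) ∂μ := by
      refine integral_mono_of_nonneg (ae_of_all _ fun η => norm_nonneg _) (i1.add i2)
        (ae_of_all _ fun η => ?_)
      exact norm_sub_le_norm_sub_add_norm_sub _ _ _
    rw [integral_add i1 i2] at this
    linarith

end cls

/-! ### generators -/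

/-- word of a rotated `X` rotation -/
noncomputable def wP (s θ : ℝ) : List Gate := [Gate.G (s / 2), Gate.B θ, Gate.G (-(s / 2))]

lemma noC_wP (s θ : ℝ) : NoC (wP s θ) := by
  intro g hg c
  simp only [wP, List.mem_cons, List.not_mem_nil, or_false] at hg
  rcases hg with rfl | rfl | rfl <;> simp

lemma mw_wP (s θ η : ℝ) : mw (wP s θ) η = Er (sP (s * η)) θ := by
  have h := conj_Z (s / 2 * η) θ
  have e : 2 * (s / 2 * η) = s * η := by ring
  rw [e] at h
  simp only [wP, mw, mul_one]
  rw [← h, mul_assoc]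
  congr 3
  ring

lemma exp_scaled {P : M2} (hP : P * P = 1) (t : ℝ) (m : ℕ) :
    NormedSpace.exp (((m : ℂ)⁻¹) • ((-(Complex.I * (t : ℂ))) • P)) = Er P (t / m) := by
  rw [← exp_inv hP, smul_smul]
  congr 2
  push_cast
  ring

lemma trot {P Q : M2} (hP : P * P = 1) (hQ : Q * Q = 1) (t u : ℝ) :
    Tendsto (fun m : ℕ => (Er P (t / m) * Er Q (u / m)) ^ m) atTop
      (𝓝 (NormedSpace.exp ((-(Complex.I * (t : ℂ))) • P + (-(Complex.I * (u : ℂ))) • Q))) := by
  have h1 : ‖(1 : M2)‖ ≤ 1 := (norm_of_unitary (one_mem _)).le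
  have h := lie_trotter h1 ((-(Complex.I * (t : ℂ))) • P) ((-(Complex.I * (u : ℂ))) • Q)
  simp_rw [exp_scaled hP, exp_scaled hQ] at h
  exact h

variable {μ : Measure ℝ} [IsFiniteMeasure μ]

lemma norm_Er_le {P : M2} (hs : star P = P) (hP : P * P = 1) (θ : ℝ) : ‖Er P θ‖ ≤ 1 :=
  (norm_of_unitary (Er_star hs hP θ)).le

lemma cls_X_cos (s t : ℝ) : Cls μ (fun η => Er sX (t * Real.cos (s * η))) := by
  refine Cls.lim (U := fun m η => mw (rep (wP s (t / 2 / m) ++ wP (-s) (t / 2 / m)) m) η)
    (fun m => Cls.word (((noC_wP _ _).append (noC_wP _ _)).rep m))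
    (fun η => norm_Er_le star_sX sX_sq _) (ae_of_all _ fun η => ?_)
  simp only [mw_rep, mw_append, mw_wP]
  have h := trot (sP_sq (s * η)) (sP_sq (-s * η)) (t / 2) (t / 2)
  convert h using 2
  rw [← exp_inv sX_sq]
  congr 1
  have : sP (s * η) + sP (-s * η) = (2 * Real.cos (s * η) : ℂ) • sX := by
    unfold sP
    have e : -s * η = -(s * η) := by ring
    rw [e, Real.cos_neg, Real.sin_neg]
    push_cast
    module
  rw [← smul_add, this, smul_smul]
  congr 1
  push_cast
  ring

lemma cls_Y_sin (s t : ℝ) : Cls μ (fun η => Er sY (t * Real.sin (s * η))) := by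
  refine Cls.lim (U := fun m η => mw (rep (wP s (t / 2 / m) ++ wP (-s) (-(t / 2) / m)) m) η)
    (fun m => Cls.word (((noC_wP _ _).append (noC_wP _ _)).rep m))
    (fun η => norm_Er_le star_sY sY_sq _) (ae_of_all _ fun η => ?_)
  simp only [mw_rep, mw_append, mw_wP]
  have h := trot (sP_sq (s * η)) (sP_sq (-s * η)) (t / 2) (-(t / 2))
  convert h using 2
  rw [← exp_inv sY_sq]
  congr 1
  unfold sP
  have e : -s * η = -(s * η) := by ring
  rw [e, Real.cos_neg, Real.sin_neg]
  push_cast
  module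

lemma cls_B (b : ℝ) : Cls μ (fun _ => Er sX b) := by
  have h : Cls μ (mw [Gate.B b]) := Cls.word (by intro g hg c; simp at hg; simp [hg])
  have e : mw [Gate.B b] = fun _ => Er sX b := by
    funext η; simp [mw]
  rwa [e] at h

lemma cls_Z_of_Y {f : ℝ → ℝ} (h : Cls μ (fun η => Er sY (f η))) :
    Cls μ (fun η => Er sZ (f η)) := by
  have h2 := ((cls_B (μ := μ) (Real.pi / 4)).mul h).mul (cls_B (μ := μ) (-(Real.pi / 4)))
  have e : (fun η => Er sX (Real.pi / 4) * Er sY (f η) * Er sX (-(Real.pi / 4)))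
      = fun η => Er sZ (f η) := by
    funext η; exact conj_X _
  rwa [e] at h2

lemma cls_add {P : M2} (hP : P * P = 1) {f g : ℝ → ℝ} (hf : Cls μ (fun η => Er P (f η)))
    (hg : Cls μ (fun η => Er P (g η))) : Cls μ (fun η => Er P (f η + g η)) := by
  have h := hf.mul hg
  have e : (fun η => Er P (f η) * Er P (g η)) = fun η => Er P (f η + g η) := by
    funext η; exact Er_add hP _ _
  rwa [e] at h

lemma norm_Er_sub_le {P : M2} (hs : star P = P) (hP : P * P = 1) (a b : ℝ) :
    ‖Er P a - Er P b‖ ≤ 2 * |a - b| := by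
  have hn : ‖P‖ ≤ 1 := by
    refine (norm_of_unitary ?_).le
    rw [Unitary.mem_iff, hs]
    exact ⟨hP, hP⟩
  have h1 : ‖(1 : M2)‖ ≤ 1 := (norm_of_unitary (one_mem _)).le
  have e : Er P a - Er P b = ((Real.cos a - Real.cos b : ℝ) : ℂ) • (1 : M2)
      - (Complex.I * ((Real.sin a - Real.sin b : ℝ) : ℂ)) • P := by
    unfold Er
    push_cast
    module
  rw [e]
  refine (norm_sub_le _ _).trans ?_
  rw [norm_smul, norm_smul, norm_mul, Complex.norm_I, one_mul, Complex.norm_real,
    Complex.norm_real, Real.norm_eq_abs, Real.norm_eq_abs]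
  have c1 : |Real.cos a - Real.cos b| ≤ |a - b| := by
    have := Real.abs_cos_sub_cos_le a b
    exact this
  have c2 : |Real.sin a - Real.sin b| ≤ |a - b| := by
    have := Real.abs_sin_sub_sin_le a b
    exact this
  have n1 : |Real.cos a - Real.cos b| * ‖(1 : M2)‖ ≤ |a - b| * 1 :=
    mul_le_mul c1 h1 (norm_nonneg _) (abs_nonneg _)
  have n2 : |Real.sin a - Real.sin b| * ‖P‖ ≤ |a - b| * 1 :=
    mul_le_mul c2 hn (norm_nonneg _) (abs_nonneg _)
  linarith

/-- trigonometric sum -/
noncomputable def trg : List (ℝ × ℝ × ℝ) → ℝ → ℝ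
  | [], _ => 0
  | (a, b, s) :: l, η => (a * Real.cos (s * η) + b * Real.sin (s * η)) + trg l η

lemma continuous_trg (l : List (ℝ × ℝ × ℝ)) : Continuous (trg l) := by
  induction l with
  | nil => exact continuous_const
  | cons x l ih =>
    obtain ⟨a, b, s⟩ := x
    have : trg ((a, b, s) :: l)
        = fun η => (a * Real.cos (s * η) + b * Real.sin (s * η)) + trg l η := rfl
    rw [this]
    fun_prop

/-- even part of a trigonometric sum -/
def evn (l : List (ℝ × ℝ × ℝ)) : List (ℝ × ℝ × ℝ) := l.map fun x => (x.1, 0, x.2.2)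

/-- odd part of a trigonometric sum -/
def odn (l : List (ℝ × ℝ × ℝ)) : List (ℝ × ℝ × ℝ) := l.map fun x => (0, x.2.1, x.2.2)

lemma trg_evn (l : List (ℝ × ℝ × ℝ)) (η : ℝ) : trg (evn l) η = (trg l η + trg l (-η)) / 2 := by
  induction l with
  | nil => simp [evn, trg]
  | cons x l ih =>
    obtain ⟨a, b, s⟩ := x
    have e : s * -η = -(s * η) := by ring
    have h1 : trg (evn ((a, b, s) :: l)) η
        = (a * Real.cos (s * η) + 0 * Real.sin (s * η)) + trg (evn l) η := rfl
    have h2 : ∀ η, trg ((a, b, s) :: l) η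
        = (a * Real.cos (s * η) + b * Real.sin (s * η)) + trg l η := fun η => rfl
    rw [h1, h2, h2, ih, e, Real.cos_neg, Real.sin_neg]
    ring

lemma trg_odn (l : List (ℝ × ℝ × ℝ)) (η : ℝ) : trg (odn l) η = (trg l η - trg l (-η)) / 2 := by
  induction l with
  | nil => simp [odn, trg]
  | cons x l ih =>
    obtain ⟨a, b, s⟩ := x
    have e : s * -η = -(s * η) := by ring
    have h1 : trg (odn ((a, b, s) :: l)) η
        = (0 * Real.cos (s * η) + b * Real.sin (s * η)) + trg (odn l) η := rfl
    have h2 : ∀ η, trg ((a, b, s) :: l) η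
        = (a * Real.cos (s * η) + b * Real.sin (s * η)) + trg l η := fun η => rfl
    rw [h1, h2, h2, ih, e, Real.cos_neg, Real.sin_neg]
    ring

lemma cls_trg_X (l : List (ℝ × ℝ × ℝ)) : Cls μ (fun η => Er sX (trg (evn l) η)) := by
  induction l with
  | nil =>
    have : (fun η => Er sX (trg (evn []) η)) = mw [] := by
      funext η
      simp [evn, trg, mw, Er]
    rw [this]
    exact Cls.word (by intro g hg; simp at hg)
  | cons x l ih =>
    obtain ⟨a, b, s⟩ := x
    have h := cls_add sX_sq (cls_X_cos (μ := μ) s a) ih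
    have e : (fun η => Er sX (trg (evn ((a, b, s) :: l)) η))
        = fun η => Er sX (a * Real.cos (s * η) + trg (evn l) η) := by
      funext η
      congr 1
      have h1 : trg (evn ((a, b, s) :: l)) η
        = (a * Real.cos (s * η) + 0 * Real.sin (s * η)) + trg (evn l) η := rfl
      rw [h1]; ring
    rwa [e]

lemma cls_trg_Y (l : List (ℝ × ℝ × ℝ)) : Cls μ (fun η => Er sY (trg (odn l) η)) := by
  induction l with
  | nil =>
    have : (fun η => Er sY (trg (odn []) η)) = mw [] := by
      funext η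
      simp [odn, trg, mw, Er]
    rw [this]
    exact Cls.word (by intro g hg; simp at hg)
  | cons x l ih =>
    obtain ⟨a, b, s⟩ := x
    have h := cls_add sY_sq (cls_Y_sin (μ := μ) s b) ih
    have e : (fun η => Er sY (trg (odn ((a, b, s) :: l)) η))
        = fun η => Er sY (b * Real.sin (s * η) + trg (odn l) η) := by
      funext η
      congr 1
      have h1 : trg (odn ((a, b, s) :: l)) η
        = (0 * Real.cos (s * η) + b * Real.sin (s * η)) + trg (odn l) η := rfl
      rw [h1]; ring
    rwa [e]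

/-- `L¹` closedness -/
lemma Cls.of_near {U : ℝ → M2} (hm : AEStronglyMeasurable U μ) (hU : ∀ η, ‖U η‖ ≤ 1)
    (h : ∀ ε > 0, ∃ V, Cls μ V ∧ ∫ η, ‖V η - U η‖ ∂μ < ε) : Cls μ U where
  meas := hm
  le := hU
  app ε hε := by
    obtain ⟨V, hV, h1⟩ := h (ε / 2) (half_pos hε)
    obtain ⟨w, hw, h2⟩ := hV.app (ε / 2) (half_pos hε)
    refine ⟨w, hw, ?_⟩
    have i1 := integrable_sub (mw_meas (μ := μ) w) hV.meas (mw_le w) hV.le
    have i2 := integrable_sub hV.meas hm hV.le hU
    have : ∫ η, ‖mw w η - U η‖ ∂μ ≤ ∫ η, (‖mw w η - V η‖ + ‖V η - U η‖) ∂μ := by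
      refine integral_mono_of_nonneg (ae_of_all _ fun η => norm_nonneg _) (i1.add i2)
        (ae_of_all _ fun η => ?_)
      exact norm_sub_le_norm_sub_add_norm_sub _ _ _
    rw [integral_add i1 i2] at this
    linarith

end Vale.Agent.P367.B
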