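import Vale.Agent.P367.B.Dens1
import Vale.Agent.P367.B.T1

/-! P367 block B: words in `exp(-i b X)` and `exp(-i (k.z) Z)` are dense (in `L^1(mu)`, a.e. along
sequences) in the equivariant maps `u : E -> SU(2)`, `u(-z) = X u(z) X`; any number of fields. -/

namespace Vale.Agent.P367.B

open Complex MeasureTheory Filter Topology RealInnerProductSpace
open scoped Matrix Matrix.Norms.L2Operator

set_option linter.dupNamespace false in
/-- label gates with label directions in `κ` -/
inductive LG (κ : Type*) : Type _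
  | B (b : ℝ) : LG κ
  | G (k : κ) : LG κ

section words

variable {E : Type*} [NormedAddCommGroup E] [InnerProductSpace ℝ E]

/-- matrix of a word at label `z`; the head of the list is the last gate -/
noncomputable def lw : List (LG E) → E → M2
  | [], _ => 1
  | LG.B b :: w, z => Er sX b * lw w z
  | LG.G k :: w, z => Er sZ (inner ℝ z k) * lw w z

lemma lw_append (w w' : List (LG E)) (z : E) : lw (w ++ w') z = lw w z * lw w' z := by
  induction w with
  | nil => simp [lw]
  | cons g w ih =>
    cases g <;> simp [lw, ih, mul_assoc]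

/-- repetition of a word -/
def lrep (w : List (LG E)) : ℕ → List (LG E)
  | 0 => []
  | n + 1 => w ++ lrep w n

lemma lw_rep (w : List (LG E)) (n : ℕ) (z : E) : lw (lrep w n) z = lw w z ^ n := by
  induction n with
  | zero => simp [lrep, lw]
  | succ n ih => rw [lrep, lw_append, ih, pow_succ']

lemma lw_unitary (w : List (LG E)) (z : E) : lw w z ∈ unitary M2 := by
  induction w with
  | nil => exact one_mem _
  | cons g w ih =>
    cases g with
    | B b => exact mul_mem (Er_star star_sX sX_sq b) ih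
    | G k => exact mul_mem (Er_star star_sZ sZ_sq _) ih

lemma continuous_lw (w : List (LG E)) : Continuous (lw w) := by
  induction w with
  | nil => exact continuous_const
  | cons g w ih =>
    cases g with
    | B b => exact continuous_const.mul ih
    | G k =>
      have h : Continuous fun z : E => Er sZ (inner ℝ z k) := (continuous_Er sZ).comp (by fun_prop)
      exact h.mul ih

lemma lw_le (w : List (LG E)) (z : E) : ‖lw w z‖ ≤ 1 := (norm_of_unitary (lw_unitary w z)).le

end words

variable {E : Type*} [NormedAddCommGroup E] [InnerProductSpace ℝ E] [CompleteSpace E]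
  [SecondCountableTopology E] [MeasurableSpace E] [BorelSpace E]

/-- `U` is an `L¹` limit of words -/
structure ClsE (μ : Measure E) (U : E → M2) : Prop where
  meas : AEStronglyMeasurable U μ
  le : ∀ z, ‖U z‖ ≤ 1
  app : ∀ ε > 0, ∃ w, ∫ z, ‖lw w z - U z‖ ∂μ < ε

variable {μ : Measure E} [IsFiniteMeasure μ]

omit [NormedAddCommGroup E] [CompleteSpace E] [InnerProductSpace ℝ E] [SecondCountableTopology E]
  [BorelSpace E] in
lemma integrable_subE {U V : E → M2} (hU : AEStronglyMeasurable U μ)
    (hV : AEStronglyMeasurable V μ) (h1 : ∀ z, ‖U z‖ ≤ 1) (h2 : ∀ z, ‖V z‖ ≤ 1) :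
    Integrable (fun z => ‖U z - V z‖) μ := by
  refine Integrable.of_bound (hU.sub hV).norm 2 (ae_of_all _ fun z => ?_)
  rw [norm_norm]
  have := norm_sub_le (U z) (V z)
  linarith [h1 z, h2 z]

omit [CompleteSpace E] [IsFiniteMeasure μ] [SecondCountableTopology E] in
lemma lw_meas (w : List (LG E)) : AEStronglyMeasurable (lw w) μ :=
  (continuous_lw w).stronglyMeasurable.aestronglyMeasurable

omit [CompleteSpace E] [IsFiniteMeasure μ] in
lemma ClsE.word (w : List (LG E)) : ClsE μ (lw w) where
  meas := lw_meas w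
  le z := lw_le w z
  app ε hε := ⟨w, by simpa using hε⟩

omit [CompleteSpace E] in
lemma ClsE.mul {U V : E → M2} (hU : ClsE μ U) (hV : ClsE μ V) : ClsE μ (fun z => U z * V z) where
  meas := hU.meas.mul hV.meas
  le z := (norm_mul_le _ _).trans (mul_le_one₀ (hU.le z) (norm_nonneg _) (hV.le z))
  app ε hε := by
    obtain ⟨w, h1⟩ := hU.app (ε / 2) (half_pos hε)
    obtain ⟨w', h2⟩ := hV.app (ε / 2) (half_pos hε)
    refine ⟨w ++ w', ?_⟩
    have i1 := integrable_subE (lw_meas (μ := μ) w) hU.meas (lw_le w) hU.le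
    have i2 := integrable_subE (lw_meas (μ := μ) w') hV.meas (lw_le w') hV.le
    have : ∫ z, ‖lw (w ++ w') z - U z * V z‖ ∂μ
        ≤ ∫ z, (‖lw w z - U z‖ + ‖lw w' z - V z‖) ∂μ := by
      refine integral_mono_of_nonneg (ae_of_all _ fun z => norm_nonneg _) (i1.add i2)
        (ae_of_all _ fun z => ?_)
      simp only [lw_append]
      have e : lw w z * lw w' z - U z * V z
          = (lw w z - U z) * lw w' z + U z * (lw w' z - V z) := by noncomm_ring
      rw [e]
      refine (norm_add_le _ _).trans (add_le_add ?_ ?_)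
      · refine (norm_mul_le _ _).trans ?_
        exact mul_le_of_le_one_right (norm_nonneg _) (lw_le w' z)
      · refine (norm_mul_le _ _).trans ?_
        exact mul_le_of_le_one_left (norm_nonneg _) (hU.le z)
    rw [integral_add i1 i2] at this
    linarith

omit [CompleteSpace E] in
/-- closure under a.e. limits -/
lemma ClsE.lim {U : ℕ → E → M2} {V : E → M2} (hU : ∀ n, ClsE μ (U n))
    (hV : ∀ z, ‖V z‖ ≤ 1) (h : ∀ᵐ z ∂μ, Tendsto (fun n => U n z) atTop (𝓝 (V z))) :
    ClsE μ V where
  meas := aestronglyMeasurable_of_tendsto_ae atTop (fun n => (hU n).meas) h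
  le := hV
  app ε hε := by
    have hVm : AEStronglyMeasurable V μ :=
      aestronglyMeasurable_of_tendsto_ae atTop (fun n => (hU n).meas) h
    have h0 : Tendsto (fun n => ∫ z, ‖U n z - V z‖ ∂μ) atTop (𝓝 (∫ _z : E, (0 : ℝ) ∂μ)) := by
      refine tendsto_integral_of_dominated_convergence (fun _ => 2)
        (fun n => ((hU n).meas.sub hVm).norm) (integrable_const 2)
        (fun n => ae_of_all _ fun z => ?_) ?_
      · rw [norm_norm]
        have := norm_sub_le (U n z) (V z)
        linarith [(hU n).le z, hV z]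
      · filter_upwards [h] with z hz
        have := (hz.sub_const (V z)).norm
        simpa using this
    simp only [integral_zero] at h0
    obtain ⟨n, hn⟩ := (h0.eventually (gt_mem_nhds (half_pos hε))).exists
    obtain ⟨w, h1⟩ := (hU n).app (ε / 2) (half_pos hε)
    refine ⟨w, ?_⟩
    have i1 := integrable_subE (lw_meas (μ := μ) w) (hU n).meas (lw_le w) (hU n).le
    have i2 := integrable_subE (hU n).meas hVm (hU n).le hV
    have : ∫ z, ‖lw w z - V z‖ ∂μ ≤ ∫ z, (‖lw w z - U n z‖ + ‖U n z - V z‖) ∂μ := by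
      refine integral_mono_of_nonneg (ae_of_all _ fun z => norm_nonneg _) (i1.add i2)
        (ae_of_all _ fun z => ?_)
      exact norm_sub_le_norm_sub_add_norm_sub _ _ _
    rw [integral_add i1 i2] at this
    linarith

/-- word of a rotated `X` rotation -/
noncomputable def wPE (k : E) (θ : ℝ) : List (LG E) :=
  [LG.G ((1 / 2 : ℝ) • k), LG.B θ, LG.G (-((1 / 2 : ℝ) • k))]

omit [CompleteSpace E] [SecondCountableTopology E] [MeasurableSpace E] [BorelSpace E] in
lemma lw_wPE (k : E) (θ : ℝ) (z : E) : lw (wPE k θ) z = Er (sP (inner ℝ z k)) θ := by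
  have h := conj_Z (1 / 2 * inner ℝ z k) θ
  have e : 2 * (1 / 2 * inner ℝ z k) = inner ℝ z k := by ring
  rw [e] at h
  simp only [wPE, lw, mul_one, inner_neg_right, inner_smul_right]
  rw [← h, mul_assoc]

omit [CompleteSpace E] in
lemma clsE_X_cos (k : E) (t : ℝ) : ClsE μ (fun z => Er sX (t * Real.cos (inner ℝ z k))) := by
  refine ClsE.lim (U := fun m z => lw (lrep (wPE k (t / 2 / m) ++ wPE (-k) (t / 2 / m)) m) z)
    (fun m => ClsE.word _)
    (fun z => norm_Er_le star_sX sX_sq _) (ae_of_all _ fun z => ?_)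
  simp only [lw_rep, lw_append, lw_wPE]
  have h := trot (sP_sq (inner ℝ z k)) (sP_sq (inner ℝ z (-k))) (t / 2) (t / 2)
  convert h using 2
  rw [← exp_inv sX_sq]
  congr 1
  have : sP (inner ℝ z k) + sP (inner ℝ z (-k)) = (2 * Real.cos (inner ℝ z k) : ℂ) • sX := by
    unfold sP
    rw [inner_neg_right, Real.cos_neg, Real.sin_neg]
    push_cast
    module
  rw [← smul_add, this, smul_smul]
  congr 1
  push_cast
  ring

omit [CompleteSpace E] in
lemma clsE_Y_sin (k : E) (t : ℝ) : ClsE μ (fun z => Er sY (t * Real.sin (inner ℝ z k))) := by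
  refine ClsE.lim (U := fun m z => lw (lrep (wPE k (t / 2 / m) ++ wPE (-k) (-(t / 2) / m)) m) z)
    (fun m => ClsE.word _)
    (fun z => norm_Er_le star_sY sY_sq _) (ae_of_all _ fun z => ?_)
  simp only [lw_rep, lw_append, lw_wPE]
  have h := trot (sP_sq (inner ℝ z k)) (sP_sq (inner ℝ z (-k))) (t / 2) (-(t / 2))
  convert h using 2
  rw [← exp_inv sY_sq]
  congr 1
  unfold sP
  rw [inner_neg_right, Real.cos_neg, Real.sin_neg]
  push_cast
  module

omit [CompleteSpace E] [IsFiniteMeasure μ] in
lemma clsE_B (b : ℝ) : ClsE μ (fun _ => Er sX b) := by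
  have h : ClsE μ (lw [LG.B b]) := ClsE.word _
  have e : lw [LG.B b] = fun _ : E => Er sX b := by
    funext z; simp [lw]
  rwa [e] at h

omit [CompleteSpace E] in
lemma clsE_Z_of_Y {f : E → ℝ} (h : ClsE μ (fun z => Er sY (f z))) :
    ClsE μ (fun z => Er sZ (f z)) := by
  have h2 := ((clsE_B (μ := μ) (Real.pi / 4)).mul h).mul (clsE_B (μ := μ) (-(Real.pi / 4)))
  have e : (fun z => Er sX (Real.pi / 4) * Er sY (f z) * Er sX (-(Real.pi / 4)))
      = fun z => Er sZ (f z) := by
    funext z; exact conj_X _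
  rwa [e] at h2

omit [CompleteSpace E] in
lemma clsE_add {P : M2} (hP : P * P = 1) {f g : E → ℝ} (hf : ClsE μ (fun z => Er P (f z)))
    (hg : ClsE μ (fun z => Er P (g z))) : ClsE μ (fun z => Er P (f z + g z)) := by
  have h := hf.mul hg
  have e : (fun z => Er P (f z) * Er P (g z)) = fun z => Er P (f z + g z) := by
    funext z; exact Er_add hP _ _
  rwa [e] at h

omit [CompleteSpace E] [IsFiniteMeasure μ] in
lemma clsE_one : ClsE μ (fun _ => (1 : M2)) := by
  have h : ClsE μ (lw []) := ClsE.word _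
  exact h

omit [CompleteSpace E] in
/-- even trigonometric polynomials times `X` -/
lemma clsE_trigE {p : BoundedContinuousFunction E ℝ} (hp : p ∈ trigE E) (t : ℝ) :
    ClsE μ (fun z => Er sX (t * p z)) := by
  unfold trigE at hp
  induction hp using Submodule.span_induction generalizing t with
  | mem x hx => obtain ⟨k, rfl⟩ := hx; simpa using clsE_X_cos k t
  | zero =>
    have : (fun z : E => Er sX (t * (0 : BoundedContinuousFunction E ℝ) z)) = fun _ => (1 : M2) := by
      funext z; simp [Er]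
    rw [this]
    exact clsE_one
  | add x y _ _ hx hy =>
    have h := clsE_add sX_sq (hx t) (hy t)
    have e : (fun z : E => Er sX (t * (x + y) z)) = fun z => Er sX (t * x z + t * y z) := by
      funext z; simp [mul_add]
    rwa [e]
  | smul c x _ hx =>
    have h := hx (t * c)
    have e : (fun z : E => Er sX (t * (c • x) z)) = fun z => Er sX (t * c * x z) := by
      funext z; simp [mul_assoc]
    rwa [e]

omit [CompleteSpace E] in
/-- odd trigonometric polynomials times `Y` -/
lemma clsE_trigO {p : BoundedContinuousFunction E ℝ} (hp : p ∈ trigO E) (t : ℝ) :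
    ClsE μ (fun z => Er sY (t * p z)) := by
  unfold trigO at hp
  induction hp using Submodule.span_induction generalizing t with
  | mem x hx => obtain ⟨k, rfl⟩ := hx; simpa using clsE_Y_sin k t
  | zero =>
    have : (fun z : E => Er sY (t * (0 : BoundedContinuousFunction E ℝ) z)) = fun _ => (1 : M2) := by
      funext z; simp [Er]
    rw [this]
    exact clsE_one
  | add x y _ _ hx hy =>
    have h := clsE_add sY_sq (hx t) (hy t)
    have e : (fun z : E => Er sY (t * (x + y) z)) = fun z => Er sY (t * x z + t * y z) := by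
      funext z; simp [mul_add]
    rwa [e]
  | smul c x _ hx =>
    have h := hx (t * c)
    have e : (fun z : E => Er sY (t * (c • x) z)) = fun z => Er sY (t * c * x z) := by
      funext z; simp [mul_assoc]
    rwa [e]

/-- even functions times `X` -/
lemma clsE_X {f : E → ℝ} (hf : Measurable f) {C : ℝ} (hC : ∀ z, |f z| ≤ C)
    (he : ∀ z, f (-z) = f z) (t : ℝ) : ClsE μ (fun z => Er sX (t * f z)) := by
  obtain ⟨p, hp, h⟩ := ae_seq_even μ f hf hC he
  refine ClsE.lim (fun n => clsE_trigE (hp n) t) (fun z => norm_Er_le star_sX sX_sq _) ?_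
  filter_upwards [h] with z hz
  exact ((continuous_Er sX).tendsto _).comp (hz.const_mul t)

/-- odd functions times `Y` -/
lemma clsE_Y {f : E → ℝ} (hf : Measurable f) {C : ℝ} (hC : ∀ z, |f z| ≤ C)
    (he : ∀ z, f (-z) = -f z) (t : ℝ) : ClsE μ (fun z => Er sY (t * f z)) := by
  obtain ⟨p, hp, h⟩ := ae_seq_odd μ f hf hC he
  refine ClsE.lim (fun n => clsE_trigO (hp n) t) (fun z => norm_Er_le star_sY sY_sq _) ?_
  filter_upwards [h] with z hz
  exact ((continuous_Er sY).tendsto _).comp (hz.const_mul t)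

/-- odd functions times `Z` -/
lemma clsE_Z {f : E → ℝ} (hf : Measurable f) {C : ℝ} (hC : ∀ z, |f z| ≤ C)
    (he : ∀ z, f (-z) = -f z) (t : ℝ) : ClsE μ (fun z => Er sZ (t * f z)) :=
  clsE_Z_of_Y (clsE_Y hf hC he t)

omit [CompleteSpace E] in
lemma ClsE.pow {U : E → M2} (hU : ClsE μ U) (n : ℕ) : ClsE μ (fun z => U z ^ n) := by
  induction n with
  | zero => simpa using clsE_one (μ := μ)
  | succ n ih =>
    have h := ih.mul hU
    simpa [pow_succ] using h

/-- linear combination of Pauli matrices -/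
noncomputable def sN (b c d : ℝ) : M2 := (b : ℂ) • sX + (c : ℂ) • sY + (d : ℂ) • sZ

lemma sN_sq {b c d : ℝ} (h : b ^ 2 + c ^ 2 + d ^ 2 = 1) : sN b c d * sN b c d = 1 := by
  have h' : (b : ℂ) ^ 2 + (c : ℂ) ^ 2 + (d : ℂ) ^ 2 = 1 := by exact_mod_cast h
  have hI := Complex.I_mul_I
  ext i j; fin_cases i <;> fin_cases j <;>
    simp [sN, sX, sY, sZ, Matrix.mul_apply, Fin.sum_univ_two]
  · linear_combination h' - (c : ℂ) ^ 2 * hI
  · ring
  · ring
  · linear_combination h' - (c : ℂ) ^ 2 * hI

lemma star_sN (b c d : ℝ) : star (sN b c d) = sN b c d := by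
  unfold sN
  rw [star_add, star_add, star_smul, star_smul, star_smul, star_sX, star_sY, star_sZ]
  simp

/-- the matrix `a - i (b X + c Y + d Z)` -/
noncomputable def su (a b c d : ℝ) : M2 := (a : ℂ) • (1 : M2) - Complex.I • sN b c d

omit [CompleteSpace E] in
/-- exponentials of sums -/
lemma clsE_exp {f g h : E → ℝ} (hf : ∀ t, ClsE μ (fun z => Er sX (t * f z)))
    (hg : ∀ t, ClsE μ (fun z => Er sY (t * g z))) (hh : ∀ t, ClsE μ (fun z => Er sZ (t * h z)))
    {V : E → M2} (hV : ∀ z, ‖V z‖ ≤ 1)
    (hVe : ∀ z, V z = NormedSpace.exp ((-(Complex.I * (f z : ℂ))) • sX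
      + (-(Complex.I * (g z : ℂ))) • sY + (-(Complex.I * (h z : ℂ))) • sZ)) : ClsE μ V := by
  refine ClsE.lim (U := fun m z => (Er sX ((m : ℝ)⁻¹ * f z) * (Er sY ((m : ℝ)⁻¹ * g z)
    * Er sZ ((m : ℝ)⁻¹ * h z))) ^ m)
    (fun m => ((hf _).mul ((hg _).mul (hh _))).pow m) hV (ae_of_all _ fun z => ?_)
  have h1 : ‖(1 : M2)‖ ≤ 1 := (norm_of_unitary (one_mem _)).le
  have h2 := lie_trotter_list h1 [(-(Complex.I * (f z : ℂ))) • sX, (-(Complex.I * (g z : ℂ))) • sY,
    (-(Complex.I * (h z : ℂ))) • sZ]
  simp only [List.map_cons, List.map_nil, List.prod_cons, List.prod_nil, mul_one, List.sum_cons,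
    List.sum_nil, add_zero, exp_scaled sX_sq, exp_scaled sY_sq, exp_scaled sZ_sq] at h2
  rw [hVe, add_assoc]
  refine h2.congr fun m => ?_
  simp only [div_eq_inv_mul]

/-- the density lemma in coordinates -/
theorem clsE_su {a b c d : E → ℝ} (ha : Measurable a) (hb : Measurable b) (hc : Measurable c)
    (hd : Measurable d) (h1 : ∀ z, a z ^ 2 + b z ^ 2 + c z ^ 2 + d z ^ 2 = 1)
    (ea : ∀ z, a (-z) = a z) (eb : ∀ z, b (-z) = b z) (oc : ∀ z, c (-z) = -c z)
    (od : ∀ z, d (-z) = -d z) : ClsE μ (fun z => su (a z) (b z) (c z) (d z)) := by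
  let s : E → ℝ := fun z => Real.sqrt (1 - a z ^ 2)
  let r : E → ℝ := fun z => Real.arccos (a z)
  have hs : Measurable s := (measurable_const.sub (ha.pow_const 2)).sqrt
  have hr : Measurable r := Real.measurable_arccos.comp ha
  have es : ∀ z, s (-z) = s z := fun z => by simp only [s, ea]
  have er : ∀ z, r (-z) = r z := fun z => by simp only [r, ea]
  have hs2 : ∀ z, s z ^ 2 = b z ^ 2 + c z ^ 2 + d z ^ 2 := by
    intro z
    have : (0 : ℝ) ≤ 1 - a z ^ 2 := by nlinarith [h1 z, sq_nonneg (b z), sq_nonneg (c z), sq_nonneg (d z)]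
    simp only [s]
    rw [Real.sq_sqrt this]
    linarith [h1 z]
  have hs0 : ∀ z, 0 ≤ s z := fun z => Real.sqrt_nonneg _
  let nb : E → ℝ := fun z => if s z = 0 then 1 else b z / s z
  let nc : E → ℝ := fun z => if s z = 0 then 0 else c z / s z
  let nd : E → ℝ := fun z => if s z = 0 then 0 else d z / s z
  have hset : MeasurableSet {z | s z = 0} := measurableSet_eq_fun hs measurable_const
  have mb : Measurable nb := Measurable.ite hset measurable_const (hb.div hs)
  have mc : Measurable nc := Measurable.ite hset measurable_const (hc.div hs)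
  have md : Measurable nd := Measurable.ite hset measurable_const (hd.div hs)
  have hn : ∀ z, nb z ^ 2 + nc z ^ 2 + nd z ^ 2 = 1 := by
    intro z
    simp only [nb, nc, nd]
    by_cases h : s z = 0
    · simp [h]
    · simp only [h, if_false]
      have h2 := hs2 z
      field_simp
      linarith
  have enb : ∀ z, nb (-z) = nb z := fun z => by simp only [nb, es, eb]
  have onc : ∀ z, nc (-z) = -nc z := fun z => by
    simp only [nc, es, oc]
    by_cases h : s z = 0 <;> simp [h, neg_div]
  have ond : ∀ z, nd (-z) = -nd z := fun z => by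
    simp only [nd, es, od]
    by_cases h : s z = 0 <;> simp [h, neg_div]
  have hrb : ∀ z, |r z| ≤ Real.pi := fun z => by
    rw [abs_of_nonneg (Real.arccos_nonneg _)]
    exact Real.arccos_le_pi _
  have hab : ∀ x y w : ℝ, x ^ 2 + y ^ 2 + w ^ 2 = 1 → |x| ≤ 1 ∧ |y| ≤ 1 ∧ |w| ≤ 1 := by
    intro x y w h
    refine ⟨abs_le_one_iff_mul_self_le_one.2 ?_, abs_le_one_iff_mul_self_le_one.2 ?_,
      abs_le_one_iff_mul_self_le_one.2 ?_⟩ <;> nlinarith [sq_nonneg x, sq_nonneg y, sq_nonneg w]
  have hbd : ∀ g : E → ℝ, (∀ z, |g z| ≤ 1) → ∀ z, |r z * g z| ≤ Real.pi := by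
    intro g hg z
    rw [abs_mul]
    calc |r z| * |g z| ≤ Real.pi * 1 := mul_le_mul (hrb z) (hg z) (abs_nonneg _) Real.pi_pos.le
      _ = Real.pi := mul_one _
  have hP : ∀ z, sN (nb z) (nc z) (nd z) * sN (nb z) (nc z) (nd z) = 1 := fun z => sN_sq (hn z)
  have ha1 : ∀ z, -1 ≤ a z ∧ a z ≤ 1 := by
    intro z
    rw [← abs_le]
    exact abs_le_one_iff_mul_self_le_one.2
      (by nlinarith [h1 z, sq_nonneg (b z), sq_nonneg (c z), sq_nonneg (d z)])
  have key : ∀ z, su (a z) (b z) (c z) (d z) = Er (sN (nb z) (nc z) (nd z)) (r z) := by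
    intro z
    unfold Er su
    simp only [r]
    rw [Real.cos_arccos (ha1 z).1 (ha1 z).2, Real.sin_arccos]
    have e1 : (s z) * nb z = b z ∧ (s z) * nc z = c z ∧ (s z) * nd z = d z := by
      simp only [nb, nc, nd]
      by_cases h : s z = 0
      · have h2 := hs2 z
        rw [h] at h2
        have hb0 : b z = 0 := by nlinarith [sq_nonneg (b z), sq_nonneg (c z), sq_nonneg (d z)]
        have hc0 : c z = 0 := by nlinarith [sq_nonneg (b z), sq_nonneg (c z), sq_nonneg (d z)]
        have hd0 : d z = 0 := by nlinarith [sq_nonneg (b z), sq_nonneg (c z), sq_nonneg (d z)]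
        simp [h, hb0, hc0, hd0]
      · simp only [h, if_false]
        refine ⟨?_, ?_, ?_⟩ <;> field_simp
    obtain ⟨e1, e2, e3⟩ := e1
    congr 1
    change Complex.I • sN (b z) (c z) (d z) = (Complex.I * (s z : ℂ)) • sN (nb z) (nc z) (nd z)
    rw [mul_smul]
    congr 1
    unfold sN
    rw [smul_add, smul_add, smul_smul, smul_smul, smul_smul, ← Complex.ofReal_mul,
      ← Complex.ofReal_mul, ← Complex.ofReal_mul, e1, e2, e3]
  refine clsE_exp (f := fun z => r z * nb z) (g := fun z => r z * nc z) (h := fun z => r z * nd z)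
    (clsE_X (hr.mul mb) (hbd _ fun z => (hab _ _ _ (hn z)).1) fun z => by rw [er, enb])
    (clsE_Y (hr.mul mc) (hbd _ fun z => (hab _ _ _ (hn z)).2.1) fun z => by rw [er, onc]; ring)
    (clsE_Z (hr.mul md) (hbd _ fun z => (hab _ _ _ (hn z)).2.2) fun z => by rw [er, ond]; ring)
    (fun z => ?_) fun z => ?_
  · rw [key]
    exact norm_Er_le (star_sN _ _ _) (hP z) _
  · rw [key, ← exp_inv (hP z)]
    congr 1
    unfold sN
    push_cast
    module

end Vale.Agent.P367.B
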