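import Vale.Agent.P367.A.Basic

/-! P367, block B: the energy of a word is a continuous function of its last field vector alone.
General words: letters are arbitrary unitaries commuting with all Weyl operators `W (iota y)` (spin
rotations, label rotations, label gates) and the `C` gates. -/

namespace Vale.Agent.P367.A

open Complex Filter Topology

lemma abs_sin_sub_self_le (y : ℝ) : |Real.sin y - y| ≤ y ^ 2 := by
  have key : ∀ z : ℝ, 0 ≤ z → |Real.sin z - z| ≤ z ^ 2 := by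
    intro z hz
    rcases eq_or_lt_of_le hz with rfl | hz
    · simp
    · have h1 := Real.sin_lt hz
      rw [abs_of_nonpos (by linarith)]
      rcases le_or_gt z 2 with h2 | h2
      · have h3 := Real.sin_gt_sub_cube hz
        nlinarith [mul_pos hz hz]
      · have h3 := Real.neg_one_le_sin z
        nlinarith
  rcases le_total 0 y with h | h
  · exact key y h
  · have := key (-y) (by linarith)
    rw [Real.sin_neg, neg_sq, show -Real.sin y - -y = -(Real.sin y - y) by ring, abs_neg] at this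
    exact this

namespace Sys

/-- letters of general words -/
inductive Lt {H K : Type*} [NormedAddCommGroup H] [InnerProductSpace ℂ H]
    [NormedAddCommGroup K] [InnerProductSpace ℂ K] (S : Sys H K)
  | U (U : H ≃ₗᵢ[ℂ] H) (hU : ∀ y x, S.W (S.iota y) (U x) = U (S.W (S.iota y) x))
  | C (g : ℝ)

variable {H K : Type*} [NormedAddCommGroup H] [InnerProductSpace ℂ H]
  [NormedAddCommGroup K] [InnerProductSpace ℂ K] (S : Sys H K)

/-- evaluation of a general word; the head is the last gate -/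
noncomputable def evg : List (Lt S) → (H ≃ₗᵢ[ℂ] H)
  | [] => 1
  | Lt.U V _ :: w => V * evg w
  | Lt.C g :: w => S.zr ((g : ℂ) • S.iota (S.xv (evg w))) * evg w

/-- `- sum_j g_j Im <x_j, y>^2` -/
noncomputable def eg (y : H) : List (Lt S) → ℝ
  | [] => 0
  | Lt.U _ _ :: w => eg y w
  | Lt.C g :: w => -(g * ((inner ℂ (S.xv (S.evg w)) y) ^ 2 : ℂ).im) + eg y w

/-- energy -/
noncomputable def Eg (w : List (Lt S)) : ℝ := S.eg (S.xv (S.evg w)) w

/-- the word seen from the frame `W h` -/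
noncomputable def tv (h : K) : List (Lt S) → (H ≃ₗᵢ[ℂ] H)
  | [] => 1
  | Lt.U V _ :: w => V * tv h w
  | Lt.C g :: w => S.rot 0 (th ((g : ℂ) • S.iota (S.xv (S.evg w))) h)
      * (S.zr ((g : ℂ) • S.iota (S.xv (S.evg w))) * tv h w)

lemma evg_W (h x : H) : ∀ w : List (Lt S),
    S.evg w (S.W (S.iota h) x) = S.W (S.iota h) (S.tv (S.iota h) w x)
  | [] => rfl
  | Lt.U V hV :: w => by
    have := evg_W h x w
    rw [evg, tv, mulA, mulA, this, hV]
  | Lt.C g :: w => by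
    have := evg_W h x w
    rw [evg, tv, mulA, mulA, mulA, this, S.zr_W]

/-- first order response -/
noncomputable def uu (h : K) : List (Lt S) → H
  | [] => 0
  | Lt.U _ _ :: w => uu h w
  | Lt.C g :: w => (2 * Complex.I * (th ((g : ℂ) • S.iota (S.xv (S.evg w))) h : ℂ))
      • S.xv (S.evg w) + uu h w

lemma rot_second (f t : ℝ) (x : H) :
    ‖S.rot 0 (t * f) x - x - (2 * Complex.I * ((t * f : ℝ) : ℂ)) • S.Z x‖
      ≤ 8 * (t * f) ^ 2 * ‖x‖ := by
  set s := t * f with hs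
  have e : S.rot 0 s x - x - (2 * Complex.I * ((s : ℝ) : ℂ)) • S.Z x
      = ((Real.cos (2 * s) - 1 : ℝ) : ℂ) • x
        + (Complex.I * ((Real.sin (2 * s) - 2 * s : ℝ) : ℂ)) • S.Z x := by
    rw [rot_apply, Zt_zero]; push_cast; module
  rw [e]
  have h1 : |Real.cos (2 * s) - 1| ≤ 2 * s ^ 2 := by
    rw [abs_le]
    constructor
    · have := Real.one_sub_sq_div_two_le_cos (x := 2 * s)
      nlinarith
    · have := Real.cos_le_one (2 * s)
      nlinarith [sq_nonneg s]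
  have h2 : |Real.sin (2 * s) - 2 * s| ≤ 4 * s ^ 2 := by
    have a1 := abs_sin_sub_self_le (2 * s)
    nlinarith
  calc _ ≤ ‖((Real.cos (2 * s) - 1 : ℝ) : ℂ) • x‖
        + ‖(Complex.I * ((Real.sin (2 * s) - 2 * s : ℝ) : ℂ)) • S.Z x‖ := norm_add_le _ _
    _ = |Real.cos (2 * s) - 1| * ‖x‖ + |Real.sin (2 * s) - 2 * s| * ‖x‖ := by
      rw [norm_smul, norm_smul, norm_mul, Complex.norm_I, Complex.norm_real, Complex.norm_real,
        S.Z.norm_map, Real.norm_eq_abs, Real.norm_eq_abs, one_mul]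
    _ ≤ _ := by nlinarith [norm_nonneg x]

/-- the state seen from the frame `W (t h)`, to first order in `t` -/
lemma tv_second (h : K) : ∀ w : List (Lt S), ∃ C : ℝ, 0 ≤ C ∧ ∀ t : ℝ, |t| ≤ 1 →
    ‖S.tv ((t : ℂ) • h) w S.Om - S.evg w (S.Om + (t : ℂ) • S.uu h w)‖ ≤ C * t ^ 2
  | [] => ⟨0, le_rfl, fun t _ => by simp [tv, evg, uu]⟩
  | Lt.U V hV :: w => by
    obtain ⟨C, hC, h1⟩ := tv_second h w
    refine ⟨C, hC, fun t ht => ?_⟩
    rw [tv, evg, mulA, mulA, ← map_sub, V.norm_map]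
    exact h1 t ht
  | Lt.C g :: w => by
    obtain ⟨C, hC, h1⟩ := tv_second h w
    set v := (g : ℂ) • S.iota (S.xv (S.evg w)) with hv
    set f := th v h with hf
    set V := S.evg w with hV
    set u := S.uu h w with hu
    refine ⟨C + (8 * f ^ 2 + 2 * |f| * ‖u‖), by positivity, fun t ht => ?_⟩
    have hth : th v ((t : ℂ) • h) = t * f := th_smul_right t v h
    have e1 : S.tv ((t : ℂ) • h) (Lt.C g :: w) S.Om
        = S.rot 0 (t * f) (S.zr v (S.tv ((t : ℂ) • h) w S.Om)) := by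
      rw [tv, mulA, mulA, ← hth]
    have e2 : S.evg (Lt.C g :: w) (S.Om + (t : ℂ) • S.uu h (Lt.C g :: w))
        = S.zr v (V (S.Om + (t : ℂ) • u))
          + (2 * Complex.I * ((t * f : ℝ) : ℂ)) • S.Z (S.zr v (V S.Om)) := by
      have e3 : S.uu h (Lt.C g :: w) = (2 * Complex.I * (f : ℂ)) • S.xv V + u := rfl
      have e4 : V (S.xv V) = S.Z (V S.Om) := by rw [xv, Ainv]
      rw [e3, evg, mulA, Z_zr]
      simp only [map_add, map_smul, smul_add, e4, ← hV, ← hv]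
      push_cast
      module
    have e5 : S.rot 0 (t * f) (S.zr v (S.tv ((t : ℂ) • h) w S.Om))
        - (S.zr v (V (S.Om + (t : ℂ) • u))
          + (2 * Complex.I * ((t * f : ℝ) : ℂ)) • S.Z (S.zr v (V S.Om)))
        = S.rot 0 (t * f) (S.zr v (S.tv ((t : ℂ) • h) w S.Om - V (S.Om + (t : ℂ) • u)))
          + (S.rot 0 (t * f) (S.zr v (V S.Om)) - S.zr v (V S.Om)
            - (2 * Complex.I * ((t * f : ℝ) : ℂ)) • S.Z (S.zr v (V S.Om)))
          + (S.rot 0 (t * f) ((t : ℂ) • S.zr v (V u)) - (t : ℂ) • S.zr v (V u)) := by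
      simp only [map_add, map_sub, map_smul]
      module
    rw [e1, e2, e5]
    have n1 : ‖S.rot 0 (t * f) (S.zr v (S.tv ((t : ℂ) • h) w S.Om - V (S.Om + (t : ℂ) • u)))‖
        ≤ C * t ^ 2 := by
      rw [(S.rot 0 (t * f)).norm_map, (S.zr v).norm_map]; exact h1 t ht
    have n2 := S.rot_second f t (S.zr v (V S.Om))
    rw [(S.zr v).norm_map, V.norm_map, S.nOm] at n2
    have n3 := S.norm_rot_sub 0 (t * f) ((t : ℂ) • S.zr v (V u))
    rw [norm_smul, (S.zr v).norm_map, V.norm_map, Complex.norm_real, Real.norm_eq_abs,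
      abs_mul] at n3
    refine (norm_add₃_le).trans ?_
    have ht2 : |t| * |t| = t ^ 2 := by rw [← sq, sq_abs]
    calc _ ≤ C * t ^ 2 + 8 * (t * f) ^ 2 * 1 + 2 * (|t| * |f|) * (|t| * ‖u‖) :=
          add_le_add (add_le_add n1 n2) n3
      _ = _ := by
        rw [show 2 * (|t| * |f|) * (|t| * ‖u‖) = 2 * |f| * ‖u‖ * (|t| * |t|) by ring, ht2]; ring

/-- real part of the response pairing -/
lemma re_inner_uu (y : H) : ∀ w : List (Lt S),
    (inner ℂ y (S.uu (-(Complex.I • S.iota y)) w) : ℂ).re = S.eg y w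
  | [] => by simp [uu, eg]
  | Lt.U V hV :: w => by
    rw [uu, eg]; exact re_inner_uu y w
  | Lt.C g :: w => by
    have ih := re_inner_uu y w
    rw [uu, eg, inner_add_right, Complex.add_re, ih, inner_smul_right]
    congr 1
    set x := S.xv (S.evg w) with hx
    have h1 : th ((g : ℂ) • S.iota x) (-(Complex.I • S.iota y))
        = -(g * (inner ℂ x y : ℂ).re) := by
      rw [th_neg_right, th_smul_left, th, inner_smul_right, S.inner_iota]
      simp
    have h2 : (inner ℂ y x : ℂ) = (starRingEnd ℂ) (inner ℂ x y) := (inner_conj_symm _ _).symm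
    rw [h1, h2]
    simp only [Complex.mul_re, Complex.mul_im, Complex.I_re, Complex.I_im, Complex.ofReal_re,
      Complex.ofReal_im, Complex.conj_re, Complex.conj_im, sq, Complex.re_ofNat, Complex.im_ofNat]
    ring

lemma norm_W_Om_sub_sq (a b : K) : ‖S.W a S.Om - S.W b S.Om‖ ^ 2
    = 2 - 2 * (Real.cos (th a b) * Real.exp (-(‖a - b‖ ^ 2 / 2))) := by
  have h1 : (inner ℂ (S.W a S.Om) (S.W b S.Om) : ℂ)
      = Complex.exp (((th a b : ℝ) : ℂ) * Complex.I)
        * ((Real.exp (-(‖a - b‖ ^ 2 / 2)) : ℝ) : ℂ) := by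
    rw [S.inner_W, S.WW', inner_smul_right, S.vac, th_neg_left,
      show -a + b = -(a - b) by abel, norm_neg]
    congr 1
    · congr 1; push_cast; ring
    · push_cast; ring_nf
  rw [@norm_sub_sq ℂ H, (S.W a).norm_map, (S.W b).norm_map, S.nOm]
  rw [h1]
  have h2 : RCLike.re (Complex.exp (((th a b : ℝ) : ℂ) * Complex.I)
        * ((Real.exp (-(‖a - b‖ ^ 2 / 2)) : ℝ) : ℂ))
      = Real.cos (th a b) * Real.exp (-(‖a - b‖ ^ 2 / 2)) := by
    rw [RCLike.re_to_complex, Complex.mul_re, Complex.ofReal_re, Complex.ofReal_im,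
      Complex.exp_ofReal_mul_I_re]
    ring
  rw [h2]; ring

lemma norm_W_Om_sub (a : K) : ‖S.W a S.Om - S.Om‖ ≤ ‖a‖ := by
  have h := S.norm_W_Om_sub_sq a 0
  rw [S.W_zero_apply, sub_zero] at h
  have h1 : th a (0 : K) = 0 := by simp [th]
  rw [h1, Real.cos_zero, one_mul] at h
  have h2 := Real.add_one_le_exp (-(‖a‖ ^ 2 / 2))
  have h3 : ‖S.W a S.Om - S.Om‖ ^ 2 ≤ ‖a‖ ^ 2 := by rw [h]; linarith
  exact (sq_le_sq₀ (norm_nonneg _) (norm_nonneg _)).1 h3

lemma quad_add (a b : H) : (inner ℂ (a + b) (S.Z (a + b)) : ℂ).re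
    = (inner ℂ a (S.Z a) : ℂ).re + 2 * (inner ℂ (S.Z a) b : ℂ).re + (inner ℂ b (S.Z b) : ℂ).re := by
  have h1 : (inner ℂ b (S.Z a) : ℂ).re = (inner ℂ (S.Z a) b : ℂ).re := by
    rw [← inner_conj_symm (𝕜 := ℂ) b (S.Z a), Complex.conj_re]
  simp only [map_add, inner_add_left, inner_add_right, Complex.add_re]
  rw [← S.inner_Z a b, h1]
  ring

lemma abs_quad_le (b : H) : |(inner ℂ b (S.Z b) : ℂ).re| ≤ ‖b‖ ^ 2 := by
  refine (Complex.abs_re_le_norm _).trans ((norm_inner_le_norm _ _).trans ?_)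
  rw [S.Z.norm_map, sq]

/-- response formula: the Weyl translation of the vacuum against the field vector -/
lemma response (w : List (Lt S)) (h₀ : H) : ∃ C : ℝ, 0 ≤ C ∧ ∀ t : ℝ, |t| ≤ 1 →
    |(inner ℂ (S.xv (S.evg w)) (S.W ((t : ℂ) • S.iota h₀) S.Om - S.Om) : ℂ).re
      - t * (inner ℂ (S.xv (S.evg w)) (S.uu (S.iota h₀) w) : ℂ).re| ≤ C * t ^ 2 := by
  set h := S.iota h₀ with hh
  obtain ⟨C, hC, h1⟩ := S.tv_second h w
  set V := S.evg w with hV
  set u := S.uu h w with hu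
  refine ⟨(‖u‖ ^ 2 + 2 * ((1 + ‖u‖) * C) + C ^ 2 + ‖h‖ ^ 2) / 2, by positivity, fun t ht => ?_⟩
  set p := S.W ((t : ℂ) • h) S.Om - S.Om with hp
  set T := S.tv ((t : ℂ) • h) w with hT
  set q := V (S.Om + (t : ℂ) • u) with hq
  set r := T S.Om - q with hr
  have hr1 : ‖r‖ ≤ C * t ^ 2 := h1 t ht
  have hp1 : ‖p‖ ≤ |t| * ‖h‖ := by
    refine (S.norm_W_Om_sub _).trans (le_of_eq ?_)
    rw [norm_smul, Complex.norm_real, Real.norm_eq_abs]
  have hq1 : ‖q‖ ≤ 1 + ‖u‖ := by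
    rw [hq, V.norm_map]
    refine (norm_add_le _ _).trans ?_
    rw [S.nOm, norm_smul, Complex.norm_real, Real.norm_eq_abs]
    have := mul_le_mul_of_nonneg_right ht (norm_nonneg u)
    linarith
  have e1 : V (S.Om + p) = S.W ((t : ℂ) • h) (T S.Om) := by
    rw [hp, add_sub_cancel, hV, hT, hh, ← map_smul, evg_W]
  have e2 : (inner ℂ (V (S.Om + p)) (S.Z (V (S.Om + p))) : ℂ) = inner ℂ (T S.Om) (S.Z (T S.Om)) := by
    rw [e1, ← S.WZ, (S.W _).inner_map_map]
  have e3 : (inner ℂ (V (S.Om + p)) (S.Z (V (S.Om + p))) : ℂ).re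
      = (inner ℂ (V S.Om) (S.Z (V S.Om)) : ℂ).re + 2 * (inner ℂ (S.xv V) p : ℂ).re
        + (inner ℂ (V p) (S.Z (V p)) : ℂ).re := by
    rw [map_add, quad_add, xv, inner_invA]
  have e4 : (inner ℂ (T S.Om) (S.Z (T S.Om)) : ℂ).re
      = (inner ℂ q (S.Z q) : ℂ).re + 2 * (inner ℂ (S.Z q) r : ℂ).re
        + (inner ℂ r (S.Z r) : ℂ).re := by
    rw [← quad_add, hr, add_sub_cancel]
  have e5 : (inner ℂ q (S.Z q) : ℂ).re
      = (inner ℂ (V S.Om) (S.Z (V S.Om)) : ℂ).re + 2 * (t * (inner ℂ (S.xv V) u : ℂ).re)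
        + (inner ℂ (V ((t : ℂ) • u)) (S.Z (V ((t : ℂ) • u))) : ℂ).re := by
    rw [hq, map_add, quad_add, xv, inner_invA, map_smul, inner_smul_right, Complex.re_ofReal_mul]
  have b1 : |(inner ℂ (V p) (S.Z (V p)) : ℂ).re| ≤ t ^ 2 * ‖h‖ ^ 2 := by
    refine (S.abs_quad_le _).trans ?_
    rw [V.norm_map]
    calc ‖p‖ ^ 2 ≤ (|t| * ‖h‖) ^ 2 := by gcongr
      _ = _ := by rw [mul_pow, sq_abs]
  have b2 : |(inner ℂ (V ((t : ℂ) • u)) (S.Z (V ((t : ℂ) • u))) : ℂ).re| ≤ t ^ 2 * ‖u‖ ^ 2 := by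
    refine (S.abs_quad_le _).trans (le_of_eq ?_)
    rw [V.norm_map, norm_smul, Complex.norm_real, Real.norm_eq_abs, mul_pow, sq_abs]
  have b3 : |(inner ℂ (S.Z q) r : ℂ).re| ≤ (1 + ‖u‖) * (C * t ^ 2) := by
    refine (Complex.abs_re_le_norm _).trans ((norm_inner_le_norm _ _).trans ?_)
    rw [S.Z.norm_map]
    exact mul_le_mul hq1 hr1 (norm_nonneg _) (by positivity)
  have ht2 : t ^ 2 ≤ 1 := by
    rw [← sq_abs]; exact pow_le_one₀ (abs_nonneg _) ht
  have b4 : |(inner ℂ r (S.Z r) : ℂ).re| ≤ C ^ 2 * t ^ 2 := by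
    refine (S.abs_quad_le _).trans ?_
    calc ‖r‖ ^ 2 ≤ (C * t ^ 2) ^ 2 := by gcongr
      _ = C ^ 2 * t ^ 2 * t ^ 2 := by ring
      _ ≤ C ^ 2 * t ^ 2 * 1 := by gcongr
      _ = _ := by ring
  have e6 : (inner ℂ (S.xv V) p : ℂ).re - t * (inner ℂ (S.xv V) u : ℂ).re
      = ((inner ℂ (V ((t : ℂ) • u)) (S.Z (V ((t : ℂ) • u))) : ℂ).re
          + 2 * (inner ℂ (S.Z q) r : ℂ).re + (inner ℂ r (S.Z r) : ℂ).re
          - (inner ℂ (V p) (S.Z (V p)) : ℂ).re) / 2 := by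
    have := congrArg Complex.re e2
    linarith
  rw [e6]
  rw [abs_le] at b1 b2 b3 b4 ⊢
  constructor <;> nlinarith [b1.1, b1.2, b2.1, b2.2, b3.1, b3.2, b4.1, b4.2]

/-- the difference quotient of the vacuum in the direction `y` -/
noncomputable def dq (t : ℝ) (y : H) : H :=
  ((t⁻¹ : ℝ) : ℂ) • (S.W ((t : ℂ) • (-(Complex.I • S.iota y))) S.Om - S.Om)

lemma norm_dq_le (t : ℝ) (ht : t ≠ 0) (y : H) : ‖S.dq t y‖ ≤ ‖y‖ := by
  rw [dq, norm_smul, Complex.norm_real, Real.norm_eq_abs, abs_inv]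
  have h := S.norm_W_Om_sub ((t : ℂ) • (-(Complex.I • S.iota y)))
  rw [norm_smul, norm_neg, norm_smul, Complex.norm_I, one_mul, S.norm_iota, Complex.norm_real,
    Real.norm_eq_abs] at h
  have ht' : 0 < |t| := abs_pos.2 ht
  calc _ ≤ |t|⁻¹ * (|t| * ‖y‖) := by gcongr
    _ = _ := by field_simp

/-- **the energy is `Re <x, J x>`** where `J y = lim (W (-i t y) - 1) Om / t` -/
theorem energy_lim (w : List (Lt S)) :
    Tendsto (fun t : ℝ => (inner ℂ (S.xv (S.evg w)) (S.dq t (S.xv (S.evg w))) : ℂ).re)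
      (𝓝[≠] 0) (𝓝 (S.Eg w)) := by
  set x := S.xv (S.evg w) with hx
  obtain ⟨C, hC, h1⟩ := S.response w (-(Complex.I • x))
  rw [← hx, map_neg, map_smul, re_inner_uu] at h1
  rw [tendsto_iff_norm_sub_tendsto_zero]
  have h2 : Tendsto (fun t : ℝ => C * |t|) (𝓝[≠] 0) (𝓝 0) := by
    have : Tendsto (fun t : ℝ => C * |t|) (𝓝 0) (𝓝 (C * |0|)) :=
      (continuous_const.mul continuous_abs).tendsto 0
    rw [abs_zero, mul_zero] at this
    exact this.mono_left nhdsWithin_le_nhds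
  refine squeeze_zero' (Eventually.of_forall fun t => norm_nonneg _) ?_ h2
  have h3 : ∀ᶠ t : ℝ in 𝓝[≠] 0, |t| < 1 :=
    nhdsWithin_le_nhds ((continuous_abs.tendsto (0 : ℝ)).eventually (gt_mem_nhds (by simp)))
  have h4 : ∀ᶠ t : ℝ in 𝓝[≠] 0, t ≠ 0 := self_mem_nhdsWithin
  filter_upwards [h3, h4] with t ht ht0
  have h5 := h1 t ht.le
  have e : (inner ℂ x (S.dq t x) : ℂ).re - S.Eg w
      = t⁻¹ * ((inner ℂ x (S.W ((t : ℂ) • (-(Complex.I • S.iota x))) S.Om - S.Om) : ℂ).re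
        - t * S.eg x w) := by
    rw [dq, inner_smul_right, Complex.re_ofReal_mul, mul_sub, ← mul_assoc, inv_mul_cancel₀ ht0,
      one_mul]
    rfl
  rw [e, norm_mul, Real.norm_eq_abs, Real.norm_eq_abs, abs_inv]
  have ht' : 0 < |t| := abs_pos.2 ht0
  calc _ ≤ |t|⁻¹ * (C * t ^ 2) := by gcongr
    _ = _ := by rw [← sq_abs]; field_simp

lemma norm_dq_sub_le (t : ℝ) (ht : t ≠ 0) (x y : H) :
    ‖S.dq t x - S.dq t y‖ ≤ ‖x - y‖ + |t| * |(inner ℂ x y : ℂ).im| := by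
  set a := (t : ℂ) • (-(Complex.I • S.iota x)) with ha
  set b := (t : ℂ) • (-(Complex.I • S.iota y)) with hb
  have e1 : S.dq t x - S.dq t y = ((t⁻¹ : ℝ) : ℂ) • (S.W a S.Om - S.W b S.Om) := by
    rw [dq, dq, ← smul_sub]; congr 1; abel
  have hth : th a b = t ^ 2 * (inner ℂ x y : ℂ).im := by
    rw [ha, hb, th_smul_left, th_smul_right, th_neg_left, th_neg_right, neg_neg, th,
      inner_smul_left, inner_smul_right, S.inner_iota, Complex.conj_I]
    have : (-Complex.I * (Complex.I * (inner ℂ x y : ℂ))) = inner ℂ x y := by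
      rw [← mul_assoc, neg_mul, Complex.I_mul_I]; ring
    rw [this]; ring
  have hn : ‖a - b‖ ^ 2 = t ^ 2 * ‖x - y‖ ^ 2 := by
    have : a - b = ((t : ℂ) * -Complex.I) • S.iota (x - y) := by
      rw [ha, hb, map_sub]; module
    rw [this, norm_smul, S.norm_iota, norm_mul, norm_neg, Complex.norm_I, Complex.norm_real,
      Real.norm_eq_abs, mul_one, mul_pow, sq_abs]
  have h2 := S.norm_W_Om_sub_sq a b
  have ht' : 0 < |t| := abs_pos.2 ht
  have h3 : ‖S.W a S.Om - S.W b S.Om‖ ^ 2 ≤ (|t| * (‖x - y‖ + |t| * |(inner ℂ x y : ℂ).im|)) ^ 2 := by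
    rw [h2, hn, hth]
    set s := t ^ 2 * (inner ℂ x y : ℂ).im with hs
    set r := t ^ 2 * ‖x - y‖ ^ 2 / 2 with hr
    have hr0 : 0 ≤ r := by positivity
    have k1 := Real.one_sub_sq_div_two_le_cos (x := s)
    have k2 := Real.add_one_le_exp (-r)
    have k3 : Real.exp (-r) ≤ 1 := Real.exp_le_one_iff.2 (by linarith)
    have k4 := Real.exp_pos (-r)
    have k5 : 1 - Real.cos s * Real.exp (-r) ≤ r + s ^ 2 / 2 := by
      have : (1 - Real.cos s) * Real.exp (-r) ≤ s ^ 2 / 2 * 1 :=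
        mul_le_mul (by linarith) k3 k4.le (by positivity)
      nlinarith
    have k6 : (|t| * (‖x - y‖ + |t| * |(inner ℂ x y : ℂ).im|)) ^ 2
        = t ^ 2 * ‖x - y‖ ^ 2 + s ^ 2 + 2 * (t ^ 2 * ‖x - y‖ * (|t| * |(inner ℂ x y : ℂ).im|)) := by
      have a1 : |t| ^ 2 = t ^ 2 := sq_abs t
      have a2 : |(inner ℂ x y : ℂ).im| ^ 2 = (inner ℂ x y : ℂ).im ^ 2 := sq_abs _
      rw [hs, mul_pow, a1, add_sq, mul_pow, a1, a2]
      ring
    rw [k6]
    have k7 : 0 ≤ t ^ 2 * ‖x - y‖ * (|t| * |(inner ℂ x y : ℂ).im|) := by positivity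
    nlinarith
  have h4 : ‖S.W a S.Om - S.W b S.Om‖ ≤ |t| * (‖x - y‖ + |t| * |(inner ℂ x y : ℂ).im|) :=
    (sq_le_sq₀ (norm_nonneg _) (by positivity)).1 h3
  rw [e1, norm_smul, Complex.norm_real, Real.norm_eq_abs, abs_inv]
  calc _ ≤ |t|⁻¹ * (|t| * (‖x - y‖ + |t| * |(inner ℂ x y : ℂ).im|)) := by gcongr
    _ = _ := by field_simp

lemma norm_xv_le (V : H ≃ₗᵢ[ℂ] H) : ‖S.xv V‖ ≤ 1 := (S.norm_xv V).le

/-- **the energy is Lipschitz in the last field vector** -/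
theorem energy_lip (w w' : List (Lt S)) :
    |S.Eg w - S.Eg w'| ≤ 2 * ‖S.xv (S.evg w) - S.xv (S.evg w')‖ := by
  set x := S.xv (S.evg w) with hx
  set y := S.xv (S.evg w') with hy
  have h1 := ((S.energy_lim w).sub (S.energy_lim w')).abs
  rw [← hx, ← hy] at h1
  have h2 : Tendsto (fun t : ℝ => 2 * ‖x - y‖ + |t| * |(inner ℂ x y : ℂ).im|) (𝓝[≠] 0)
      (𝓝 (2 * ‖x - y‖)) := by
    have : Tendsto (fun t : ℝ => 2 * ‖x - y‖ + |t| * |(inner ℂ x y : ℂ).im|) (𝓝 0)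
        (𝓝 (2 * ‖x - y‖ + |0| * |(inner ℂ x y : ℂ).im|)) :=
      (continuous_const.add (continuous_abs.mul continuous_const)).tendsto 0
    rw [abs_zero, zero_mul, add_zero] at this
    exact this.mono_left nhdsWithin_le_nhds
  refine le_of_tendsto_of_tendsto h1 h2 ?_
  have h4 : ∀ᶠ t : ℝ in 𝓝[≠] 0, t ≠ 0 := self_mem_nhdsWithin
  filter_upwards [h4] with t ht0
  have e : (inner ℂ x (S.dq t x) : ℂ).re - (inner ℂ y (S.dq t y) : ℂ).re
      = (inner ℂ (x - y) (S.dq t x) : ℂ).re + (inner ℂ y (S.dq t x - S.dq t y) : ℂ).re := by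
    rw [inner_sub_left, inner_sub_right, Complex.sub_re, Complex.sub_re]; ring
  rw [e]
  have b1 : |(inner ℂ (x - y) (S.dq t x) : ℂ).re| ≤ ‖x - y‖ * 1 := by
    refine (Complex.abs_re_le_norm _).trans ((norm_inner_le_norm _ _).trans ?_)
    have := S.norm_dq_le t ht0 x
    have hx1 : ‖x‖ = 1 := S.norm_xv _
    gcongr
    linarith
  have b2 : |(inner ℂ y (S.dq t x - S.dq t y) : ℂ).re|
      ≤ 1 * (‖x - y‖ + |t| * |(inner ℂ x y : ℂ).im|) := by
    refine (Complex.abs_re_le_norm _).trans ((norm_inner_le_norm _ _).trans ?_)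
    have := S.norm_dq_sub_le t ht0 x y
    have hy1 : ‖y‖ = 1 := S.norm_xv _
    rw [hy1]
    gcongr
  calc _ ≤ |(inner ℂ (x - y) (S.dq t x) : ℂ).re|
        + |(inner ℂ y (S.dq t x - S.dq t y) : ℂ).re| := abs_add_le _ _
    _ ≤ _ := by linarith

/-! ### Words of `A/Defs` as general words -/

open Vale.Agent.P367.NI (Gate)

/-- a gate as a letter -/
noncomputable def gl : Gate → Lt S
  | Gate.B b => Lt.U (S.xr b) (fun y x => S.W_xrA (S.iota y) b x)
  | Gate.C g => Lt.C g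
  | Gate.G k => Lt.U (S.zr ((k : ℂ) • S.e0)) (fun y x => by
      rw [S.zr_W, th_smul_left, th, S.e0perp, Complex.zero_im, mul_zero, rot_zero])

lemma evg_gl : ∀ w : List Gate, S.evg (w.map S.gl) = S.ev w
  | [] => rfl
  | Gate.B b :: w => by
    rw [List.map_cons, gl, evg, ev, evg_gl w]; rfl
  | Gate.C g :: w => by
    rw [List.map_cons, gl, evg, ev, evg_gl w]; rfl
  | Gate.G k :: w => by
    rw [List.map_cons, gl, evg, ev, evg_gl w]; rfl

lemma eg_gl (y : H) : ∀ w : List Gate, S.eg y (w.map S.gl) = S.eaux y w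
  | [] => rfl
  | Gate.B b :: w => by
    rw [List.map_cons, gl, eg, eaux, eg_gl y w]
  | Gate.C g :: w => by
    rw [List.map_cons, gl, eg, eaux, eg_gl y w, S.evg_gl w]
  | Gate.G k :: w => by
    rw [List.map_cons, gl, eg, eaux, eg_gl y w]

lemma Eg_gl (w : List Gate) : S.Eg (w.map S.gl) = S.energy w := by
  rw [Eg, energy, eg_gl, evg_gl]

/-- a labelled word and a general word with close field vectors have close energies -/
theorem energy_sub_le (w : List Gate) (w' : List (Lt S)) :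
    |S.energy w - S.Eg w'| ≤ 2 * ‖S.xv (S.ev w) - S.xv (S.evg w')‖ := by
  rw [← Eg_gl, ← evg_gl]; exact S.energy_lip _ _

theorem energy_sub_energy_le (w w' : List Gate) :
    |S.energy w - S.energy w'| ≤ 2 * ‖S.xv (S.ev w) - S.xv (S.ev w')‖ := by
  rw [← Eg_gl, ← Eg_gl, ← evg_gl, ← evg_gl]; exact S.energy_lip _ _

theorem abs_energy_le (w : List (Lt S)) : |S.Eg w| ≤ 1 := by
  refine le_of_tendsto (S.energy_lim w).abs ?_
  have h4 : ∀ᶠ t : ℝ in 𝓝[≠] 0, t ≠ 0 := self_mem_nhdsWithin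
  filter_upwards [h4] with t ht0
  refine (Complex.abs_re_le_norm _).trans ((norm_inner_le_norm _ _).trans ?_)
  have h1 := S.norm_dq_le t ht0 (S.xv (S.evg w))
  rw [S.norm_xv] at h1 ⊢
  linarith

end Sys

end Vale.Agent.P367.A
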