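import Vale.Agent.P367.B.LSys

/-! P367, block B, T2: finite form of the conclusion (what the sweep analysis delivers) (helper96) -/

namespace Vale.Agent.P367.A

open Complex Filter Topology MeasureTheory

namespace LSys

variable {H K : Type*} [NormedAddCommGroup H] [InnerProductSpace ℂ H]
  [NormedAddCommGroup K] [InnerProductSpace ℂ K] (L : LSys H K)

/-- finite form of T2: `R0` is a fresh activated reserve (`V` is the identity on it), disjoint from
`G`. For finitely many vectors and every `ε` there is a reachable state `V'` which equals `V`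
outside `G ∪ R0` and is `ε`-close to `U V` on `G` up to label phases `exp(i f)`. -/
def T2FinStmt : Prop :=
  ∀ (G : Set ℝ) (𝔄 : Set (H →L[ℂ] H)) (Rch : Set ℝ → Set ℝ → (H ≃ₗᵢ[ℂ] H) → Prop),
    MeasurableSet G → L.Ctl 𝔄 → L.Closed G 𝔄 Rch →
    ∀ (M R R0 : Set ℝ) (V : H ≃ₗᵢ[ℂ] H) (sg : H →L[ℂ] H) (s : ℝ),
      Rch M R V → MeasurableSet R0 → R0 ⊆ M → Disjoint G R0 → L.mu R0 ≠ 0 →
      (∀ x, L.E R0 (V x) = L.E R0 x) → L.Sgn G 𝔄 sg →
      ∀ U, L.IsProd G sg s V U →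
      ∀ (F : Finset H) (ε : ℝ), 0 < ε →
        ∃ (V' : H ≃ₗᵢ[ℂ] H) (f : ℝ → ℝ), Measurable f ∧ (∃ C : ℝ, ∀ t, |f t| ≤ C) ∧
          (∀ t, t ∉ G → f t = 0) ∧ Rch M R V' ∧
          (∀ x, L.E (G ∪ R0)ᶜ (V' x) = L.E (G ∪ R0)ᶜ (V x)) ∧
          ∀ x ∈ F, ‖L.lab (fun t => Complex.exp (Complex.I * (f t : ℂ))) (L.E G (V' x))
            - L.E G (U (V x))‖ ≤ ε

end LSys

end Vale.Agent.P367.A
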