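import Vale.Agent.P367.B.LBas
import Vale.Agent.P367.B.T2Fin

/-! P367, block B, T2: final assembly, part 1 (helper739): block phases as label functions. -/

namespace Vale.Agent.P367.A

open Complex Filter Topology MeasureTheory

namespace LSys

variable {H K : Type*} [NormedAddCommGroup H] [InnerProductSpace ℂ H]
  [NormedAddCommGroup K] [InnerProductSpace ℂ K] (L : LSys H K)

lemma fa_ind_sum {N : ℕ} {b : ℕ → Set ℝ} (hd : ∀ i < N, ∀ j < N, i ≠ j → Disjoint (b i) (b j))
    {α : Type*} [AddCommMonoid α] (g : ℕ → α) {i : ℕ} (hi : i < N) {t : ℝ} (ht : t ∈ b i) :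
    ∑ j ∈ Finset.range N, (b j).indicator (fun _ => g j) t = g i := by
  rw [Finset.sum_eq_single i]
  · exact Set.indicator_of_mem ht _
  · intro j hj hji
    refine Set.indicator_of_notMem (fun h => ?_) _
    exact (Set.disjoint_left.1 (hd j (Finset.mem_range.1 hj) i hi hji)) h ht
  · intro h
    exact absurd (Finset.mem_range.2 hi) h

lemma fa_ind_sum_off {N : ℕ} {b : ℕ → Set ℝ} {α : Type*} [AddCommMonoid α] (g : ℕ → α) {t : ℝ}
    (ht : ∀ i < N, t ∉ b i) :
    ∑ j ∈ Finset.range N, (b j).indicator (fun _ => g j) t = 0 :=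
  Finset.sum_eq_zero fun j hj => Set.indicator_of_notMem (ht j (Finset.mem_range.1 hj)) _

lemma fa_E_sum {N : ℕ} {b : ℕ → Set ℝ} {G : Set ℝ} (hb : ∀ i < N, MeasurableSet (b i))
    (hd : ∀ i < N, ∀ j < N, i ≠ j → Disjoint (b i) (b j)) (hG : G = ⋃ i ∈ Finset.range N, b i)
    (y : H) : L.E G y = ∑ i ∈ Finset.range N, L.E (b i) y := by
  have h1 : G.indicator (fun _ => (1 : ℂ))
      = fun t => ∑ j ∈ Finset.range N, (b j).indicator (fun _ => (1 : ℂ)) t := by
    funext t
    by_cases ht : t ∈ G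
    · rw [Set.indicator_of_mem ht]
      have ht' := ht
      rw [hG] at ht'
      simp only [Set.mem_iUnion, Finset.mem_range] at ht'
      obtain ⟨i, hi, hti⟩ := ht'
      exact (fa_ind_sum hd (fun _ => (1 : ℂ)) hi hti).symm
    · rw [Set.indicator_of_notMem ht]
      refine (fa_ind_sum_off (fun _ => (1 : ℂ)) ?_).symm
      intro i hi hti
      apply ht
      rw [hG]
      simp only [Set.mem_iUnion, Finset.mem_range]
      exact ⟨i, hi, hti⟩
  unfold E
  rw [h1, L.lab_sum _ fun i hi => bm_ind (hb i (Finset.mem_range.1 hi)),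
    FunLike.coe_sum, Finset.sum_apply]

lemma fa_pyth {N : ℕ} {b : ℕ → Set ℝ} (hb : ∀ i < N, MeasurableSet (b i))
    (hd : ∀ i < N, ∀ j < N, i ≠ j → Disjoint (b i) (b j)) (w : ℕ → H) :
    ‖∑ i ∈ Finset.range N, L.E (b i) (w i)‖ ^ 2
      = ∑ i ∈ Finset.range N, ‖L.E (b i) (w i)‖ ^ 2 := by
  have h1 : (inner ℂ (∑ i ∈ Finset.range N, L.E (b i) (w i))
      (∑ i ∈ Finset.range N, L.E (b i) (w i)) : ℂ)
      = ∑ i ∈ Finset.range N, ((‖L.E (b i) (w i)‖ : ℂ)) ^ 2 := by
    rw [sum_inner]
    refine Finset.sum_congr rfl fun i hi => ?_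
    rw [inner_sum, Finset.sum_eq_single i]
    · exact inner_self_eq_norm_sq_to_K _
    · intro j hj hji
      rw [L.o_E_sa (b i) (hb i (Finset.mem_range.1 hi)),
        L.o_E_disj (hb i (Finset.mem_range.1 hi)) (hb j (Finset.mem_range.1 hj))
          (hd i (Finset.mem_range.1 hi) j (Finset.mem_range.1 hj) (Ne.symm hji)), inner_zero_right]
    · intro h
      exact absurd hi h
  rw [inner_self_eq_norm_sq_to_K] at h1
  apply Complex.ofReal_injective
  rw [Complex.ofReal_pow, Complex.ofReal_sum]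
  simp only [Complex.ofReal_pow]
  exact h1

/-- block phases are given by a bounded label function -/
theorem fa_phase {N : ℕ} {b : ℕ → Set ℝ} {G : Set ℝ} (hb : ∀ i < N, MeasurableSet (b i))
    (hd : ∀ i < N, ∀ j < N, i ≠ j → Disjoint (b i) (b j)) (hG : G = ⋃ i ∈ Finset.range N, b i)
    (c : ℕ → ℂ) (hc : ∀ i < N, ‖c i‖ = 1) :
    ∃ f : ℝ → ℝ, Measurable f ∧ (∃ C : ℝ, ∀ t, |f t| ≤ C) ∧ (∀ t, t ∉ G → f t = 0) ∧
      ∀ y z : H, ‖L.lab (fun t => Complex.exp (Complex.I * (f t : ℂ))) (L.E G y) - L.E G z‖ ^ 2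
        = ∑ i ∈ Finset.range N, ‖c i • L.E (b i) y - L.E (b i) z‖ ^ 2 := by
  classical
  set f : ℝ → ℝ := fun t => ∑ j ∈ Finset.range N, (b j).indicator (fun _ => (c j).arg) t with hf
  have hfm : Measurable f := by
    refine Finset.measurable_fun_sum _ fun j hj => ?_
    exact measurable_const.indicator (hb j (Finset.mem_range.1 hj))
  have hmem : ∀ t, t ∈ G → ∃ i < N, t ∈ b i := by
    intro t ht
    rw [hG] at ht
    simp only [Set.mem_iUnion, Finset.mem_range] at ht
    obtain ⟨i, hi, hti⟩ := ht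
    exact ⟨i, hi, hti⟩
  have hoff : ∀ t, t ∉ G → f t = 0 := by
    intro t ht
    refine fa_ind_sum_off _ ?_
    intro i hi hti
    apply ht
    rw [hG]
    simp only [Set.mem_iUnion, Finset.mem_range]
    exact ⟨i, hi, hti⟩
  refine ⟨f, hfm, ⟨Real.pi, fun t => ?_⟩, hoff, ?_⟩
  · by_cases ht : t ∈ G
    · obtain ⟨i, hi, hti⟩ := hmem t ht
      rw [hf]
      simp only
      rw [fa_ind_sum hd (fun j => (c j).arg) hi hti]
      exact Complex.abs_arg_le_pi _
    · rw [hoff t ht, abs_zero]
      exact Real.pi_pos.le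
  · intro y z
    have hB : Bm (fun t => Complex.exp (Complex.I * (f t : ℂ))) := by
      refine ⟨Complex.measurable_exp.comp (measurable_const.mul
        (Complex.measurable_ofReal.comp hfm)), 1, fun t => ?_⟩
      change ‖Complex.exp (Complex.I * (f t : ℂ))‖ ≤ 1
      rw [mul_comm, Complex.norm_exp_ofReal_mul_I]
    have h1 : ∀ i < N, L.lab (fun t => Complex.exp (Complex.I * (f t : ℂ))) (L.E (b i) y)
        = c i • L.E (b i) y := by
      intro i hi
      have h2 := L.lab_mul _ _ hB (bm_ind (hb i hi))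
      have h3 : (fun t => Complex.exp (Complex.I * (f t : ℂ)) * (b i).indicator (fun _ => (1 : ℂ)) t)
          = fun t => c i * (b i).indicator (fun _ => (1 : ℂ)) t := by
        funext t
        by_cases ht : t ∈ b i
        · rw [Set.indicator_of_mem ht]
          congr 1
          have h4 : f t = (c i).arg := fa_ind_sum hd (fun j => (c j).arg) hi ht
          rw [h4, mul_comm Complex.I]
          have h5 := Complex.norm_mul_exp_arg_mul_I (c i)
          rw [hc i hi, Complex.ofReal_one, one_mul] at h5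
          exact h5
        · rw [Set.indicator_of_notMem ht, mul_zero, mul_zero]
      rw [h3, L.lab_smul (c i) (bm_ind (hb i hi))] at h2
      have h6 := congrArg (fun T : H →L[ℂ] H => T y) h2
      exact h6.symm
    rw [L.fa_E_sum hb hd hG y, L.fa_E_sum hb hd hG z, map_sum]
    have e1 : (∑ i ∈ Finset.range N, L.lab (fun t => Complex.exp (Complex.I * (f t : ℂ)))
        (L.E (b i) y)) - ∑ i ∈ Finset.range N, L.E (b i) z
        = ∑ i ∈ Finset.range N, L.E (b i) (c i • y - z) := by
      rw [← Finset.sum_sub_distrib]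
      refine Finset.sum_congr rfl fun i hi => ?_
      rw [h1 i (Finset.mem_range.1 hi), map_sub, map_smul]
    rw [e1, L.fa_pyth hb hd]
    refine Finset.sum_congr rfl fun i _ => ?_
    rw [map_sub, map_smul]

end LSys

end Vale.Agent.P367.A
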