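import Vale.Agent.P367.B.LSys

/-! P367, block B, T2: interface of the function gate. -/

namespace Vale.Agent.P367.A

open Complex Filter Topology MeasureTheory

namespace LSys

variable {H K : Type*} [NormedAddCommGroup H] [InnerProductSpace ℂ H]
  [NormedAddCommGroup K] [InnerProductSpace ℂ K] (L : LSys H K)

/-- a unitary as a bounded operator -/
noncomputable def clm (U : H ≃ₗᵢ[ℂ] H) : H →L[ℂ] H :=
  U.toContinuousLinearEquiv.toContinuousLinearMap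

@[simp] lemma clm_apply (U : H ≃ₗᵢ[ℂ] H) (x : H) : clm U x = U x := rfl

/-- `cos phi(v)` -/
noncomputable def cosf (v : K) : H →L[ℂ] H := (1 / 2 : ℂ) • (clm (L.W v) + clm (L.W (-v)))

/-- `sin phi(v)` -/
noncomputable def sinf (v : K) : H →L[ℂ] H :=
  (-(Complex.I / 2)) • (clm (L.W v) - clm (L.W (-v)))

/-- `exp(-i P phi(v))` as a bounded operator -/
noncomputable def pwC (P : H ≃ₗᵢ[ℂ] H) (v : K) : H →L[ℂ] H :=
  (1 / 2 : ℂ) • (clm (L.W (-v)) + clm (L.W v))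
    + (1 / 2 : ℂ) • ((clm (L.W (-v)) - clm (L.W v)) * clm P)

lemma pwC_apply (P : H ≃ₗᵢ[ℂ] H) (v : K) (x : H) : L.pwC P v x = L.pw P v x := rfl

/-- the control vector `mu * fv Z o V + lam * fv Y r V` -/
noncomputable def cvec (μ ν : ℝ) (o r : Set ℝ) (V : H ≃ₗᵢ[ℂ] H) : K :=
  (μ : ℂ) • L.fv (L.pau 2) o V + (ν : ℂ) • L.fv (L.pau 1) r V

/-- `exp(-(i/2) X phi(v))` and its inverse -/
noncomputable def kk (v : K) : H →L[ℂ] H := L.pwC (L.pau 0) ((1 / 2 : ℂ) • v)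

noncomputable def kki (v : K) : H →L[ℂ] H := L.pwC (L.pau 0) (-((1 / 2 : ℂ) • v))

/-- `exp(-i ε psi Z)` -/
noncomputable def rr (psi : H →L[ℂ] H) (ε : ℝ) : H →L[ℂ] H :=
  NormedSpace.exp ((-Complex.I) • (((ε : ℂ) • psi) * clm (L.pau 2)))

/-- one micro step on the own batch -/
noncomputable def fm (v : K) (psi : H →L[ℂ] H) (ε : ℝ) : H →L[ℂ] H :=
  L.kk v * (L.rr psi ε * (L.kki v * (L.kki v * (L.rr psi ε * L.kk v))))

/-- its inverse -/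
noncomputable def fmi (v : K) (psi : H →L[ℂ] H) (ε : ℝ) : H →L[ℂ] H :=
  L.kki v * (L.rr psi (-ε) * (L.kk v * (L.kk v * (L.rr psi (-ε) * L.kki v))))

/-- sum of the reactions of the `m` micro steps: `Σ_j (X_j - 2 X'_j + X_{j+1})` -/
noncomputable def sumX (v : K) (psi : H →L[ℂ] H) (ε : ℝ) (m : ℕ) : H →L[ℂ] H :=
  ∑ j ∈ Finset.range m, (L.fmi v psi ε ^ j * clm L.X * L.fm v psi ε ^ j
    - (2 : ℂ) • (L.fmi v psi ε ^ j * (L.kki v * L.rr psi (-ε) * clm L.X * L.rr psi ε * L.kk v)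
        * L.fm v psi ε ^ j)
    + L.fmi v psi ε ^ (j + 1) * clm L.X * L.fm v psi ε ^ (j + 1))

/-- block unitary: `Ub` on `b`, `tho * exp(-i Z phi(p))` on `o`, `thr * exp(-i Y phi(q))` on `r` -/
def IsBlk (b o r : Set ℝ) (Ub : H →L[ℂ] H) (p q : K) (tho thr : ℂ) (U : H ≃ₗᵢ[ℂ] H) : Prop :=
  ∀ x, U x = Ub (L.E b x) + tho • L.pw (L.pau 2) p (L.E o x)
    + thr • L.pw (L.pau 1) q (L.E r x) + (x - L.E b x - L.E o x - L.E r x)

/-- data of a function gate -/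
structure FData (G : Set ℝ) (𝔄 : Set (H →L[ℂ] H)) (M b o r : Set ℝ) (psi : H →L[ℂ] H) : Prop where
  mb : MeasurableSet b
  mo : MeasurableSet o
  mr : MeasurableSet r
  bM : b ⊆ M
  oM : o ⊆ M
  rM : r ⊆ M
  bo : Disjoint b o
  br : Disjoint b r
  or : Disjoint o r
  psiA : psi ∈ 𝔄
  psiS : Sa psi
  psiG : psi * L.E G = psi
  psib : psi * L.E b = psi

/-- (a): the gates of `m` micro steps, exactly -/
def FaStmt : Prop :=
  ∀ (G : Set ℝ) (𝔄 : Set (H →L[ℂ] H)) (Rch : Set ℝ → Set ℝ → (H ≃ₗᵢ[ℂ] H) → Prop),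
    MeasurableSet G → L.Ctl 𝔄 → L.Closed G 𝔄 Rch →
    ∀ (M R b o r : Set ℝ) (V : H ≃ₗᵢ[ℂ] H) (psi : H →L[ℂ] H) (μ ν s : ℝ), Rch M R V →
      L.FData G 𝔄 M b o r psi → ∀ m : ℕ, 1 ≤ m →
      ∃ (U : H ≃ₗᵢ[ℂ] H) (tho thr : ℂ), ‖tho‖ = 1 ∧ ‖thr‖ = 1 ∧
        L.IsBlk b o r (L.fm (L.cvec μ ν o r V) psi (s / (2 * m)) ^ m)
          (((μ / 2 : ℝ) : ℂ) • L.iota (L.E b (V⁻¹ (L.sumX (L.cvec μ ν o r V) psi (s / (2 * m)) m
            (V L.Om)))))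
          (((ν / 2 : ℝ) : ℂ) • L.iota (L.E b (V⁻¹ (L.sumX (L.cvec μ ν o r V) psi (s / (2 * m)) m
            (V L.Om))))) tho thr U ∧
        Rch M R (U * V)

/-- the limiting reaction vector `- s * iota (E_b V^* psi Z sin phi(v) V Om)` -/
noncomputable def rvec (v : K) (b : Set ℝ) (psi : H →L[ℂ] H) (s : ℝ) (V : H ≃ₗᵢ[ℂ] H) : K :=
  (-(s : ℂ)) • L.iota (L.E b (V⁻¹ (psi (L.Z (L.sinf v (V L.Om))))))

/-- **function gate**: `exp(-i s psi Z cos phi(v))` on `b` and its reactions are reachable -/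
def FGStmt : Prop :=
  ∀ (G : Set ℝ) (𝔄 : Set (H →L[ℂ] H)) (Rch : Set ℝ → Set ℝ → (H ≃ₗᵢ[ℂ] H) → Prop),
    MeasurableSet G → L.Ctl 𝔄 → L.Closed G 𝔄 Rch →
    ∀ (M R b o r : Set ℝ) (V : H ≃ₗᵢ[ℂ] H) (psi : H →L[ℂ] H) (μ ν s : ℝ), Rch M R V →
      L.FData G 𝔄 M b o r psi →
      ∀ U : H ≃ₗᵢ[ℂ] H, L.IsBlk b o r
          (NormedSpace.exp ((-(Complex.I * (s : ℂ))) •
            (psi * (clm L.Z * L.cosf (L.cvec μ ν o r V)))))
          ((μ : ℂ) • L.rvec (L.cvec μ ν o r V) b psi s V)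
          ((ν : ℂ) • L.rvec (L.cvec μ ν o r V) b psi s V) 1 1 U →
        Rch M R (U * V)

end LSys

end Vale.Agent.P367.A
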