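import Vale.Agent.P367.B.LSys

/-! P367, block B: the function gate at the level of gates, inside a closed reachability
predicate. -/

namespace Vale.Agent.P367.A

open Complex Filter Topology MeasureTheory

namespace LSys

variable {H K : Type*} [NormedAddCommGroup H] [InnerProductSpace ℂ H]
  [NormedAddCommGroup K] [InnerProductSpace ℂ K] (L : LSys H K)

/-- the couplings exist -/
def CoupEx : Prop := ∀ (A B : Set ℝ) (P Q : Fin 3) (c : ℝ) (V : H ≃ₗᵢ[ℂ] H), MeasurableSet A →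
  MeasurableSet B → Disjoint A B → ∃ U, L.IsCoup A B P Q c V U

/-- the control vector `ka x_o + la y_r` -/
noncomputable def fgv (o r : Set ℝ) (ka la : ℝ) (V : H ≃ₗᵢ[ℂ] H) : K :=
  (ka : ℂ) • L.fv (L.pau 2) o V + (la : ℂ) • L.fv (L.pau 1) r V

/-- one round `k l k^-1 k^-1 l k` -/
def fgG (k l : H ≃ₗᵢ[ℂ] H) : H ≃ₗᵢ[ℂ] H := k * l * k⁻¹ * k⁻¹ * l * k

/-- the reaction operator of one round: `(1/2) G^-1 X G - (l k)^-1 X (l k) + (1/2) X` -/
noncomputable def fgD (k l : H ≃ₗᵢ[ℂ] H) (x : H) : H :=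
  (1 / 2 : ℂ) • (fgG k l)⁻¹ (L.X (fgG k l x)) - (l * k)⁻¹ (L.X ((l * k) x)) + (1 / 2 : ℂ) • L.X x

/-- the accumulated reaction operator -/
noncomputable def fgS (k l : H ≃ₗᵢ[ℂ] H) (m : ℕ) (x : H) : H :=
  ∑ j ∈ Finset.range m, (fgG k l ^ j)⁻¹ (L.fgD k l ((fgG k l ^ j) x))

/-! ### label projections and pulses -/

lemma fga_bm {b : Set ℝ} (hb : MeasurableSet b) : Bm (b.indicator fun _ => (1 : ℂ)) := by
  refine ⟨measurable_const.indicator hb, 1, fun x => ?_⟩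
  by_cases hx : x ∈ b
  · rw [Set.indicator_of_mem hx]; simp
  · rw [Set.indicator_of_notMem hx]; simp

lemma fga_EE {b c : Set ℝ} (hb : MeasurableSet b) (hc : MeasurableSet c) (x : H) :
    L.E b (L.E c x) = L.E (b ∩ c) x := by
  have h := L.lab_mul _ _ (fga_bm hb) (fga_bm hc)
  have e : (fun t => b.indicator (fun _ => (1 : ℂ)) t * c.indicator (fun _ => (1 : ℂ)) t)
      = (b ∩ c).indicator fun _ => (1 : ℂ) := by
    funext t
    by_cases h1 : t ∈ b <;> by_cases h2 : t ∈ c <;> simp [h1, h2]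
  rw [e] at h
  change (L.lab _ * L.lab _) x = L.lab _ x
  rw [h]

lemma fga_E_idem {b : Set ℝ} (hb : MeasurableSet b) (x : H) : L.E b (L.E b x) = L.E b x := by
  rw [L.fga_EE hb hb, Set.inter_self]

lemma fga_E_empty (x : H) : L.E ∅ x = 0 := by
  have h := L.lab_const 0
  have e : ((∅ : Set ℝ).indicator fun _ => (1 : ℂ)) = fun _ => (0 : ℂ) := by
    funext t; simp
  unfold E
  rw [e, h]
  simp

lemma fga_E_disj {b c : Set ℝ} (hb : MeasurableSet b) (hc : MeasurableSet c) (h : Disjoint b c)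
    (x : H) : L.E b (L.E c x) = 0 := by
  rw [L.fga_EE hb hc, Set.disjoint_iff_inter_eq_empty.1 h, L.fga_E_empty]

lemma fga_E_inner {b : Set ℝ} (hb : MeasurableSet b) (x y : H) :
    inner ℂ (L.E b x) y = (inner ℂ x (L.E b y) : ℂ) := by
  have h := L.lab_adj _ (fga_bm hb) x y
  have e : (fun t => (starRingEnd ℂ) (b.indicator (fun _ => (1 : ℂ)) t))
      = b.indicator fun _ => (1 : ℂ) := by
    funext t
    by_cases h1 : t ∈ b <;> simp [h1]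
  rw [e] at h
  exact h

lemma fga_E_xr (b : Set ℝ) (t : ℝ) (x : H) : L.E b (L.xr t x) = L.xr t (L.E b x) := by
  rw [L.xr_apply, L.xr_apply, map_sub, map_smul, map_smul]
  congr 2
  exact L.lab_X _ _

lemma fga_E_Zt (b : Set ℝ) (t : ℝ) (x : H) : L.E b (L.Zt t x) = L.Zt t (L.E b x) := by
  rw [L.Zt_apply, L.Zt_apply, L.fga_E_xr]
  congr 1
  exact L.lab_Z _ _

lemma fga_PP (i : Fin 3) (x : H) : L.pau i (L.pau i x) = x := by
  fin_cases i
  · exact L.XX x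
  · exact L.Zt_sq _ x
  · exact L.ZZ x

lemma fga_PW (i : Fin 3) (a : K) (x : H) : L.W a (L.pau i x) = L.pau i (L.W a x) := by
  fin_cases i
  · exact L.WX a x
  · exact L.W_ZtA a _ x
  · exact L.WZ a x

lemma fga_EP (i : Fin 3) (b : Set ℝ) (x : H) : L.E b (L.pau i x) = L.pau i (L.E b x) := by
  fin_cases i
  · exact L.lab_X _ x
  · exact L.fga_E_Zt b _ x
  · exact L.lab_Z _ x

lemma fga_pw_eq (P : H ≃ₗᵢ[ℂ] H) (v : K) (x : H) : L.pw P v x
    = L.W (-v) ((1 / 2 : ℂ) • (x + P x)) + L.W v ((1 / 2 : ℂ) • (x - P x)) := by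
  unfold pw
  simp only [map_smul, map_add, map_sub]
  module

lemma fga_pw_smul (P : H ≃ₗᵢ[ℂ] H) (v : K) (c : ℂ) (x : H) :
    L.pw P v (c • x) = c • L.pw P v x := by
  unfold pw
  simp only [map_smul]
  module

lemma fga_P_pw (i : Fin 3) (v : K) (x : H) :
    L.pau i (L.pw (L.pau i) v x) = L.pw (L.pau i) v (L.pau i x) := by
  unfold pw
  simp only [map_smul, map_add, map_sub, ← L.fga_PW]

lemma fga_E_pw (i : Fin 3) (b : Set ℝ) (v : K) (x : H) :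
    L.E b (L.pw (L.pau i) v x) = L.pw (L.pau i) v (L.E b x) := by
  unfold pw
  simp only [map_smul, map_add, map_sub]
  have h : ∀ (a : K) (y : H), L.E b (L.W a y) = L.W a (L.E b y) := fun a y => L.lab_W _ a y
  simp only [h, L.fga_EP]

lemma fga_pw_pw (i : Fin 3) (a b : K) (x : H) : L.pw (L.pau i) a (L.pw (L.pau i) b x)
    = Complex.exp (-(Complex.I * ((inner ℂ a b).im : ℂ))) • L.pw (L.pau i) (a + b) x := by
  have e1 : (1 / 2 : ℂ) • (L.pw (L.pau i) b x + L.pau i (L.pw (L.pau i) b x))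
      = L.W (-b) ((1 / 2 : ℂ) • (x + L.pau i x)) := by
    rw [L.fga_P_pw]
    unfold pw
    rw [L.fga_PP]
    simp only [map_smul, map_add, map_sub]
    module
  have e2 : (1 / 2 : ℂ) • (L.pw (L.pau i) b x - L.pau i (L.pw (L.pau i) b x))
      = L.W b ((1 / 2 : ℂ) • (x - L.pau i x)) := by
    rw [L.fga_P_pw]
    unfold pw
    rw [L.fga_PP]
    simp only [map_smul, map_add, map_sub]
    module
  rw [L.fga_pw_eq, e1, e2, L.WW, L.WW, inner_neg_neg, ← neg_add, L.fga_pw_eq]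
  exact (smul_add _ _ _).symm

lemma fga_zr (v : K) (x : H) : L.zr v x = L.pw (L.pau 2) v x := L.zr_apply v x

lemma fga_pul (v : K) (x : H) : L.pul (-(Real.pi / 4)) v x = L.pw (L.pau 1) v x := L.pul_apply _ v x

/-- commutation with the inverse -/
lemma fga_inv {T : H →L[ℂ] H} {U : H ≃ₗᵢ[ℂ] H} (h : ∀ x, T (U x) = U (T x)) (x : H) :
    T (U⁻¹ x) = U⁻¹ (T x) := by
  have h1 := h (U⁻¹ x)
  rw [Sys.Ainv] at h1
  rw [h1, Sys.invA]

lemma fga_fv_of {c : Set ℝ} {U P : H ≃ₗᵢ[ℂ] H} (hU : ∀ x, L.E c (U x) = U (L.E c x))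
    (hP : ∀ x, L.E c (P x) = P (L.E c x)) {w : H} (hw : U w = P (U (L.E c L.Om))) :
    L.E c (U⁻¹ (P (U L.Om))) = w := by
  rw [fga_inv hU, hP, hU, ← hw, Sys.invA]

/-- block form of the state of the function gate -/
structure FgSt (b o r : Set ℝ) (V U B : H ≃ₗᵢ[ℂ] H) (co cr : ℂ) (wo wr : K) : Prop where
  nco : ‖co‖ = 1
  ncr : ‖cr‖ = 1
  cB : ∀ x, L.E b (B x) = B (L.E b x)
  hb : ∀ y, L.E b y = y → U y = B (V y)
  ho : ∀ y, L.E o y = y → U y = co • L.pw (L.pau 2) wo (V y)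
  hr : ∀ y, L.E r y = y → U y = cr • L.pw (L.pau 1) wr (V y)
  h0 : ∀ y, L.E b y = 0 → L.E o y = 0 → L.E r y = 0 → U y = V y

/-- block form of a coupling -/
lemma fga_coup {A B : Set ℝ} (hA : MeasurableSet A) (hB : MeasurableSet B) (hAB : Disjoint A B)
    {P Q : Fin 3} {c : ℝ} {V U : H ≃ₗᵢ[ℂ] H} (h : L.IsCoup A B P Q c V U) :
    (∀ z, L.E A z = z → U z = L.pw (L.pau P) ((c : ℂ) • L.fv (L.pau Q) B V) z) ∧
    (∀ z, L.E B z = z → U z = L.pw (L.pau Q) ((c : ℂ) • L.fv (L.pau P) A V) z) ∧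
    (∀ z, L.E A z = 0 → L.E B z = 0 → U z = z) := by
  have hp0 : ∀ (i : Fin 3) (v : K), L.pw (L.pau i) v 0 = 0 := by
    intro i v
    unfold pw
    simp
  refine ⟨fun z hz => ?_, fun z hz => ?_, fun z h1 h2 => ?_⟩
  · have h2 : L.E B z = 0 := by rw [← hz, L.fga_E_disj hB hA hAB.symm]
    rw [h z, hz, h2, hp0]
    simp
  · have h2 : L.E A z = 0 := by rw [← hz, L.fga_E_disj hA hB hAB]
    rw [h z, hz, h2, hp0]
    simp
  · rw [h z, h1, h2, hp0, hp0]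
    simp

lemma fga_phase (t : ℝ) : ‖Complex.exp (-(Complex.I * (t : ℂ)))‖ = 1 := by
  rw [← mul_neg, mul_comm, ← Complex.ofReal_neg, Complex.norm_exp_ofReal_mul_I]

/-- one coupling step -/
lemma fga_step {G : Set ℝ} {𝔄 : Set (H →L[ℂ] H)} {Rch : Set ℝ → Set ℝ → (H ≃ₗᵢ[ℂ] H) → Prop}
    (hA : L.Ctl 𝔄) (hC : L.Closed G 𝔄 Rch) (hE : L.CoupEx) {M R : Set ℝ} {V U B : H ≃ₗᵢ[ℂ] H}
    (hV : Rch M R V) (hU : Rch M R U) {b o r : Set ℝ} (hb : MeasurableSet b) (ho : MeasurableSet o)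
    (hr : MeasurableSet r) (hbM : b ⊆ M) (hoM : o ⊆ M) (hrM : r ⊆ M) (hbo : Disjoint b o)
    (hbr : Disjoint b r) (hor : Disjoint o r) (ka la c : ℝ) {co cr : ℂ} {wo wr : K}
    (hS : L.FgSt b o r V U B co cr wo wr) {kc : H ≃ₗᵢ[ℂ] H}
    (hkc : ∀ x, kc x = L.pw (L.pau 0) ((c : ℂ) • L.fgv o r ka la V) x) :
    ∃ (U' : H ≃ₗᵢ[ℂ] H) (co' cr' : ℂ), Rch M R U' ∧ L.FgSt b o r V U' (kc * B) co' cr'
      (wo + ((c * ka : ℝ) : ℂ) • L.iota (L.E b (V⁻¹ (B⁻¹ (L.X (B (V L.Om)))))))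
      (wr + ((c * la : ℝ) : ℂ) • L.iota (L.E b (V⁻¹ (B⁻¹ (L.X (B (V L.Om))))))) := by
  have hVE : ∀ (s : Set ℝ), MeasurableSet s → ∀ x, L.E s (V x) = V (L.E s x) :=
    fun s hs x => hC.comm M R V hV _ (hA.lab _ (fga_bm hs)) x
  have hUE : ∀ (s : Set ℝ), MeasurableSet s → ∀ x, L.E s (U x) = U (L.E s x) :=
    fun s hs x => hC.comm M R U hU _ (hA.lab _ (fga_bm hs)) x
  set q : H := L.E b (V⁻¹ (B⁻¹ (L.X (B (V L.Om))))) with hq
  have hqy : q = V⁻¹ (B⁻¹ (L.X (B (V (L.E b L.Om))))) := by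
    rw [hq, fga_inv (hVE b hb), fga_inv hS.cB]
    have : ∀ x, L.E b (L.X x) = L.X (L.E b x) := fun x => L.fga_EP 0 b x
    rw [this, hS.cB, hVE b hb]
  have hqb : L.E b q = q := by rw [hq, L.fga_E_idem hb]
  have hOb : L.E b (L.E b L.Om) = L.E b L.Om := L.fga_E_idem hb _
  have hOo : L.E o (L.E o L.Om) = L.E o L.Om := L.fga_E_idem ho _
  have hOr : L.E r (L.E r L.Om) = L.E r L.Om := L.fga_E_idem hr _
  -- first coupling
  obtain ⟨U1, hU1⟩ := hE b o 0 2 (c * ka) U hb ho hbo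
  have hR1 := hC.coup M R U b o 0 2 (c * ka) U1 hU hb ho hbM hoM hbo hU1
  obtain ⟨c1, c2, c3⟩ := L.fga_coup hb ho hbo hU1
  have hUE1 : ∀ (s : Set ℝ), MeasurableSet s → ∀ x, L.E s ((U1 * U) x) = (U1 * U) (L.E s x) :=
    fun s hs x => hC.comm M R (U1 * U) hR1 _ (hA.lab _ (fga_bm hs)) x
  -- field vectors for the first coupling
  have f1 : L.fv (L.pau 2) o U = L.fv (L.pau 2) o V := by
    unfold fv
    congr 1
    refine L.fga_fv_of (hUE o ho) (L.fga_EP 2 o) ?_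
    have hw : L.E o (L.E o (V⁻¹ (L.pau 2 (V L.Om)))) = L.E o (V⁻¹ (L.pau 2 (V L.Om))) :=
      L.fga_E_idem ho _
    rw [hS.ho _ hw, hS.ho _ hOo, fga_inv (hVE o ho), Sys.Ainv, L.fga_EP, hVE o ho, map_smul,
      L.fga_P_pw]
  have f2 : L.fv (L.pau 0) b U = L.iota q := by
    unfold fv
    congr 1
    refine L.fga_fv_of (hUE b hb) (L.fga_EP 0 b) ?_
    rw [hS.hb _ hqb, hS.hb _ hOb, hqy, Sys.Ainv, Sys.Ainv]
    rfl
  rw [f1] at c1
  rw [f2] at c2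
  -- block form after the first coupling
  have b1 : ∀ y, L.E b y = y → (U1 * U) y
      = L.pw (L.pau 0) (((c * ka : ℝ) : ℂ) • L.fv (L.pau 2) o V) (B (V y)) := by
    intro y hy
    have hz : L.E b (B (V y)) = B (V y) := by rw [hS.cB, hVE b hb, hy]
    rw [Sys.mulA, hS.hb y hy, c1 _ hz]
  have o1 : ∀ y, L.E o y = y → (U1 * U) y
      = (co * Complex.exp (-(Complex.I * ((inner ℂ (((c * ka : ℝ) : ℂ) • L.iota q) wo).im : ℂ)))) •
        L.pw (L.pau 2) (wo + ((c * ka : ℝ) : ℂ) • L.iota q) (V y) := by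
    intro y hy
    have hz : L.E o (co • L.pw (L.pau 2) wo (V y)) = co • L.pw (L.pau 2) wo (V y) := by
      rw [map_smul, L.fga_E_pw, hVE o ho, hy]
    rw [Sys.mulA, hS.ho y hy, c2 _ hz, L.fga_pw_smul, L.fga_pw_pw, smul_smul,
      add_comm (((c * ka : ℝ) : ℂ) • L.iota q) wo]
  have r1 : ∀ y, L.E r y = y → (U1 * U) y = cr • L.pw (L.pau 1) wr (V y) := by
    intro y hy
    have hz : L.E r (cr • L.pw (L.pau 1) wr (V y)) = cr • L.pw (L.pau 1) wr (V y) := by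
      rw [map_smul, L.fga_E_pw, hVE r hr, hy]
    rw [Sys.mulA, hS.hr y hy, c3]
    · rw [← hz, L.fga_E_disj hb hr hbr]
    · rw [← hz, L.fga_E_disj ho hr hor]
  have z1 : ∀ y, L.E b y = 0 → L.E o y = 0 → L.E r y = 0 → (U1 * U) y = V y := by
    intro y h1 h2 h3
    rw [Sys.mulA, hS.h0 y h1 h2 h3, c3]
    · rw [hVE b hb, h1, map_zero]
    · rw [hVE o ho, h2, map_zero]
  -- second coupling
  obtain ⟨U2, hU2⟩ := hE b r 0 1 (c * la) (U1 * U) hb hr hbr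
  have hR2 := hC.coup M R (U1 * U) b r 0 1 (c * la) U2 hR1 hb hr hbM hrM hbr hU2
  obtain ⟨d1, d2, d3⟩ := L.fga_coup hb hr hbr hU2
  have f3 : L.fv (L.pau 1) r (U1 * U) = L.fv (L.pau 1) r V := by
    unfold fv
    congr 1
    refine L.fga_fv_of (hUE1 r hr) (L.fga_EP 1 r) ?_
    have hw : L.E r (L.E r (V⁻¹ (L.pau 1 (V L.Om)))) = L.E r (V⁻¹ (L.pau 1 (V L.Om))) :=
      L.fga_E_idem hr _
    rw [r1 _ hw, r1 _ hOr, fga_inv (hVE r hr), Sys.Ainv, L.fga_EP, hVE r hr, map_smul,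
      L.fga_P_pw]
  have f4 : L.fv (L.pau 0) b (U1 * U) = L.iota q := by
    unfold fv
    congr 1
    refine L.fga_fv_of (hUE1 b hb) (L.fga_EP 0 b) ?_
    rw [b1 _ hqb, b1 _ hOb, L.fga_P_pw, hqy, Sys.Ainv, Sys.Ainv]
    rfl
  rw [f3] at d1
  rw [f4] at d2
  have hort : (inner ℂ (((c * la : ℝ) : ℂ) • L.fv (L.pau 1) r V)
      (((c * ka : ℝ) : ℂ) • L.fv (L.pau 2) o V) : ℂ) = 0 := by
    rw [inner_smul_left, inner_smul_right]
    unfold fv
    rw [LinearIsometry.inner_map_map, L.fga_E_inner hr, L.fga_E_disj hr ho hor.symm,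
      inner_zero_right, mul_zero, mul_zero]
  refine ⟨U2 * (U1 * U),
    co * Complex.exp (-(Complex.I * ((inner ℂ (((c * ka : ℝ) : ℂ) • L.iota q) wo).im : ℂ))),
    cr * Complex.exp (-(Complex.I * ((inner ℂ (((c * la : ℝ) : ℂ) • L.iota q) wr).im : ℂ))),
    hR2, ?_⟩
  refine ⟨?_, ?_, ?_, ?_, ?_, ?_, ?_⟩
  · rw [norm_mul, hS.nco, fga_phase, one_mul]
  · rw [norm_mul, hS.ncr, fga_phase, one_mul]
  · intro x
    rw [Sys.mulA, Sys.mulA, hkc, hkc, L.fga_E_pw, hS.cB]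
  · intro y hy
    have hz : L.E b ((U1 * U) y) = (U1 * U) y := by rw [hUE1 b hb, hy]
    rw [Sys.mulA U2, d1 _ hz, b1 y hy, L.fga_pw_pw, hort, Sys.mulA kc, hkc]
    simp only [Complex.zero_im, Complex.ofReal_zero, mul_zero, neg_zero, Complex.exp_zero, one_smul]
    congr 1
    unfold fgv
    rw [smul_add, smul_smul, smul_smul, add_comm]
    push_cast
    rfl
  · intro y hy
    have hz : L.E o ((U1 * U) y) = (U1 * U) y := by rw [hUE1 o ho, hy]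
    rw [Sys.mulA U2, d3, o1 y hy]
    · rw [← hz, L.fga_E_disj hb ho hbo]
    · rw [← hz, L.fga_E_disj hr ho hor.symm]
  · intro y hy
    have hz : L.E r ((U1 * U) y) = (U1 * U) y := by rw [hUE1 r hr, hy]
    rw [Sys.mulA U2, d2 _ hz, r1 y hy, L.fga_pw_smul, L.fga_pw_pw, smul_smul,
      add_comm (((c * la : ℝ) : ℂ) • L.iota q) wr]
  · intro y h1 h2 h3
    rw [Sys.mulA U2, z1 y h1 h2 h3, d3]
    · rw [hVE b hb, h1, map_zero]
    · rw [hVE r hr, h3, map_zero]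

/-- a rotation supported in `b` does nothing off `b` -/
lemma fga_rot_off [CompleteSpace H] {a : H →L[ℂ] H} {b : Set ℝ} (hab : a * L.E b = a)
    {l : H ≃ₗᵢ[ℂ] H} (hl : L.IsRot a 2 l) {z : H} (hz : L.E b z = 0) : l z = z := by
  rw [hl z]
  set T : H →L[ℂ] H := (-Complex.I) • (a * (L.pau 2).toContinuousLinearEquiv.toContinuousLinearMap)
    with hT
  have hTz : T z = 0 := by
    have h1 : T z = (-Complex.I) • a (L.pau 2 z) := rfl
    have h2 : a (L.pau 2 z) = 0 := by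
      have h3 : a (L.pau 2 z) = (a * L.E b) (L.pau 2 z) := by rw [hab]
      rw [h3]
      change a (L.E b (L.pau 2 z)) = 0
      rw [L.fga_EP, hz, map_zero, map_zero]
    rw [h1, h2, smul_zero]
  have h4 := NormedSpace.exp_series_hasSum_exp' (𝕂 := ℂ) T
  have h5 := h4.mapL (ContinuousLinearMap.apply ℂ H z)
  have h6 : HasSum (fun n : ℕ => (ContinuousLinearMap.apply ℂ H z)
      (((n.factorial : ℂ)⁻¹) • T ^ n)) z := by
    have h7 := hasSum_single (f := fun n : ℕ => (ContinuousLinearMap.apply ℂ H z)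
      (((n.factorial : ℂ)⁻¹) • T ^ n)) 0 (by
        intro n hn
        obtain ⟨k, rfl⟩ := Nat.exists_eq_succ_of_ne_zero hn
        change ((((k + 1).factorial : ℂ)⁻¹) • T ^ (k + 1)) z = 0
        rw [pow_succ]
        change (((k + 1).factorial : ℂ)⁻¹) • (T ^ k) (T z) = 0
        rw [hTz, map_zero, smul_zero])
    have h8 : (ContinuousLinearMap.apply ℂ H z) (((Nat.factorial 0 : ℕ) : ℂ)⁻¹ • T ^ 0) = z := by
      change ((((Nat.factorial 0 : ℕ) : ℂ)⁻¹) • T ^ 0) z = z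
      rw [pow_zero, Nat.factorial_zero, Nat.cast_one, inv_one, one_smul]
      rfl
    rw [h8] at h7
    exact h7
  exact h5.unique h6

/-- one rotation step -/
lemma fga_rotstep [CompleteSpace H] {G : Set ℝ} {𝔄 : Set (H →L[ℂ] H)}
    {Rch : Set ℝ → Set ℝ → (H ≃ₗᵢ[ℂ] H) → Prop}
    (hA : L.Ctl 𝔄) (hC : L.Closed G 𝔄 Rch) {M R : Set ℝ} {V U B : H ≃ₗᵢ[ℂ] H}
    (hV : Rch M R V) (hU : Rch M R U) {b o r : Set ℝ} (hb : MeasurableSet b) (ho : MeasurableSet o)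
    (hr : MeasurableSet r) (hbo : Disjoint b o) (hbr : Disjoint b r) {co cr : ℂ} {wo wr : K}
    (hS : L.FgSt b o r V U B co cr wo wr) {a : H →L[ℂ] H}
    (ha : a ∈ 𝔄) (hsa : Sa a) (haG : a * L.E G = a) (hab : a * L.E b = a) {l : H ≃ₗᵢ[ℂ] H}
    (hl : L.IsRot a 2 l) :
    Rch M R (l * U) ∧ L.FgSt b o r V (l * U) (l * B) co cr wo wr := by
  have hR := hC.rot M R U a 2 l hU ha hsa haG hl
  have hVE : ∀ (s : Set ℝ), MeasurableSet s → ∀ x, L.E s (V x) = V (L.E s x) :=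
    fun s hs x => hC.comm M R V hV _ (hA.lab _ (fga_bm hs)) x
  have hlE : ∀ x, L.E b (l x) = l (L.E b x) := by
    intro x
    have h1 := hC.comm M R _ hR _ (hA.lab _ (fga_bm hb)) (U⁻¹ x)
    have h2 := hC.comm M R U hU _ (hA.lab _ (fga_bm hb)) (U⁻¹ x)
    change L.E b (l (U (U⁻¹ x))) = l (U (L.E b (U⁻¹ x))) at h1
    change L.E b (U (U⁻¹ x)) = U (L.E b (U⁻¹ x)) at h2
    rw [Sys.Ainv] at h1 h2
    rw [h1, h2]
  refine ⟨hR, hS.nco, hS.ncr, ?_, ?_, ?_, ?_, ?_⟩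
  · intro x
    rw [Sys.mulA, Sys.mulA, hlE, hS.cB]
  · intro y hy
    rw [Sys.mulA, hS.hb y hy, Sys.mulA]
  · intro y hy
    have hz : L.E o (co • L.pw (L.pau 2) wo (V y)) = co • L.pw (L.pau 2) wo (V y) := by
      rw [map_smul, L.fga_E_pw, hVE o ho, hy]
    rw [Sys.mulA, hS.ho y hy]
    exact L.fga_rot_off hab hl (by rw [← hz, L.fga_E_disj hb ho hbo])
  · intro y hy
    have hz : L.E r (cr • L.pw (L.pau 1) wr (V y)) = cr • L.pw (L.pau 1) wr (V y) := by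
      rw [map_smul, L.fga_E_pw, hVE r hr, hy]
    rw [Sys.mulA, hS.hr y hy]
    exact L.fga_rot_off hab hl (by rw [← hz, L.fga_E_disj hb hr hbr])
  · intro y h1 h2 h3
    rw [Sys.mulA, hS.h0 y h1 h2 h3]
    exact L.fga_rot_off hab hl (by rw [hVE b hb, h1, map_zero])

lemma fga_rounds [CompleteSpace H] {G : Set ℝ} {𝔄 : Set (H →L[ℂ] H)}
    {Rch : Set ℝ → Set ℝ → (H ≃ₗᵢ[ℂ] H) → Prop}
    (hA : L.Ctl 𝔄) (hC : L.Closed G 𝔄 Rch) (hE : L.CoupEx) {M R : Set ℝ} {V : H ≃ₗᵢ[ℂ] H}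
    (hV : Rch M R V) {b o r : Set ℝ} (hb : MeasurableSet b) (ho : MeasurableSet o)
    (hr : MeasurableSet r) (hbM : b ⊆ M) (hoM : o ⊆ M) (hrM : r ⊆ M) (hbo : Disjoint b o)
    (hbr : Disjoint b r) (hor : Disjoint o r) (ka la : ℝ) {k l : H ≃ₗᵢ[ℂ] H}
    (hk : ∀ x, k x = L.pw L.X ((1 / 2 : ℂ) • L.fgv o r ka la V) x) {a : H →L[ℂ] H}
    (ha : a ∈ 𝔄) (hsa : Sa a) (haG : a * L.E G = a) (hab : a * L.E b = a) (hl : L.IsRot a 2 l)
    (m : ℕ) :
    ∃ (U : H ≃ₗᵢ[ℂ] H) (co cr : ℂ), Rch M R U ∧ L.FgSt b o r V U (fgG k l ^ m) co cr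
      ((ka : ℂ) • L.iota (L.E b (V⁻¹ (L.fgS k l m (V L.Om)))))
      ((la : ℂ) • L.iota (L.E b (V⁻¹ (L.fgS k l m (V L.Om))))) := by
  have hkX : ∀ x, L.X (k x) = k (L.X x) := by
    intro x
    rw [hk, hk]
    exact L.fga_P_pw 0 _ x
  have hkiX : ∀ x, k⁻¹ (L.X (k x)) = L.X x := by
    intro x
    rw [hkX, Sys.invA]
  have hk2 : ∀ x, k x = L.pw (L.pau 0) (((1 / 2 : ℝ) : ℂ) • L.fgv o r ka la V) x := by
    intro x
    rw [hk]
    push_cast
    rfl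
  have hkk : ∀ x, k (k (L.pw (L.pau 0) (((-1 : ℝ) : ℂ) • L.fgv o r ka la V) x)) = x := by
    intro x
    have hi : ∀ s t : ℝ, (inner ℂ (((s : ℝ) : ℂ) • L.fgv o r ka la V)
        (((t : ℝ) : ℂ) • L.fgv o r ka la V) : ℂ).im = 0 := by
      intro s t
      rw [inner_smul_left, inner_smul_right, Complex.conj_ofReal, Complex.im_ofReal_mul,
        Complex.im_ofReal_mul, inner_self_eq_norm_sq_to_K]
      simp [← Complex.ofReal_pow]
    rw [hk2 (L.pw _ _ x), L.fga_pw_pw, hi, hk2, ← add_smul, ← Complex.ofReal_add]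
    simp only [Complex.ofReal_zero, mul_zero, neg_zero, Complex.exp_zero, one_smul]
    rw [L.fga_pw_pw, hi, ← add_smul, ← Complex.ofReal_add]
    simp only [Complex.ofReal_zero, mul_zero, neg_zero, Complex.exp_zero, one_smul]
    have e : (1 / 2 + (1 / 2 + -1) : ℝ) = 0 := by norm_num
    rw [e, Complex.ofReal_zero, zero_smul]
    unfold pw
    rw [neg_zero, L.W_zero_apply, L.W_zero_apply]
    module
  have hki : ∀ x, (k⁻¹ * k⁻¹) x = L.pw (L.pau 0) (((-1 : ℝ) : ℂ) • L.fgv o r ka la V) x := by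
    intro x
    rw [Sys.mulA]
    conv_lhs => rw [← hkk x]
    rw [Sys.invA, Sys.invA]
  induction m with
  | zero =>
    refine ⟨V, 1, 1, hV, by simp, by simp, fun _ => rfl, fun _ _ => rfl, ?_, ?_, fun _ _ _ _ => rfl⟩
    · intro y _
      have h0 : L.fgS k l 0 (V L.Om) = 0 := by simp [fgS]
      rw [h0, map_zero, map_zero, map_zero, smul_zero, one_smul]
      unfold pw
      rw [neg_zero, L.W_zero_apply, L.W_zero_apply]
      module
    · intro y _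
      have h0 : L.fgS k l 0 (V L.Om) = 0 := by simp [fgS]
      rw [h0, map_zero, map_zero, map_zero, smul_zero, one_smul]
      unfold pw
      rw [neg_zero, L.W_zero_apply, L.W_zero_apply]
      module
  | succ m ih =>
    obtain ⟨U, co, cr, hU, hS⟩ := ih
    obtain ⟨U1, co1, cr1, hU1, hS1⟩ := L.fga_step hA hC hE hV hU hb ho hr hbM hoM hrM hbo hbr hor
      ka la (1 / 2) hS hk2
    obtain ⟨hU2, hS2⟩ := L.fga_rotstep hA hC hV hU1 hb ho hr hbo hbr hS1 ha hsa haG hab hl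
    obtain ⟨U3, co3, cr3, hU3, hS3⟩ := L.fga_step hA hC hE hV hU2 hb ho hr hbM hoM hrM hbo hbr hor
      ka la (-1) hS2 hki
    obtain ⟨hU4, hS4⟩ := L.fga_rotstep hA hC hV hU3 hb ho hr hbo hbr hS3 ha hsa haG hab hl
    obtain ⟨U5, co5, cr5, hU5, hS5⟩ := L.fga_step hA hC hE hV hU4 hb ho hr hbM hoM hrM hbo hbr hor
      ka la (1 / 2) hS4 hk2
    refine ⟨U5, co5, cr5, hU5, ?_⟩
    set Gm := fgG k l ^ m with hGm
    have eG : fgG k l ^ (m + 1) = k * (l * (k⁻¹ * k⁻¹ * (l * (k * Gm)))) := by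
      rw [pow_succ', ← hGm, fgG]
      simp only [mul_assoc]
    rw [← eG] at hS5
    have eS : L.fgS k l (m + 1) (V L.Om) = L.fgS k l m (V L.Om)
        + ((1 / 2 : ℂ) • Gm⁻¹ (L.X (Gm (V L.Om)))
          - (l * (k * Gm))⁻¹ (L.X ((l * (k * Gm)) (V L.Om)))
          + (1 / 2 : ℂ) • (l * (k⁻¹ * k⁻¹ * (l * (k * Gm))))⁻¹
            (L.X ((l * (k⁻¹ * k⁻¹ * (l * (k * Gm)))) (V L.Om)))) := by
      unfold fgS
      rw [Finset.sum_range_succ, ← hGm]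
      congr 1
      unfold fgD
      have e1 : fgG k l (Gm (V L.Om)) = k ((l * (k⁻¹ * k⁻¹ * (l * (k * Gm)))) (V L.Om)) := by
        unfold fgG
        simp only [Sys.mulA]
      have e2 : ∀ z, Gm⁻¹ ((fgG k l)⁻¹ z) = (l * (k⁻¹ * k⁻¹ * (l * (k * Gm))))⁻¹ (k⁻¹ z) := by
        intro z
        have : Gm⁻¹ * (fgG k l)⁻¹ = (l * (k⁻¹ * k⁻¹ * (l * (k * Gm))))⁻¹ * k⁻¹ := by
          unfold fgG
          group
        exact congrArg (fun f : H ≃ₗᵢ[ℂ] H => f z) this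
      have e3 : ∀ z, Gm⁻¹ ((l * k)⁻¹ z) = (l * (k * Gm))⁻¹ z := by
        intro z
        have : Gm⁻¹ * (l * k)⁻¹ = (l * (k * Gm))⁻¹ := by group
        exact congrArg (fun f : H ≃ₗᵢ[ℂ] H => f z) this
      have e4 : (l * k) (Gm (V L.Om)) = (l * (k * Gm)) (V L.Om) := rfl
      rw [map_add, map_sub, map_smul, map_smul, e2, e1, hkiX, e3, e4]
      abel
    have e5 : ∀ (s : ℝ), ((s : ℝ) : ℂ) • L.iota (L.E b (V⁻¹ (L.fgS k l (m + 1) (V L.Om))))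
        = ((s : ℝ) : ℂ) • L.iota (L.E b (V⁻¹ (L.fgS k l m (V L.Om))))
          + ((1 / 2 * s : ℝ) : ℂ) • L.iota (L.E b (V⁻¹ (Gm⁻¹ (L.X (Gm (V L.Om))))))
          + ((-1 * s : ℝ) : ℂ) • L.iota (L.E b (V⁻¹ ((l * (k * Gm))⁻¹
              (L.X ((l * (k * Gm)) (V L.Om))))))
          + ((1 / 2 * s : ℝ) : ℂ) • L.iota (L.E b (V⁻¹ ((l * (k⁻¹ * k⁻¹ * (l * (k * Gm))))⁻¹
              (L.X ((l * (k⁻¹ * k⁻¹ * (l * (k * Gm)))) (V L.Om)))))) := by
      intro s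
      rw [eS]
      simp only [map_add, map_sub, map_smul]
      push_cast
      module
    rw [e5 ka, e5 la]
    exact hS5

/-- **gate level of the function gate** -/
theorem fga_main [CompleteSpace H] {G : Set ℝ} {𝔄 : Set (H →L[ℂ] H)} {Rch : Set ℝ → Set ℝ → (H ≃ₗᵢ[ℂ] H) → Prop}
    (hA : L.Ctl 𝔄) (hC : L.Closed G 𝔄 Rch) (hE : L.CoupEx) {M R : Set ℝ} {V : H ≃ₗᵢ[ℂ] H}
    (hV : Rch M R V) {b o r : Set ℝ} (hb : MeasurableSet b) (ho : MeasurableSet o)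
    (hr : MeasurableSet r) (hbM : b ⊆ M) (hoM : o ⊆ M) (hrM : r ⊆ M) (hbo : Disjoint b o)
    (hbr : Disjoint b r) (hor : Disjoint o r) (ka la : ℝ) {k l : H ≃ₗᵢ[ℂ] H}
    (hk : ∀ x, k x = L.pw L.X ((1 / 2 : ℂ) • L.fgv o r ka la V) x) {a : H →L[ℂ] H}
    (ha : a ∈ 𝔄) (hsa : Sa a) (haG : a * L.E G = a) (hab : a * L.E b = a) (hl : L.IsRot a 2 l)
    (m : ℕ) :
    ∃ (U : H ≃ₗᵢ[ℂ] H) (co cr : ℂ), ‖co‖ = 1 ∧ ‖cr‖ = 1 ∧ Rch M R U ∧
      ∀ x, U x = (fgG k l ^ m) (L.E b (V x))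
        + co • L.zr ((ka : ℂ) • L.iota (L.E b (V⁻¹ (L.fgS k l m (V L.Om))))) (L.E o (V x))
        + cr • L.pw (L.pau 1) ((la : ℂ) • L.iota (L.E b (V⁻¹ (L.fgS k l m (V L.Om))))) (L.E r (V x))
        + (V x - L.E b (V x) - L.E o (V x) - L.E r (V x)) := by
  obtain ⟨U, co, cr, hU, hS⟩ := L.fga_rounds hA hC hE hV hb ho hr hbM hoM hrM hbo hbr hor ka la hk
    ha hsa haG hab hl m
  have hVE : ∀ (s : Set ℝ), MeasurableSet s → ∀ x, L.E s (V x) = V (L.E s x) :=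
    fun s hs x => hC.comm M R V hV _ (hA.lab _ (fga_bm hs)) x
  refine ⟨U, co, cr, hS.nco, hS.ncr, hU, fun x => ?_⟩
  have e : x = L.E b x + L.E o x + L.E r x + (x - L.E b x - L.E o x - L.E r x) := by abel
  have h1 : L.E b (x - L.E b x - L.E o x - L.E r x) = 0 := by
    rw [map_sub, map_sub, map_sub, L.fga_E_idem hb, L.fga_E_disj hb ho hbo, L.fga_E_disj hb hr hbr]
    simp
  have h2 : L.E o (x - L.E b x - L.E o x - L.E r x) = 0 := by
    rw [map_sub, map_sub, map_sub, L.fga_E_idem ho, L.fga_E_disj ho hb hbo.symm,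
      L.fga_E_disj ho hr hor]
    simp
  have h3 : L.E r (x - L.E b x - L.E o x - L.E r x) = 0 := by
    rw [map_sub, map_sub, map_sub, L.fga_E_idem hr, L.fga_E_disj hr hb hbr.symm,
      L.fga_E_disj hr ho hor.symm]
    simp
  conv_lhs => rw [e]
  rw [map_add, map_add, map_add, hS.hb _ (L.fga_E_idem hb x), hS.ho _ (L.fga_E_idem ho x),
    hS.hr _ (L.fga_E_idem hr x), hS.h0 _ h1 h2 h3, map_sub, map_sub, map_sub, hVE b hb, hVE o ho,
    hVE r hr, L.fga_zr]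

end LSys

end Vale.Agent.P367.A
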