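import Vale.Agent.P367.B.LSys

/-! P367, block B: basic lemmas for label systems `LSys`: label projections, Pauli operators, pulses,
existence of couplings and product unitaries. -/

namespace Vale.Agent.P367.A

open Complex Filter Topology MeasureTheory

section bm

lemma Bm.const (c : ℂ) : Bm (fun _ => c) := ⟨measurable_const, ‖c‖, fun _ => le_rfl⟩

lemma Bm.ind {b : Set ℝ} (hb : MeasurableSet b) (c : ℂ) : Bm (b.indicator fun _ => c) :=
  ⟨measurable_const.indicator hb, ‖c‖, fun x => by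
    by_cases hx : x ∈ b
    · rw [Set.indicator_of_mem hx]
    · rw [Set.indicator_of_notMem hx, norm_zero]; exact norm_nonneg _⟩

lemma Bm.add {f g : ℝ → ℂ} (hf : Bm f) (hg : Bm g) : Bm (fun t => f t + g t) := by
  obtain ⟨h1, C, h2⟩ := hf
  obtain ⟨h3, D, h4⟩ := hg
  exact ⟨h1.add h3, C + D, fun x => (norm_add_le _ _).trans (add_le_add (h2 x) (h4 x))⟩

lemma Bm.mul {f g : ℝ → ℂ} (hf : Bm f) (hg : Bm g) : Bm (fun t => f t * g t) := by
  obtain ⟨h1, C, h2⟩ := hf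
  obtain ⟨h3, D, h4⟩ := hg
  refine ⟨h1.mul h3, C * D, fun x => ?_⟩
  rw [norm_mul]
  exact mul_le_mul (h2 x) (h4 x) (norm_nonneg _) ((norm_nonneg _).trans (h2 x))

lemma Bm.conj {f : ℝ → ℂ} (hf : Bm f) : Bm (fun t => (starRingEnd ℂ) (f t)) := by
  obtain ⟨h1, C, h2⟩ := hf
  exact ⟨continuous_conj.measurable.comp h1, C, fun x => by rw [RCLike.norm_conj]; exact h2 x⟩

end bm

namespace LSys

variable {H K : Type*} [NormedAddCommGroup H] [InnerProductSpace ℂ H]
  [NormedAddCommGroup K] [InnerProductSpace ℂ K] (L : LSys H K)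

/-! ### label projections -/

lemma lab_zero : L.lab (fun _ => 0) = 0 := by rw [L.lab_const]; simp

lemma lab_comm (f g : ℝ → ℂ) (hf : Bm f) (hg : Bm g) (x : H) :
    L.lab f (L.lab g x) = L.lab g (L.lab f x) := by
  have h1 := L.lab_mul f g hf hg
  have h2 := L.lab_mul g f hg hf
  have h3 : (fun t => f t * g t) = fun t => g t * f t := by funext t; ring
  rw [h3, h2] at h1
  exact (congrArg (fun T : H →L[ℂ] H => T x) h1).symm

lemma E_inter {a b : Set ℝ} (ha : MeasurableSet a) (hb : MeasurableSet b) (x : H) :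
    L.E a (L.E b x) = L.E (a ∩ b) x := by
  have h1 := L.lab_mul _ _ (Bm.ind ha 1) (Bm.ind hb 1)
  have h2 : (fun t => a.indicator (fun _ => (1 : ℂ)) t * b.indicator (fun _ => (1 : ℂ)) t)
      = (a ∩ b).indicator fun _ => 1 := by
    funext t
    by_cases hta : t ∈ a <;> by_cases htb : t ∈ b <;> simp [hta, htb]
  rw [h2] at h1
  exact (congrArg (fun T : H →L[ℂ] H => T x) h1).symm

lemma E_empty (x : H) : L.E ∅ x = 0 := by
  rw [E, Set.indicator_empty, L.lab_zero]; rfl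

lemma E_univ (x : H) : L.E Set.univ x = x := by
  rw [E, Set.indicator_univ, L.lab_const]; simp

lemma E_E {b : Set ℝ} (hb : MeasurableSet b) (x : H) : L.E b (L.E b x) = L.E b x := by
  rw [L.E_inter hb hb, Set.inter_self]

lemma E_dis {a b : Set ℝ} (ha : MeasurableSet a) (hb : MeasurableSet b) (h : Disjoint a b)
    (x : H) : L.E a (L.E b x) = 0 := by
  rw [L.E_inter ha hb, h.inter_eq, E_empty]

lemma E_sub {a b : Set ℝ} (ha : MeasurableSet a) (hb : MeasurableSet b) (h : a ⊆ b)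
    (x : H) : L.E a (L.E b x) = L.E a x := by
  rw [L.E_inter ha hb, Set.inter_eq_left.2 h]

lemma E_sub' {a b : Set ℝ} (ha : MeasurableSet a) (hb : MeasurableSet b) (h : a ⊆ b)
    (x : H) : L.E b (L.E a x) = L.E a x := by
  rw [L.E_inter hb ha, Set.inter_eq_right.2 h]

lemma E_comm {a b : Set ℝ} (ha : MeasurableSet a) (hb : MeasurableSet b) (x : H) :
    L.E a (L.E b x) = L.E b (L.E a x) := by
  rw [L.E_inter ha hb, L.E_inter hb ha, Set.inter_comm]

lemma E_union {a b : Set ℝ} (ha : MeasurableSet a) (hb : MeasurableSet b) (h : Disjoint a b)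
    (x : H) : L.E (a ∪ b) x = L.E a x + L.E b x := by
  have h1 := L.lab_add _ _ (Bm.ind ha 1) (Bm.ind hb 1)
  have h2 : (fun t => a.indicator (fun _ => (1 : ℂ)) t + b.indicator (fun _ => (1 : ℂ)) t)
      = (a ∪ b).indicator fun _ => 1 := by
    funext t
    by_cases hta : t ∈ a
    · have htb : t ∉ b := fun htb => (Set.disjoint_left.1 h) hta htb
      simp [hta, htb]
    · by_cases htb : t ∈ b <;> simp [hta, htb]
  rw [h2] at h1
  exact congrArg (fun T : H →L[ℂ] H => T x) h1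

lemma E_compl {b : Set ℝ} (hb : MeasurableSet b) (x : H) : L.E bᶜ x = x - L.E b x := by
  have h := L.E_union hb hb.compl disjoint_compl_right x
  rw [Set.union_compl_self, E_univ] at h
  rw [eq_sub_iff_add_eq, add_comm]
  exact h.symm

lemma E_diff {a b : Set ℝ} (ha : MeasurableSet a) (hb : MeasurableSet b) (h : b ⊆ a) (x : H) :
    L.E (a \ b) x = L.E a x - L.E b x := by
  have h1 := L.E_union (ha.diff hb) hb Set.disjoint_sdiff_left x
  rw [Set.sdiff_union_of_subset h] at h1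
  rw [h1, add_sub_cancel_right]

lemma E_sa {b : Set ℝ} (hb : MeasurableSet b) (x y : H) :
    inner ℂ (L.E b x) y = (inner ℂ x (L.E b y) : ℂ) := by
  have h := L.lab_adj _ (Bm.ind hb 1) x y
  have h2 : (fun t => (starRingEnd ℂ) (b.indicator (fun _ => (1 : ℂ)) t))
      = b.indicator fun _ => 1 := by
    funext t
    by_cases ht : t ∈ b <;> simp [ht]
  rw [h2] at h
  exact h

lemma E_X (b : Set ℝ) (x : H) : L.E b (L.X x) = L.X (L.E b x) := L.lab_X _ x

lemma E_Z (b : Set ℝ) (x : H) : L.E b (L.Z x) = L.Z (L.E b x) := L.lab_Z _ x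

lemma E_W (b : Set ℝ) (a : K) (x : H) : L.E b (L.W a x) = L.W a (L.E b x) := L.lab_W _ a x

lemma lab_xr (f : ℝ → ℂ) (t : ℝ) (x : H) : L.lab f (L.xr t x) = L.xr t (L.lab f x) := by
  rw [L.xr_apply, L.xr_apply, map_sub, map_smul, map_smul, L.lab_X]

lemma lab_Zt (f : ℝ → ℂ) (t : ℝ) (x : H) : L.lab f (L.Zt t x) = L.Zt t (L.lab f x) := by
  rw [L.Zt_apply, L.Zt_apply, lab_xr, L.lab_Z]

lemma lab_pul (f : ℝ → ℂ) (t : ℝ) (v : K) (x : H) :
    L.lab f (L.pul t v x) = L.pul t v (L.lab f x) := by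
  simp only [L.pul_apply, map_add, map_sub, map_smul, L.lab_W, L.lab_Zt]

lemma lab_zr (f : ℝ → ℂ) (v : K) (x : H) : L.lab f (L.zr v x) = L.zr v (L.lab f x) := by
  rw [← L.pul_time_zero, L.lab_pul]

lemma E_xr (b : Set ℝ) (t : ℝ) (x : H) : L.E b (L.xr t x) = L.xr t (L.E b x) := L.lab_xr _ t x

lemma E_Zt (b : Set ℝ) (t : ℝ) (x : H) : L.E b (L.Zt t x) = L.Zt t (L.E b x) := L.lab_Zt _ t x

lemma E_pul (b : Set ℝ) (t : ℝ) (v : K) (x : H) : L.E b (L.pul t v x) = L.pul t v (L.E b x) :=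
  L.lab_pul _ t v x

lemma E_zr (b : Set ℝ) (v : K) (x : H) : L.E b (L.zr v x) = L.zr v (L.E b x) := L.lab_zr _ v x

lemma inner_E_compl {b : Set ℝ} (hb : MeasurableSet b) (x y : H) :
    (inner ℂ (L.E b x) (y - L.E b y) : ℂ) = 0 := by
  rw [inner_sub_right, L.E_sa hb, L.E_sa hb, L.E_E hb, sub_self]

lemma inner_E_dis {a b : Set ℝ} (ha : MeasurableSet a) (hb : MeasurableSet b) (h : Disjoint a b)
    (x y : H) : (inner ℂ (L.E a x) (L.E b y) : ℂ) = 0 := by
  rw [L.E_sa ha, L.E_dis ha hb h, inner_zero_right]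

lemma norm_sq_E {b : Set ℝ} (hb : MeasurableSet b) (x : H) :
    ‖x‖ ^ 2 = ‖L.E b x‖ ^ 2 + ‖x - L.E b x‖ ^ 2 := by
  conv_lhs => rw [show x = L.E b x + (x - L.E b x) by abel]
  rw [@norm_add_sq ℂ H, L.inner_E_compl hb]
  simp

lemma norm_E_le {b : Set ℝ} (hb : MeasurableSet b) (x : H) : ‖L.E b x‖ ≤ ‖x‖ := by
  refine (sq_le_sq₀ (norm_nonneg _) (norm_nonneg _)).1 ?_
  rw [L.norm_sq_E hb x]; nlinarith [sq_nonneg ‖x - L.E b x‖]

lemma norm_sq_E_add {a b : Set ℝ} (ha : MeasurableSet a) (hb : MeasurableSet b)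
    (h : Disjoint a b) (x y : H) :
    ‖L.E a x + L.E b y‖ ^ 2 = ‖L.E a x‖ ^ 2 + ‖L.E b y‖ ^ 2 := by
  rw [@norm_add_sq ℂ H, L.inner_E_dis ha hb h]
  simp

/-- the vacuum functional of a label projection -/
lemma vacE {b : Set ℝ} (hb : MeasurableSet b) (a : K) : inner ℂ L.Om (L.E b (L.W a L.Om))
    = ((L.mu.real b : ℝ) : ℂ) * Complex.exp (-((‖a‖ ^ 2 / 2 : ℝ) : ℂ)) := by
  rw [E, L.lab_vac _ (Bm.ind hb 1)]
  congr 1
  rw [integral_indicator hb, setIntegral_const]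
  simp

lemma norm_E_Om {b : Set ℝ} (hb : MeasurableSet b) : ‖L.E b L.Om‖ ^ 2 = L.mu.real b := by
  have h := L.vacE hb 0
  rw [L.W_zero_apply, norm_zero] at h
  have h2 : (inner ℂ (L.E b L.Om) (L.E b L.Om) : ℂ) = ((L.mu.real b : ℝ) : ℂ) := by
    rw [L.E_sa hb, L.E_E hb, h]
    simp
  rw [inner_self_eq_norm_sq_to_K] at h2
  apply Complex.ofReal_injective
  rw [← h2, Complex.ofReal_pow]
  rfl

/-! ### Pauli operators -/

lemma pau_zero : L.pau 0 = L.X := rfl

lemma pau_one : L.pau 1 = L.Zt (-(Real.pi / 4)) := rfl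

lemma pau_two : L.pau 2 = L.Z := rfl

lemma pau_sq (P : Fin 3) (x : H) : L.pau P (L.pau P x) = x := by
  fin_cases P
  · exact L.XX x
  · exact L.Zt_sq _ x
  · exact L.ZZ x

lemma W_pau (P : Fin 3) (a : K) (x : H) : L.W a (L.pau P x) = L.pau P (L.W a x) := by
  fin_cases P
  · exact L.WX a x
  · exact L.W_ZtA a _ x
  · exact L.WZ a x

lemma inner_pau (P : Fin 3) (x y : H) :
    inner ℂ (L.pau P x) y = (inner ℂ x (L.pau P y) : ℂ) := by
  have h := (L.pau P).inner_map_map x (L.pau P y)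
  rwa [L.pau_sq] at h

lemma lab_pau (f : ℝ → ℂ) (P : Fin 3) (x : H) : L.lab f (L.pau P x) = L.pau P (L.lab f x) := by
  fin_cases P
  · exact L.lab_X f x
  · exact L.lab_Zt f _ x
  · exact L.lab_Z f x

lemma E_pau (b : Set ℝ) (P : Fin 3) (x : H) : L.E b (L.pau P x) = L.pau P (L.E b x) :=
  L.lab_pau _ P x

/-! ### pulses -/

/-- linear map underlying the pulse `exp(-i P phi(v))` -/
noncomputable def pwLin (P : Fin 3) (v : K) : H →ₗ[ℂ] H :=
  (1 / 2 : ℂ) • ((L.W (-v)).toLinearEquiv.toLinearMap + (L.W v).toLinearEquiv.toLinearMap)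
  + (1 / 2 : ℂ) • ((L.W (-v)).toLinearEquiv.toLinearMap - (L.W v).toLinearEquiv.toLinearMap)
      ∘ₗ (L.pau P).toLinearEquiv.toLinearMap

lemma pwLin_apply (P : Fin 3) (v : K) (x : H) : L.pwLin P v x = L.pw (L.pau P) v x := rfl

lemma pw_add (P : Fin 3) (v : K) (x y : H) :
    L.pw (L.pau P) v (x + y) = L.pw (L.pau P) v x + L.pw (L.pau P) v y := by
  rw [← pwLin_apply, map_add]; rfl

lemma pw_smul (P : Fin 3) (v : K) (c : ℂ) (x : H) :
    L.pw (L.pau P) v (c • x) = c • L.pw (L.pau P) v x := by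
  rw [← pwLin_apply, map_smul]; rfl

lemma pw_pw (P : Fin 3) (v w : K) (x : H) : L.pw (L.pau P) v (L.pw (L.pau P) w x)
    = Complex.exp (-(Complex.I * (th v w : ℂ))) • L.pw (L.pau P) (v + w) x := by
  simp only [pw, map_add, map_sub, map_smul, L.W_pau, L.pau_sq, L.WW', th_neg_left,
    th_neg_right, neg_neg, neg_add, Complex.ofReal_neg]
  module

lemma pw_zero (P : Fin 3) (x : H) : L.pw (L.pau P) 0 x = x := by
  rw [pw, neg_zero, L.W_zero_apply, L.W_zero_apply]; module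

lemma pw_neg_pw (P : Fin 3) (v : K) (x : H) : L.pw (L.pau P) (-v) (L.pw (L.pau P) v x) = x := by
  rw [pw_pw, neg_add_cancel, pw_zero, th_neg_left, th_self]; simp

lemma pw_pw_neg (P : Fin 3) (v : K) (x : H) : L.pw (L.pau P) v (L.pw (L.pau P) (-v) x) = x := by
  have := L.pw_neg_pw P (-v) x
  rwa [neg_neg] at this

/-- the pulse `exp(-i P phi(v))` as a unitary -/
noncomputable def pwU (P : Fin 3) (v : K) : H ≃ₗᵢ[ℂ] H :=
  mkU (L.pwLin P v) (L.pwLin P (-v)) (fun x => L.pw_neg_pw P v x) (fun x => L.pw_pw_neg P v x)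
    (fun x y => by
      simp only [pwLin_apply, pw, inner_sub_left, inner_sub_right, inner_smul_left,
        inner_smul_right, L.inner_pau, L.inner_W, inner_add_left, inner_add_right, neg_neg,
        ← L.W_pau, map_div₀, map_one, Complex.conj_ofNat])

lemma pwU_apply (P : Fin 3) (v : K) (x : H) : L.pwU P v x = L.pw (L.pau P) v x := rfl

lemma pwU_inv (P : Fin 3) (v : K) : (L.pwU P v)⁻¹ = L.pwU P (-v) := by
  ext x; exact Sys.inv_apply_eq (L.pw_pw_neg P v x)

lemma norm_pw (P : Fin 3) (v : K) (x : H) : ‖L.pw (L.pau P) v x‖ = ‖x‖ :=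
  (L.pwU P v).norm_map x

lemma pw_two (v : K) (x : H) : L.pw (L.pau 2) v x = L.zr v x := rfl

lemma pw_Zt (t : ℝ) (v : K) (x : H) : L.pw (L.Zt t) v x = L.pul t v x := by
  rw [pw, L.pul_apply]

lemma pw_one (v : K) (x : H) : L.pw (L.pau 1) v x = L.pul (-(Real.pi / 4)) v x := L.pw_Zt _ v x

lemma pau_pw (P : Fin 3) (v : K) (x : H) :
    L.pau P (L.pw (L.pau P) v x) = L.pw (L.pau P) v (L.pau P x) := by
  simp only [pw, map_add, map_sub, map_smul, L.W_pau]

/-- a linear map commuting with the Weyl operators involved and the Pauli operators commutes with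
pulses -/
lemma map_pw (T : H →L[ℂ] H) (P : Fin 3) (v : K) (hv : ∀ x, T (L.W v x) = L.W v (T x))
    (hv' : ∀ x, T (L.W (-v) x) = L.W (-v) (T x)) (hP : ∀ x, T (L.pau P x) = L.pau P (T x))
    (x : H) : T (L.pw (L.pau P) v x) = L.pw (L.pau P) v (T x) := by
  simp only [pw, map_add, map_sub, map_smul, hv, hv', hP]

lemma lab_pw (f : ℝ → ℂ) (P : Fin 3) (v : K) (x : H) :
    L.lab f (L.pw (L.pau P) v x) = L.pw (L.pau P) v (L.lab f x) :=
  L.map_pw _ P v (fun x => L.lab_W f v x) (fun x => L.lab_W f (-v) x) (fun x => L.lab_pau f P x) x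

lemma E_pw (b : Set ℝ) (P : Fin 3) (v : K) (x : H) :
    L.E b (L.pw (L.pau P) v x) = L.pw (L.pau P) v (L.E b x) := L.lab_pw _ P v x

lemma lab_pwU (f : ℝ → ℂ) (P : Fin 3) (v : K) (x : H) :
    L.lab f (L.pwU P v x) = L.pwU P v (L.lab f x) := L.lab_pw f P v x

lemma E_pwU (b : Set ℝ) (P : Fin 3) (v : K) (x : H) :
    L.E b (L.pwU P v x) = L.pwU P v (L.E b x) := L.E_pw b P v x

/-! ### block unitaries -/

/-- `U` on the labels in `b`, identity elsewhere -/
noncomputable def bU {b : Set ℝ} (hb : MeasurableSet b) (U : H ≃ₗᵢ[ℂ] H)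
    (hU : ∀ x, L.E b (U x) = U (L.E b x)) : H ≃ₗᵢ[ℂ] H :=
  mkU (U.toLinearEquiv.toLinearMap ∘ₗ (L.E b).toLinearMap + (LinearMap.id - (L.E b).toLinearMap))
    (U⁻¹.toLinearEquiv.toLinearMap ∘ₗ (L.E b).toLinearMap
      + (LinearMap.id - (L.E b).toLinearMap))
    (fun x => by
      change U⁻¹ (L.E b (U (L.E b x) + (x - L.E b x))) + ((U (L.E b x) + (x - L.E b x))
        - L.E b (U (L.E b x) + (x - L.E b x))) = x
      rw [map_add, map_sub, hU, L.E_E hb, sub_self, add_zero, Sys.invA]; abel)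
    (fun x => by
      have hU' : ∀ x, L.E b (U⁻¹ x) = U⁻¹ (L.E b x) := by
        intro x
        apply U.injective
        rw [← hU, Sys.Ainv, Sys.Ainv]
      change U (L.E b (U⁻¹ (L.E b x) + (x - L.E b x))) + ((U⁻¹ (L.E b x) + (x - L.E b x))
        - L.E b (U⁻¹ (L.E b x) + (x - L.E b x))) = x
      rw [map_add, map_sub, hU', L.E_E hb, sub_self, add_zero, Sys.Ainv]; abel)
    (fun x y => by
      change inner ℂ (U (L.E b x) + (x - L.E b x)) y = inner ℂ x (U⁻¹ (L.E b y) + (y - L.E b y))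
      have hU' : ∀ x, L.E b (U⁻¹ x) = U⁻¹ (L.E b x) := by
        intro x
        apply U.injective
        rw [← hU, Sys.Ainv, Sys.Ainv]
      have h1 : inner ℂ (U (L.E b x)) y = (inner ℂ x (U⁻¹ (L.E b y)) : ℂ) := by
        rw [← hU', ← L.E_sa hb, ← Sys.inner_invA, inv_inv]
      rw [inner_add_left, inner_add_right, inner_sub_left, inner_sub_right, h1, L.E_sa hb])

lemma bU_apply {b : Set ℝ} (hb : MeasurableSet b) (U : H ≃ₗᵢ[ℂ] H) (hU) (x : H) :
    L.bU hb U hU x = U (L.E b x) + (x - L.E b x) := rfl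

/-- existence of block couplings -/
lemma exists_coup {A B : Set ℝ} (hA : MeasurableSet A) (hB : MeasurableSet B)
    (hAB : Disjoint A B) (P Q : Fin 3) (c : ℝ) (V : H ≃ₗᵢ[ℂ] H) :
    ∃ U, L.IsCoup A B P Q c V U := by
  refine ⟨L.bU hA (L.pwU P ((c : ℂ) • L.fv (L.pau Q) B V)) (L.E_pwU A P _)
    * L.bU hB (L.pwU Q ((c : ℂ) • L.fv (L.pau P) A V)) (L.E_pwU B Q _), fun x => ?_⟩
  rw [Sys.mulA, bU_apply, bU_apply, map_add, map_sub, L.E_pwU, L.E_dis hA hB hAB, map_zero,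
    sub_zero, zero_add]
  rw [pwU_apply, pwU_apply]
  abel

end LSys

end Vale.Agent.P367.A
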