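import Vale.Agent.P367.B.FGa
import Vale.Agent.P367.B.FDefs
import Vale.Agent.P367.B.LBasic

/-! P367, block B: `FaStmt` (the gates of `m` micro steps of the function gate). -/

namespace Vale.Agent.P367.A

open Complex Filter Topology MeasureTheory

section expo

variable {H : Type*} [NormedAddCommGroup H] [InnerProductSpace ℂ H] [CompleteSpace H]

lemma fgb_exp_neg_mul (T : H →L[ℂ] H) (x : H) :
    NormedSpace.exp (-T) (NormedSpace.exp T x) = x := by
  have h : NormedSpace.exp (-T) * NormedSpace.exp T = 1 := by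
    let _ : NormedAlgebra ℚ (H →L[ℂ] H) := NormedAlgebra.restrictScalars ℚ ℂ (H →L[ℂ] H)
    rw [← NormedSpace.exp_add_of_commute (Commute.refl T).neg_left, neg_add_cancel,
      NormedSpace.exp_zero]
  have h2 := congrArg (fun A : H →L[ℂ] H => A x) h
  exact h2

/-- the exponential of a skew-adjoint operator as a unitary -/
lemma fgb_exists_exp {T : H →L[ℂ] H} (hT : LSys.Sa T) :
    ∃ U : H ≃ₗᵢ[ℂ] H, ∀ x, U x = NormedSpace.exp ((-Complex.I) • T) x := by
  have hsa : ContinuousLinearMap.adjoint T = T := by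
    symm
    rw [ContinuousLinearMap.eq_adjoint_iff]
    intro x y
    exact hT x y
  have hst : star (NormedSpace.exp ((-Complex.I) • T)) = NormedSpace.exp (-((-Complex.I) • T)) := by
    rw [NormedSpace.star_exp, star_smul, ContinuousLinearMap.star_eq_adjoint, hsa]
    congr 1
    rw [← neg_smul]
    congr 1
    simp
  refine ⟨mkU (NormedSpace.exp ((-Complex.I) • T)).toLinearMap
    (NormedSpace.exp (-((-Complex.I) • T))).toLinearMap ?_ ?_ ?_, fun x => rfl⟩
  · intro x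
    exact fgb_exp_neg_mul _ x
  · intro x
    have h := fgb_exp_neg_mul (-((-Complex.I) • T)) x
    rw [neg_neg] at h
    exact h
  · intro x y
    change inner ℂ (NormedSpace.exp ((-Complex.I) • T) x) y
      = inner ℂ x (NormedSpace.exp (-((-Complex.I) • T)) y)
    rw [← hst, ContinuousLinearMap.star_eq_adjoint, ContinuousLinearMap.adjoint_inner_right]

end expo

namespace LSys

variable {H K : Type*} [NormedAddCommGroup H] [InnerProductSpace ℂ H]
  [NormedAddCommGroup K] [InnerProductSpace ℂ K] (L : LSys H K)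

/-- controlled rotations exist -/
lemma exists_rot [CompleteSpace H] {a : H →L[ℂ] H} (hsa : Sa a) {P : Fin 3}
    (hP : ∀ x, a (L.pau P x) = L.pau P (a x)) : ∃ U, L.IsRot a P U := by
  have hT : Sa (a * (L.pau P).toContinuousLinearEquiv.toContinuousLinearMap) := by
    intro x y
    change inner ℂ (a (L.pau P x)) y = inner ℂ x (a (L.pau P y))
    rw [hsa, L.inner_pau, hP]
  obtain ⟨U, hU⟩ := fgb_exists_exp hT
  exact ⟨U, hU⟩

/-- central phases exist -/
lemma exists_ph [CompleteSpace H] {a : H →L[ℂ] H} (hsa : Sa a) : ∃ U, IsPh a U :=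
  fgb_exists_exp hsa

lemma smul_mem_ctl {𝔄 : Set (H →L[ℂ] H)} (hA : L.Ctl 𝔄) {a : H →L[ℂ] H} (ha : a ∈ 𝔄) (c : ℂ) :
    c • a ∈ 𝔄 := by
  have h := hA.mul _ _ (hA.lab (fun _ => c) (Bm.const c)) ha
  rw [L.lab_const, smul_mul_assoc, one_mul] at h
  exact h

theorem faStmt [CompleteSpace H] : L.FaStmt := by
  intro G 𝔄 Rch hG hA hC M R b o r V psi μ ν s hV hD m hm
  set v := L.cvec μ ν o r V with hv
  set ε : ℝ := s / (2 * m) with hε
  have hEx : L.CoupEx := fun A B P Q c V hA hB hAB => L.exists_coup hA hB hAB P Q c V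
  set a : H →L[ℂ] H := (ε : ℂ) • psi with ha
  have haA : a ∈ 𝔄 := L.smul_mem_ctl hA hD.psiA _
  have hsa : Sa a := by
    intro x y
    change inner ℂ ((ε : ℂ) • psi x) y = inner ℂ x ((ε : ℂ) • psi y)
    rw [inner_smul_left, inner_smul_right, hD.psiS, Complex.conj_ofReal]
  have haG : a * L.E G = a := by rw [ha, smul_mul_assoc, hD.psiG]
  have hab : a * L.E b = a := by rw [ha, smul_mul_assoc, hD.psib]
  have haZ : ∀ x, a (L.pau 2 x) = L.pau 2 (a x) := fun x => hA.Z a haA x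
  obtain ⟨l, hl⟩ := L.exists_rot hsa haZ
  set k : H ≃ₗᵢ[ℂ] H := L.pwU 0 ((1 / 2 : ℂ) • v) with hk
  obtain ⟨U, co, cr, nco, ncr, hU, hUx⟩ := L.fga_main hA hC hEx hV hD.mb hD.mo hD.mr hD.bM hD.oM
    hD.rM hD.bo hD.br hD.or μ ν (k := k) (fun x => L.pwU_apply 0 _ x) haA hsa haG hab hl m
  -- dictionary
  have dk : ∀ x, L.kk v x = k x := fun x => rfl
  have dki : ∀ x, L.kki v x = k⁻¹ x := by
    intro x
    rw [hk, L.pwU_inv]
    rfl
  have dl : ∀ x, L.rr psi ε x = l x := fun x => (hl x).symm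
  have dli : ∀ x, L.rr psi (-ε) x = l⁻¹ x := by
    intro x
    have h1 : L.rr psi (-ε) (L.rr psi ε (l⁻¹ x)) = l⁻¹ x := by
      unfold rr
      have e : (-Complex.I) • ((((-ε : ℝ) : ℂ) • psi) * clm (L.pau 2))
          = -((-Complex.I) • (((ε : ℂ) • psi) * clm (L.pau 2))) := by
        rw [Complex.ofReal_neg, neg_smul (ε : ℂ) psi, neg_mul, smul_neg]
      rw [e]
      exact fgb_exp_neg_mul _ _
    rw [dl, Sys.Ainv] at h1
    exact h1
  have dG : ∀ x, L.fm v psi ε x = fgG k l x := by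
    intro x
    change L.kk v (L.rr psi ε (L.kki v (L.kki v (L.rr psi ε (L.kk v x))))) = _
    rw [dk, dl, dki, dki, dl, dk]
    rfl
  have dGi : ∀ x, L.fmi v psi ε x = (fgG k l)⁻¹ x := by
    intro x
    change L.kki v (L.rr psi (-ε) (L.kk v (L.kk v (L.rr psi (-ε) (L.kki v x))))) = _
    rw [dki, dli, dk, dk, dli, dki]
    have : (fgG k l)⁻¹ = k⁻¹ * l⁻¹ * k * k * l⁻¹ * k⁻¹ := by
      unfold fgG
      simp only [mul_inv_rev, inv_inv, mul_assoc]
    rw [this]
    rfl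
  have dGp : ∀ (j : ℕ) x, (L.fm v psi ε ^ j) x = (fgG k l ^ j) x := by
    intro j
    induction j with
    | zero => intro x; rfl
    | succ j ih =>
      intro x
      rw [pow_succ, pow_succ]
      change (L.fm v psi ε ^ j) (L.fm v psi ε x) = (fgG k l ^ j) (fgG k l x)
      rw [dG, ih]
  have dGip : ∀ (j : ℕ) x, (L.fmi v psi ε ^ j) x = (fgG k l ^ j)⁻¹ x := by
    intro j
    induction j with
    | zero => intro x; rfl
    | succ j ih =>
      intro x
      rw [pow_succ, pow_succ', mul_inv_rev]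
      change (L.fmi v psi ε ^ j) (L.fmi v psi ε x) = (fgG k l ^ j)⁻¹ ((fgG k l)⁻¹ x)
      rw [dGi, ih]
  have dS : ∀ x, L.sumX v psi ε m x = (2 : ℂ) • L.fgS k l m x := by
    intro x
    unfold sumX fgS
    rw [sum_apply, Finset.smul_sum]
    refine Finset.sum_congr rfl fun j _ => ?_
    change (L.fmi v psi ε ^ j) (L.X ((L.fm v psi ε ^ j) x))
      - (2 : ℂ) • (L.fmi v psi ε ^ j) (L.kki v (L.rr psi (-ε) (L.X (L.rr psi ε (L.kk v
        ((L.fm v psi ε ^ j) x)))))) + (L.fmi v psi ε ^ (j + 1)) (L.X ((L.fm v psi ε ^ (j + 1)) x))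
      = _
    rw [dGp, dGip, dGip, dGp, dGip, dk, dl, dli, dki]
    unfold fgD
    have e1 : (fgG k l ^ (j + 1))⁻¹ (L.X ((fgG k l ^ (j + 1)) x))
        = (fgG k l ^ j)⁻¹ ((fgG k l)⁻¹ (L.X (fgG k l ((fgG k l ^ j) x)))) := by
      have h1 : (fgG k l ^ (j + 1))⁻¹ = (fgG k l ^ j)⁻¹ * (fgG k l)⁻¹ := by
        rw [pow_succ', mul_inv_rev]
      have h2 : fgG k l ^ (j + 1) = fgG k l * fgG k l ^ j := pow_succ' _ _
      rw [h1, h2, Sys.mulA, Sys.mulA]
    have e2 : ∀ z, (l * k)⁻¹ z = k⁻¹ (l⁻¹ z) := by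
      intro z
      rw [mul_inv_rev]
      rfl
    rw [e1, e2]
    simp only [map_add, map_sub, map_smul, Sys.mulA]
    generalize (fgG k l ^ j)⁻¹ ((fgG k l)⁻¹ (L.X (fgG k l ((fgG k l ^ j) x)))) = c1
    generalize (fgG k l ^ j)⁻¹ (L.X ((fgG k l ^ j) x)) = c2
    generalize (fgG k l ^ j)⁻¹ (k⁻¹ (l⁻¹ (L.X (l (k ((fgG k l ^ j) x)))))) = c3
    rw [smul_add, smul_sub, smul_smul, smul_smul]
    norm_num
    abel
  refine ⟨U * V⁻¹, co, cr, nco, ncr, ?_, ?_⟩
  · intro x
    have hx := hUx (V⁻¹ x)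
    rw [Sys.Ainv] at hx
    have e3 : ∀ t : ℝ, ((t / 2 : ℝ) : ℂ) • L.iota (L.E b (V⁻¹ (L.sumX v psi ε m (V L.Om))))
        = (t : ℂ) • L.iota (L.E b (V⁻¹ (L.fgS k l m (V L.Om)))) := by
      intro t
      rw [dS, map_smul, map_smul, map_smul, smul_smul]
      congr 1
      push_cast
      ring
    rw [Sys.mulA, hx, e3, e3, dGp]
    rfl
  · have e : U * V⁻¹ * V = U := by rw [mul_assoc, inv_mul_cancel, mul_one]
    rw [e]
    exact hU

end LSys

end Vale.Agent.P367.A
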