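import Vale.Agent.P367.B.FSum

/-! P367 block B, function gate: the half step generators and their reaction. -/

namespace Vale.Agent.P367.B
open Filter Topology NormedSpace
variable {𝔸 : Type*} [NormedRing 𝔸] [NormedAlgebra ℂ 𝔸]

/-- the half step generators: `-(i s / 2) psi (Z cos h -+ Y sin h)`, `Y = i X Z` -/
noncomputable def genA (X Z c n psi : 𝔸) (s : ℂ) : 𝔸 :=
  (-(Complex.I * (s / 2))) • (psi * (Z * c - Complex.I • (X * Z) * n))

noncomputable def genB (X Z c n psi : 𝔸) (s : ℂ) : 𝔸 :=
  (-(Complex.I * (s / 2))) • (psi * (Z * c + Complex.I • (X * Z) * n))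

lemma genA_add_genB (X Z c n psi : 𝔸) (s : ℂ) :
    genA X Z c n psi s + genB X Z c n psi s = (-(Complex.I * s)) • (psi * (Z * c)) := by
  rw [genA, genB, ← smul_add, ← mul_add, show Z * c - Complex.I • (X * Z) * n
    + (Z * c + Complex.I • (X * Z) * n) = (2 : ℂ) • (Z * c) by rw [two_smul]; abel,
    mul_smul_comm, smul_smul]
  congr 1
  ring

lemma TT_gen {X Z c n psi : 𝔸} (s : ℂ) (hXX : X * X = 1) (hXZ : X * Z = -(Z * X))
    (hXc : X * c = c * X) (hXn : X * n = n * X) (hXp : X * psi = psi * X) :
    TT (genA X Z c n psi s) (genB X Z c n psi s) X = (-s) • (psi * (Z * n)) := by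
  have h1 : X * (psi * (Z * c)) - psi * (Z * c) * X = (2 : ℂ) • (psi * (X * (Z * c))) := by
    have e : psi * (Z * c) * X = -(psi * (X * (Z * c))) := by
      calc psi * (Z * c) * X = psi * (Z * (c * X)) := by noncomm_ring
        _ = psi * (Z * (X * c)) := by rw [hXc]
        _ = psi * ((Z * X) * c) := by noncomm_ring
        _ = psi * ((-(X * Z)) * c) := by rw [hXZ, neg_neg]
        _ = _ := by noncomm_ring
    rw [e, two_smul, ← mul_assoc X psi, hXp]
    noncomm_ring
  have h2 : X * (psi * (X * Z * n)) - psi * (X * Z * n) * X = (2 : ℂ) • (psi * (Z * n)) := by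
    have e : psi * (X * Z * n) * X = -(psi * (Z * n)) := by
      calc psi * (X * Z * n) * X = psi * (X * Z * (n * X)) := by noncomm_ring
        _ = psi * (X * Z * (X * n)) := by rw [hXn]
        _ = psi * ((X * (Z * X)) * n) := by noncomm_ring
        _ = psi * ((X * (-(X * Z))) * n) := by rw [hXZ, neg_neg]
        _ = -(psi * ((X * X) * Z * n)) := by noncomm_ring
        _ = _ := by rw [hXX]; noncomm_ring
    have e2 : X * (psi * (X * Z * n)) = psi * (Z * n) := by
      calc X * (psi * (X * Z * n)) = (X * psi) * (X * Z * n) := by noncomm_ring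
        _ = psi * ((X * X) * Z * n) := by rw [hXp]; noncomm_ring
        _ = _ := by rw [hXX]; noncomm_ring
    rw [e, e2, two_smul]
    abel
  have eA : X * genA X Z c n psi s - genA X Z c n psi s * X
      = (-(Complex.I * (s / 2))) • ((2 : ℂ) • (psi * (X * (Z * c)))
        - Complex.I • ((2 : ℂ) • (psi * (Z * n)))) := by
    rw [← h1, ← h2, genA]
    simp only [mul_smul_comm, smul_mul_assoc, mul_sub, sub_mul, smul_sub]
    abel
  have eB : X * genB X Z c n psi s - genB X Z c n psi s * X
      = (-(Complex.I * (s / 2))) • ((2 : ℂ) • (psi * (X * (Z * c)))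
        + Complex.I • ((2 : ℂ) • (psi * (Z * n)))) := by
    rw [← h1, ← h2, genB]
    simp only [mul_smul_comm, smul_mul_assoc, mul_add, add_mul, smul_add, smul_sub]
    abel
  rw [TT, eA, eB]
  have hI : Complex.I * Complex.I = -1 := Complex.I_mul_I
  have e : (1 / 2 : ℂ) • ((-(Complex.I * (s / 2))) • ((2 : ℂ) • (psi * (X * (Z * c)))
        - Complex.I • ((2 : ℂ) • (psi * (Z * n))))
      - (-(Complex.I * (s / 2))) • ((2 : ℂ) • (psi * (X * (Z * c)))
        + Complex.I • ((2 : ℂ) • (psi * (Z * n)))))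
      = (s * (Complex.I * Complex.I)) • (psi * (Z * n)) := by
    module
  rw [e, hI]
  congr 1
  ring

lemma commute_TT_gen {X Z c n psi : 𝔸} (s : ℂ) (hXX : X * X = 1) (hXZ : X * Z = -(Z * X))
    (hXc : X * c = c * X) (hXn : X * n = n * X) (hXp : X * psi = psi * X)
    (hZc : Z * c = c * Z) (hZn : Z * n = n * Z) (hZp : Z * psi = psi * Z)
    (hcn : c * n = n * c) (hcp : c * psi = psi * c) (hnp : n * psi = psi * n) :
    Commute (TT (genA X Z c n psi s) (genB X Z c n psi s) X)
      (genA X Z c n psi s + genB X Z c n psi s) := by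
  rw [TT_gen s hXX hXZ hXc hXn hXp, genA_add_genB]
  refine (Commute.smul_right ?_ _).smul_left _
  have cZc : Commute Z c := hZc
  have cZn : Commute Z n := hZn
  have cZp : Commute Z psi := hZp
  have ccn : Commute c n := hcn
  have ccp : Commute c psi := hcp
  have cnp : Commute n psi := hnp
  have a1 : Commute (psi * (Z * n)) psi := (Commute.refl psi).mul_left (cZp.mul_left cnp)
  have a2 : Commute (psi * (Z * n)) Z := cZp.symm.mul_left ((Commute.refl Z).mul_left cZn.symm)
  have a3 : Commute (psi * (Z * n)) c := ccp.symm.mul_left (cZc.mul_left ccn.symm)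
  exact a1.mul_right (a2.mul_right a3)

end Vale.Agent.P367.B
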