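import Vale.Agent.P367.B.FDefs
import Vale.Agent.P367.B.LBasic
import Vale.Agent.P367.B.FGen
import Vale.Agent.P367.B.Energy

/-! P367, block B, T2: dictionary of the function gate and the limit `m -> ∞`. -/

namespace Vale.Agent.P367.A

open Complex Filter Topology MeasureTheory

namespace LSys

variable {H K : Type*} [NormedAddCommGroup H] [InnerProductSpace ℂ H]
  [NormedAddCommGroup K] [InnerProductSpace ℂ K] (L : LSys H K)

section dict

lemma clm_mul (U V : H ≃ₗᵢ[ℂ] H) : clm (U * V) = clm U * clm V := rfl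

lemma clm_XX : clm L.X * clm L.X = 1 := by
  ext x; exact L.XX x

lemma clm_XZ : clm L.X * clm L.Z = -(clm L.Z * clm L.X) := by
  ext x; exact L.XZ x

lemma clm_XW (v : K) : clm L.X * clm (L.W v) = clm (L.W v) * clm L.X := by
  ext x; exact (L.WX v x).symm

lemma clm_ZW (v : K) : clm L.Z * clm (L.W v) = clm (L.W v) * clm L.Z := by
  ext x; exact (L.WZ v x).symm

/-- Weyl operators along one line -/
lemma clm_W_mul (s t : ℝ) (v : K) : clm (L.W ((s : ℂ) • v)) * clm (L.W ((t : ℂ) • v))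
    = clm (L.W (((s + t : ℝ) : ℂ) • v)) := by
  ext x
  change L.W ((s : ℂ) • v) (L.W ((t : ℂ) • v) x) = L.W (((s + t : ℝ) : ℂ) • v) x
  rw [L.WW', th_smul_left, th_smul_right, th_self, mul_zero, mul_zero]
  simp [add_smul]

lemma clm_W_zero : clm (L.W (0 : K)) = 1 := by
  ext x; exact L.W_zero_apply x

lemma clm_W_half (v : K) : clm (L.W ((1 / 2 : ℂ) • v)) * clm (L.W ((1 / 2 : ℂ) • v))
    = clm (L.W v) := by
  have h := L.clm_W_mul (1 / 2) (1 / 2) v
  have e : ((1 / 2 : ℝ) : ℂ) = 1 / 2 := by push_cast; ring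
  have e2 : (((1 / 2 + 1 / 2 : ℝ) : ℝ) : ℂ) = 1 := by push_cast; ring
  rw [e2, one_smul] at h
  rwa [e] at h

lemma clm_W_half' (v : K) : clm (L.W (-((1 / 2 : ℂ) • v))) * clm (L.W (-((1 / 2 : ℂ) • v)))
    = clm (L.W (-v)) := by
  have h := L.clm_W_half (-v)
  rwa [smul_neg] at h

lemma clm_W_neg (v : K) : clm (L.W v) * clm (L.W (-v)) = 1 := by
  ext x; exact L.W_W_neg v x

lemma clm_W_neg' (v : K) : clm (L.W (-v)) * clm (L.W v) = 1 := by
  ext x; exact L.W_neg_W v x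

lemma kk_eq (v : K) : L.kk v = (1 / 2 : ℂ) • (clm (L.W (-((1 / 2 : ℂ) • v)))
      + clm (L.W ((1 / 2 : ℂ) • v)))
    + (1 / 2 : ℂ) • ((clm (L.W (-((1 / 2 : ℂ) • v))) - clm (L.W ((1 / 2 : ℂ) • v))) * clm L.X) := rfl

lemma kki_eq (v : K) : L.kki v = (1 / 2 : ℂ) • (clm (L.W ((1 / 2 : ℂ) • v))
      + clm (L.W (-((1 / 2 : ℂ) • v))))
    + (1 / 2 : ℂ) • ((clm (L.W ((1 / 2 : ℂ) • v)) - clm (L.W (-((1 / 2 : ℂ) • v)))) * clm L.X) := by
  rw [kki, pwC, neg_neg, pau_zero]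

/-- abstract computation for `kk`, `kki` -/
lemma abs_kk {𝔸 : Type*} [NormedRing 𝔸] [NormedAlgebra ℂ 𝔸] {a b X : 𝔸} (hab : a * b = 1)
    (hba : b * a = 1) (hX : X * X = 1) (hXa : X * a = a * X) (hXb : X * b = b * X) :
    ((1 / 2 : ℂ) • (a + b) + (1 / 2 : ℂ) • ((a - b) * X))
      * ((1 / 2 : ℂ) • (b + a) + (1 / 2 : ℂ) • ((b - a) * X)) = 1 := by
  have e1 : (a - b) * X * (b + a) = (a - b) * (b + a) * X := by
    rw [mul_assoc, mul_add, hXb, hXa, ← add_mul, ← mul_assoc]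
  have e2 : (a - b) * X * ((b - a) * X) = (a - b) * (b - a) := by
    calc (a - b) * X * ((b - a) * X) = (a - b) * ((X * b - X * a) * X) := by noncomm_ring
      _ = (a - b) * ((b * X - a * X) * X) := by rw [hXb, hXa]
      _ = (a - b) * (b - a) * (X * X) := by noncomm_ring
      _ = _ := by rw [hX, mul_one]
  have e3 : (a + b) * (b + a) = a * a + b * b + (1 + 1) := by
    calc (a + b) * (b + a) = a * b + a * a + b * b + b * a := by noncomm_ring
      _ = _ := by rw [hab, hba]; abel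
  have e4 : (a - b) * (b - a) = (1 + 1) - a * a - b * b := by
    calc (a - b) * (b - a) = a * b - a * a - b * b + b * a := by noncomm_ring
      _ = _ := by rw [hab, hba]; abel
  have e5 : (a + b) * ((b - a) * X) = -((a - b) * (b + a) * X) := by
    have : (a + b) * (b - a) = -((a - b) * (b + a)) := by
      calc (a + b) * (b - a) = a * b - a * a + b * b - b * a := by noncomm_ring
        _ = -(a * b + a * a - b * b - b * a) := by rw [hab, hba]; abel
        _ = _ := by noncomm_ring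
    rw [← mul_assoc, this, neg_mul]
  rw [add_mul, mul_add, mul_add]
  simp only [smul_mul_smul_comm]
  rw [e1, e2, e3, e4, e5]
  have : (1 / 2 : ℂ) * (1 / 2) = 1 / 4 := by norm_num
  rw [this]
  module

lemma kki_mul_kk (v : K) : L.kki v * L.kk v = 1 := by
  rw [kk_eq, kki_eq]
  exact abs_kk (L.clm_W_neg _) (L.clm_W_neg' _) L.clm_XX (L.clm_XW _) (L.clm_XW _)

lemma kk_mul_kki (v : K) : L.kk v * L.kki v = 1 := by
  rw [kk_eq, kki_eq]
  exact abs_kk (L.clm_W_neg' _) (L.clm_W_neg _) L.clm_XX (L.clm_XW _) (L.clm_XW _)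

/-- abstract conjugation of `Z` -/
lemma abs_conj {𝔸 : Type*} [NormedRing 𝔸] [NormedAlgebra ℂ 𝔸] {a b X Z : 𝔸} (hab : a * b = 1)
    (hba : b * a = 1) (hX : X * X = 1) (hXZ : X * Z = -(Z * X)) (hXa : X * a = a * X)
    (hXb : X * b = b * X) (hZa : Z * a = a * Z) (hZb : Z * b = b * Z) :
    ((1 / 2 : ℂ) • (a + b) + (1 / 2 : ℂ) • ((a - b) * X)) * Z
      * ((1 / 2 : ℂ) • (b + a) + (1 / 2 : ℂ) • ((b - a) * X))
    = (1 / 2 : ℂ) • (Z * (a * a + b * b)) + (1 / 2 : ℂ) • (X * Z * (a * a - b * b)) := by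
  have h1 : ((1 / 2 : ℂ) • (a + b) + (1 / 2 : ℂ) • ((a - b) * X)) * Z
      = Z * ((1 / 2 : ℂ) • (a + b) - (1 / 2 : ℂ) • ((a - b) * X)) := by
    have e1 : (a + b) * Z = Z * (a + b) := by rw [add_mul, mul_add, hZa, hZb]
    have e2 : (a - b) * X * Z = -(Z * ((a - b) * X)) := by
      calc (a - b) * X * Z = (a - b) * (X * Z) := by noncomm_ring
        _ = -((a * Z - b * Z) * X) := by rw [hXZ]; noncomm_ring
        _ = -(Z * ((a - b) * X)) := by rw [← hZa, ← hZb]; noncomm_ring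
    rw [add_mul, smul_mul_assoc, smul_mul_assoc, e1, e2, mul_sub, mul_smul_comm, mul_smul_comm,
      smul_neg]
    abel
  have e1 : (a - b) * X * (b + a) = (a - b) * (b + a) * X := by
    rw [mul_assoc, mul_add, hXb, hXa, ← add_mul, ← mul_assoc]
  have e2 : (a - b) * X * ((b - a) * X) = (a - b) * (b - a) := by
    calc (a - b) * X * ((b - a) * X) = (a - b) * ((X * b - X * a) * X) := by noncomm_ring
      _ = (a - b) * ((b * X - a * X) * X) := by rw [hXb, hXa]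
      _ = (a - b) * (b - a) * (X * X) := by noncomm_ring
      _ = _ := by rw [hX, mul_one]
  have e3 : (a + b) * (b + a) = a * a + b * b + (1 + 1) := by
    calc (a + b) * (b + a) = a * b + a * a + b * b + b * a := by noncomm_ring
      _ = _ := by rw [hab, hba]; abel
  have e4 : (a - b) * (b - a) = (1 + 1) - a * a - b * b := by
    calc (a - b) * (b - a) = a * b - a * a - b * b + b * a := by noncomm_ring
      _ = _ := by rw [hab, hba]; abel
  have e5 : (a + b) * ((b - a) * X) = -((a - b) * (b + a) * X) := by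
    have : (a + b) * (b - a) = -((a - b) * (b + a)) := by
      calc (a + b) * (b - a) = a * b - a * a + b * b - b * a := by noncomm_ring
        _ = -(a * b + a * a - b * b - b * a) := by rw [hab, hba]; abel
        _ = _ := by noncomm_ring
    rw [← mul_assoc, this, neg_mul]
  have e6 : (a - b) * (b + a) = a * a - b * b := by
    calc (a - b) * (b + a) = a * b + a * a - b * b - b * a := by noncomm_ring
      _ = _ := by rw [hab, hba]; abel
  have h2 : ((1 / 2 : ℂ) • (a + b) - (1 / 2 : ℂ) • ((a - b) * X))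
      * ((1 / 2 : ℂ) • (b + a) + (1 / 2 : ℂ) • ((b - a) * X))
      = (1 / 2 : ℂ) • (a * a + b * b) - (1 / 2 : ℂ) • ((a * a - b * b) * X) := by
    rw [sub_mul, mul_add, mul_add]
    simp only [smul_mul_smul_comm]
    rw [e1, e2, e3, e4, e5, e6]
    have : (1 / 2 : ℂ) * (1 / 2) = 1 / 4 := by norm_num
    rw [this]
    module
  have e7 : Z * ((a * a - b * b) * X) = -(X * Z * (a * a - b * b)) := by
    have : (a * a - b * b) * X = X * (a * a - b * b) := by
      calc (a * a - b * b) * X = a * (a * X) - b * (b * X) := by noncomm_ring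
        _ = a * (X * a) - b * (X * b) := by rw [hXa, hXb]
        _ = (a * X) * a - (b * X) * b := by noncomm_ring
        _ = (X * a) * a - (X * b) * b := by rw [hXa, hXb]
        _ = _ := by noncomm_ring
    rw [this, ← mul_assoc, hXZ]
    noncomm_ring
  rw [h1, mul_assoc, h2, mul_sub, mul_smul_comm, mul_smul_comm, e7, smul_neg, sub_neg_eq_add]

lemma kki_Z_kk (v : K) : L.kki v * clm L.Z * L.kk v
    = clm L.Z * L.cosf v + (Complex.I • (clm L.X * clm L.Z)) * L.sinf v := by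
  rw [kk_eq, kki_eq, abs_conj (L.clm_W_neg _) (L.clm_W_neg' _) L.clm_XX L.clm_XZ (L.clm_XW _)
    (L.clm_XW _) (L.clm_ZW _) (L.clm_ZW _), clm_W_half, clm_W_half', cosf, sinf]
  rw [mul_smul_comm, smul_mul_smul_comm]
  congr 2
  rw [mul_neg, ← mul_div_assoc, Complex.I_mul_I]
  ring

lemma kk_Z_kki (v : K) : L.kk v * clm L.Z * L.kki v
    = clm L.Z * L.cosf v - (Complex.I • (clm L.X * clm L.Z)) * L.sinf v := by
  rw [kk_eq, kki_eq, abs_conj (L.clm_W_neg' _) (L.clm_W_neg _) L.clm_XX L.clm_XZ (L.clm_XW _)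
    (L.clm_XW _) (L.clm_ZW _) (L.clm_ZW _), clm_W_half, clm_W_half', cosf, sinf]
  rw [mul_smul_comm, smul_mul_smul_comm, add_comm (clm (L.W (-v))) (clm (L.W v)),
    ← neg_sub (clm (L.W v)) (clm (L.W (-v))), mul_neg (clm L.X * clm L.Z), smul_neg,
    ← sub_eq_add_neg]
  congr 2
  rw [mul_neg, ← mul_div_assoc, Complex.I_mul_I]
  ring

end dict

/-- `psi` commutes with the spin and with the Weyl operators along `v` -/
structure FCom (v : K) (psi : H →L[ℂ] H) : Prop where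
  X : clm L.X * psi = psi * clm L.X
  Z : clm L.Z * psi = psi * clm L.Z
  W : ∀ t : ℝ, clm (L.W ((t : ℂ) • v)) * psi = psi * clm (L.W ((t : ℂ) • v))

section comm

variable {L}
variable {v : K} {psi : H →L[ℂ] H}

lemma FCom.W1 (h : L.FCom v psi) : clm (L.W v) * psi = psi * clm (L.W v) := by
  have := h.W 1; simpa using this

lemma FCom.Wn (h : L.FCom v psi) : clm (L.W (-v)) * psi = psi * clm (L.W (-v)) := by
  have := h.W (-1); simpa using this

lemma FCom.Wh (h : L.FCom v psi) : clm (L.W ((1 / 2 : ℂ) • v)) * psi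
    = psi * clm (L.W ((1 / 2 : ℂ) • v)) := by
  have := h.W (1 / 2)
  have e : ((1 / 2 : ℝ) : ℂ) = 1 / 2 := by push_cast; ring
  rwa [e] at this

lemma FCom.Whn (h : L.FCom v psi) : clm (L.W (-((1 / 2 : ℂ) • v))) * psi
    = psi * clm (L.W (-((1 / 2 : ℂ) • v))) := by
  have := h.W (-(1 / 2))
  have e : ((-(1 / 2) : ℝ) : ℂ) • v = -((1 / 2 : ℂ) • v) := by
    rw [← neg_smul]; congr 1; push_cast; ring
  rwa [e] at this

lemma FCom.kk (h : L.FCom v psi) : L.kk v * psi = psi * L.kk v := by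
  rw [kk_eq]
  simp only [add_mul, mul_add, smul_mul_assoc, mul_smul_comm, sub_mul, mul_sub]
  rw [h.Wh, h.Whn]
  have e1 : clm (L.W (-((1 / 2 : ℂ) • v))) * clm L.X * psi
      = psi * (clm (L.W (-((1 / 2 : ℂ) • v))) * clm L.X) := by
    rw [mul_assoc, h.X, ← mul_assoc, h.Whn, mul_assoc]
  have e2 : clm (L.W ((1 / 2 : ℂ) • v)) * clm L.X * psi
      = psi * (clm (L.W ((1 / 2 : ℂ) • v)) * clm L.X) := by
    rw [mul_assoc, h.X, ← mul_assoc, h.Wh, mul_assoc]
  rw [e1, e2]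

lemma FCom.kki (h : L.FCom v psi) : L.kki v * psi = psi * L.kki v := by
  rw [kki_eq]
  simp only [add_mul, mul_add, smul_mul_assoc, mul_smul_comm, sub_mul, mul_sub]
  rw [h.Wh, h.Whn]
  have e1 : clm (L.W (-((1 / 2 : ℂ) • v))) * clm L.X * psi
      = psi * (clm (L.W (-((1 / 2 : ℂ) • v))) * clm L.X) := by
    rw [mul_assoc, h.X, ← mul_assoc, h.Whn, mul_assoc]
  have e2 : clm (L.W ((1 / 2 : ℂ) • v)) * clm L.X * psi
      = psi * (clm (L.W ((1 / 2 : ℂ) • v)) * clm L.X) := by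
    rw [mul_assoc, h.X, ← mul_assoc, h.Wh, mul_assoc]
  rw [e1, e2]

variable (L)

lemma X_kk (v : K) : clm L.X * L.kk v = L.kk v * clm L.X := by
  rw [kk_eq]
  simp only [add_mul, mul_add, smul_mul_assoc, mul_smul_comm, sub_mul, mul_sub]
  rw [clm_XW, clm_XW, ← mul_assoc, ← mul_assoc, clm_XW, clm_XW]

lemma X_kki (v : K) : clm L.X * L.kki v = L.kki v * clm L.X := by
  rw [kki_eq]
  simp only [add_mul, mul_add, smul_mul_assoc, mul_smul_comm, sub_mul, mul_sub]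
  rw [clm_XW, clm_XW, ← mul_assoc, ← mul_assoc, clm_XW, clm_XW]

lemma X_cosf (v : K) : clm L.X * L.cosf v = L.cosf v * clm L.X := by
  rw [cosf, mul_smul_comm, smul_mul_assoc, mul_add, add_mul, clm_XW, clm_XW]

lemma X_sinf (v : K) : clm L.X * L.sinf v = L.sinf v * clm L.X := by
  rw [sinf, mul_smul_comm, smul_mul_assoc, mul_sub, sub_mul, clm_XW, clm_XW]

lemma Z_cosf (v : K) : clm L.Z * L.cosf v = L.cosf v * clm L.Z := by
  rw [cosf, mul_smul_comm, smul_mul_assoc, mul_add, add_mul, clm_ZW, clm_ZW]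

lemma Z_sinf (v : K) : clm L.Z * L.sinf v = L.sinf v * clm L.Z := by
  rw [sinf, mul_smul_comm, smul_mul_assoc, mul_sub, sub_mul, clm_ZW, clm_ZW]

lemma cosf_sinf (v : K) : L.cosf v * L.sinf v = L.sinf v * L.cosf v := by
  rw [cosf, sinf, smul_mul_smul_comm, smul_mul_smul_comm, mul_comm (1 / 2 : ℂ)]
  congr 1
  simp only [mul_add, add_mul, mul_sub, sub_mul, clm_W_neg, clm_W_neg']
  abel

variable {L}

lemma FCom.cosf (h : L.FCom v psi) : L.cosf v * psi = psi * L.cosf v := by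
  rw [LSys.cosf, smul_mul_assoc, mul_smul_comm, add_mul, mul_add, h.W1, h.Wn]

lemma FCom.sinf (h : L.FCom v psi) : L.sinf v * psi = psi * L.sinf v := by
  rw [LSys.sinf, smul_mul_assoc, mul_smul_comm, sub_mul, mul_sub, h.W1, h.Wn]

end comm

section expo

variable [CompleteSpace H] {v : K} {psi : H →L[ℂ] H}

open Vale.Agent.P367.B

/-- the common generator -/
noncomputable def gB (v : K) (psi : H →L[ℂ] H) : H →L[ℂ] H :=
  psi * (clm L.Z * L.cosf v + (Complex.I • (clm L.X * clm L.Z)) * L.sinf v)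

noncomputable def gA (v : K) (psi : H →L[ℂ] H) : H →L[ℂ] H :=
  psi * (clm L.Z * L.cosf v - (Complex.I • (clm L.X * clm L.Z)) * L.sinf v)

lemma conj_exp {𝔸 : Type*} [NormedRing 𝔸] [NormedAlgebra ℂ 𝔸] [CompleteSpace 𝔸] {a b : 𝔸}
    (hab : a * b = 1) (hba : b * a = 1) (x : 𝔸) :
    a * (NormedSpace.exp x * b) = NormedSpace.exp (a * x * b) := by
  let _ : NormedAlgebra ℚ 𝔸 := NormedAlgebra.restrictScalars ℚ ℂ 𝔸
  have h := NormedSpace.exp_units_conj (⟨a, b, hab, hba⟩ : 𝔸ˣ) x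
  simp only [Units.inv_mk] at h
  rw [h, mul_assoc]

lemma kki_rr_kk (h : L.FCom v psi) (ε : ℝ) : L.kki v * (L.rr psi ε * L.kk v)
    = NormedSpace.exp ((-(Complex.I * (ε : ℂ))) • L.gB v psi) := by
  rw [rr, conj_exp (L.kki_mul_kk v) (L.kk_mul_kki v)]
  congr 1
  rw [mul_smul_comm, smul_mul_assoc, smul_mul_assoc, mul_smul_comm, smul_mul_assoc, smul_smul,
    gB, ← kki_Z_kk, pau_two]
  congr 1
  · ring
  · rw [← mul_assoc (L.kki v), h.kki]
    simp only [mul_assoc]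

lemma kk_rr_kki (h : L.FCom v psi) (ε : ℝ) : L.kk v * (L.rr psi ε * L.kki v)
    = NormedSpace.exp ((-(Complex.I * (ε : ℂ))) • L.gA v psi) := by
  rw [rr, conj_exp (L.kk_mul_kki v) (L.kki_mul_kk v)]
  congr 1
  rw [mul_smul_comm, smul_mul_assoc, smul_mul_assoc, mul_smul_comm, smul_mul_assoc, smul_smul,
    gA, ← kk_Z_kki, pau_two]
  congr 1
  · ring
  · rw [← mul_assoc (L.kk v), h.kk]
    simp only [mul_assoc]

/-- the generators of `FGen` -/
noncomputable def GA (v : K) (psi : H →L[ℂ] H) (s : ℝ) : H →L[ℂ] H :=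
  genA (clm L.X) (clm L.Z) (L.cosf v) (L.sinf v) psi (s : ℂ)

noncomputable def GB (v : K) (psi : H →L[ℂ] H) (s : ℝ) : H →L[ℂ] H :=
  genB (clm L.X) (clm L.Z) (L.cosf v) (L.sinf v) psi (s : ℂ)

lemma smul_GB (v : K) (psi : H →L[ℂ] H) (s : ℝ) {m : ℕ} (hm : 1 ≤ m) (σ : ℝ) :
    (-(Complex.I * ((σ * (s / (2 * m)) : ℝ) : ℂ))) • L.gB v psi
      = (((m : ℝ)⁻¹ : ℝ) : ℂ) • ((σ : ℂ) • L.GB v psi s) := by
  have hm0 : (m : ℂ) ≠ 0 := by exact_mod_cast (by omega : m ≠ 0)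
  rw [GB, genB, gB, smul_smul, smul_smul]
  congr 1
  push_cast
  field_simp

lemma smul_GA (v : K) (psi : H →L[ℂ] H) (s : ℝ) {m : ℕ} (hm : 1 ≤ m) (σ : ℝ) :
    (-(Complex.I * ((σ * (s / (2 * m)) : ℝ) : ℂ))) • L.gA v psi
      = (((m : ℝ)⁻¹ : ℝ) : ℂ) • ((σ : ℂ) • L.GA v psi s) := by
  have hm0 : (m : ℂ) ≠ 0 := by exact_mod_cast (by omega : m ≠ 0)
  rw [GA, genA, gA, smul_smul, smul_smul]
  congr 1
  push_cast
  field_simp

lemma B_pos (h : L.FCom v psi) (s : ℝ) {m : ℕ} (hm : 1 ≤ m) :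
    L.kki v * (L.rr psi (s / (2 * m)) * L.kk v)
      = NormedSpace.exp ((((m : ℝ)⁻¹ : ℝ) : ℂ) • L.GB v psi s) := by
  rw [L.kki_rr_kk h]
  have := L.smul_GB v psi s hm 1
  rw [one_mul, Complex.ofReal_one, one_smul] at this
  rw [this]

lemma A_pos (h : L.FCom v psi) (s : ℝ) {m : ℕ} (hm : 1 ≤ m) :
    L.kk v * (L.rr psi (s / (2 * m)) * L.kki v)
      = NormedSpace.exp ((((m : ℝ)⁻¹ : ℝ) : ℂ) • L.GA v psi s) := by
  rw [L.kk_rr_kki h]
  have := L.smul_GA v psi s hm 1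
  rw [one_mul, Complex.ofReal_one, one_smul] at this
  rw [this]

lemma B_neg (h : L.FCom v psi) (s : ℝ) {m : ℕ} (hm : 1 ≤ m) :
    L.kki v * (L.rr psi (-(s / (2 * m))) * L.kk v)
      = NormedSpace.exp ((((m : ℝ)⁻¹ : ℝ) : ℂ) • (-L.GB v psi s)) := by
  rw [L.kki_rr_kk h]
  have := L.smul_GB v psi s hm (-1)
  have e : ((-1 : ℝ) : ℂ) = -1 := by push_cast; rfl
  rw [neg_one_mul, e, neg_one_smul] at this
  rw [this]

lemma A_neg (h : L.FCom v psi) (s : ℝ) {m : ℕ} (hm : 1 ≤ m) :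
    L.kk v * (L.rr psi (-(s / (2 * m))) * L.kki v)
      = NormedSpace.exp ((((m : ℝ)⁻¹ : ℝ) : ℂ) • (-L.GA v psi s)) := by
  rw [L.kk_rr_kki h]
  have := L.smul_GA v psi s hm (-1)
  have e : ((-1 : ℝ) : ℂ) = -1 := by push_cast; rfl
  rw [neg_one_mul, e, neg_one_smul] at this
  rw [this]

lemma fm_eq (h : L.FCom v psi) (s : ℝ) {m : ℕ} (hm : 1 ≤ m) :
    L.fm v psi (s / (2 * m)) = ff (L.GA v psi s) (L.GB v psi s) (m : ℝ)⁻¹ := by
  rw [ff, ← L.A_pos h s hm, ← L.B_pos h s hm, fm]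
  simp only [mul_assoc]

lemma fmi_eq (h : L.FCom v psi) (s : ℝ) {m : ℕ} (hm : 1 ≤ m) :
    L.fmi v psi (s / (2 * m)) = gg (L.GA v psi s) (L.GB v psi s) (m : ℝ)⁻¹ := by
  rw [gg, ← L.A_neg h s hm, ← L.B_neg h s hm, fmi]
  simp only [mul_assoc]

lemma mid_eq (h : L.FCom v psi) (s : ℝ) {m : ℕ} (hm : 1 ≤ m) :
    L.kki v * L.rr psi (-(s / (2 * m))) * clm L.X * L.rr psi (s / (2 * m)) * L.kk v
      = NormedSpace.exp ((((m : ℝ)⁻¹ : ℝ) : ℂ) • (-L.GB v psi s)) * clm L.X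
        * NormedSpace.exp ((((m : ℝ)⁻¹ : ℝ) : ℂ) • L.GB v psi s) := by
  rw [← L.B_pos h s hm, ← L.B_neg h s hm]
  calc _ = L.kki v * (L.rr psi (-(s / (2 * m))) * clm L.X * (L.rr psi (s / (2 * m)) * L.kk v)) := by
        simp only [mul_assoc]
    _ = L.kki v * (L.rr psi (-(s / (2 * m))) * ((L.kk v * L.kki v) * clm L.X)
        * (L.rr psi (s / (2 * m)) * L.kk v)) := by rw [kk_mul_kki, one_mul]
    _ = L.kki v * (L.rr psi (-(s / (2 * m))) * (L.kk v * (clm L.X * L.kki v))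
        * (L.rr psi (s / (2 * m)) * L.kk v)) := by rw [X_kki]; simp only [mul_assoc]
    _ = _ := by simp only [mul_assoc]

lemma sumX_eq (h : L.FCom v psi) (s : ℝ) {m : ℕ} (hm : 1 ≤ m) :
    L.sumX v psi (s / (2 * m)) m = (2 : ℂ) • ∑ j ∈ Finset.range m,
      gg (L.GA v psi s) (L.GB v psi s) (m : ℝ)⁻¹ ^ j
        * dd (L.GA v psi s) (L.GB v psi s) (clm L.X) (m : ℝ)⁻¹
        * ff (L.GA v psi s) (L.GB v psi s) (m : ℝ)⁻¹ ^ j := by
  rw [sumX, Finset.smul_sum]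
  refine Finset.sum_congr rfl fun j _ => ?_
  rw [← sum_eq, L.fm_eq h s hm, L.fmi_eq h s hm, L.mid_eq h s hm, smul_smul]
  norm_num
  abel

omit [CompleteSpace H] in
lemma norm_one_le : ‖(1 : H →L[ℂ] H)‖ ≤ 1 := ContinuousLinearMap.norm_id_le

/-- the total reaction converges in norm -/
theorem tendsto_sumX (h : L.FCom v psi) (s : ℝ) :
    Tendsto (fun m : ℕ => L.sumX v psi (s / (2 * m)) m) atTop
      (𝓝 ((-(2 * s : ℂ)) • (psi * (clm L.Z * L.sinf v)))) := by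
  have h1 : Commute (TT (L.GA v psi s) (L.GB v psi s) (clm L.X)) (L.GA v psi s + L.GB v psi s) :=
    commute_TT_gen (s : ℂ) L.clm_XX L.clm_XZ (L.X_cosf v) (L.X_sinf v) h.X (L.Z_cosf v) (L.Z_sinf v)
      h.Z (L.cosf_sinf v) h.cosf h.sinf
  have h2 := (tendsto_sum_dd norm_one_le (L.GA v psi s) (L.GB v psi s) (clm L.X) h1).const_smul
    (2 : ℂ)
  have h3 : TT (L.GA v psi s) (L.GB v psi s) (clm L.X) = (-(s : ℂ)) • (psi * (clm L.Z * L.sinf v)) :=
    TT_gen (s : ℂ) L.clm_XX L.clm_XZ (L.X_cosf v) (L.X_sinf v) h.X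
  rw [h3, smul_smul] at h2
  have e : (2 : ℂ) * -(s : ℂ) = -(2 * s : ℂ) := by ring
  rw [e] at h2
  refine h2.congr' ?_
  filter_upwards [eventually_ge_atTop 1] with m hm
  rw [L.sumX_eq h s hm]

/-- the own batch converges in norm -/
theorem tendsto_fm (h : L.FCom v psi) (s : ℝ) :
    Tendsto (fun m : ℕ => L.fm v psi (s / (2 * m)) ^ m) atTop
      (𝓝 (NormedSpace.exp ((-(Complex.I * (s : ℂ))) • (psi * (clm L.Z * L.cosf v))))) := by
  have h1 := lie_trotter norm_one_le (L.GA v psi s) (L.GB v psi s)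
  have h2 : L.GA v psi s + L.GB v psi s
      = (-(Complex.I * (s : ℂ))) • (psi * (clm L.Z * L.cosf v)) :=
    genA_add_genB _ _ _ _ _ _
  rw [h2] at h1
  refine h1.congr' ?_
  filter_upwards [eventually_ge_atTop 1] with m hm
  rw [L.fm_eq h s hm, ff]
  push_cast
  rfl

end expo

end LSys

end Vale.Agent.P367.A
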