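import Vale.Agent.P367.B.FGb
import Vale.Agent.P367.B.FGd
import Vale.Agent.P367.B.LUS

/-! P367, block B, T2: the function gate (limit of the micro steps). -/

namespace Vale.Agent.P367.A

open Complex Filter Topology MeasureTheory

namespace LSys

variable {H K : Type*} [NormedAddCommGroup H] [InnerProductSpace ℂ H]
  [NormedAddCommGroup K] [InnerProductSpace ℂ K] (L : LSys H K)

/-! ### continuity of pulses -/

/-- strong continuity of the Weyl operators -/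
lemma tendsto_W {v : ℕ → K} {v0 : K} (hv : Tendsto v atTop (𝓝 v0)) (x : H) :
    Tendsto (fun n => L.W (v n) x) atTop (𝓝 (L.W v0 x)) := by
  have h1 : Tendsto (fun n => v n - v0) atTop (𝓝 0) := by
    simpa using hv.sub_const v0
  have h2 : Tendsto (fun n => L.W (v n - v0) (L.W v0 x)) atTop (𝓝 (L.W v0 x)) :=
    (L.tendsto_W0 (L.W v0 x)).comp h1
  have h3 : Tendsto (fun n => Complex.exp (Complex.I * (th (v n - v0) v0 : ℂ))) atTop (𝓝 1) := by
    have h4 : Tendsto (fun n => (inner ℂ (v n - v0) v0 : ℂ)) atTop (𝓝 (inner ℂ (0 : K) v0)) :=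
      h1.inner tendsto_const_nhds
    have h5 : Tendsto (fun n => th (v n - v0) v0) atTop (𝓝 0) := by
      have := (Complex.continuous_im.tendsto _).comp h4
      rw [inner_zero_left, Complex.zero_im] at this
      exact this
    have h6 : Tendsto (fun n => Complex.exp (Complex.I * (th (v n - v0) v0 : ℂ))) atTop
        (𝓝 (Complex.exp (Complex.I * ((0 : ℝ) : ℂ)))) :=
      (Complex.continuous_exp.tendsto _).comp
        (((Complex.continuous_ofReal.tendsto _).comp h5).const_mul _)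
    simpa using h6
  have h7 := h3.smul h2
  rw [one_smul] at h7
  refine h7.congr fun n => ?_
  rw [L.WW', smul_smul, ← Complex.exp_add, sub_add_cancel]
  simp

lemma tendsto_pw (P : Fin 3) {v : ℕ → K} {v0 : K} (hv : Tendsto v atTop (𝓝 v0)) (x : H) :
    Tendsto (fun n => L.pw (L.pau P) (v n) x) atTop (𝓝 (L.pw (L.pau P) v0 x)) := by
  unfold pw
  exact ((L.tendsto_W hv.neg x).add (L.tendsto_W hv x)).const_smul _ |>.add
    (((L.tendsto_W hv.neg _).sub (L.tendsto_W hv _)).const_smul _)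

/-! ### controls -/

section ctl

variable {L}
variable {𝔄 : Set (H →L[ℂ] H)}

lemma Ctl.xr (hA : L.Ctl 𝔄) {a : H →L[ℂ] H} (ha : a ∈ 𝔄) (t : ℝ) (x : H) :
    a (L.xr t x) = L.xr t (a x) := by
  rw [L.xr_apply, L.xr_apply, map_sub, map_smul, map_smul, hA.X a ha]

lemma Ctl.Zt (hA : L.Ctl 𝔄) {a : H →L[ℂ] H} (ha : a ∈ 𝔄) (t : ℝ) (x : H) :
    a (L.Zt t x) = L.Zt t (a x) := by
  rw [L.Zt_apply, L.Zt_apply, hA.xr ha, hA.Z a ha]

lemma Ctl.pau (hA : L.Ctl 𝔄) {a : H →L[ℂ] H} (ha : a ∈ 𝔄) (P : Fin 3) (x : H) :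
    a (L.pau P x) = L.pau P (a x) := by
  fin_cases P
  · exact hA.X a ha x
  · exact hA.Zt ha _ x
  · exact hA.Z a ha x

/-- the operator whose vacuum value is a control vector -/
noncomputable def cT (L : LSys H K) (V : H ≃ₗᵢ[ℂ] H) (b : Set ℝ) (P : Fin 3) : H →L[ℂ] H :=
  L.E b * clm (V⁻¹ * L.pau P * V)

lemma cT_apply (V : H ≃ₗᵢ[ℂ] H) (b : Set ℝ) (P : Fin 3) (x : H) :
    L.cT V b P x = L.E b (V⁻¹ (L.pau P (V x))) := rfl

lemma cT_sa {V : H ≃ₗᵢ[ℂ] H} {b : Set ℝ} (hb : MeasurableSet b)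
    (hV : ∀ x, L.E b (V x) = V (L.E b x)) (P : Fin 3) : Sa (L.cT V b P) := by
  intro x y
  have hV' : ∀ x, L.E b (V⁻¹ x) = V⁻¹ (L.E b x) := fga_inv hV
  have h1 : inner ℂ (V⁻¹ (L.pau P (V x))) (L.E b y)
      = (inner ℂ x (V⁻¹ (L.pau P (V (L.E b y)))) : ℂ) := by
    rw [Sys.inner_invA V, L.inner_pau, ← Sys.inner_invA V⁻¹ x, inv_inv]
  rw [cT_apply, cT_apply, L.E_sa hb, h1, ← hV, ← L.E_pau, ← hV']

lemma cT_comm (hA : L.Ctl 𝔄) {V : H ≃ₗᵢ[ℂ] H} {b : Set ℝ} (hb : MeasurableSet b)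
    (hV : ∀ a ∈ 𝔄, ∀ x, a (V x) = V (a x)) (P : Fin 3) {a : H →L[ℂ] H} (ha : a ∈ 𝔄) :
    L.cT V b P * a = a * L.cT V b P := by
  ext x
  change L.E b (V⁻¹ (L.pau P (V (a x)))) = a (L.E b (V⁻¹ (L.pau P (V x))))
  have h1 : ∀ y, a (L.E b y) = L.E b (a y) := by
    intro y
    have := hA.comm a (L.E b) ha (hA.lab _ (Bm.ind hb 1))
    exact congrArg (fun T : H →L[ℂ] H => T y) this
  rw [h1, fga_inv (hV a ha), hA.pau ha, hV a ha]

/-- controls commute with the Weyl operators of control vectors -/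
lemma Ctl.Wcvec (hA : L.Ctl 𝔄) {V : H ≃ₗᵢ[ℂ] H} {o r : Set ℝ} (ho : MeasurableSet o)
    (hr : MeasurableSet r) (hV : ∀ a ∈ 𝔄, ∀ x, a (V x) = V (a x)) (μ ν t : ℝ) {a : H →L[ℂ] H}
    (ha : a ∈ 𝔄) (x : H) : a (L.W ((t : ℂ) • L.cvec μ ν o r V) x)
      = L.W ((t : ℂ) • L.cvec μ ν o r V) (a x) := by
  set T : H →L[ℂ] H := ((t * μ : ℝ) : ℂ) • L.cT V o 2 + ((t * ν : ℝ) : ℂ) • L.cT V r 1 with hT
  have hVo : ∀ x, L.E o (V x) = V (L.E o x) := hV _ (hA.lab _ (Bm.ind ho 1))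
  have hVr : ∀ x, L.E r (V x) = V (L.E r x) := hV _ (hA.lab _ (Bm.ind hr 1))
  have hTs : Sa T := by
    intro x y
    have e1 := cT_sa ho hVo 2 x y
    have e2 := cT_sa hr hVr 1 x y
    rw [hT]
    simp only [_root_.add_apply, _root_.smul_apply, inner_add_left, inner_add_right,
      inner_smul_left, inner_smul_right, Complex.conj_ofReal, e1, e2]
  have hTc : ∀ b ∈ 𝔄, T * b = b * T := by
    intro b hb
    rw [hT, add_mul, mul_add, smul_mul_assoc, smul_mul_assoc, mul_smul_comm, mul_smul_comm,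
      cT_comm hA ho hV 2 hb, cT_comm hA hr hV 1 hb]
  have hv : L.iota (T L.Om) = (t : ℂ) • L.cvec μ ν o r V := by
    rw [hT]
    simp only [_root_.add_apply, _root_.smul_apply, map_add, map_smul, cT_apply, cvec, fv,
      smul_add, smul_smul]
    push_cast
    rfl
  have h := hA.W a ha T hTs hTc x
  rwa [hv] at h

lemma Ctl.fcom (hA : L.Ctl 𝔄) {V : H ≃ₗᵢ[ℂ] H} {o r : Set ℝ} (ho : MeasurableSet o)
    (hr : MeasurableSet r) (hV : ∀ a ∈ 𝔄, ∀ x, a (V x) = V (a x)) (μ ν : ℝ) {a : H →L[ℂ] H}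
    (ha : a ∈ 𝔄) : L.FCom (L.cvec μ ν o r V) a := by
  refine ⟨?_, ?_, fun t => ?_⟩
  · ext x; exact (hA.X a ha x).symm
  · ext x; exact (hA.Z a ha x).symm
  · ext x; exact (hA.Wcvec ho hr hV μ ν t ha x).symm

end ctl

/-! ### the limit unitary -/

section lim

variable {L}

lemma cosf_sa (v : K) : Sa (L.cosf v) := by
  intro x y
  change inner ℂ ((1 / 2 : ℂ) • (L.W v x + L.W (-v) x)) y
    = inner ℂ x ((1 / 2 : ℂ) • (L.W v y + L.W (-v) y))
  rw [inner_smul_left, inner_smul_right, inner_add_left, inner_add_right, L.inner_W, L.inner_W,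
    neg_neg, map_div₀, map_one, Complex.conj_ofNat, add_comm]

/-- the generator of the own batch -/
noncomputable def gen (L : LSys H K) (v : K) (a : H →L[ℂ] H) : H →L[ℂ] H :=
  a * (clm L.Z * L.cosf v)

lemma gen_sa {v : K} {a : H →L[ℂ] H} (hsa : Sa a) (h : L.FCom v a) : Sa (L.gen v a) := by
  intro x y
  have e1 : ∀ z, L.cosf v (L.Z z) = L.Z (L.cosf v z) := fun z =>
    (congrArg (fun T : H →L[ℂ] H => T z) (L.Z_cosf v)).symm
  have e2 : ∀ z, L.cosf v (a z) = a (L.cosf v z) := fun z =>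
    congrArg (fun T : H →L[ℂ] H => T z) h.cosf
  have e3 : ∀ z, L.Z (a z) = a (L.Z z) := fun z =>
    congrArg (fun T : H →L[ℂ] H => T z) h.Z
  have e4 : ∀ z w, inner ℂ (L.Z z) w = (inner ℂ z (L.Z w) : ℂ) := L.inner_pau 2
  change inner ℂ (a (L.Z (L.cosf v x))) y = inner ℂ x (a (L.Z (L.cosf v y)))
  rw [hsa, e4, cosf_sa, e3, e2, e1]

/-- multiplication by a phase -/
lemma exists_phase {c : ℂ} (hc : ‖c‖ = 1) : ∃ U : H ≃ₗᵢ[ℂ] H, ∀ x, U x = c • x := by
  have h1 : (starRingEnd ℂ) c * c = 1 := by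
    rw [Complex.conj_mul', hc]; simp
  refine ⟨mkU (c • LinearMap.id) ((starRingEnd ℂ) c • LinearMap.id) ?_ ?_ ?_, fun x => rfl⟩
  · intro x
    change (starRingEnd ℂ) c • (c • x) = x
    rw [smul_smul, h1, one_smul]
  · intro x
    change c • ((starRingEnd ℂ) c • x) = x
    rw [smul_smul, mul_comm, h1, one_smul]
  · intro x y
    change inner ℂ (c • x) y = inner ℂ x ((starRingEnd ℂ) c • y)
    rw [inner_smul_left, inner_smul_right]

variable (L) in
/-- the limit state as a unitary -/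
lemma exists_blk [CompleteSpace H] {b o r : Set ℝ} (hb : MeasurableSet b) (ho : MeasurableSet o)
    (hr : MeasurableSet r) (hbo : Disjoint b o) (hbr : Disjoint b r) (hor : Disjoint o r)
    {T : H →L[ℂ] H} (hT : Sa T) (hTb : ∀ x, L.E b (T x) = T (L.E b x)) (p q : K) {tho thr : ℂ}
    (h1 : ‖tho‖ = 1) (h2 : ‖thr‖ = 1) :
    ∃ U : H ≃ₗᵢ[ℂ] H, L.IsBlk b o r (NormedSpace.exp ((-Complex.I) • T)) p q tho thr U := by
  obtain ⟨Ub, hUb⟩ := fgb_exists_exp hT
  obtain ⟨c1, hc1⟩ := exists_phase (H := H) h1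
  obtain ⟨c2, hc2⟩ := exists_phase (H := H) h2
  have hbE : ∀ x, L.E b (Ub x) = Ub (L.E b x) := by
    intro x
    rw [hUb, hUb]
    have hc : Commute (L.E b) T := by
      ext x; exact hTb x
    have hc2 : Commute (L.E b) (NormedSpace.exp ((-Complex.I) • T)) :=
      (hc.smul_right _).exp_right
    exact congrArg (fun T : H →L[ℂ] H => T x) hc2
  have hoE : ∀ x, L.E o ((c1 * L.pwU 2 p) x) = (c1 * L.pwU 2 p) (L.E o x) := by
    intro x
    rw [Sys.mulA, Sys.mulA, hc1, hc1, map_smul, L.E_pwU]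
  have hrE : ∀ x, L.E r ((c2 * L.pwU 1 q) x) = (c2 * L.pwU 1 q) (L.E r x) := by
    intro x
    rw [Sys.mulA, Sys.mulA, hc2, hc2, map_smul, L.E_pwU]
  refine ⟨L.bU hb Ub hbE * L.bU ho (c1 * L.pwU 2 p) hoE * L.bU hr (c2 * L.pwU 1 q) hrE,
    fun x => ?_⟩
  have eo : ∀ y, L.E o ((c2 * L.pwU 1 q) y) = (c2 * L.pwU 1 q) (L.E o y) := by
    intro x
    rw [Sys.mulA, Sys.mulA, hc2, hc2, map_smul, L.E_pwU]
  have eb2 : ∀ y, L.E b ((c2 * L.pwU 1 q) y) = (c2 * L.pwU 1 q) (L.E b y) := by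
    intro x
    rw [Sys.mulA, Sys.mulA, hc2, hc2, map_smul, L.E_pwU]
  have eb1 : ∀ y, L.E b ((c1 * L.pwU 2 p) y) = (c1 * L.pwU 2 p) (L.E b y) := by
    intro x
    rw [Sys.mulA, Sys.mulA, hc1, hc1, map_smul, L.E_pwU]
  set A := c1 * L.pwU 2 p with hA
  set B := c2 * L.pwU 1 q with hB
  have s1 : L.bU hr B hrE x = B (L.E r x) + (x - L.E r x) := rfl
  have s2 : L.E o (B (L.E r x) + (x - L.E r x)) = L.E o x := by
    rw [map_add, map_sub, eo, L.E_dis ho hr hor, map_zero, zero_add, sub_zero]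
  have s3 : L.bU ho A hoE (B (L.E r x) + (x - L.E r x))
      = A (L.E o x) + (B (L.E r x) + (x - L.E r x) - L.E o x) := by
    rw [L.bU_apply ho, s2]
  have s4 : L.E b (A (L.E o x) + (B (L.E r x) + (x - L.E r x) - L.E o x)) = L.E b x := by
    simp only [map_add, map_sub, eb2, eb1, L.E_dis hb ho hbo, L.E_dis hb hr hbr, map_zero,
      zero_add, sub_zero]
  rw [Sys.mulA, Sys.mulA, s1, s3, L.bU_apply hb, s4, hUb, hA, hB, Sys.mulA c1, Sys.mulA c2, hc1,
    hc2, pwU_apply, pwU_apply]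
  abel

/-- **function gate**, up to phases on the two outer blocks -/
theorem bl_main [CompleteSpace H] {G : Set ℝ} {𝔄 : Set (H →L[ℂ] H)}
    {Rch : Set ℝ → Set ℝ → (H ≃ₗᵢ[ℂ] H) → Prop} (hG : MeasurableSet G)
    (hA : L.Ctl 𝔄) (hC : L.Closed G 𝔄 Rch) {M R : Set ℝ} {V : H ≃ₗᵢ[ℂ] H}
    (hV : Rch M R V) {b o r : Set ℝ} (hb : MeasurableSet b) (ho : MeasurableSet o)
    (hr : MeasurableSet r) (hbM : b ⊆ M) (hoM : o ⊆ M) (hrM : r ⊆ M) (hbo : Disjoint b o)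
    (hbr : Disjoint b r) (hor : Disjoint o r) {a : H →L[ℂ] H} (ha : a ∈ 𝔄) (hsa : Sa a)
    (haG : a * L.E G = a) (hab : a * L.E b = a) (μ ν : ℝ) :
    ∃ (U : H ≃ₗᵢ[ℂ] H) (co cr : ℂ), ‖co‖ = 1 ∧ ‖cr‖ = 1 ∧ Rch M R U ∧
      ∀ x, U x = NormedSpace.exp ((-Complex.I) • (a * (clm L.Z * L.cosf (L.cvec μ ν o r V))))
            (L.E b (V x))
        + co • L.zr ((μ : ℂ) • L.iota (L.E b (V⁻¹ (-(a (L.Z (L.sinf (L.cvec μ ν o r V)
            (V L.Om)))))))) (L.E o (V x))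
        + cr • L.pw (L.pau 1) ((ν : ℂ) • L.iota (L.E b (V⁻¹ (-(a (L.Z (L.sinf (L.cvec μ ν o r V)
            (V L.Om)))))))) (L.E r (V x))
        + (V x - L.E b (V x) - L.E o (V x) - L.E r (V x)) := by
  set v := L.cvec μ ν o r V with hv
  have hcV : ∀ a ∈ 𝔄, ∀ x, a (V x) = V (a x) := hC.comm M R V hV
  have hF : L.FCom v a := hA.fcom ho hr hcV μ ν ha
  have hD : L.FData G 𝔄 M b o r a :=
    ⟨hb, ho, hr, hbM, hoM, hrM, hbo, hbr, hor, ha, hsa, haG, hab⟩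
  -- the approximating states
  choose U tho thr h1 h2 hblk hR using fun m : ℕ =>
    L.faStmt G 𝔄 Rch hG hA hC M R b o r V a μ ν 1 hV hD (m + 1) (by omega)
  -- converging phases
  obtain ⟨⟨co, cr⟩, hc, φ, hφ, hlim⟩ := ((isCompact_sphere (0 : ℂ) 1).prod
    (isCompact_sphere (0 : ℂ) 1)).tendsto_subseq (x := fun m => (tho m, thr m)) (fun m => by
      simp [h1, h2])
  rw [Set.mem_prod] at hc
  simp only [mem_sphere_iff_norm, sub_zero] at hc
  have hlo : Tendsto (fun n => tho (φ n)) atTop (𝓝 co) := (continuous_fst.tendsto _).comp hlim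
  have hlr : Tendsto (fun n => thr (φ n)) atTop (𝓝 cr) := (continuous_snd.tendsto _).comp hlim
  -- the reactions
  have hshift : Tendsto (fun n => φ n + 1) atTop atTop :=
    tendsto_atTop_mono (fun n => (hφ.le_apply).trans (Nat.le_succ _)) tendsto_id
  have hS := (L.tendsto_sumX hF 1).comp hshift
  have hO := (L.tendsto_fm hF 1).comp hshift
  set q : K := L.iota (L.E b (V⁻¹ (-(a (L.Z (L.sinf v (V L.Om))))))) with hq
  have hSx : Tendsto (fun n => L.iota (L.E b (V⁻¹ (L.sumX v a (1 / (2 * ((φ n + 1 : ℕ) : ℝ)))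
      (φ n + 1) (V L.Om))))) atTop (𝓝 ((2 : ℂ) • q)) := by
    have e1 : Tendsto (fun n => L.sumX v a (1 / (2 * ((φ n + 1 : ℕ) : ℝ))) (φ n + 1) (V L.Om))
        atTop (𝓝 (((-(2 * (1 : ℝ) : ℂ)) • (a * (clm L.Z * L.sinf v))) (V L.Om))) :=
      ((ContinuousLinearMap.apply ℂ H (V L.Om)).continuous.tendsto _).comp hS
    have e2 := (L.iota.continuous.tendsto _).comp (((L.E b).continuous.tendsto _).comp
      ((V⁻¹.continuous.tendsto _).comp e1))
    have e3 : L.iota (L.E b (V⁻¹ (((-(2 * (1 : ℝ) : ℂ)) • (a * (clm L.Z * L.sinf v))) (V L.Om))))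
        = (2 : ℂ) • q := by
      rw [hq, ← map_smul, ← map_smul, ← map_smul]
      congr 3
      change (-(2 * ((1 : ℝ) : ℂ))) • (a (L.Z (L.sinf v (V L.Om)))) = _
      push_cast
      module
    rw [← e3]
    exact e2
  have hp : ∀ t : ℝ, Tendsto (fun n => ((t / 2 : ℝ) : ℂ) • L.iota (L.E b (V⁻¹
      (L.sumX v a (1 / (2 * ((φ n + 1 : ℕ) : ℝ))) (φ n + 1) (V L.Om))))) atTop
      (𝓝 ((t : ℂ) • q)) := by
    intro t
    have := hSx.const_smul (((t / 2 : ℝ) : ℂ))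
    rw [smul_smul] at this
    have e : ((t / 2 : ℝ) : ℂ) * 2 = (t : ℂ) := by push_cast; ring
    rwa [e] at this
  -- the limit state
  have hgen : Sa (L.gen v a) := gen_sa hsa hF
  have hgenb : ∀ x, L.E b (L.gen v a x) = L.gen v a (L.E b x) := by
    intro x
    change L.E b (a (L.Z ((1 / 2 : ℂ) • (L.W v x + L.W (-v) x))))
      = a (L.Z ((1 / 2 : ℂ) • (L.W v (L.E b x) + L.W (-v) (L.E b x))))
    have e1 : ∀ y, L.E b (a y) = a (L.E b y) := fun y =>
      congrArg (fun T : H →L[ℂ] H => T y) (hA.comm _ _ (hA.lab _ (Bm.ind hb 1)) ha)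
    rw [e1, L.E_Z, map_smul, map_add, L.E_W, L.E_W]
  obtain ⟨U0, hU0⟩ := L.exists_blk hb ho hr hbo hbr hor hgen hgenb ((μ : ℂ) • q) ((ν : ℂ) • q)
    hc.1 hc.2
  -- strong convergence
  have hconv : ∀ x, Tendsto (fun n => (U (φ n) * V) x) atTop (𝓝 ((U0 * V) x)) := by
    intro x
    have e0 : (U0 * V) x = NormedSpace.exp ((-Complex.I) • L.gen v a) (L.E b (V x))
        + co • L.pw (L.pau 2) ((μ : ℂ) • q) (L.E o (V x))
        + cr • L.pw (L.pau 1) ((ν : ℂ) • q) (L.E r (V x))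
        + (V x - L.E b (V x) - L.E o (V x) - L.E r (V x)) := hU0 (V x)
    rw [e0]
    have e1 : ∀ n, (U (φ n) * V) x = (L.fm v a (1 / (2 * ((φ n + 1 : ℕ) : ℝ))) ^ (φ n + 1))
          (L.E b (V x))
        + tho (φ n) • L.pw (L.pau 2) (((μ / 2 : ℝ) : ℂ) • L.iota (L.E b (V⁻¹
          (L.sumX v a (1 / (2 * ((φ n + 1 : ℕ) : ℝ))) (φ n + 1) (V L.Om))))) (L.E o (V x))
        + thr (φ n) • L.pw (L.pau 1) (((ν / 2 : ℝ) : ℂ) • L.iota (L.E b (V⁻¹
          (L.sumX v a (1 / (2 * ((φ n + 1 : ℕ) : ℝ))) (φ n + 1) (V L.Om))))) (L.E r (V x))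
        + (V x - L.E b (V x) - L.E o (V x) - L.E r (V x)) := fun n => hblk (φ n) (V x)
    refine Tendsto.congr (fun n => (e1 n).symm) ?_
    refine (((?_ : Tendsto _ _ _).add ?_).add ?_).add tendsto_const_nhds
    · have e2 := ((ContinuousLinearMap.apply ℂ H (L.E b (V x))).continuous.tendsto _).comp hO
      have e3 : (-(Complex.I * ((1 : ℝ) : ℂ))) • (a * (clm L.Z * L.cosf v))
          = (-Complex.I) • L.gen v a := by
        rw [Complex.ofReal_one, mul_one, gen]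
      rw [e3] at e2
      exact e2
    · exact hlo.smul (L.tendsto_pw 2 (hp μ) _)
    · exact hlr.smul (L.tendsto_pw 1 (hp ν) _)
  refine ⟨U0 * V, co, cr, hc.1, hc.2, ?_, fun x => hU0 (V x)⟩
  refine hC.lim M R (fun n => U (φ n) * V) (U0 * V) (fun n => hR (φ n)) ?_ ?_
  · intro c hcA x
    have e1 := (c.continuous.tendsto _).comp (hconv x)
    have e2 := hconv (c x)
    refine tendsto_nhds_unique e1 (e2.congr fun n => ?_)
    exact (hC.comm M R _ (hR (φ n)) c hcA x).symm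
  · intro x
    exact ((L.E M).continuous.tendsto _).comp (hconv x)

end lim

end LSys

end Vale.Agent.P367.A
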