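import Vale.Agent.P367.B.FGe

/-! P367, block B, T2: the function gate without phases (`FGStmt`). -/

namespace Vale.Agent.P367.A

open Complex Filter Topology MeasureTheory

namespace LSys

variable {H K : Type*} [NormedAddCommGroup H] [InnerProductSpace ℂ H]
  [NormedAddCommGroup K] [InnerProductSpace ℂ K] (L : LSys H K)

/-- exponential on an eigenvector -/
lemma exp_eig [CompleteSpace H] {T : H →L[ℂ] H} {c : ℂ} {x : H} (h : T x = c • x) :
    NormedSpace.exp T x = Complex.exp c • x := by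
  have hp : ∀ n : ℕ, (T ^ n) x = c ^ n • x := by
    intro n
    induction n with
    | zero => rw [pow_zero, pow_zero, one_smul]; rfl
    | succ n ih =>
      rw [pow_succ]
      change (T ^ n) (T x) = _
      rw [h, map_smul, ih, smul_smul, pow_succ, mul_comm]
  have h4 := NormedSpace.exp_series_hasSum_exp' (𝕂 := ℂ) T
  have h5 := h4.mapL (ContinuousLinearMap.apply ℂ H x)
  have h6 := (NormedSpace.exp_series_hasSum_exp' (𝕂 := ℂ) c).smul_const x
  rw [← Complex.exp_eq_exp_ℂ] at h6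
  refine h5.unique (h6.congr_fun ?_)
  intro n
  change (((n.factorial : ℂ)⁻¹) • T ^ n) x = ((n.factorial : ℂ)⁻¹ • c ^ n) • x
  rw [_root_.smul_apply, hp, smul_smul, smul_eq_mul]

/-- a phase on one block can be removed -/
lemma phase_off [CompleteSpace H] {G : Set ℝ} {𝔄 : Set (H →L[ℂ] H)}
    {Rch : Set ℝ → Set ℝ → (H ≃ₗᵢ[ℂ] H) → Prop} (hA : L.Ctl 𝔄) (hC : L.Closed G 𝔄 Rch)
    {M R : Set ℝ} {V : H ≃ₗᵢ[ℂ] H} (hV : Rch M R V) {o : Set ℝ} (ho : MeasurableSet o)
    {c : ℂ} (hc : ‖c‖ = 1) : ∃ U : H ≃ₗᵢ[ℂ] H, Rch M R (U * V) ∧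
      ∀ x, U x = c • L.E o x + (x - L.E o x) := by
  set α : ℝ := -Complex.arg c with hα
  have hca : Complex.exp (-(Complex.I * (α : ℂ))) = c := by
    have := Complex.norm_mul_exp_arg_mul_I c
    rw [hc, Complex.ofReal_one, one_mul] at this
    have e : -(Complex.I * (α : ℂ)) = (Complex.arg c : ℂ) * Complex.I := by
      rw [hα]; push_cast; ring
    rw [e]
    exact this
  set a : H →L[ℂ] H := (α : ℂ) • L.E o with ha
  have haA : a ∈ 𝔄 := L.smul_mem_ctl hA (hA.lab _ (Bm.ind ho 1)) _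
  have hsa : Sa a := by
    intro x y
    change inner ℂ ((α : ℂ) • L.E o x) y = inner ℂ x ((α : ℂ) • L.E o y)
    rw [inner_smul_left, inner_smul_right, L.E_sa ho, Complex.conj_ofReal]
  obtain ⟨U, hU⟩ := exists_ph hsa
  refine ⟨U, hC.ph M R V a U hV haA hsa hU, fun x => ?_⟩
  have e : x = L.E o x + (x - L.E o x) := by abel
  conv_lhs => rw [e]
  rw [map_add, hU, hU]
  congr 1
  · rw [exp_eig (c := -(Complex.I * (α : ℂ))), hca]
    change (-Complex.I) • ((α : ℂ) • L.E o (L.E o x)) = _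
    rw [L.E_E ho, smul_smul, neg_mul]
  · rw [exp_eig (c := 0), Complex.exp_zero, one_smul]
    change (-Complex.I) • ((α : ℂ) • L.E o (x - L.E o x)) = _
    rw [map_sub, L.E_E ho, sub_self, smul_zero, smul_zero, zero_smul]

/-- **function gate** -/
theorem fgStmt [CompleteSpace H] : L.FGStmt := by
  intro G 𝔄 Rch hG hA hC M R b o r V psi μ ν s hV hD U hU
  set v := L.cvec μ ν o r V with hv
  set a : H →L[ℂ] H := (s : ℂ) • psi with ha
  have haA : a ∈ 𝔄 := L.smul_mem_ctl hA hD.psiA _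
  have hsa : Sa a := by
    intro x y
    change inner ℂ ((s : ℂ) • psi x) y = inner ℂ x ((s : ℂ) • psi y)
    rw [inner_smul_left, inner_smul_right, hD.psiS, Complex.conj_ofReal]
  have haG : a * L.E G = a := by rw [ha, smul_mul_assoc, hD.psiG]
  have hab : a * L.E b = a := by rw [ha, smul_mul_assoc, hD.psib]
  obtain ⟨U1, co, cr, hco, hcr, hR1, hU1⟩ := bl_main hG hA hC hV hD.mb hD.mo hD.mr hD.bM hD.oM
    hD.rM hD.bo hD.br hD.or haA hsa haG hab μ ν
  have hco' : ‖(starRingEnd ℂ) co‖ = 1 := by rw [RCLike.norm_conj, hco]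
  have hcr' : ‖(starRingEnd ℂ) cr‖ = 1 := by rw [RCLike.norm_conj, hcr]
  obtain ⟨P1, hR2, hP1⟩ := L.phase_off hA hC hR1 hD.mo hco'
  obtain ⟨P2, hR3, hP2⟩ := L.phase_off hA hC hR2 hD.mr hcr'
  have key : U * V = P2 * (P1 * U1) := by
    ext x
    have hq : L.iota (L.E b (V⁻¹ (-(a (L.Z (L.sinf v (V L.Om))))))) = L.rvec v b psi s V := by
      rw [rvec, ← map_smul, ← map_smul, ← map_smul]
      congr 3
      change -((s : ℂ) • psi (L.Z (L.sinf v (V L.Om)))) = _
      rw [neg_smul]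
    have hgen : (-Complex.I) • (a * (clm L.Z * L.cosf v))
        = (-(Complex.I * (s : ℂ))) • (psi * (clm L.Z * L.cosf v)) := by
      rw [ha, smul_mul_assoc, smul_smul, neg_mul]
    have h1 := hU1 x
    rw [hq, hgen] at h1
    set B := NormedSpace.exp ((-(Complex.I * (s : ℂ))) • (psi * (clm L.Z * L.cosf v)))
      (L.E b (V x)) with hB
    -- `B` lies in the block `b`
    have hBb : L.E b B = B := by
      have e1 : ∀ y, L.E b (a y) = a (L.E b y) := fun y =>
        congrArg (fun T : H →L[ℂ] H => T y) (hA.comm _ _ (hA.lab _ (Bm.ind hD.mb 1)) haA)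
      have hc : Commute (L.E b) ((-Complex.I) • (a * (clm L.Z * L.cosf v))) := by
        refine Commute.smul_right ?_ _
        ext y
        change L.E b (a (L.Z ((1 / 2 : ℂ) • (L.W v y + L.W (-v) y))))
          = a (L.Z ((1 / 2 : ℂ) • (L.W v (L.E b y) + L.W (-v) (L.E b y))))
        rw [e1, L.E_Z, map_smul, map_add, L.E_W, L.E_W]
      rw [hgen] at hc
      have h3 := congrArg (fun T : H →L[ℂ] H => T (L.E b (V x))) hc.exp_right.eq
      have h4 : L.E b B = NormedSpace.exp ((-(Complex.I * (s : ℂ))) •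
        (psi * (clm L.Z * L.cosf v))) (L.E b (L.E b (V x))) := h3
      rw [h4, L.E_E hD.mb]
    set q := L.rvec v b psi s V with hqd
    set O := L.pw (L.pau 2) ((μ : ℂ) • q) (L.E o (V x)) with hO
    set Rr := L.pw (L.pau 1) ((ν : ℂ) • q) (L.E r (V x)) with hRr
    have hOo : L.E o O = O := by rw [hO, L.E_pw, L.E_E hD.mo]
    have hRrr : L.E r Rr = Rr := by rw [hRr, L.E_pw, L.E_E hD.mr]
    have hoB : L.E o B = 0 := by rw [← hBb, L.E_dis hD.mo hD.mb hD.bo.symm]
    have hrB : L.E r B = 0 := by rw [← hBb, L.E_dis hD.mr hD.mb hD.br.symm]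
    have hrO : L.E r O = 0 := by rw [← hOo, L.E_dis hD.mr hD.mo hD.or.symm]
    have hoR : L.E o Rr = 0 := by rw [← hRrr, L.E_dis hD.mo hD.mr hD.or]
    have h1' : U1 x = B + co • O + cr • Rr
      + (V x - L.E b (V x) - L.E o (V x) - L.E r (V x)) := h1
    have h2 : (U * V) x = B + (1 : ℂ) • O + (1 : ℂ) • Rr
      + (V x - L.E b (V x) - L.E o (V x) - L.E r (V x)) := hU (V x)
    have r1 : L.E o (V x - L.E b (V x) - L.E o (V x) - L.E r (V x)) = 0 := by
      rw [map_sub, map_sub, map_sub, L.E_dis hD.mo hD.mb hD.bo.symm, L.E_E hD.mo,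
        L.E_dis hD.mo hD.mr hD.or]
      abel
    have r2 : L.E r (V x - L.E b (V x) - L.E o (V x) - L.E r (V x)) = 0 := by
      rw [map_sub, map_sub, map_sub, L.E_dis hD.mr hD.mb hD.br.symm, L.E_E hD.mr,
        L.E_dis hD.mr hD.mo hD.or.symm]
      abel
    have cc1 : (starRingEnd ℂ) co * co = 1 := by rw [Complex.conj_mul', hco]; simp
    have cc2 : (starRingEnd ℂ) cr * cr = 1 := by rw [Complex.conj_mul', hcr]; simp
    have h5 : P1 (U1 x) = B + O + cr • Rr
        + (V x - L.E b (V x) - L.E o (V x) - L.E r (V x)) := by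
      have e5 : L.E o (U1 x) = co • O := by
        rw [h1', map_add, map_add, map_add, r1, hoB, map_smul, map_smul, hOo, hoR, smul_zero]
        abel
      rw [hP1, e5, smul_smul, cc1, one_smul, h1']
      abel
    have h6 : P2 (P1 (U1 x)) = B + O + Rr
        + (V x - L.E b (V x) - L.E o (V x) - L.E r (V x)) := by
      have e5 : L.E r (P1 (U1 x)) = cr • Rr := by
        rw [h5, map_add, map_add, map_add, r2, hrB, hrO, map_smul, hRrr]
        abel
      rw [hP2, e5, smul_smul, cc2, one_smul, h5]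
      abel
    rw [h2, one_smul, one_smul]
    exact h6.symm
  rw [key]
  exact hR3

end LSys

end Vale.Agent.P367.A
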