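import Vale.Agent.P367.B.Trotter

/-! P367 block B, function gate, analytic part: the reaction of a Trotter product.
For `f = exp (A/m) exp (B/m)` and a bounded operator `X`, the second differences of the Heisenberg
evolution of `X` along the half steps of `f ^ m` sum up to `T = ([X,A] - [X,B]) / 2` when `T`
commutes with `A + B`. -/

namespace Vale.Agent.P367.B

open Filter Topology NormedSpace

variable {𝔸 : Type*} [NormedRing 𝔸] [NormedAlgebra ℂ 𝔸]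

/-- first order expansion at `0` on `[0,1]` -/
def Ex (f : ℝ → 𝔸) (f0 f1 : 𝔸) : Prop :=
  ∃ K : ℝ, 0 ≤ K ∧ ∀ t : ℝ, 0 ≤ t → t ≤ 1 → ‖f t - f0 - (t : ℂ) • f1‖ ≤ K * t ^ 2

lemma Ex.const (a : 𝔸) : Ex (fun _ => a) a 0 := ⟨0, le_rfl, fun t _ _ => by simp⟩

lemma Ex.add {f g : ℝ → 𝔸} {f0 f1 g0 g1 : 𝔸} (hf : Ex f f0 f1) (hg : Ex g g0 g1) :
    Ex (fun t => f t + g t) (f0 + g0) (f1 + g1) := by
  obtain ⟨K, hK, h1⟩ := hf
  obtain ⟨L, hL, h2⟩ := hg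
  refine ⟨K + L, by positivity, fun t ht0 ht1 => ?_⟩
  have e : f t + g t - (f0 + g0) - (t : ℂ) • (f1 + g1)
      = (f t - f0 - (t : ℂ) • f1) + (g t - g0 - (t : ℂ) • g1) := by
    rw [smul_add]; abel
  rw [e, add_mul]
  exact (norm_add_le _ _).trans (add_le_add (h1 t ht0 ht1) (h2 t ht0 ht1))

lemma Ex.smul {f : ℝ → 𝔸} {f0 f1 : 𝔸} (hf : Ex f f0 f1) (c : ℂ) :
    Ex (fun t => c • f t) (c • f0) (c • f1) := by
  obtain ⟨K, hK, h1⟩ := hf
  refine ⟨‖c‖ * K, by positivity, fun t ht0 ht1 => ?_⟩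
  have e : c • f t - c • f0 - (t : ℂ) • c • f1 = c • (f t - f0 - (t : ℂ) • f1) := by
    rw [smul_sub, smul_sub, smul_comm c (t : ℂ) f1]
  rw [e, norm_smul, mul_assoc]
  exact mul_le_mul_of_nonneg_left (h1 t ht0 ht1) (norm_nonneg _)

lemma Ex.sub {f g : ℝ → 𝔸} {f0 f1 g0 g1 : 𝔸} (hf : Ex f f0 f1) (hg : Ex g g0 g1) :
    Ex (fun t => f t - g t) (f0 - g0) (f1 - g1) := by
  have h := hf.add (hg.smul (-1))
  simpa [sub_eq_add_neg] using h

lemma Ex.norm_le {f : ℝ → 𝔸} {f0 f1 : 𝔸} {K : ℝ} (hK : 0 ≤ K)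
    (h1 : ∀ t : ℝ, 0 ≤ t → t ≤ 1 → ‖f t - f0 - (t : ℂ) • f1‖ ≤ K * t ^ 2) {t : ℝ} (ht0 : 0 ≤ t)
    (ht1 : t ≤ 1) : ‖f t‖ ≤ ‖f0‖ + ‖f1‖ + K := by
  have e : f t = (f t - f0 - (t : ℂ) • f1) + f0 + (t : ℂ) • f1 := by abel
  rw [e]
  refine norm_add₃_le.trans ?_
  have h2 : ‖(t : ℂ) • f1‖ ≤ ‖f1‖ := by
    rw [norm_smul, Complex.norm_real, Real.norm_eq_abs, abs_of_nonneg ht0]
    exact mul_le_of_le_one_left (norm_nonneg _) ht1
  have h3 : K * t ^ 2 ≤ K := mul_le_of_le_one_right hK (pow_le_one₀ ht0 ht1)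
  linarith [h1 t ht0 ht1]

lemma Ex.mul {f g : ℝ → 𝔸} {f0 f1 g0 g1 : 𝔸} (hf : Ex f f0 f1) (hg : Ex g g0 g1) :
    Ex (fun t => f t * g t) (f0 * g0) (f0 * g1 + f1 * g0) := by
  obtain ⟨K, hK, h1⟩ := hf
  obtain ⟨L, hL, h2⟩ := hg
  refine ⟨K * (‖g0‖ + ‖g1‖ + L) + (‖f0‖ + ‖f1‖) * L + ‖f1‖ * ‖g1‖, by positivity,
    fun t ht0 ht1 => ?_⟩
  have e : f t * g t - f0 * g0 - (t : ℂ) • (f0 * g1 + f1 * g0)
      = (f t - f0 - (t : ℂ) • f1) * g t + (f0 + (t : ℂ) • f1) * (g t - g0 - (t : ℂ) • g1)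
        + ((t : ℂ) • f1) * ((t : ℂ) • g1) := by
    simp only [smul_add, mul_sub, sub_mul, add_mul, smul_mul_assoc, mul_smul_comm]
    abel
  rw [e]
  have a1 := h1 t ht0 ht1
  have a2 := h2 t ht0 ht1
  have a3 : ‖g t‖ ≤ ‖g0‖ + ‖g1‖ + L := Ex.norm_le hL h2 ht0 ht1
  have ht : ‖(t : ℂ)‖ = t := by
    rw [Complex.norm_real, Real.norm_eq_abs, abs_of_nonneg ht0]
  have a4 : ‖f0 + (t : ℂ) • f1‖ ≤ ‖f0‖ + ‖f1‖ := by
    refine (norm_add_le _ _).trans ?_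
    rw [norm_smul, ht]
    have := mul_le_of_le_one_left (norm_nonneg f1) ht1
    linarith
  have n1 : ‖(f t - f0 - (t : ℂ) • f1) * g t‖ ≤ K * (‖g0‖ + ‖g1‖ + L) * t ^ 2 := by
    refine (norm_mul_le _ _).trans ?_
    calc _ ≤ (K * t ^ 2) * (‖g0‖ + ‖g1‖ + L) :=
          mul_le_mul a1 a3 (norm_nonneg _) (by positivity)
      _ = _ := by ring
  have n2 : ‖(f0 + (t : ℂ) • f1) * (g t - g0 - (t : ℂ) • g1)‖ ≤ (‖f0‖ + ‖f1‖) * L * t ^ 2 := by
    refine (norm_mul_le _ _).trans ?_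
    calc _ ≤ (‖f0‖ + ‖f1‖) * (L * t ^ 2) := mul_le_mul a4 a2 (norm_nonneg _) (by positivity)
      _ = _ := by ring
  have n3 : ‖((t : ℂ) • f1) * ((t : ℂ) • g1)‖ ≤ ‖f1‖ * ‖g1‖ * t ^ 2 := by
    refine (norm_mul_le _ _).trans ?_
    rw [norm_smul, norm_smul, ht]
    exact le_of_eq (by ring)
  refine norm_add₃_le.trans ?_
  linarith

lemma Ex.exp [CompleteSpace 𝔸] (h1 : ‖(1 : 𝔸)‖ ≤ 1) (A : 𝔸) :
    Ex (fun t => NormedSpace.exp ((t : ℂ) • A)) 1 A := by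
  refine ⟨‖A‖ ^ 2 * Real.exp ‖A‖, by positivity, fun t ht0 ht1 => ?_⟩
  have h := norm_exp_sub_one_sub_le h1 ((t : ℂ) • A)
  have ht : ‖(t : ℂ) • A‖ = t * ‖A‖ := by
    rw [norm_smul, Complex.norm_real, Real.norm_eq_abs, abs_of_nonneg ht0]
  rw [ht] at h
  have h2 : Real.exp (t * ‖A‖) ≤ Real.exp ‖A‖ :=
    Real.exp_le_exp.2 (mul_le_of_le_one_left (norm_nonneg _) ht1)
  calc _ ≤ (t * ‖A‖) ^ 2 * Real.exp (t * ‖A‖) := h
    _ ≤ (t * ‖A‖) ^ 2 * Real.exp ‖A‖ := by gcongr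
    _ = _ := by ring

lemma Ex.congr {f g : ℝ → 𝔸} {f0 f1 g0 g1 : 𝔸} (hf : Ex f f0 f1) (h : ∀ t, f t = g t)
    (h0 : f0 = g0) (h1 : f1 = g1) : Ex g g0 g1 := by
  have : f = g := funext h
  subst this; subst h0; subst h1; exact hf

variable [CompleteSpace 𝔸]

/-- one step of the forward product -/
noncomputable def ff (A B : 𝔸) (t : ℝ) : 𝔸 := exp ((t : ℂ) • A) * exp ((t : ℂ) • B)

/-- inverse of the forward product -/
noncomputable def gg (A B : 𝔸) (t : ℝ) : 𝔸 := exp ((t : ℂ) • (-B)) * exp ((t : ℂ) • (-A))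

lemma exp_mul_exp_neg (A : 𝔸) (t : ℝ) : exp ((t : ℂ) • (-A)) * exp ((t : ℂ) • A) = 1 := by
  let _ : NormedAlgebra ℚ 𝔸 := NormedAlgebra.restrictScalars ℚ ℂ 𝔸
  rw [smul_neg, ← exp_add_of_commute ((Commute.refl _).neg_left)]
  simp

lemma gg_mul_ff (A B : 𝔸) (t : ℝ) : gg A B t * ff A B t = 1 := by
  rw [gg, ff]
  calc _ = exp ((t : ℂ) • (-B)) * (exp ((t : ℂ) • (-A)) * exp ((t : ℂ) • A))
        * exp ((t : ℂ) • B) := by noncomm_ring
    _ = 1 := by rw [exp_mul_exp_neg, mul_one, exp_mul_exp_neg]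

lemma gg_pow_mul_ff_pow (A B : 𝔸) (t : ℝ) (j : ℕ) : gg A B t ^ j * ff A B t ^ j = 1 := by
  induction j with
  | zero => simp
  | succ j ih =>
    rw [pow_succ (gg A B t), pow_succ' (ff A B t)]
    calc _ = gg A B t ^ j * (gg A B t * ff A B t) * ff A B t ^ j := by noncomm_ring
      _ = 1 := by rw [gg_mul_ff, mul_one, ih]

lemma norm_ff_le (h1 : ‖(1 : 𝔸)‖ ≤ 1) (A B : 𝔸) {t : ℝ} (ht : 0 ≤ t) :
    ‖ff A B t‖ ≤ Real.exp (t * (‖A‖ + ‖B‖)) := by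
  have e : ∀ C : 𝔸, ‖exp ((t : ℂ) • C)‖ ≤ Real.exp (t * ‖C‖) := fun C => by
    have h := norm_exp_le' h1 ((t : ℂ) • C)
    rwa [norm_smul, Complex.norm_real, Real.norm_eq_abs, abs_of_nonneg ht] at h
  rw [mul_add, Real.exp_add]
  exact (norm_mul_le _ _).trans (mul_le_mul (e A) (e B) (norm_nonneg _) (Real.exp_pos _).le)

lemma norm_gg_le (h1 : ‖(1 : 𝔸)‖ ≤ 1) (A B : 𝔸) {t : ℝ} (ht : 0 ≤ t) :
    ‖gg A B t‖ ≤ Real.exp (t * (‖A‖ + ‖B‖)) := by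
  have h := norm_ff_le h1 (-B) (-A) ht
  rw [norm_neg, norm_neg, add_comm] at h
  exact h

lemma norm_pow_le_exp {x : 𝔸} {c : ℝ} {m j : ℕ} (h1 : ‖(1 : 𝔸)‖ ≤ 1) (hm : 1 ≤ m) (hj : j ≤ m)
    (hc : 0 ≤ c) (hx : ‖x‖ ≤ Real.exp ((m : ℝ)⁻¹ * c)) : ‖x ^ j‖ ≤ Real.exp c := by
  have h2 : ‖x ^ j‖ ≤ ‖x‖ ^ j := by
    rcases Nat.eq_zero_or_pos j with h | h
    · subst h; simpa using h1
    · exact norm_pow_le' x h
  have hm0 : (0 : ℝ) < m := by exact_mod_cast hm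
  calc ‖x ^ j‖ ≤ ‖x‖ ^ j := h2
    _ ≤ Real.exp ((m : ℝ)⁻¹ * c) ^ j := by gcongr
    _ = Real.exp (j * ((m : ℝ)⁻¹ * c)) := by rw [Real.exp_nat_mul]
    _ ≤ Real.exp c := by
      apply Real.exp_le_exp.2
      have : (j : ℝ) ≤ m := by exact_mod_cast hj
      calc (j : ℝ) * ((m : ℝ)⁻¹ * c) ≤ m * ((m : ℝ)⁻¹ * c) := by gcongr
        _ = c := by field_simp

/-- second difference of the Heisenberg evolution of `X` along one step -/
noncomputable def dd (A B X : 𝔸) (t : ℝ) : 𝔸 :=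
  (1 / 2 : ℂ) • (exp ((t : ℂ) • (-B)) * (exp ((t : ℂ) • (-A)) * X * exp ((t : ℂ) • A) - X)
    * exp ((t : ℂ) • B) - (exp ((t : ℂ) • (-B)) * X * exp ((t : ℂ) • B) - X))

/-- the limit of the reaction -/
noncomputable def TT (A B X : 𝔸) : 𝔸 := (1 / 2 : ℂ) • ((X * A - A * X) - (X * B - B * X))

lemma dd_ex (h1 : ‖(1 : 𝔸)‖ ≤ 1) (A B X : 𝔸) : Ex (dd A B X) 0 (TT A B X) := by
  have hA := Ex.exp h1 A
  have hA' := Ex.exp h1 (-A)
  have hB := Ex.exp h1 B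
  have hB' := Ex.exp h1 (-B)
  have hX := Ex.const X
  have h2 := ((hA'.mul hX).mul hA).sub hX
  have h3 := ((hB'.mul h2).mul hB).sub (((hB'.mul hX).mul hB).sub hX)
  refine (h3.smul (1 / 2)).congr (fun t => rfl) ?_ ?_
  · simp
  · rw [TT]; congr 1; noncomm_ring

lemma sum_eq (A B X : 𝔸) (t : ℝ) (j : ℕ) :
    (1 / 2 : ℂ) • (gg A B t ^ (j + 1) * X * ff A B t ^ (j + 1)
      - (2 : ℂ) • (gg A B t ^ j * (exp ((t : ℂ) • (-B)) * X * exp ((t : ℂ) • B)) * ff A B t ^ j)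
      + gg A B t ^ j * X * ff A B t ^ j)
    = gg A B t ^ j * dd A B X t * ff A B t ^ j := by
  rw [dd, pow_succ (gg A B t), pow_succ' (ff A B t), two_smul, mul_smul_comm, smul_mul_assoc]
  congr 1
  have e1 : gg A B t ^ j * gg A B t * X * (ff A B t * ff A B t ^ j)
      = gg A B t ^ j * (exp ((t : ℂ) • (-B)) * (exp ((t : ℂ) • (-A)) * X * exp ((t : ℂ) • A))
        * exp ((t : ℂ) • B)) * ff A B t ^ j := by
    conv_lhs => rw [show gg A B t ^ j * gg A B t * X * (ff A B t * ff A B t ^ j)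
      = gg A B t ^ j * (gg A B t * X * ff A B t) * ff A B t ^ j by noncomm_ring]
    congr 2
    rw [gg, ff]
    noncomm_ring
  rw [e1]
  noncomm_ring

/-- **the sum of the second differences converges to `T`** -/
theorem tendsto_sum_dd (h1 : ‖(1 : 𝔸)‖ ≤ 1) (A B X : 𝔸) (hT : Commute (TT A B X) (A + B)) :
    Tendsto (fun m : ℕ => ∑ j ∈ Finset.range m,
      gg A B (m : ℝ)⁻¹ ^ j * dd A B X (m : ℝ)⁻¹ * ff A B (m : ℝ)⁻¹ ^ j) atTop
      (𝓝 (TT A B X)) := by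
  set T := TT A B X with hTd
  set c := ‖A‖ + ‖B‖ with hc
  have hc0 : 0 ≤ c := by positivity
  obtain ⟨K, hK, hd⟩ := dd_ex h1 A B X
  have hf : Ex (ff A B) 1 (A + B) :=
    ((Ex.exp h1 A).mul (Ex.exp h1 B)).congr (fun t => rfl) (by simp) (by simp; abel)
  have he : Ex (fun t => exp ((t : ℂ) • (A + B))) 1 (A + B) := Ex.exp h1 (A + B)
  obtain ⟨L, hL, hfe⟩ := hf.sub he
  have hTe : ∀ t : ℝ, Commute T (exp ((t : ℂ) • (A + B))) := fun t => by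
    let _ : NormedAlgebra ℚ 𝔸 := NormedAlgebra.restrictScalars ℚ ℂ 𝔸
    exact (hT.smul_right (t : ℂ)).exp_right
  rw [tendsto_iff_norm_sub_tendsto_zero]
  set M := Real.exp c with hM
  have hM0 : 0 < M := Real.exp_pos _
  have hlim : Tendsto (fun m : ℕ => (M * K * M + M * (2 * ‖T‖ * (M * L))) * (m : ℝ)⁻¹) atTop
      (𝓝 0) := by
    have := (tendsto_inv_atTop_nhds_zero_nat (𝕜 := ℝ)).const_mul
      (M * K * M + M * (2 * ‖T‖ * (M * L)))
    simpa using this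
  refine squeeze_zero' (Eventually.of_forall fun _ => norm_nonneg _) ?_ hlim
  filter_upwards [eventually_ge_atTop 1] with m hm
  set t := (m : ℝ)⁻¹ with ht
  have hm0 : (0 : ℝ) < m := by exact_mod_cast hm
  have ht0 : 0 ≤ t := by positivity
  have ht1 : t ≤ 1 := inv_le_one_of_one_le₀ (by exact_mod_cast hm)
  have hmt : (m : ℝ) * t = 1 := mul_inv_cancel₀ hm0.ne'
  set f := ff A B t with hfd
  set g := gg A B t with hgd
  have hfn : ‖f‖ ≤ Real.exp (t * c) := norm_ff_le h1 A B ht0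
  have hgn : ‖g‖ ≤ Real.exp (t * c) := norm_gg_le h1 A B ht0
  have hfj : ∀ j ≤ m, ‖f ^ j‖ ≤ M := fun j hj => norm_pow_le_exp h1 hm hj hc0 hfn
  have hgj : ∀ j ≤ m, ‖g ^ j‖ ≤ M := fun j hj => norm_pow_le_exp h1 hm hj hc0 hgn
  have hen : ‖exp ((t : ℂ) • (A + B))‖ ≤ Real.exp (t * c) := by
    have h := norm_exp_le' h1 ((t : ℂ) • (A + B))
    rw [norm_smul, Complex.norm_real, Real.norm_eq_abs, abs_of_nonneg ht0] at h
    refine h.trans (Real.exp_le_exp.2 ?_)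
    gcongr
    exact norm_add_le _ _
  have hfe' : ‖f - exp ((t : ℂ) • (A + B))‖ ≤ L * t ^ 2 := by
    have h := hfe t ht0 ht1
    simpa using h
  have hpow : ∀ j ≤ m, ‖f ^ j - exp ((t : ℂ) • (A + B)) ^ j‖ ≤ M * L * t := by
    intro j hj
    have hge : 1 ≤ Real.exp (t * c) := Real.one_le_exp (by positivity)
    refine (norm_pow_sub_pow_le' hge hfn hen j h1).trans ?_
    have e1 : Real.exp (t * c) ^ j ≤ M := by
      rw [← Real.exp_nat_mul]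
      apply Real.exp_le_exp.2
      have : (j : ℝ) ≤ m := by exact_mod_cast hj
      calc (j : ℝ) * (t * c) ≤ m * (t * c) := by gcongr
        _ = c := by rw [← mul_assoc, hmt, one_mul]
    have hj' : (j : ℝ) ≤ m := by exact_mod_cast hj
    calc (j : ℝ) * Real.exp (t * c) ^ j * ‖f - exp ((t : ℂ) • (A + B))‖
        ≤ m * M * (L * t ^ 2) := by gcongr
      _ = (m * t) * (M * L * t) := by ring
      _ = _ := by rw [hmt, one_mul]
  have e0 : (∑ j ∈ Finset.range m, g ^ j * dd A B X t * f ^ j) - T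
      = ∑ j ∈ Finset.range m, (g ^ j * (dd A B X t - (t : ℂ) • T) * f ^ j
        + (t : ℂ) • (g ^ j * (T * (f ^ j - exp ((t : ℂ) • (A + B)) ^ j)
          - (f ^ j - exp ((t : ℂ) • (A + B)) ^ j) * T))) := by
    have hT' : T = ∑ _j ∈ Finset.range m, (t : ℂ) • T := by
      rw [Finset.sum_const, Finset.card_range, ← Nat.cast_smul_eq_nsmul ℂ, smul_smul]
      have : ((m : ℂ) * (t : ℂ)) = 1 := by
        rw [show (m : ℂ) = ((m : ℝ) : ℂ) by push_cast; rfl, ← Complex.ofReal_mul, hmt,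
          Complex.ofReal_one]
      rw [this, one_smul]
    conv_lhs => rw [hT']
    rw [← Finset.sum_sub_distrib]
    refine Finset.sum_congr rfl fun j _ => ?_
    have hcm : T * exp ((t : ℂ) • (A + B)) ^ j = exp ((t : ℂ) • (A + B)) ^ j * T :=
      ((hTe t).pow_right j).eq
    have hgf : g ^ j * f ^ j = 1 := gg_pow_mul_ff_pow A B t j
    have e2 : g ^ j * (T * (f ^ j - exp ((t : ℂ) • (A + B)) ^ j)
          - (f ^ j - exp ((t : ℂ) • (A + B)) ^ j) * T) = g ^ j * T * f ^ j - T := by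
      calc _ = g ^ j * T * f ^ j - g ^ j * f ^ j * T
            - g ^ j * (T * exp ((t : ℂ) • (A + B)) ^ j - exp ((t : ℂ) • (A + B)) ^ j * T) := by
            noncomm_ring
        _ = _ := by rw [hgf, hcm, sub_self, mul_zero, sub_zero, one_mul]
    rw [e2, smul_sub, mul_sub, sub_mul, mul_smul_comm, smul_mul_assoc]
    abel
  have hgoal : ‖(∑ j ∈ Finset.range m, g ^ j * dd A B X t * f ^ j) - T‖
      ≤ (M * K * M + M * (2 * ‖T‖ * (M * L))) * t := by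
    rw [e0]
    refine (norm_sum_le _ _).trans ?_
    have hterm : ∀ j ∈ Finset.range m, ‖g ^ j * (dd A B X t - (t : ℂ) • T) * f ^ j
        + (t : ℂ) • (g ^ j * (T * (f ^ j - exp ((t : ℂ) • (A + B)) ^ j)
          - (f ^ j - exp ((t : ℂ) • (A + B)) ^ j) * T))‖
        ≤ (M * K * M + M * (2 * ‖T‖ * (M * L))) * t ^ 2 := by
      intro j hj
      have hj' : j ≤ m := (Finset.mem_range.1 hj).le
      have hdn : ‖dd A B X t - (t : ℂ) • T‖ ≤ K * t ^ 2 := by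
        have h := hd t ht0 ht1
        simpa using h
      have n1 : ‖g ^ j * (dd A B X t - (t : ℂ) • T) * f ^ j‖ ≤ M * (K * t ^ 2) * M := by
        refine (norm_mul_le _ _).trans ?_
        refine mul_le_mul ?_ (hfj j hj') (norm_nonneg _) (by positivity)
        refine (norm_mul_le _ _).trans ?_
        exact mul_le_mul (hgj j hj') hdn (norm_nonneg _) hM0.le
      have n2 : ‖(t : ℂ) • (g ^ j * (T * (f ^ j - exp ((t : ℂ) • (A + B)) ^ j)
          - (f ^ j - exp ((t : ℂ) • (A + B)) ^ j) * T))‖ ≤ t * (M * (2 * ‖T‖ * (M * L * t))) := by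
        rw [norm_smul, Complex.norm_real, Real.norm_eq_abs, abs_of_nonneg ht0]
        refine mul_le_mul_of_nonneg_left ?_ ht0
        refine (norm_mul_le _ _).trans ?_
        refine mul_le_mul (hgj j hj') ?_ (norm_nonneg _) hM0.le
        refine (norm_sub_le _ _).trans ?_
        have n3 := norm_mul_le T (f ^ j - exp ((t : ℂ) • (A + B)) ^ j)
        have n4 := norm_mul_le (f ^ j - exp ((t : ℂ) • (A + B)) ^ j) T
        have n5 : ‖T‖ * ‖f ^ j - exp ((t : ℂ) • (A + B)) ^ j‖ ≤ ‖T‖ * (M * L * t) :=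
          mul_le_mul_of_nonneg_left (hpow j hj') (norm_nonneg _)
        linarith [mul_comm ‖f ^ j - exp ((t : ℂ) • (A + B)) ^ j‖ ‖T‖]
      refine (norm_add_le _ _).trans ((add_le_add n1 n2).trans (le_of_eq ?_))
      ring
    refine (Finset.sum_le_sum hterm).trans ?_
    rw [Finset.sum_const, Finset.card_range, nsmul_eq_mul]
    refine le_of_eq ?_
    calc (m : ℝ) * ((M * K * M + M * (2 * ‖T‖ * (M * L))) * t ^ 2)
        = (m * t) * ((M * K * M + M * (2 * ‖T‖ * (M * L))) * t) := by ring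
      _ = _ := by rw [hmt, one_mul]
  exact hgoal

end Vale.Agent.P367.B
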