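import Vale.Agent.P367.NI.DensOp
import Vale.Agent.P367.NI.RCyc
import Vale.Agent.P367.B.LSys
import Vale.Agent.P367.A.Final

/-! P367 block B, gauge part 1: label functions, sign operator, gauged Weyl operators on `F`. -/

namespace Vale.Agent.P367.NI

open Complex Filter Topology MeasureTheory ProbabilityTheory

open Vale.Agent.P367.A (Bm)

variable {F K : Type} [NormedAddCommGroup F] [InnerProductSpace ℂ F]
  [NormedAddCommGroup K] [InnerProductSpace ℂ K] [CompleteSpace F] (S : Weyl F K) (hS : S.Cyc)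

/-- functions of the label `phi(e0)` -/
noncomputable def lf (g : ℝ → ℂ) : F →L[ℂ] F := S.fc hS (orthonormal_e0 S) (fun z => g (z 0))

lemma bm_of {g : ℝ → ℂ} (hg : Bm g) : BM (fun z : Fin 1 → ℝ => g (z 0)) :=
  ⟨hg.1.comp (measurable_pi_apply 0), hg.2.choose, fun _ => hg.2.choose_spec _⟩

lemma Bm.mul' {f g : ℝ → ℂ} (hf : Bm f) (hg : Bm g) : Bm fun t => f t * g t := by
  obtain ⟨C, hC⟩ := hf.2
  obtain ⟨D, hD⟩ := hg.2
  refine ⟨hf.1.mul hg.1, C * D, fun z => ?_⟩
  rw [norm_mul]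
  exact mul_le_mul (hC z) (hD z) (norm_nonneg _) ((norm_nonneg _).trans (hC z))

lemma lf_add {f g : ℝ → ℂ} (hf : Bm f) (hg : Bm g) (x : F) :
    lf S hS (fun t => f t + g t) x = lf S hS f x + lf S hS g x :=
  S.fc_add hS (orthonormal_e0 S) (bm_of hf) (bm_of hg) x

lemma lf_mul {f g : ℝ → ℂ} (hf : Bm f) (hg : Bm g) (x : F) :
    lf S hS (fun t => f t * g t) x = lf S hS f (lf S hS g x) :=
  S.fc_mul hS (orthonormal_e0 S) (bm_of hf) (bm_of hg) x

lemma lf_const (c : ℂ) (x : F) : lf S hS (fun _ => c) x = c • x :=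
  S.fc_const hS (orthonormal_e0 S) c x

lemma lf_adj {f : ℝ → ℂ} (hf : Bm f) (x y : F) :
    inner ℂ (lf S hS f x) y = inner ℂ x (lf S hS (fun t => (starRingEnd ℂ) (f t)) y) :=
  S.inner_fc_left hS (orthonormal_e0 S) (bm_of hf) x y

lemma lf_junk {f : ℝ → ℂ} (hf : ¬ BM (fun z : Fin 1 → ℝ => f (z 0))) (x : F) : lf S hS f x = 0 := by
  unfold lf Weyl.fc
  rw [dif_neg hf]
  rfl

lemma lf_comm_lf (f g : ℝ → ℂ) (x : F) : lf S hS f (lf S hS g x) = lf S hS g (lf S hS f x) := by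
  by_cases hf : BM (fun z : Fin 1 → ℝ => f (z 0))
  · by_cases hg : BM (fun z : Fin 1 → ℝ => g (z 0))
    · exact S.fc_comm_fc hS (orthonormal_e0 S) hf hg x
    · rw [lf_junk S hS hg, lf_junk S hS hg, map_zero]
  · rw [lf_junk S hS hf, lf_junk S hS hf, map_zero]

lemma lf_comm_W {v : K} (hv : inner ℂ S.e0 v = 0) (f : ℝ → ℂ) (x : F) :
    lf S hS f (S.W v x) = S.W v (lf S hS f x) := by
  by_cases hf : BM (fun z : Fin 1 → ℝ => f (z 0))
  · have h := S.fc_shift hS (orthonormal_e0 S) v hf x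
    have e : (fun z : Fin 1 → ℝ => f ((fun i => z i + 2 * (inner ℂ v S.e0 : ℂ).im) 0))
        = fun z => f (z 0) := by
      funext z
      have : (inner ℂ v S.e0 : ℂ) = 0 := by rw [← inner_conj_symm, hv, map_zero]
      simp [this]
    rw [e] at h
    have h2 : S.W v (S.W (-v) (S.fc hS (orthonormal_e0 S) (fun z => f (z 0)) (S.W v x)))
        = S.fc hS (orthonormal_e0 S) (fun z => f (z 0)) (S.W v x) := by
      have h3 := S.W_neg_W (-v) (S.fc hS (orthonormal_e0 S) (fun z => f (z 0)) (S.W v x))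
      rwa [neg_neg] at h3
    rw [h] at h2
    exact h2.symm
  · rw [lf_junk S hS hf, lf_junk S hS hf, map_zero]

lemma lf_We0 (k : ℝ) (x : F) : lf S hS (fun t => Complex.exp (Complex.I * ((k * t : ℝ) : ℂ))) x
    = S.W ((k : ℂ) • S.e0) x := by
  have h := S.fc_ek hS (orthonormal_e0 S) (fun _ => k) x
  have e : ek (fun _ : Fin 1 => k) = fun z => Complex.exp (Complex.I * ((k * z 0 : ℝ) : ℂ)) := by
    funext z
    simp [ek]
  have e2 : lc (fun _ : Fin 1 => S.e0) (fun _ => k) = (k : ℂ) • S.e0 := by simp [lc]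
  rw [e, e2] at h
  exact h

lemma lf_vac {f : ℝ → ℂ} (hf : Bm f) {a : K} (ha : inner ℂ S.e0 a = 0) :
    inner ℂ S.Om (lf S hS f (S.W a S.Om))
      = (∫ t, f t ∂(gaussianReal 0 1)) * Complex.exp (-((‖a‖ ^ 2 / 2 : ℝ) : ℂ)) := by
  unfold lf
  rw [S.inner_fc_right hS (orthonormal_e0 S) (bm_of hf)]
  have h1 : ∀ᵐ z ∂(gam (Fin 1)), S.ker hS (orthonormal_e0 S) S.Om (S.W a S.Om) z
      = Complex.exp (-((‖a‖ ^ 2 / 2 : ℝ) : ℂ)) := by
    have h2 := S.UU_W hS (orthonormal_e0 S) a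
    have h3 := S.coe_vv (fun _ : Fin 1 => S.e0) a
    rw [← h2] at h3
    filter_upwards [S.UU_Om hS (orthonormal_e0 S), h3] with z e1 e2
    unfold Weyl.ker
    rw [e1, e2]
    have e3 : perp (fun _ : Fin 1 => S.e0) a = a := by simp [perp, ha]
    have e4 : Weyl.psw (fun _ : Fin 1 => S.e0) a z = 1 := by simp [Weyl.psw, ha]
    rw [e3, e4, one_smul, S.vac]
  have h4 : ∫ z, f (z 0) * S.ker hS (orthonormal_e0 S) S.Om (S.W a S.Om) z ∂(gam (Fin 1))
      = ∫ z : Fin 1 → ℝ, f (z 0) * Complex.exp (-((‖a‖ ^ 2 / 2 : ℝ) : ℂ)) ∂(gam (Fin 1)) := by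
    refine integral_congr_ae ?_
    filter_upwards [h1] with z hz
    rw [hz]
  rw [h4, integral_mul_const]
  congr 1
  have h5 := (measurePreserving_eval (fun _ : Fin 1 => gaussianReal 0 1) 0).map_eq
  rw [← h5, integral_map (measurable_pi_apply 0).aemeasurable hf.1.aestronglyMeasurable]

/-- sign of the label -/
noncomputable def sg (t : ℝ) : ℂ := if 0 ≤ t then 1 else -1

lemma bm_sg : Bm sg := by
  refine ⟨Measurable.ite measurableSet_Ici measurable_const measurable_const, 1, fun t => ?_⟩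
  unfold sg
  split_ifs <;> simp

lemma sg_sq (t : ℝ) : sg t * sg t = 1 := by
  unfold sg
  split_ifs <;> simp

lemma conj_sg (t : ℝ) : (starRingEnd ℂ) (sg t) = sg t := by
  unfold sg
  split_ifs <;> simp

/-- sign operator -/
noncomputable def so : F →L[ℂ] F := lf S hS sg

lemma so_so (x : F) : so S hS (so S hS x) = x := by
  unfold so
  rw [← lf_mul S hS bm_sg bm_sg]
  have e : (fun t => sg t * sg t) = fun _ => (1 : ℂ) := by funext t; exact sg_sq t
  rw [e, lf_const, one_smul]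

lemma so_adj (x y : F) : inner ℂ (so S hS x) y = inner ℂ x (so S hS y) := by
  unfold so
  rw [lf_adj S hS bm_sg]
  have e : (fun t => (starRingEnd ℂ) (sg t)) = sg := by funext t; exact conj_sg t
  rw [e]

lemma so_W {v : K} (hv : inner ℂ S.e0 v = 0) (x : F) :
    so S hS (S.W v x) = S.W v (so S hS x) := lf_comm_W S hS hv _ x

lemma so_lf (g : ℝ → ℂ) (x : F) : so S hS (lf S hS g x) = lf S hS g (so S hS x) :=
  lf_comm_lf S hS _ _ x

/-- gauged Weyl operator -/
noncomputable def wg (v : K) : F →ₗ[ℂ] F where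
  toFun x := (1 / 2 : ℂ) • (S.W v x + S.W (-v) x) + (1 / 2 : ℂ) • so S hS (S.W v x - S.W (-v) x)
  map_add' x y := by
    simp only [map_add, map_sub]
    module
  map_smul' c x := by
    simp only [map_smul, map_sub, RingHom.id_apply]
    module

lemma wg_apply (v : K) (x : F) : wg S hS v x
    = (1 / 2 : ℂ) • (S.W v x + S.W (-v) x) + (1 / 2 : ℂ) • so S hS (S.W v x - S.W (-v) x) := rfl

omit [CompleteSpace F] in
lemma perp_neg {v : K} (hv : inner ℂ S.e0 v = 0) : inner ℂ S.e0 (-v) = 0 := by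
  rw [inner_neg_right, hv, neg_zero]

lemma wg_wg {v w : K} (hv : inner ℂ S.e0 v = 0) (x : F) :
    wg S hS v (wg S hS w x)
      = Complex.exp (-(Complex.I * ((inner ℂ v w).im : ℂ))) • wg S hS (v + w) x := by
  have h1 := fun y => S.W_mul v w y
  have h2 := fun y => S.W_mul v (-w) y
  have h3 := fun y => S.W_mul (-v) w y
  have h4 := fun y => S.W_mul (-v) (-w) y
  have e4 : -v + -w = -(v + w) := by abel
  have e3 : -v + w = -(v + -w) := by abel
  rw [inner_neg_neg, e4] at h4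
  rw [inner_neg_left, e3] at h3
  rw [inner_neg_right] at h2
  simp only [wg_apply, map_add, map_sub, map_smul, ← so_W S hS hv, ← so_W S hS (perp_neg S hv),
    h1, h2, h3, h4, so_so, smul_add, smul_sub]
  module

lemma wg_adj {v : K} (hv : inner ℂ S.e0 v = 0) (x y : F) :
    inner ℂ (wg S hS v x) y = inner ℂ x (wg S hS (-v) y) := by
  simp only [wg_apply, inner_add_left, inner_add_right, inner_sub_left, inner_sub_right,
    inner_smul_left, inner_smul_right, so_adj, S.inner_W_left', neg_neg, map_sub,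
    ← so_W S hS hv, ← so_W S hS (perp_neg S hv)]
  have e : (starRingEnd ℂ) (1 / 2 : ℂ) = 1 / 2 := by
    rw [map_div₀, map_one, map_ofNat]
  rw [e]

lemma wg_zero (x : F) : wg S hS 0 x = x := by
  rw [wg_apply, neg_zero, S.W_zero, sub_self, map_zero]
  module

lemma wg_neg_wg {v : K} (hv : inner ℂ S.e0 v = 0) (x : F) : wg S hS (-v) (wg S hS v x) = x := by
  rw [wg_wg S hS (perp_neg S hv), neg_add_cancel, wg_zero, inner_neg_left]
  have h : (-(inner ℂ v v : ℂ)).im = 0 := by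
    rw [Complex.neg_im, neg_eq_zero]
    exact inner_self_im (𝕜 := ℂ) v
  rw [h]
  simp

/-- gauged Weyl operator as a unitary -/
noncomputable def wgU {v : K} (hv : inner ℂ S.e0 v = 0) : F ≃ₗᵢ[ℂ] F :=
  A.mkU (wg S hS v) (wg S hS (-v)) (wg_neg_wg S hS hv)
    (fun x => by
      have h := wg_neg_wg S hS (perp_neg S hv) x
      rwa [neg_neg] at h)
    (wg_adj S hS hv)

lemma wg_lf {v : K} (hv : inner ℂ S.e0 v = 0) (g : ℝ → ℂ) (x : F) :
    lf S hS g (wg S hS v x) = wg S hS v (lf S hS g x) := by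
  have e : ∀ y, lf S hS g (so S hS y) = so S hS (lf S hS g y) := fun y => (so_lf S hS g y).symm
  simp only [wg_apply, map_add, map_smul, map_sub, e, lf_comm_W S hS hv,
    lf_comm_W S hS (perp_neg S hv)]

lemma wg_vac {g : ℝ → ℂ} (hg : Bm g) {a : K} (ha : inner ℂ S.e0 a = 0) :
    inner ℂ S.Om (lf S hS g (wg S hS a S.Om))
      = (∫ t, g t ∂(gaussianReal 0 1)) * Complex.exp (-((‖a‖ ^ 2 / 2 : ℝ) : ℂ)) := by
  have h1 := lf_vac S hS hg ha
  have h2 := lf_vac S hS hg (perp_neg S ha)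
  rw [norm_neg] at h2
  have h3 : ∀ {b : K}, inner ℂ S.e0 b = 0 → lf S hS g (so S hS (S.W b S.Om))
      = lf S hS (fun t => g t * sg t) (S.W b S.Om) := by
    intro b _
    rw [lf_mul S hS hg bm_sg]
    rfl
  have h4 := lf_vac S hS (Bm.mul' hg bm_sg) ha
  have h5 := lf_vac S hS (Bm.mul' hg bm_sg) (perp_neg S ha)
  rw [norm_neg] at h5
  rw [wg_apply, map_add, map_smul, map_smul, map_add, map_sub, map_sub, h3 ha,
    h3 (perp_neg S ha), inner_add_right, inner_smul_right, inner_smul_right, inner_add_right,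
    inner_sub_right, h1, h2, h4, h5]
  ring

end Vale.Agent.P367.NI
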