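import Vale.Agent.P367.B.LSys

/-! P367, block B: basic lemmas on label systems (helper96). -/

namespace Vale.Agent.P367.A

open Complex Filter Topology MeasureTheory

namespace LSys

variable {H K : Type*} [NormedAddCommGroup H] [InnerProductSpace ℂ H]
  [NormedAddCommGroup K] [InnerProductSpace ℂ K] (L : LSys H K)

lemma bm_const (c : ℂ) : Bm (fun _ => c) := ⟨measurable_const, ‖c‖, fun _ => le_rfl⟩

lemma bm_ind {b : Set ℝ} (hb : MeasurableSet b) : Bm (b.indicator fun _ => (1 : ℂ)) := by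
  refine ⟨measurable_const.indicator hb, 1, fun x => ?_⟩
  by_cases h : x ∈ b
  · simp [Set.indicator_of_mem h]
  · simp [Set.indicator_of_notMem h]

lemma bm_add {f g : ℝ → ℂ} (hf : Bm f) (hg : Bm g) : Bm (fun t => f t + g t) := by
  obtain ⟨h1, C, h2⟩ := hf
  obtain ⟨h3, D, h4⟩ := hg
  exact ⟨h1.add h3, C + D, fun x => (norm_add_le _ _).trans (add_le_add (h2 x) (h4 x))⟩

lemma bm_mul {f g : ℝ → ℂ} (hf : Bm f) (hg : Bm g) : Bm (fun t => f t * g t) := by
  obtain ⟨h1, C, h2⟩ := hf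
  obtain ⟨h3, D, h4⟩ := hg
  refine ⟨h1.mul h3, C * D, fun x => ?_⟩
  rw [norm_mul]
  exact mul_le_mul (h2 x) (h4 x) (norm_nonneg _) ((norm_nonneg _).trans (h2 x))

lemma bm_real {f : ℝ → ℝ} (hf : Measurable f) {C : ℝ} (hC : ∀ t, |f t| ≤ C) :
    Bm (fun t => (f t : ℂ)) :=
  ⟨Complex.measurable_ofReal.comp hf, C, fun x => by
    rw [Complex.norm_real, Real.norm_eq_abs]; exact hC x⟩

lemma lab_one : L.lab (fun _ => (1 : ℂ)) = 1 := by rw [L.lab_const, one_smul]

lemma lab_smul (c : ℂ) {f : ℝ → ℂ} (hf : Bm f) : L.lab (fun t => c * f t) = c • L.lab f := by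
  rw [L.lab_mul (fun _ => c) f (bm_const c) hf, L.lab_const, smul_mul_assoc, one_mul]

lemma o_lab_zero : L.lab (fun _ => (0 : ℂ)) = 0 := by rw [L.lab_const, zero_smul]

lemma lab_neg {f : ℝ → ℂ} (hf : Bm f) : L.lab (fun t => -f t) = -L.lab f := by
  have := L.lab_smul (-1) hf
  simpa using this

lemma bm_neg {f : ℝ → ℂ} (hf : Bm f) : Bm (fun t => -f t) := by
  obtain ⟨h1, C, h2⟩ := hf
  exact ⟨h1.neg, C, fun x => by rw [norm_neg]; exact h2 x⟩

lemma bm_smul (c : ℂ) {f : ℝ → ℂ} (hf : Bm f) : Bm (fun t => c * f t) := bm_mul (bm_const c) hf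

lemma lab_sub {f g : ℝ → ℂ} (hf : Bm f) (hg : Bm g) :
    L.lab (fun t => f t - g t) = L.lab f - L.lab g := by
  have h := L.lab_add f (fun t => -g t) hf (bm_neg hg)
  rw [L.lab_neg hg] at h
  simpa [sub_eq_add_neg] using h

lemma o_lab_comm {f g : ℝ → ℂ} (hf : Bm f) (hg : Bm g) : L.lab f * L.lab g = L.lab g * L.lab f := by
  rw [← L.lab_mul f g hf hg, ← L.lab_mul g f hg hf]
  simp only [mul_comm]

lemma o_E_univ : L.E Set.univ = 1 := by
  unfold E
  rw [Set.indicator_univ, L.lab_one]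

lemma o_E_empty : L.E ∅ = 0 := by
  unfold E
  have : (∅ : Set ℝ).indicator (fun _ => (1 : ℂ)) = fun _ => 0 := by
    ext t; simp
  rw [this, L.o_lab_zero]

lemma o_E_mul {b c : Set ℝ} (hb : MeasurableSet b) (hc : MeasurableSet c) :
    L.E b * L.E c = L.E (b ∩ c) := by
  unfold E
  rw [← L.lab_mul _ _ (bm_ind hb) (bm_ind hc)]
  congr 1
  ext t
  by_cases h1 : t ∈ b
  · by_cases h2 : t ∈ c
    · simp [h1, h2]
    · simp [h1, h2]
  · simp [h1]

lemma o_E_mulA {b c : Set ℝ} (hb : MeasurableSet b) (hc : MeasurableSet c) (x : H) :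
    L.E b (L.E c x) = L.E (b ∩ c) x := by
  rw [← L.o_E_mul hb hc]; rfl

lemma o_E_idem {b : Set ℝ} (hb : MeasurableSet b) (x : H) : L.E b (L.E b x) = L.E b x := by
  rw [L.o_E_mulA hb hb, Set.inter_self]

lemma o_E_comm {b c : Set ℝ} (hb : MeasurableSet b) (hc : MeasurableSet c) (x : H) :
    L.E b (L.E c x) = L.E c (L.E b x) := by
  rw [L.o_E_mulA hb hc, L.o_E_mulA hc hb, Set.inter_comm]

lemma o_E_sub_mem {b c : Set ℝ} (hb : MeasurableSet b) (hc : MeasurableSet c) (h : b ⊆ c) (x : H) :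
    L.E b (L.E c x) = L.E b x := by
  rw [L.o_E_mulA hb hc, Set.inter_eq_left.2 h]

lemma o_E_sub_mem' {b c : Set ℝ} (hb : MeasurableSet b) (hc : MeasurableSet c) (h : b ⊆ c) (x : H) :
    L.E c (L.E b x) = L.E b x := by
  rw [L.o_E_mulA hc hb, Set.inter_eq_right.2 h]

lemma o_E_disj {b c : Set ℝ} (hb : MeasurableSet b) (hc : MeasurableSet c) (h : Disjoint b c)
    (x : H) : L.E b (L.E c x) = 0 := by
  rw [L.o_E_mulA hb hc, h.inter_eq, L.o_E_empty]; rfl

lemma o_E_union {b c : Set ℝ} (hb : MeasurableSet b) (hc : MeasurableSet c) (h : Disjoint b c) :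
    L.E (b ∪ c) = L.E b + L.E c := by
  unfold E
  rw [← L.lab_add _ _ (bm_ind hb) (bm_ind hc), Set.indicator_union_of_disjoint h]

lemma o_E_unionA {b c : Set ℝ} (hb : MeasurableSet b) (hc : MeasurableSet c) (h : Disjoint b c)
    (x : H) : L.E (b ∪ c) x = L.E b x + L.E c x := by
  rw [L.o_E_union hb hc h]; rfl

lemma o_E_compl {b : Set ℝ} (hb : MeasurableSet b) (x : H) : L.E bᶜ x = x - L.E b x := by
  have h := L.o_E_unionA hb hb.compl disjoint_compl_right x
  rw [Set.union_compl_self, L.o_E_univ] at h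
  rw [eq_sub_iff_add_eq, add_comm]
  exact h.symm

lemma o_E_sa (b : Set ℝ) (hb : MeasurableSet b) (x y : H) :
    inner ℂ (L.E b x) y = inner ℂ x (L.E b y) := by
  unfold E
  rw [L.lab_adj _ (bm_ind hb)]
  congr 3
  ext t
  by_cases h : t ∈ b
  · simp [h]
  · simp [h]

lemma o_E_X (b : Set ℝ) (x : H) : L.E b (L.X x) = L.X (L.E b x) := L.lab_X _ x

lemma o_E_Z (b : Set ℝ) (x : H) : L.E b (L.Z x) = L.Z (L.E b x) := L.lab_Z _ x

lemma o_E_W (b : Set ℝ) (a : K) (x : H) : L.E b (L.W a x) = L.W a (L.E b x) := L.lab_W _ a x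

lemma o_lab_xr (f : ℝ → ℂ) (t : ℝ) (x : H) : L.lab f (L.xr t x) = L.xr t (L.lab f x) := by
  rw [L.xr_apply, L.xr_apply, map_sub, map_smul, map_smul, L.lab_X]

lemma o_lab_Zt (f : ℝ → ℂ) (t : ℝ) (x : H) : L.lab f (L.Zt t x) = L.Zt t (L.lab f x) := by
  rw [L.Zt_apply, L.Zt_apply, L.o_lab_xr, L.lab_Z]

lemma o_lab_zr (f : ℝ → ℂ) (v : K) (x : H) : L.lab f (L.zr v x) = L.zr v (L.lab f x) := by
  rw [L.zr_apply, L.zr_apply]
  simp only [map_add, map_sub, map_smul, L.lab_W, L.lab_Z]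

lemma o_lab_pul (f : ℝ → ℂ) (t : ℝ) (v : K) (x : H) :
    L.lab f (L.pul t v x) = L.pul t v (L.lab f x) := by
  rw [L.pul_def, L.pul_def, L.o_lab_xr, L.o_lab_zr, L.o_lab_xr]

lemma o_lab_pau (f : ℝ → ℂ) (P : Fin 3) (x : H) : L.lab f (L.pau P x) = L.pau P (L.lab f x) := by
  fin_cases P
  · exact L.lab_X f x
  · exact L.o_lab_Zt f _ x
  · exact L.lab_Z f x

/-- Pythagoras for a projection -/
lemma o_norm_sq_E {b : Set ℝ} (hb : MeasurableSet b) (x : H) :
    ‖x‖ ^ 2 = ‖L.E b x‖ ^ 2 + ‖x - L.E b x‖ ^ 2 := by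
  have h0 : (inner ℂ (L.E b x) (x - L.E b x) : ℂ) = 0 := by
    rw [L.o_E_sa b hb, map_sub, L.o_E_idem hb, sub_self, inner_zero_right]
  have h := @norm_add_sq ℂ H _ _ _ (L.E b x) (x - L.E b x)
  rw [h0, add_sub_cancel] at h
  simpa using h

lemma o_norm_E_le {b : Set ℝ} (hb : MeasurableSet b) (x : H) : ‖L.E b x‖ ≤ ‖x‖ := by
  refine (sq_le_sq₀ (norm_nonneg _) (norm_nonneg _)).1 ?_
  rw [L.o_norm_sq_E hb x]; nlinarith [sq_nonneg ‖x - L.E b x‖]

/-- `lab f` is bounded by the sup norm of `f` -/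
lemma norm_lab_le {f : ℝ → ℂ} (hf : Bm f) {C : ℝ} (hC : ∀ t, ‖f t‖ ≤ C) (x : H) :
    ‖L.lab f x‖ ≤ C * ‖x‖ := by
  have hC0 : 0 ≤ C := (norm_nonneg _).trans (hC 0)
  -- `C^2 - |f|^2 = g^2`
  set g : ℝ → ℂ := fun t => ((Real.sqrt (C ^ 2 - ‖f t‖ ^ 2) : ℝ) : ℂ) with hg
  have hgm : Bm g := by
    refine ⟨Complex.measurable_ofReal.comp (Real.continuous_sqrt.measurable.comp
      (measurable_const.sub ((hf.1.norm).pow_const 2))), C, fun t => ?_⟩
    rw [hg, Complex.norm_real, Real.norm_eq_abs, abs_of_nonneg (Real.sqrt_nonneg _)]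
    rw [Real.sqrt_le_left hC0]
    nlinarith [sq_nonneg ‖f t‖]
  have hfs : Bm (fun t => (starRingEnd ℂ) (f t)) := by
    obtain ⟨h1, D, h2⟩ := hf
    exact ⟨Complex.continuous_conj.measurable.comp h1, D, fun t => by
      rw [RCLike.norm_conj]; exact h2 t⟩
  have h1 : ∀ h : ℝ → ℂ, Bm h → ((‖L.lab h x‖ ^ 2 : ℝ) : ℂ)
      = inner ℂ x (L.lab (fun t => (starRingEnd ℂ) (h t) * h t) x) := by
    intro h hh
    have hhs : Bm (fun t => (starRingEnd ℂ) (h t)) := by
      obtain ⟨h1, D, h2⟩ := hh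
      exact ⟨Complex.continuous_conj.measurable.comp h1, D, fun t => by
        rw [RCLike.norm_conj]; exact h2 t⟩
    rw [L.lab_mul _ _ hhs hh]
    change _ = inner ℂ x (L.lab (fun t => (starRingEnd ℂ) (h t)) (L.lab h x))
    rw [← L.lab_adj h hh, inner_self_eq_norm_sq_to_K]
    norm_cast
  have e1 := h1 f hf
  have e2 := h1 g hgm
  have e3 : (fun t => (starRingEnd ℂ) (f t) * f t + (starRingEnd ℂ) (g t) * g t)
      = fun _ => ((C ^ 2 : ℝ) : ℂ) := by
    ext t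
    have h4 : (starRingEnd ℂ) (f t) * f t = ((‖f t‖ ^ 2 : ℝ) : ℂ) := by
      rw [mul_comm, Complex.mul_conj, Complex.normSq_eq_norm_sq]
    have h5 : (starRingEnd ℂ) (g t) * g t = ((C ^ 2 - ‖f t‖ ^ 2 : ℝ) : ℂ) := by
      rw [hg]
      simp only [Complex.conj_ofReal]
      rw [← Complex.ofReal_mul, Real.mul_self_sqrt]
      nlinarith [hC t, norm_nonneg (f t)]
    rw [h4, h5, ← Complex.ofReal_add]
    congr 1
    ring
  have hgs : Bm (fun t => (starRingEnd ℂ) (g t)) := by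
    obtain ⟨h1, D, h2⟩ := hgm
    exact ⟨Complex.continuous_conj.measurable.comp h1, D, fun t => by
      rw [RCLike.norm_conj]; exact h2 t⟩
  have e4 : ((‖L.lab f x‖ ^ 2 : ℝ) : ℂ) + ((‖L.lab g x‖ ^ 2 : ℝ) : ℂ)
      = ((C ^ 2 * ‖x‖ ^ 2 : ℝ) : ℂ) := by
    rw [e1, e2, ← inner_add_right]
    have h6 : L.lab (fun t => (starRingEnd ℂ) (f t) * f t) x
        + L.lab (fun t => (starRingEnd ℂ) (g t) * g t) x = ((C ^ 2 : ℝ) : ℂ) • x := by
      have := L.lab_add _ _ (bm_mul hfs hf) (bm_mul hgs hgm)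
      rw [e3, L.lab_const] at this
      have h7 := congrArg (fun T : H →L[ℂ] H => T x) this
      simpa using h7.symm
    rw [h6, inner_smul_right, inner_self_eq_norm_sq_to_K, Complex.ofReal_mul,
      Complex.ofReal_pow ‖x‖]
    rfl
  have e5 : ‖L.lab f x‖ ^ 2 + ‖L.lab g x‖ ^ 2 = C ^ 2 * ‖x‖ ^ 2 := by exact_mod_cast e4
  refine (sq_le_sq₀ (norm_nonneg _) (by positivity)).1 ?_
  rw [mul_pow]
  nlinarith [sq_nonneg ‖L.lab g x‖]

lemma opNorm_lab_le {f : ℝ → ℂ} (hf : Bm f) {C : ℝ} (hC : ∀ t, ‖f t‖ ≤ C) : ‖L.lab f‖ ≤ C :=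
  ContinuousLinearMap.opNorm_le_bound _ ((norm_nonneg _).trans (hC 0)) (L.norm_lab_le hf hC)

lemma bm_pow {f : ℝ → ℂ} (hf : Bm f) (n : ℕ) : Bm (fun t => f t ^ n) := by
  obtain ⟨h1, C, h2⟩ := hf
  refine ⟨h1.pow_const n, C ^ n, fun t => ?_⟩
  rw [norm_pow]
  exact pow_le_pow_left₀ (norm_nonneg _) (h2 t) n

lemma lab_pow {f : ℝ → ℂ} (hf : Bm f) (n : ℕ) : L.lab (fun t => f t ^ n) = L.lab f ^ n := by
  induction n with
  | zero => simpa using L.lab_one
  | succ n ih =>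
    rw [pow_succ, ← ih, ← L.lab_mul _ _ (bm_pow hf n) hf]
    simp only [pow_succ]

lemma bm_sum {ι : Type*} (s : Finset ι) {f : ι → ℝ → ℂ} (hf : ∀ i ∈ s, Bm (f i)) :
    Bm (fun t => ∑ i ∈ s, f i t) := by
  classical
  induction s using Finset.induction_on with
  | empty => simpa using bm_const 0
  | insert i s hi ih =>
    have := bm_add (hf i (Finset.mem_insert_self i s))
      (ih fun j hj => hf j (Finset.mem_insert_of_mem hj))
    simpa [Finset.sum_insert hi] using this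

lemma lab_sum {ι : Type*} (s : Finset ι) {f : ι → ℝ → ℂ} (hf : ∀ i ∈ s, Bm (f i)) :
    L.lab (fun t => ∑ i ∈ s, f i t) = ∑ i ∈ s, L.lab (f i) := by
  classical
  induction s using Finset.induction_on with
  | empty => simpa using L.o_lab_zero
  | insert i s hi ih =>
    have h := L.lab_add _ _ (hf i (Finset.mem_insert_self i s))
      (bm_sum s fun j hj => hf j (Finset.mem_insert_of_mem hj))
    rw [Finset.sum_insert hi, ← ih fun j hj => hf j (Finset.mem_insert_of_mem hj), ← h]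
    simp only [Finset.sum_insert hi]

/-- exponentials of label functions -/
lemma exp_lab [CompleteSpace H] {f : ℝ → ℂ} (hf : Bm f) :
    NormedSpace.exp (L.lab f) = L.lab (fun t => Complex.exp (f t)) := by
  obtain ⟨C, hC⟩ := hf.2
  have hC0 : 0 ≤ C := (norm_nonneg _).trans (hC 0)
  have hexp : Bm (fun t => Complex.exp (f t)) := by
    refine ⟨Complex.measurable_exp.comp hf.1, Real.exp C, fun t => ?_⟩
    rw [Complex.norm_exp]
    exact Real.exp_le_exp.2 ((Complex.re_le_norm _).trans (hC t))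
  have h1 : Tendsto (fun N : ℕ => ∑ n ∈ Finset.range N, ((n.factorial : ℂ)⁻¹) • (L.lab f) ^ n)
      atTop (𝓝 (NormedSpace.exp (L.lab f))) :=
    (NormedSpace.exp_series_hasSum_exp' (𝕂 := ℂ) (L.lab f)).tendsto_sum_nat
  refine tendsto_nhds_unique h1 ?_
  rw [tendsto_iff_norm_sub_tendsto_zero]
  have hterm : ∀ n : ℕ, Bm (fun t => ((n.factorial : ℂ)⁻¹) * f t ^ n) := fun n =>
    bm_smul _ (bm_pow hf n)
  have key : ∀ N : ℕ, ‖∑ n ∈ Finset.range N, ((n.factorial : ℂ)⁻¹) • (L.lab f) ^ n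
      - L.lab (fun t => Complex.exp (f t))‖
      ≤ Real.exp C - ∑ n ∈ Finset.range N, C ^ n / (n.factorial : ℝ) := by
    intro N
    have e1 : ∑ n ∈ Finset.range N, ((n.factorial : ℂ)⁻¹) • (L.lab f) ^ n
        = L.lab (fun t => ∑ n ∈ Finset.range N, ((n.factorial : ℂ)⁻¹) * f t ^ n) := by
      rw [L.lab_sum _ fun n _ => hterm n]
      refine Finset.sum_congr rfl fun n _ => ?_
      rw [L.lab_smul _ (bm_pow hf n), L.lab_pow hf]
    rw [e1, ← L.lab_sub (bm_sum _ fun n _ => hterm n) hexp]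
    refine L.opNorm_lab_le ?_ fun t => ?_
    · have := bm_add (bm_sum (Finset.range N) fun n _ => hterm n) (bm_neg hexp)
      simpa [sub_eq_add_neg] using this
    · rw [norm_sub_rev]
      have h2 : HasSum (fun n : ℕ => ((n.factorial : ℂ)⁻¹) * f t ^ n) (Complex.exp (f t)) := by
        have := NormedSpace.exp_series_hasSum_exp' (𝕂 := ℂ) (f t)
        rw [← Complex.exp_eq_exp_ℂ] at this
        simpa [smul_eq_mul] using this
      have h3 : HasSum (fun n : ℕ => C ^ n / (n.factorial : ℝ)) (Real.exp C) := by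
        have := NormedSpace.exp_series_hasSum_exp' (𝕂 := ℝ) C
        rw [← Real.exp_eq_exp_ℝ] at this
        simpa [smul_eq_mul, div_eq_inv_mul] using this
      have h4 := h2.summable.sum_add_tsum_nat_add N
      rw [h2.tsum_eq] at h4
      have h5 := h3.summable.sum_add_tsum_nat_add N
      rw [h3.tsum_eq] at h5
      rw [← h4, ← h5, add_sub_cancel_left, add_sub_cancel_left]
      refine tsum_of_norm_bounded
        ((summable_nat_add_iff N).2 h3.summable).hasSum fun n => ?_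
      rw [norm_mul, norm_inv, norm_pow, Complex.norm_natCast, div_eq_inv_mul]
      exact mul_le_mul_of_nonneg_left (pow_le_pow_left₀ (norm_nonneg _) (hC t) _) (by positivity)
  have h3 : Tendsto (fun N : ℕ => Real.exp C - ∑ n ∈ Finset.range N, C ^ n / (n.factorial : ℝ))
      atTop (𝓝 0) := by
    have : HasSum (fun n : ℕ => C ^ n / (n.factorial : ℝ)) (Real.exp C) := by
      have := NormedSpace.exp_series_hasSum_exp' (𝕂 := ℝ) C
      rw [← Real.exp_eq_exp_ℝ] at this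
      simpa [smul_eq_mul, div_eq_inv_mul] using this
    have h := this.tendsto_sum_nat.const_sub (Real.exp C)
    rwa [sub_self] at h
  exact squeeze_zero (fun N => norm_nonneg _) key h3

end LSys

end Vale.Agent.P367.A
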