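import Vale.Agent.P367.B.Gauge2
import Vale.Agent.P367.B.LBas
import Vale.Agent.P367.B.BaseD
import Vale.Agent.P367.NI.EnJ

/-! P367 block B, gauge part 3: exact words of the gauged label system are strong limits of words
of the Weyl system, energy transport. -/

namespace Vale.Agent.P367.A

section algexp

variable {𝔸 : Type*} [NormedRing 𝔸] [NormedAlgebra ℂ 𝔸] [CompleteSpace 𝔸]

/-- `exp(-i a P)` for an involution `P` commuting with `a` -/
lemma gau_exp_inv {a P : 𝔸} (hP : P * P = 1) (hc : a * P = P * a) :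
    NormedSpace.exp ((-Complex.I) • (a * P))
      = NormedSpace.exp ((-Complex.I) • a) * ((1 / 2 : ℂ) • (1 + P))
        + NormedSpace.exp (Complex.I • a) * ((1 / 2 : ℂ) • (1 - P)) := by
  have h1 : ∀ n : ℕ, ((-Complex.I) • (a * P)) ^ n
      = ((-Complex.I) • a) ^ n * ((1 / 2 : ℂ) • (1 + P))
        + (Complex.I • a) ^ n * ((1 / 2 : ℂ) • (1 - P)) := by
    intro n
    induction n with
    | zero =>
      simp only [pow_zero, one_mul]
      module
    | succ n ih =>
      have e1 : ((1 / 2 : ℂ) • (1 + P)) * ((-Complex.I) • (a * P))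
          = ((-Complex.I) • a) * ((1 / 2 : ℂ) • (1 + P)) := by
        simp only [smul_mul_smul_comm, add_mul, mul_add, one_mul, mul_one]
        have : P * (a * P) = a := by rw [hc, ← mul_assoc, hP, one_mul]
        rw [this, mul_comm, add_comm]
      have e2 : ((1 / 2 : ℂ) • (1 - P)) * ((-Complex.I) • (a * P))
          = (Complex.I • a) * ((1 / 2 : ℂ) • (1 - P)) := by
        simp only [smul_mul_smul_comm, sub_mul, mul_sub, one_mul, mul_one]
        have : P * (a * P) = a := by rw [hc, ← mul_assoc, hP, one_mul]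
        rw [this]
        module
      rw [pow_succ, ih, add_mul, mul_assoc, mul_assoc, e1, e2, ← mul_assoc, ← mul_assoc,
        ← pow_succ, ← pow_succ]
  have s1 := NormedSpace.exp_series_hasSum_exp' (𝕂 := ℂ) ((-Complex.I) • (a * P))
  have s2 := (NormedSpace.exp_series_hasSum_exp' (𝕂 := ℂ) ((-Complex.I) • a)).mul_right
    ((1 / 2 : ℂ) • (1 + P))
  have s3 := (NormedSpace.exp_series_hasSum_exp' (𝕂 := ℂ) (Complex.I • a)).mul_right
    ((1 / 2 : ℂ) • (1 - P))
  have e : (fun n : ℕ => ((n.factorial : ℂ)⁻¹) • ((-Complex.I) • (a * P)) ^ n)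
      = fun n : ℕ => ((n.factorial : ℂ)⁻¹) • ((-Complex.I) • a) ^ n * ((1 / 2 : ℂ) • (1 + P))
        + ((n.factorial : ℂ)⁻¹) • (Complex.I • a) ^ n * ((1 / 2 : ℂ) • (1 - P)) := by
    funext n
    rw [h1, smul_add, smul_mul_assoc, smul_mul_assoc]
  rw [e] at s1
  exact s1.unique (s2.add s3)

end algexp

namespace LSys

variable {H K : Type*} [NormedAddCommGroup H] [InnerProductSpace ℂ H]
  [NormedAddCommGroup K] [InnerProductSpace ℂ K] (L : LSys H K)

/-- explicit form of a label rotation -/
lemma gau_isRot [CompleteSpace H] {f : ℝ → ℂ} (hf : Bm f) (P : Fin 3) (x : H) :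
    NormedSpace.exp ((-Complex.I) • (L.lab f * (L.pau P).toContinuousLinearEquiv.toContinuousLinearMap)) x
      = L.lab (fun t => Complex.exp (-Complex.I * f t)) ((1 / 2 : ℂ) • (x + L.pau P x))
        + L.lab (fun t => Complex.exp (Complex.I * f t)) ((1 / 2 : ℂ) • (x - L.pau P x)) := by
  have hP : (L.pau P).toContinuousLinearEquiv.toContinuousLinearMap
      * (L.pau P).toContinuousLinearEquiv.toContinuousLinearMap = (1 : H →L[ℂ] H) := by
    ext y
    change L.pau P (L.pau P y) = y
    fin_cases P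
    · exact L.XX y
    · exact L.Zt_sq _ y
    · exact L.ZZ y
  have hc : L.lab f * (L.pau P).toContinuousLinearEquiv.toContinuousLinearMap
      = (L.pau P).toContinuousLinearEquiv.toContinuousLinearMap * L.lab f := by
    ext y
    exact L.o_lab_pau f P y
  rw [gau_exp_inv hP hc, ← L.lab_smul _ hf, ← L.lab_smul _ hf, L.exp_lab (bm_smul _ hf),
    L.exp_lab (bm_smul _ hf)]
  rfl

/-- explicit form of a label rotation, trigonometric form -/
lemma gau_isRot' [CompleteSpace H] {f : ℝ → ℂ} (hf : Bm f) (P : Fin 3) (x : H) :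
    NormedSpace.exp ((-Complex.I) • (L.lab f * (L.pau P).toContinuousLinearEquiv.toContinuousLinearMap)) x
      = L.lab (fun t => Complex.cos (f t)) x
        + L.lab (fun t => -(Complex.I * Complex.sin (f t))) (L.pau P x) := by
  rw [L.gau_isRot hf]
  have hb : ∀ c : ℂ, Bm fun t => Complex.exp (c * f t) := by
    intro c
    obtain ⟨C, hC⟩ := hf.2
    refine ⟨Complex.measurable_exp.comp (hf.1.const_mul c), Real.exp (‖c‖ * C), fun t => ?_⟩
    rw [Complex.norm_exp]
    refine Real.exp_le_exp.2 ((Complex.re_le_norm _).trans ?_)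
    rw [norm_mul]
    exact mul_le_mul_of_nonneg_left (hC t) (norm_nonneg _)
  have e1 : (fun t => Complex.cos (f t)) = fun t => (1 / 2 : ℂ) * Complex.exp (-Complex.I * f t)
      + (1 / 2 : ℂ) * Complex.exp (Complex.I * f t) := by
    funext t
    rw [Complex.cos]
    have a1 : f t * Complex.I = Complex.I * f t := mul_comm _ _
    have a2 : -f t * Complex.I = -Complex.I * f t := by ring
    rw [a1, a2]
    ring
  have e2 : (fun t => -(Complex.I * Complex.sin (f t)))
      = fun t => (1 / 2 : ℂ) * Complex.exp (-Complex.I * f t)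
      + (-(1 / 2) : ℂ) * Complex.exp (Complex.I * f t) := by
    funext t
    rw [Complex.sin]
    have a1 : f t * Complex.I = Complex.I * f t := mul_comm _ _
    have a2 : -f t * Complex.I = -Complex.I * f t := by ring
    rw [a1, a2]
    have hI := Complex.I_mul_I
    linear_combination (-(Complex.exp (-Complex.I * f t) - Complex.exp (Complex.I * f t)) / 2) * hI
  rw [e1, e2, L.lab_add _ _ (bm_smul _ (hb _)) (bm_smul _ (hb _)),
    L.lab_add _ _ (bm_smul _ (hb _)) (bm_smul _ (hb _)), L.lab_smul _ (hb _), L.lab_smul _ (hb _),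
    L.lab_smul _ (hb _)]
  generalize L.lab (fun t => Complex.exp (-Complex.I * f t)) = A
  generalize L.lab (fun t => Complex.exp (Complex.I * f t)) = B
  change A _ + B _ = ((1 / 2 : ℂ) • A x + (1 / 2 : ℂ) • B x)
    + ((1 / 2 : ℂ) • A (L.pau P x) + (-(1 / 2) : ℂ) • B (L.pau P x))
  rw [map_smul, map_smul, map_add, map_sub]
  module

end LSys

end Vale.Agent.P367.A

namespace Vale.Agent.P367.NI

open Complex Filter Topology MeasureTheory ProbabilityTheory

open Vale.Agent.P367.A (Bm LSys Sys hh_ext swp)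
open Vale.Agent.P367.B (M2 sX sY sZ Er)

section mats

/-- matrix of a gauged label gate -/
noncomputable def gmt (g : ℝ → ℝ) : Fin 3 → ℝ → M2
  | 0, t => Er sX (g |t|)
  | 1, t => Er sY (Real.sign t * g |t|)
  | 2, t => Er sZ (Real.sign t * g |t|)

lemma gau_meas_sign : Measurable Real.sign := by
  have : Real.sign = fun r : ℝ => if r < 0 then (-1 : ℝ) else if 0 < r then 1 else 0 := rfl
  rw [this]
  exact Measurable.ite measurableSet_Iio measurable_const
    (Measurable.ite measurableSet_Ioi measurable_const measurable_const)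

lemma gau_um_Er {P : M2} (hs : star P = P) (h2 : P * P = 1) {g : (Fin 1 → ℝ) → ℝ}
    (hg : Measurable g) : UM fun z => Er P (g z) where
  meas i j := by
    have e : (fun z : Fin 1 → ℝ => Er P (g z) i j) = fun z =>
        (Real.cos (g z) : ℂ) * (1 : M2) i j - (Complex.I * (Real.sin (g z) : ℂ)) * P i j := by
      funext z
      simp [Er, Matrix.sub_apply, Matrix.smul_apply]
    rw [e]
    have h1 : Measurable fun z => (Real.cos (g z) : ℂ) :=
      (Complex.continuous_ofReal.comp Real.continuous_cos).measurable.comp hg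
    have h3 : Measurable fun z => (Real.sin (g z) : ℂ) :=
      (Complex.continuous_ofReal.comp Real.continuous_sin).measurable.comp hg
    exact (h1.mul_const _).sub ((h3.const_mul _).mul_const _)
  uni z := B.Er_star hs h2 _

lemma gau_um {g : ℝ → ℝ} (hg : Measurable g) (P : Fin 3) :
    UM fun z : Fin 1 → ℝ => gmt g P (z 0) := by
  have h0 : Measurable fun z : Fin 1 → ℝ => z 0 := measurable_pi_apply 0
  have h1 : Measurable fun z : Fin 1 → ℝ => g |z 0| := hg.comp (meas_abs.comp h0)
  have h2 : Measurable fun z : Fin 1 → ℝ => Real.sign (z 0) * g |z 0| :=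
    (gau_meas_sign.comp h0).mul h1
  fin_cases P
  · exact gau_um_Er B.star_sX B.sX_sq h1
  · exact gau_um_Er B.star_sY B.sY_sq h2
  · exact gau_um_Er B.star_sZ B.sZ_sq h2

lemma gau_su (g : ℝ → ℝ) (P : Fin 3) (t : ℝ) :
    gmt g P t ∈ Matrix.specialUnitaryGroup (Fin 2) ℂ := by
  rw [Matrix.mem_specialUnitaryGroup_iff]
  have hI := Complex.I_mul_I
  fin_cases P
  · refine ⟨B.Er_star B.star_sX B.sX_sq _, ?_⟩
    have h := B.cs1 (g |t|)
    change Matrix.det (Er sX (g |t|)) = 1
    rw [Matrix.det_fin_two]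
    simp [Er, sX]
    linear_combination h - (Complex.sin (g |t|) * Complex.sin (g |t|)) * hI
  · refine ⟨B.Er_star B.star_sY B.sY_sq _, ?_⟩
    have h := B.cs1 (Real.sign t * g |t|)
    change Matrix.det (Er sY (Real.sign t * g |t|)) = 1
    rw [Matrix.det_fin_two]
    generalize Real.sign t * g |t| = s at *
    simp [Er, sY]
    linear_combination h + (Complex.sin s * Complex.sin s) * (Complex.I * Complex.I - 1) * hI
  · refine ⟨B.Er_star B.star_sZ B.sZ_sq _, ?_⟩
    have h := B.cs1 (Real.sign t * g |t|)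
    change Matrix.det (Er sZ (Real.sign t * g |t|)) = 1
    rw [Matrix.det_fin_two]
    generalize Real.sign t * g |t| = s at *
    simp [Er, sZ]
    linear_combination h - (Complex.sin s * Complex.sin s) * hI

lemma gau_conj {P Q : M2} (h : sX * P * sX = Q) (θ : ℝ) : sX * Er P θ * sX
    = (Real.cos θ : ℂ) • (1 : M2) - (Complex.I * (Real.sin θ : ℂ)) • Q := by
  unfold Er
  rw [mul_sub, sub_mul, mul_smul_comm, smul_mul_assoc, mul_one, B.sX_sq, mul_smul_comm,
    smul_mul_assoc, h]

lemma gau_Er_neg (P : M2) (θ : ℝ) : (Real.cos θ : ℂ) • (1 : M2)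
    - (Complex.I * (Real.sin θ : ℂ)) • (-P) = Er P (-θ) := by
  unfold Er
  rw [Real.cos_neg, Real.sin_neg, Complex.ofReal_neg, mul_neg, neg_smul, smul_neg]

lemma gau_eq (g : ℝ → ℝ) (P : Fin 3) (t : ℝ) : gmt g P (-t) = sX * gmt g P t * sX := by
  fin_cases P
  · change Er sX (g |(-t)|) = sX * Er sX (g |t|) * sX
    rw [abs_neg, gau_conj (Q := sX) (by rw [B.sX_sq, one_mul])]
    rfl
  · change Er sY (Real.sign (-t) * g |(-t)|) = sX * Er sY (Real.sign t * g |t|) * sX
    rw [abs_neg, Real.sign_neg, neg_mul, gau_conj (Q := -sY) (by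
      ext i j; fin_cases i <;> fin_cases j <;> simp [sX, sY, Matrix.mul_apply, Fin.sum_univ_two]),
      gau_Er_neg]
  · change Er sZ (Real.sign (-t) * g |(-t)|) = sX * Er sZ (Real.sign t * g |t|) * sX
    rw [abs_neg, Real.sign_neg, neg_mul, gau_conj (Q := -sZ) (by
      ext i j; fin_cases i <;> fin_cases j <;> simp [sX, sZ, Matrix.mul_apply, Fin.sum_univ_two]),
      gau_Er_neg]

end mats

section gates

variable {F K : Type} [NormedAddCommGroup F] [InnerProductSpace ℂ F]
  [NormedAddCommGroup K] [InnerProductSpace ℂ K] [CompleteSpace F] (S : Weyl F K) (hS : S.Cyc)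

lemma gau_lf_congr {f g : ℝ → ℂ} (hf : Bm f) (hg : Bm g) (h : ∀ t, t ≠ 0 → f t = g t) (x : F) :
    lf S hS f x = lf S hS g x := by
  refine S.fc_congr_ae hS (orthonormal_e0 S) (bm_of hf) (bm_of hg) ?_ x
  have h5 := (measurePreserving_eval (fun _ : Fin 1 => gaussianReal 0 1) 0).map_eq
  have : NullSingletonClass (gaussianReal 0 1) := nullSingletonClass_gaussianReal (by norm_num)
  have h6 : ∀ᵐ t ∂(gaussianReal 0 1), t ≠ 0 := by
    rw [ae_iff]
    simp only [not_not, Set.ofPred_eq_eq_singleton]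
    exact measure_singleton 0
  rw [← h5] at h6
  have h7 := ae_of_ae_map (measurable_pi_apply 0).aemeasurable h6
  filter_upwards [h7] with z hz
  exact h _ hz

omit [CompleteSpace F] [NormedAddCommGroup F] [InnerProductSpace ℂ F] in
lemma Bm.add' {f g : ℝ → ℂ} (hf : Bm f) (hg : Bm g) : Bm fun t => f t + g t := by
  obtain ⟨C, hC⟩ := hf.2
  obtain ⟨D, hD⟩ := hg.2
  exact ⟨hf.1.add hg.1, C + D, fun z => (norm_add_le _ _).trans (add_le_add (hC z) (hD z))⟩

lemma gau_lf_cmul (c : ℂ) {f : ℝ → ℂ} (hf : Bm f) (x : F) :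
    lf S hS (fun t => c * f t) x = c • lf S hS f x := S.fc_cmul hS (orthonormal_e0 S) c (bm_of hf) x

variable (e1 : K) (h1 : ‖e1‖ = 1) (h01 : inner ℂ S.e0 e1 = 0) (hi : ∀ x, inner ℂ e1 (S.iota x) = 0)

/-- sign operator on the one-site space -/
noncomputable def soH : HH F ≃ₗᵢ[ℂ] HH F := dg (soU S hS) (soU S hS)

@[simp] lemma soH_fst (x : HH F) : (soH S hS x).fst = so S hS x.fst := rfl
@[simp] lemma soH_snd (x : HH F) : (soH S hS x).snd = so S hS x.snd := rfl

lemma soH_soH (x : HH F) : soH S hS (soH S hS x) = x := hh_ext (by simp [so_so]) (by simp [so_so])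

lemma soH_adj (x y : HH F) : inner ℂ (soH S hS x) y = inner ℂ x (soH S hS y) := by
  have h := (soH S hS).inner_map_map x (soH S hS y)
  rwa [soH_soH] at h

lemma zg_eq (x : HH F) : zg S hS x = zop F (soH S hS x) := hh_ext rfl rfl

lemma zop_soH (x : HH F) : zop F (soH S hS x) = soH S hS (zop F x) :=
  hh_ext rfl (by simp)

lemma swp_soH (x : HH F) : swp F (soH S hS x) = soH S hS (swp F x) := rfl

lemma soH_wgH (v : KP S) (x : HH F) : soH S hS (wgH S hS v x) = wgH S hS v (soH S hS x) :=
  hh_ext (wg_lf S hS (kp_perp S v) sg x.fst) (wg_lf S hS (kp_perp S v) sg x.snd)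

lemma soH_zg (x : HH F) : soH S hS (zg S hS x) = zg S hS (soH S hS x) := by
  rw [zg_eq, zg_eq, ← zop_soH]

lemma soH_labg (f : ℝ → ℂ) (x : HH F) : soH S hS (labg S hS f x) = labg S hS f (soH S hS x) :=
  hh_ext (so_lf S hS _ x.fst) (so_lf S hS _ x.snd)

lemma gau_pau0 (x : HH F) : (gaugeL S hS e1 h1 h01 hi).pau 0 x = swp F x := rfl
lemma gau_pau2 (x : HH F) : (gaugeL S hS e1 h1 h01 hi).pau 2 x = zg S hS x := rfl
lemma gau_pau1 (x : HH F) : (gaugeL S hS e1 h1 h01 hi).pau 1 x = Complex.I • swp F (zg S hS x) := by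
  change (gaugeL S hS e1 h1 h01 hi).Zt (-(Real.pi / 4)) x = _
  rw [Sys.Zt_apply]
  have e : 2 * (-(Real.pi / 4)) = -(Real.pi / 2) := by ring
  rw [e, Sys.xr_neg_pi_div_two]
  rfl

lemma soH_pau (P : Fin 3) (x : HH F) : soH S hS ((gaugeL S hS e1 h1 h01 hi).pau P x) = (gaugeL S hS e1 h1 h01 hi).pau P (soH S hS x) := by
  fin_cases P
  · rfl
  · change soH S hS ((gaugeL S hS e1 h1 h01 hi).pau 1 x) = (gaugeL S hS e1 h1 h01 hi).pau 1 (soH S hS x)
    rw [gau_pau1, gau_pau1, map_smul, ← swp_soH, soH_zg]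
  · exact soH_zg S hS x

/-- `exp(-i Z' phi'(v)) = exp(-i Z phi(v))` -/
lemma gau_zr (v : KP S) (x : HH F) : (gaugeL S hS e1 h1 h01 hi).zr v x = S.zr (v : K) x := by
  rw [Sys.zr_apply]
  have hv := kp_perp S v
  have hv' := perp_neg S hv
  refine hh_ext ?_ ?_
  · change (1 / 2 : ℂ) • (wg S hS (-(v : K)) x.fst + wg S hS (v : K) x.fst)
      + (1 / 2 : ℂ) • (wg S hS (-(v : K)) (so S hS x.fst) - wg S hS (v : K) (so S hS x.fst))
      = S.W (-(v : K)) x.fst
    simp only [wg_apply, neg_neg, map_sub, ← so_W S hS hv, ← so_W S hS hv', so_so]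
    module
  · change (1 / 2 : ℂ) • (wg S hS (-(v : K)) x.snd + wg S hS (v : K) x.snd)
      + (1 / 2 : ℂ) • (wg S hS (-(v : K)) (-so S hS x.snd) - wg S hS (v : K) (-so S hS x.snd))
      = S.W (v : K) x.snd
    simp only [wg_apply, neg_neg, map_sub, map_neg, ← so_W S hS hv, ← so_W S hS hv', so_so]
    module

lemma soH_zr (v : KP S) (x : HH F) : soH S hS ((gaugeL S hS e1 h1 h01 hi).zr v x) = (gaugeL S hS e1 h1 h01 hi).zr v (soH S hS x) := by
  rw [Sys.zr_apply, Sys.zr_apply, map_add, map_smul, map_smul, map_add, map_sub]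
  change (1 / 2 : ℂ) • (soH S hS (wgH S hS (-v) x) + soH S hS (wgH S hS v x))
    + (1 / 2 : ℂ) • (soH S hS (wgH S hS (-v) (zg S hS x)) - soH S hS (wgH S hS v (zg S hS x))) = _
  simp only [soH_wgH, soH_zg]
  rfl

/-- field vector of the gauged system -/
lemma gau_xv {V : HH F ≃ₗᵢ[ℂ] HH F} (hV : ∀ x, soH S hS (V x) = V (soH S hS x)) :
    (gaugeL S hS e1 h1 h01 hi).xv V = soH S hS (S.xv V) := by
  have h1 : ∀ x, soH S hS (V⁻¹ x) = V⁻¹ (soH S hS x) := by
    intro x
    apply V.injective
    rw [← hV, Sys.Ainv, Sys.Ainv]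
  change V⁻¹ (zg S hS (V S.OmH)) = soH S hS (V⁻¹ (zop F (V S.OmH)))
  rw [h1, zg_eq, zop_soH]

lemma gau_iota (x : HH F) : (((gaugeL S hS e1 h1 h01 hi).iota (soH S hS x) : KP S) : K) = S.iota x := by
  change (iotag S hS (soH S hS x) : K) = _
  rw [iotag_coe]
  change S.iota (soH S hS (soH S hS x)) = _
  rw [soH_soH]

omit [CompleteSpace F] [NormedAddCommGroup F] [InnerProductSpace ℂ F] in
lemma gau_bm_gmt {g : ℝ → ℝ} (hg : Measurable g) (P : Fin 3) (i j : Fin 2) :
    Bm fun t => gmt g P t i j := by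
  obtain ⟨h1, C, h2⟩ := (gau_um hg P).mb i j
  exact ⟨h1.comp (g := fun z : Fin 1 → ℝ => gmt g P (z 0) i j) (f := fun t : ℝ => fun _ => t)
    (measurable_pi_lambda _ fun _ => measurable_id), C, fun t => h2 fun _ => t⟩

lemma gau_sign_cos {t : ℝ} (ht : t ≠ 0) (a : ℝ) :
    Complex.cos ((Real.sign t * a : ℝ) : ℂ) = Complex.cos (a : ℂ) := by
  rcases lt_or_gt_of_ne ht with h | h
  · rw [Real.sign_of_neg h, neg_one_mul, Complex.ofReal_neg, Complex.cos_neg]
  · rw [Real.sign_of_pos h, one_mul]

lemma gau_sign_sin {t : ℝ} (ht : t ≠ 0) (a : ℝ) :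
    Complex.sin ((Real.sign t * a : ℝ) : ℂ) = sg t * Complex.sin (a : ℂ) := by
  unfold sg
  rcases lt_or_gt_of_ne ht with h | h
  · rw [Real.sign_of_neg h, neg_one_mul, Complex.ofReal_neg, Complex.sin_neg, if_neg (not_le.2 h),
      neg_one_mul]
  · rw [Real.sign_of_pos h, one_mul, if_pos h.le, one_mul]

/-- label rotations of the gauged system are equivariant matrix functions -/
theorem gau_gate {f : ℝ → ℂ} (hf : LSys.Br f) (P : Fin 3) {U : HH F ≃ₗᵢ[ℂ] HH F}
    (hU : (gaugeL S hS e1 h1 h01 hi).IsRot ((gaugeL S hS e1 h1 h01 hi).lab f) P U) :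
    U = S.fcM hS (orthonormal_e0 S)
      (gau_um (g := fun t => (f t).re) (Complex.measurable_re.comp hf.1.1) P) := by
  have hfr : ∀ t, f t = (((f t).re : ℝ) : ℂ) := fun t =>
    Complex.ext (by simp) (by simp [hf.2 t])
  have hg : Measurable fun t => (f t).re := Complex.measurable_re.comp hf.1.1
  set g : ℝ → ℝ := fun t => (f t).re with hgd
  have hI := Complex.I_mul_I
  -- trigonometric functions
  have bc : Bm fun t => Complex.cos (f |t|) := by
    refine ⟨Complex.measurable_cos.comp (hf.1.1.comp meas_abs), 1, fun t => ?_⟩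
    change ‖Complex.cos (f |t|)‖ ≤ 1
    rw [hfr, ← Complex.ofReal_cos, Complex.norm_real]
    exact Real.abs_cos_le_one _
  have bs : Bm fun t => -(Complex.I * Complex.sin (f |t|)) := by
    refine ⟨((Complex.measurable_sin.comp (hf.1.1.comp meas_abs)).const_mul _).neg, 1,
      fun t => ?_⟩
    rw [norm_neg, norm_mul, Complex.norm_I, one_mul, hfr, ← Complex.ofReal_sin, Complex.norm_real]
    exact Real.abs_sin_le_one _
  have bss : Bm fun t => sg t * -(Complex.I * Complex.sin (f |t|)) := Bm.mul' bm_sg bs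
  have hss : ∀ y, lf S hS (fun t => sg t * -(Complex.I * Complex.sin (f |t|))) y
      = lf S hS (fun t => -(Complex.I * Complex.sin (f |t|))) (so S hS y) := by
    intro y
    rw [lf_mul S hS bm_sg bs]
    exact so_lf S hS _ y
  have bz : Bm fun _ : ℝ => (0 : ℂ) := ⟨measurable_const, 0, fun _ => by simp⟩
  ext x
  rw [hU x, (gaugeL S hS e1 h1 h01 hi).gau_isRot' hf.1, Weyl.fcM_apply]
  have key : ∀ (i j : Fin 2) (h : ℝ → ℂ), Bm h → (∀ t, t ≠ 0 → gmt g P t i j = h t) → ∀ y,
      S.fc hS (orthonormal_e0 S) (fun z => gmt g P (z 0) i j) y = lf S hS h y := by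
    intro i j h hb he y
    exact gau_lf_congr S hS (gau_bm_gmt hg P i j) hb he y
  have fst_eq : (S.fcH hS (orthonormal_e0 S) (fun z => gmt g P (z 0)) x).fst
      = S.fc hS (orthonormal_e0 S) (fun z => gmt g P (z 0) 0 0) x.fst
        + S.fc hS (orthonormal_e0 S) (fun z => gmt g P (z 0) 0 1) x.snd := rfl
  have snd_eq : (S.fcH hS (orthonormal_e0 S) (fun z => gmt g P (z 0)) x).snd
      = S.fc hS (orthonormal_e0 S) (fun z => gmt g P (z 0) 1 0) x.fst
        + S.fc hS (orthonormal_e0 S) (fun z => gmt g P (z 0) 1 1) x.snd := rfl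
  fin_cases P
  · refine hh_ext ?_ ?_
    · change lf S hS (fun t => Complex.cos (f |t|)) x.fst
        + lf S hS (fun t => -(Complex.I * Complex.sin (f |t|))) x.snd = _
      rw [fst_eq, key 0 0 _ bc, key 0 1 _ bs]
      · intro t _
        change (Er sX (f |t|).re) 0 1 = _
        rw [hfr |t|]
        simp [Er, sX]
      · intro t _
        change (Er sX (f |t|).re) 0 0 = _
        rw [hfr |t|]
        simp [Er, sX]
    · change lf S hS (fun t => Complex.cos (f |t|)) x.snd
        + lf S hS (fun t => -(Complex.I * Complex.sin (f |t|))) x.fst = _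
      rw [snd_eq, key 1 1 _ bc, key 1 0 _ bs, add_comm]
      · intro t _
        change (Er sX (f |t|).re) 1 0 = _
        rw [hfr |t|]
        simp [Er, sX]
      · intro t _
        change (Er sX (f |t|).re) 1 1 = _
        rw [hfr |t|]
        simp [Er, sX]
  · have ep : (gaugeL S hS e1 h1 h01 hi).pau ((fun i => i) ⟨1, by decide⟩) x = Complex.I • swp F (zg S hS x) :=
      gau_pau1 S hS e1 h1 h01 hi x
    rw [ep]
    refine hh_ext ?_ ?_
    · change lf S hS (fun t => Complex.cos (f |t|)) x.fst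
        + lf S hS (fun t => -(Complex.I * Complex.sin (f |t|))) (Complex.I • -(so S hS x.snd)) = _
      rw [fst_eq, key 0 0 _ bc, key 0 1 (fun t => (-Complex.I) * (sg t * -(Complex.I * Complex.sin (f |t|))))
        (Bm.mul' ⟨measurable_const, 1, fun _ => by simp⟩ bss), gau_lf_cmul S hS _ bss, hss,
        map_smul, map_neg, smul_neg, neg_smul]
      · intro t ht
        change (Er sY (Real.sign t * (f |t|).re)) 0 1 = _
        rw [hfr |t|]
        simp only [Er, sY, Matrix.sub_apply, Matrix.smul_apply, smul_eq_mul, Matrix.of_apply,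
          Matrix.cons_val', Matrix.cons_val_zero, Matrix.cons_val_one, Matrix.cons_val_fin_one,
          Complex.ofReal_sin, gau_sign_sin ht, Complex.ofReal_re,
          Matrix.one_apply_ne (show (0 : Fin 2) ≠ 1 by decide), mul_zero]
        ring
      · intro t ht
        change (Er sY (Real.sign t * (f |t|).re)) 0 0 = _
        rw [hfr |t|]
        simp only [Er, sY, Matrix.sub_apply, Matrix.smul_apply, smul_eq_mul, Matrix.of_apply,
          Matrix.cons_val', Matrix.cons_val_zero, Matrix.cons_val_one, Matrix.cons_val_fin_one,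
          Complex.ofReal_cos, gau_sign_cos ht, Complex.ofReal_re,
          Matrix.one_apply_eq, mul_zero, mul_one, sub_zero]
    · change lf S hS (fun t => Complex.cos (f |t|)) x.snd
        + lf S hS (fun t => -(Complex.I * Complex.sin (f |t|))) (Complex.I • (so S hS x.fst)) = _
      rw [snd_eq, key 1 1 _ bc, key 1 0 (fun t => Complex.I * (sg t * -(Complex.I * Complex.sin (f |t|))))
        (Bm.mul' ⟨measurable_const, 1, fun _ => by simp⟩ bss), gau_lf_cmul S hS _ bss, hss,
        map_smul, add_comm]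
      · intro t ht
        change (Er sY (Real.sign t * (f |t|).re)) 1 0 = _
        rw [hfr |t|]
        simp only [Er, sY, Matrix.sub_apply, Matrix.smul_apply, smul_eq_mul, Matrix.of_apply,
          Matrix.cons_val', Matrix.cons_val_zero, Matrix.cons_val_one, Matrix.cons_val_fin_one,
          Complex.ofReal_sin, gau_sign_sin ht, Complex.ofReal_re,
          Matrix.one_apply_ne (show (1 : Fin 2) ≠ 0 by decide), mul_zero]
        ring
      · intro t ht
        change (Er sY (Real.sign t * (f |t|).re)) 1 1 = _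
        rw [hfr |t|]
        simp only [Er, sY, Matrix.sub_apply, Matrix.smul_apply, smul_eq_mul, Matrix.of_apply,
          Matrix.cons_val', Matrix.cons_val_zero, Matrix.cons_val_one, Matrix.cons_val_fin_one,
          Complex.ofReal_cos, gau_sign_cos ht, Complex.ofReal_re,
          Matrix.one_apply_eq, mul_zero, mul_one, sub_zero]
  · refine hh_ext ?_ ?_
    · change lf S hS (fun t => Complex.cos (f |t|)) x.fst
        + lf S hS (fun t => -(Complex.I * Complex.sin (f |t|))) (so S hS x.fst) = _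
      rw [fst_eq, key 0 1 _ bz, key 0 0 (fun t => Complex.cos (f |t|)
        + sg t * -(Complex.I * Complex.sin (f |t|))) (Bm.add' bc bss), lf_add S hS bc bss, hss,
        lf_const, zero_smul, add_zero]
      · intro t ht
        change (Er sZ (Real.sign t * (f |t|).re)) 0 0 = _
        rw [hfr |t|]
        simp only [Er, sZ, Matrix.sub_apply, Matrix.smul_apply, smul_eq_mul, Matrix.of_apply,
          Matrix.cons_val', Matrix.cons_val_zero, Matrix.cons_val_one, Matrix.cons_val_fin_one,
          Complex.ofReal_cos, gau_sign_cos ht, Complex.ofReal_sin, gau_sign_sin ht,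
          Complex.ofReal_re, Matrix.one_apply_eq, mul_one]
        ring
      · intro t ht
        change (Er sZ (Real.sign t * (f |t|).re)) 0 1 = _
        simp [Er, sZ]
    · change lf S hS (fun t => Complex.cos (f |t|)) x.snd
        + lf S hS (fun t => -(Complex.I * Complex.sin (f |t|))) (-(so S hS x.snd)) = _
      rw [snd_eq, key 1 0 _ bz, key 1 1 (fun t => Complex.cos (f |t|)
        + (-1 : ℂ) * (sg t * -(Complex.I * Complex.sin (f |t|))))
        (Bm.add' bc (Bm.mul' ⟨measurable_const, 1, fun _ => by simp⟩ bss)),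
        lf_add S hS bc (Bm.mul' ⟨measurable_const, 1, fun _ => by simp⟩ bss),
        gau_lf_cmul S hS _ bss, hss, lf_const, zero_smul, zero_add, map_neg, neg_one_smul]
      · intro t ht
        change (Er sZ (Real.sign t * (f |t|).re)) 1 1 = _
        rw [hfr |t|]
        simp only [Er, sZ, Matrix.sub_apply, Matrix.smul_apply, smul_eq_mul, Matrix.of_apply,
          Matrix.cons_val', Matrix.cons_val_zero, Matrix.cons_val_one, Matrix.cons_val_fin_one,
          Complex.ofReal_cos, gau_sign_cos ht, Complex.ofReal_sin, gau_sign_sin ht,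
          Complex.ofReal_re, Matrix.one_apply_eq, mul_one]
        ring
      · intro t ht
        change (Er sZ (Real.sign t * (f |t|).re)) 1 0 = _
        simp [Er, sZ]

end gates

end Vale.Agent.P367.NI
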