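import Vale.Agent.P367.B.Gauge3
import Vale.Agent.P367.B.LBasic
import Vale.Agent.P367.B.LBase

/-! P367 block B, gauge part 4: words of the gauged label system, energy transport, exit, creation
map. -/

namespace Vale.Agent.P367.NI

open Complex Filter Topology MeasureTheory ProbabilityTheory

open Vale.Agent.P367.A (Bm LSys Sys hh_ext swp)
open Vale.Agent.P367.B (M2 sX sY sZ Er)

section words

variable {H K : Type*} [NormedAddCommGroup H] [InnerProductSpace ℂ H]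
  [NormedAddCommGroup K] [InnerProductSpace ℂ K] (L : LSys H K)

/-- exact words commute with the label functions -/
lemma gau_wd_lab [CompleteSpace H] {U : H ≃ₗᵢ[ℂ] H} (hU : L.Wd U) {f : ℝ → ℂ} (hf : Bm f) (x : H) :
    L.lab f (U x) = U (L.lab f x) := by
  induction hU generalizing x with
  | one => rfl
  | C g V _ ih =>
    change L.lab f (L.zr _ (V x)) = L.zr _ (V (L.lab f x))
    rw [L.o_lab_zr, ih]
  | L g P U V _ hg hU ih =>
    change L.lab f (U (V x)) = U (V (L.lab f x))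
    rw [← ih, hU, hU, L.gau_isRot' hg.1, L.gau_isRot' hg.1, map_add]
    have bc : Bm fun t => Complex.cos (g t) := by
      refine ⟨Complex.measurable_cos.comp hg.1.1, 1, fun t => ?_⟩
      change ‖Complex.cos (g t)‖ ≤ 1
      have e : g t = (((g t).re : ℝ) : ℂ) := Complex.ext (by simp) (by simp [hg.2 t])
      rw [e, ← Complex.ofReal_cos, Complex.norm_real]
      exact Real.abs_cos_le_one _
    have bs : Bm fun t => -(Complex.I * Complex.sin (g t)) := by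
      refine ⟨((Complex.measurable_sin.comp hg.1.1).const_mul _).neg, 1, fun t => ?_⟩
      have e : g t = (((g t).re : ℝ) : ℂ) := Complex.ext (by simp) (by simp [hg.2 t])
      rw [norm_neg, norm_mul, Complex.norm_I, one_mul, e, ← Complex.ofReal_sin, Complex.norm_real]
      exact Real.abs_sin_le_one _
    have h1 := fun y => congrArg (fun T : H →L[ℂ] H => T y) (L.o_lab_comm hf bc)
    have h2 := fun y => congrArg (fun T : H →L[ℂ] H => T y) (L.o_lab_comm hf bs)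
    simp only [mul_apply_eq_comp] at h1 h2
    rw [h1, h2, L.o_lab_pau]

end words

section gates

variable {F K : Type} [NormedAddCommGroup F] [InnerProductSpace ℂ F]
  [NormedAddCommGroup K] [InnerProductSpace ℂ K] [CompleteSpace F] (S : Weyl F K) (hS : S.Cyc)
  (e1 : K) (h1 : ‖e1‖ = 1) (h01 : inner ℂ S.e0 e1 = 0) (hi : ∀ x, inner ℂ e1 (S.iota x) = 0)

/-- exact words of the gauged system are strong limits of words of the Weyl system -/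
theorem gau_wd {U : HH F ≃ₗᵢ[ℂ] HH F} (hU : (gaugeL S hS e1 h1 h01 hi).Wd U) :
    U ∈ S.Cl ∧ ∀ x, soH S hS (U x) = U (soH S hS x) := by
  induction hU with
  | one => exact ⟨S.ev_mem_Cl [], fun _ => rfl⟩
  | C g V _ ih =>
    obtain ⟨ih1, ih2⟩ := ih
    refine ⟨?_, fun x => ?_⟩
    · have h := S.run_mem_Cl hS [Gate.C g] ih1
      have e : S.run [Gate.C g] V
          = (gaugeL S hS e1 h1 h01 hi).zr ((g : ℂ) • (gaugeL S hS e1 h1 h01 hi).iota ((gaugeL S hS e1 h1 h01 hi).xv V)) * V := by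
        ext x
        change S.zr ((g : ℂ) • S.iota (S.xv V)) (V x)
          = (gaugeL S hS e1 h1 h01 hi).zr ((g : ℂ) • (gaugeL S hS e1 h1 h01 hi).iota ((gaugeL S hS e1 h1 h01 hi).xv V)) (V x)
        rw [gau_zr, gau_xv S hS e1 h1 h01 hi ih2, Submodule.coe_smul, gau_iota]
      rwa [e] at h
    · generalize ((g : ℂ) • (gaugeL S hS e1 h1 h01 hi).iota ((gaugeL S hS e1 h1 h01 hi).xv V)) = v
      change soH S hS ((gaugeL S hS e1 h1 h01 hi).zr v (V x)) = (gaugeL S hS e1 h1 h01 hi).zr v (V (soH S hS x))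
      rw [soH_zr, ih2]
  | L f P U V _ hf hU ih =>
    obtain ⟨ih1, ih2⟩ := ih
    refine ⟨?_, fun x => ?_⟩
    · have h := cl_trans_fcM S hS (gau_um (g := fun t => (f t).re)
        (Complex.measurable_re.comp hf.1.1) P) (fun z => gau_su _ _ _)
        (fun z => gau_eq _ _ _) ih1
      rw [← gau_gate S hS e1 h1 h01 hi hf P hU] at h
      exact h
    · change soH S hS (U (V x)) = U (V (soH S hS x))
      rw [← ih2, hU, hU, (gaugeL S hS e1 h1 h01 hi).gau_isRot' hf.1, (gaugeL S hS e1 h1 h01 hi).gau_isRot' hf.1, map_add]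
      change soH S hS (labg S hS _ _) + soH S hS (labg S hS _ _) = _
      rw [soH_labg, soH_labg, soH_pau]
      rfl

/-- creation map of the gauged system -/
noncomputable def gau_J (u : KP S) : HH F := soH S hS (S.Phi (u : K))

/-- energy transport -/
lemma gau_En (x : HH F) : (gaugeL S hS e1 h1 h01 hi).En (gau_J S hS) x = S.Ef (soH S hS x) := by
  unfold LSys.En gau_J Weyl.Ef
  have e : (((gaugeL S hS e1 h1 h01 hi).iota x : KP S) : K) = S.iota (soH S hS x) := rfl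
  rw [e, ← soH_adj, ← inner_conj_symm, Complex.conj_re]

/-- the exit of the gauged system -/
theorem gau_exit {M : Set ℝ} (hM : MeasurableSet M) {V : HH F ≃ₗᵢ[ℂ] HH F}
    (h : ∀ ε > 0, ∃ U, (gaugeL S hS e1 h1 h01 hi).Wd U ∧ ‖(gaugeL S hS e1 h1 h01 hi).E M ((gaugeL S hS e1 h1 h01 hi).xv U) - (gaugeL S hS e1 h1 h01 hi).E M ((gaugeL S hS e1 h1 h01 hi).xv V)‖ < ε)
    {x : HH F} (hx : ‖x‖ ≤ 1) {ε : ℝ} (hε : 0 < ε) : ∃ w : List Gate,
      (gaugeL S hS e1 h1 h01 hi).En (gau_J S hS) x - 2 * (‖(gaugeL S hS e1 h1 h01 hi).E M ((gaugeL S hS e1 h1 h01 hi).xv V) - x‖ + Real.sqrt ((gaugeL S hS e1 h1 h01 hi).mu.real Mᶜ) + ε)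
        ≤ S.energy w := by
  obtain ⟨U, hU, hd⟩ := h (ε / 2) (by positivity)
  obtain ⟨hcl, hso⟩ := gau_wd S hS e1 h1 h01 hi hU
  obtain ⟨w, hw⟩ := S.exists_word_of_mem_Cl hcl hε
  refine ⟨w, ?_⟩
  set y := (gaugeL S hS e1 h1 h01 hi).xv U with hy
  have hyS : S.xv U = soH S hS y := by
    rw [hy, gau_xv S hS e1 h1 h01 hi hso, soH_soH]
  have hny : ‖y‖ = 1 := by
    rw [hy]
    unfold Sys.xv
    rw [LinearIsometryEquiv.norm_map, LinearIsometryEquiv.norm_map, LinearIsometryEquiv.norm_map]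
    exact (gaugeL S hS e1 h1 h01 hi).nOm
  have hMc : ‖(gaugeL S hS e1 h1 h01 hi).E Mᶜ y‖ = Real.sqrt ((gaugeL S hS e1 h1 h01 hi).mu.real Mᶜ) := by
    have hc : ∀ z, (gaugeL S hS e1 h1 h01 hi).E Mᶜ (U z) = U ((gaugeL S hS e1 h1 h01 hi).E Mᶜ z) := fun z =>
      gau_wd_lab (gaugeL S hS e1 h1 h01 hi) hU (LSys.bm_ind hM.compl) z
    have hci : ∀ z, (gaugeL S hS e1 h1 h01 hi).E Mᶜ (U⁻¹ z) = U⁻¹ ((gaugeL S hS e1 h1 h01 hi).E Mᶜ z) := by
      intro z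
      apply U.injective
      rw [← hc, Sys.Ainv, Sys.Ainv]
    have e : (gaugeL S hS e1 h1 h01 hi).E Mᶜ y = U⁻¹ ((gaugeL S hS e1 h1 h01 hi).Z (U ((gaugeL S hS e1 h1 h01 hi).E Mᶜ (gaugeL S hS e1 h1 h01 hi).Om))) := by
      rw [hy]
      unfold Sys.xv
      rw [hci, (gaugeL S hS e1 h1 h01 hi).o_E_Z, hc]
    rw [e, LinearIsometryEquiv.norm_map, LinearIsometryEquiv.norm_map,
      LinearIsometryEquiv.norm_map, ← (gaugeL S hS e1 h1 h01 hi).norm_E_Om hM.compl, Real.sqrt_sq (norm_nonneg _)]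
  have h2 : ‖y - x‖ ≤ ε / 2 + ‖(gaugeL S hS e1 h1 h01 hi).E M ((gaugeL S hS e1 h1 h01 hi).xv V) - x‖ + Real.sqrt ((gaugeL S hS e1 h1 h01 hi).mu.real Mᶜ) := by
    have e : y - x = ((gaugeL S hS e1 h1 h01 hi).E M y - (gaugeL S hS e1 h1 h01 hi).E M ((gaugeL S hS e1 h1 h01 hi).xv V)) + ((gaugeL S hS e1 h1 h01 hi).E M ((gaugeL S hS e1 h1 h01 hi).xv V) - x)
        + (gaugeL S hS e1 h1 h01 hi).E Mᶜ y := by
      rw [(gaugeL S hS e1 h1 h01 hi).o_E_compl hM]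
      abel
    rw [e, ← hMc]
    refine (norm_add_le _ _).trans ?_
    gcongr
    exact (norm_add_le _ _).trans (add_le_add_left hd.le _)
  have h3 := S.abs_Ef_sub_le (soH S hS y) (soH S hS x)
  rw [← map_sub, LinearIsometryEquiv.norm_map, LinearIsometryEquiv.norm_map,
    LinearIsometryEquiv.norm_map, hny] at h3
  rw [hyS] at hw
  rw [gau_En]
  have h4 := (abs_le.1 h3).1
  have h5 := (abs_lt.1 hw).1
  nlinarith [norm_nonneg (y - x)]

/-- rate of convergence of the difference quotients of the Weyl vectors -/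
lemma gau_quot (u : K) {t : ℝ} (ht : t ≠ 0) :
    ‖((t : ℂ)⁻¹) • (S.W ((t : ℂ) • u) S.Om - S.Om) - S.Jc u‖ ≤ |t| * ‖u‖ ^ 2 := by
  set E : ℝ := Real.exp (-(t ^ 2 * ‖u‖ ^ 2 / 2)) with hE
  have hn : ‖(t : ℂ) • u‖ ^ 2 = t ^ 2 * ‖u‖ ^ 2 := by
    rw [norm_smul, Complex.norm_real, Real.norm_eq_abs, mul_pow, sq_abs]
  have hEc : Complex.exp (-((‖(t : ℂ) • u‖ ^ 2 / 2 : ℝ) : ℂ)) = (E : ℂ) := by
    rw [hn, hE, Complex.ofReal_exp, Complex.ofReal_neg]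
  have a1 : ‖S.W ((t : ℂ) • u) S.Om - S.Om‖ ^ 2 = 2 - 2 * E := by
    have h := @norm_sub_sq ℂ F _ _ _ (S.W ((t : ℂ) • u) S.Om) S.Om
    have h2 : RCLike.re (inner ℂ (S.W ((t : ℂ) • u) S.Om) S.Om : ℂ) = E := by
      rw [← inner_conj_symm, S.vac, hEc, Complex.conj_ofReal]
      exact Complex.ofReal_re E
    rw [h2, LinearIsometryEquiv.norm_map, S.norm_Om] at h
    rw [h]
    ring
  have a2 : inner ℂ (S.Jc u) S.Om = (0 : ℂ) := by
    have h := S.inner_Jc_W u 0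
    rwa [S.W_zero, inner_zero_right, zero_mul] at h
  have a3 : RCLike.re (inner ℂ (((t : ℂ)⁻¹) • (S.W ((t : ℂ) • u) S.Om - S.Om)) (S.Jc u) : ℂ)
      = ‖u‖ ^ 2 * E := by
    rw [← inner_conj_symm, inner_smul_right, inner_sub_right, a2, sub_zero, S.inner_Jc_W,
      inner_smul_right, inner_self_eq_norm_sq_to_K, hEc]
    have ht' : (t : ℂ) ≠ 0 := Complex.ofReal_ne_zero.2 ht
    have e : (t : ℂ)⁻¹ * ((t : ℂ) * ((‖u‖ : ℝ) : ℂ) ^ 2 * (E : ℂ)) = ((‖u‖ ^ 2 * E : ℝ) : ℂ) := by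
      push_cast
      field_simp
    change RCLike.re ((starRingEnd ℂ) ((t : ℂ)⁻¹ * ((t : ℂ) * ((‖u‖ : ℝ) : ℂ) ^ 2 * (E : ℂ)))) = _
    rw [e, Complex.conj_ofReal]
    exact Complex.ofReal_re _
  have h := @norm_sub_sq ℂ F _ _ _ (((t : ℂ)⁻¹) • (S.W ((t : ℂ) • u) S.Om - S.Om)) (S.Jc u)
  rw [a3, S.norm_Jc, norm_smul, mul_pow, a1, norm_inv, Complex.norm_real, Real.norm_eq_abs, inv_pow,
    sq_abs] at h
  have hE1 : 1 - t ^ 2 * ‖u‖ ^ 2 / 2 ≤ E := by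
    have := Real.add_one_le_exp (-(t ^ 2 * ‖u‖ ^ 2 / 2))
    linarith
  have hu := sq_nonneg ‖u‖
  have ht2 : 0 < t ^ 2 := by positivity
  have h2 : (t ^ 2)⁻¹ * (2 - 2 * E) ≤ ‖u‖ ^ 2 := by
    rw [inv_mul_le_iff₀ ht2]
    linarith
  have h3 : ‖((t : ℂ)⁻¹) • (S.W ((t : ℂ) • u) S.Om - S.Om) - S.Jc u‖ ^ 2
      ≤ (|t| * ‖u‖ ^ 2) ^ 2 := by
    rw [h, mul_pow, sq_abs]
    nlinarith
  exact (sq_le_sq₀ (norm_nonneg _) (by positivity)).1 h3

lemma gau_tendsto_quot (u : K) : Tendsto (fun t : ℝ => ((t : ℂ)⁻¹) •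
    (S.W ((t : ℂ) • u) S.Om - S.Om)) (𝓝[≠] 0) (𝓝 (S.Jc u)) := by
  rw [tendsto_iff_norm_sub_tendsto_zero]
  have h1 : Tendsto (fun t : ℝ => |t| * ‖u‖ ^ 2) (𝓝[≠] 0) (𝓝 0) := by
    have h2 : Tendsto (fun t : ℝ => |t| * ‖u‖ ^ 2) (𝓝 0) (𝓝 (|(0 : ℝ)| * ‖u‖ ^ 2)) :=
      (continuous_abs.mul continuous_const).tendsto 0
    rw [abs_zero, zero_mul] at h2
    exact h2.mono_left nhdsWithin_le_nhds
  refine tendsto_of_tendsto_of_tendsto_of_le_of_le' tendsto_const_nhds h1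
    (Eventually.of_forall fun t => norm_nonneg _) ?_
  filter_upwards [self_mem_nhdsWithin] with t ht
  exact gau_quot S u ht

/-- the creation map of the gauged system -/
theorem gau_isJ : (gaugeL S hS e1 h1 h01 hi).IsJ (gau_J S hS) := by
  intro u
  set a : K := (-Complex.I) • (u : K) with ha
  have hp := gau_tendsto_quot S a
  have hm := gau_tendsto_quot S (-a)
  have hJm : S.Jc (-a) = -S.Jc a := by
    have := S.Jc_smul (-1) a
    simpa using this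
  rw [hJm] at hm
  have h5 := ((hp.add hm).const_smul (1 / 2 : ℂ)).add
    (((so S hS).continuous.tendsto _).comp (hp.sub hm) |>.const_smul (1 / 2 : ℂ))
  have h6 := h5.const_smul (((Real.sqrt 2)⁻¹ : ℝ) : ℂ)
  have key : ∀ t : ℝ, ((t : ℂ)⁻¹) • (wg S hS ((t : ℂ) • a) ((((Real.sqrt 2)⁻¹ : ℝ) : ℂ) • S.Om)
      - (((Real.sqrt 2)⁻¹ : ℝ) : ℂ) • S.Om)
      = (((Real.sqrt 2)⁻¹ : ℝ) : ℂ) • ((1 / 2 : ℂ) • (((t : ℂ)⁻¹) • (S.W ((t : ℂ) • a) S.Om - S.Om)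
        + ((t : ℂ)⁻¹) • (S.W ((t : ℂ) • -a) S.Om - S.Om))
        + (1 / 2 : ℂ) • so S hS (((t : ℂ)⁻¹) • (S.W ((t : ℂ) • a) S.Om - S.Om)
        - ((t : ℂ)⁻¹) • (S.W ((t : ℂ) • -a) S.Om - S.Om))) := by
    intro t
    rw [map_smul, wg_apply, smul_neg]
    simp only [map_sub, map_smul]
    module
  have hlim : (((Real.sqrt 2)⁻¹ : ℝ) : ℂ) • ((1 / 2 : ℂ) • (S.Jc a + -S.Jc a)
      + (1 / 2 : ℂ) • so S hS (S.Jc a - -S.Jc a))
      = so S hS ((-Complex.I) • ((((Real.sqrt 2)⁻¹ : ℝ) : ℂ) • S.Jc (u : K))) := by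
    rw [ha, S.Jc_smul]
    simp only [map_sub, map_smul, map_neg]
    module
  have hfin : Tendsto (fun t : ℝ => ((t : ℂ)⁻¹) • (wg S hS ((t : ℂ) • a)
      ((((Real.sqrt 2)⁻¹ : ℝ) : ℂ) • S.Om) - (((Real.sqrt 2)⁻¹ : ℝ) : ℂ) • S.Om)) (𝓝[≠] 0)
      (𝓝 (so S hS ((-Complex.I) • ((((Real.sqrt 2)⁻¹ : ℝ) : ℂ) • S.Jc (u : K))))) := by
    rw [← hlim]
    refine h6.congr fun t => ?_
    rw [key]
    rfl
  have hcoe : ∀ t : ℝ, ((-((Complex.I * (t : ℂ)) • u) : KP S) : K) = (t : ℂ) • a := by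
    intro t
    rw [ha]
    change -((Complex.I * (t : ℂ)) • (u : K)) = _
    module
  refine tendsto_HH ?_ ?_
  · refine hfin.congr fun t => ?_
    rw [← hcoe]
    rfl
  · refine hfin.congr fun t => ?_
    rw [← hcoe]
    rfl

/-- assembly of the base statement for the gauged system -/
theorem gau_isBase
    (hcal : ∀ (n : ℕ) (y : Fin n → KP S), Orthonormal ℂ y → ∃ fc, (gaugeL S hS e1 h1 h01 hi).FCal y fc)
    (hR : ∀ G : Set ℝ, MeasurableSet G → ∃ Rch : Set ℝ → Set ℝ → (HH F ≃ₗᵢ[ℂ] HH F) → Prop,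
      (gaugeL S hS e1 h1 h01 hi).Closed G (gaugeL S hS e1 h1 h01 hi).alg0 Rch ∧ Rch G Gᶜ 1 ∧ ∀ M R V, Rch M R V → ∀ ε > 0, ∃ U, (gaugeL S hS e1 h1 h01 hi).Wd U ∧
        ‖(gaugeL S hS e1 h1 h01 hi).E M ((gaugeL S hS e1 h1 h01 hi).xv U) - (gaugeL S hS e1 h1 h01 hi).E M ((gaugeL S hS e1 h1 h01 hi).xv V)‖ < ε) :
    (gaugeL S hS e1 h1 h01 hi).IsBase S (gau_J S hS) where
  isJ := gau_isJ S hS e1 h1 h01 hi
  fcal := hcal
  reach G hG := by
    obtain ⟨Rch, hC, h1', hex⟩ := hR G hG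
    refine ⟨Rch, hC, h1', fun M R V hV x hx _ ε hε => ?_⟩
    exact gau_exit S hS e1 h1 h01 hi (hC.meas M R V hV).1 (hex M R V hV) hx hε

end gates

/-- assembly of the base statement -/
theorem gau_baseStmt
    (hcal : ∀ (S : Weyl FN L2N) (hS : S.Cyc) (e1 : L2N) (h1 : ‖e1‖ = 1) (h01 : inner ℂ S.e0 e1 = 0)
      (hi : ∀ x, inner ℂ e1 (S.iota x) = 0) (n : ℕ) (y : Fin n → KP S), Orthonormal ℂ y →
      ∃ fc, (gaugeL S hS e1 h1 h01 hi).FCal y fc)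
    (hR : ∀ (S : Weyl FN L2N) (hS : S.Cyc) (e1 : L2N) (h1 : ‖e1‖ = 1) (h01 : inner ℂ S.e0 e1 = 0)
      (hi : ∀ x, inner ℂ e1 (S.iota x) = 0) (G : Set ℝ), MeasurableSet G →
      ∃ Rch : Set ℝ → Set ℝ → (HH FN ≃ₗᵢ[ℂ] HH FN) → Prop,
      (gaugeL S hS e1 h1 h01 hi).Closed G (gaugeL S hS e1 h1 h01 hi).alg0 Rch ∧ Rch G Gᶜ 1 ∧
      ∀ M R V, Rch M R V → ∀ ε > 0, ∃ U, (gaugeL S hS e1 h1 h01 hi).Wd U ∧
        ‖(gaugeL S hS e1 h1 h01 hi).E M ((gaugeL S hS e1 h1 h01 hi).xv U)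
          - (gaugeL S hS e1 h1 h01 hi).E M ((gaugeL S hS e1 h1 h01 hi).xv V)‖ < ε) :
    LSys.BaseStmt := by
  obtain ⟨S, e1, hS, h1, h01, hi⟩ := exists_weyl_cyc2
  exact ⟨S, KP S, inferInstance, inferInstance, gaugeL S hS e1 h1 h01 hi, gau_J S hS,
    gau_isBase S hS e1 h1 h01 hi (hcal S hS e1 h1 h01 hi) (hR S hS e1 h1 h01 hi)⟩

end Vale.Agent.P367.NI
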