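import Vale.Agent.P367.NI.Soft
import Vale.Agent.P367.NI.EnJ

/-! P367 block B: the gauge-fixed labelled Weyl model. -/

namespace Vale.Agent.P367.B

open Complex Filter Topology Vale.Agent.P367.NI

/-- Weyl system together with label projections `E b` (`b` in a Boolean algebra of label sets with
weights `m b`), commuting with every Weyl operator and independent of them in the vacuum. -/
structure LW (F K B : Type) [NormedAddCommGroup F] [InnerProductSpace ℂ F]
    [NormedAddCommGroup K] [InnerProductSpace ℂ K] [BooleanAlgebra B] extends Weyl F K where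
  E : B → F →L[ℂ] F
  m : B → ℝ
  E_top : ∀ x, E ⊤ x = x
  E_inf : ∀ a b x, E (a ⊓ b) x = E a (E b x)
  E_sup : ∀ a b, Disjoint a b → ∀ x, E (a ⊔ b) x = E a x + E b x
  E_adj : ∀ a x y, inner ℂ (E a x) y = inner ℂ x (E a y)
  E_W : ∀ a v x, E a (W v x) = W v (E a x)
  vacE : ∀ a v, inner ℂ Om (E a (W v Om)) = (m a : ℂ) * Complex.exp (-((‖v‖ ^ 2 / 2 : ℝ) : ℂ))
  /-- every label set can be cut into pieces of arbitrarily small weight -/
  split : ∀ b : B, ∀ δ : ℝ, 0 < δ → ∃ (n : ℕ) (c : ℕ → B),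
    (∀ i j, i ≠ j → Disjoint (c i) (c j)) ∧ (Finset.range n).sup c = b ∧ ∀ i, m (c i) ≤ δ

namespace LW

variable {F K B : Type} [NormedAddCommGroup F] [InnerProductSpace ℂ F]
    [NormedAddCommGroup K] [InnerProductSpace ℂ K] [BooleanAlgebra B] (L : LW F K B)

lemma E_comm (a b : B) (x : F) : L.E a (L.E b x) = L.E b (L.E a x) := by
  rw [← L.E_inf, ← L.E_inf, inf_comm]

lemma E_idem (a : B) (x : F) : L.E a (L.E a x) = L.E a x := by
  rw [← L.E_inf, inf_idem]

lemma E_bot (x : F) : L.E ⊥ x = 0 := by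
  have h := L.E_sup ⊥ ⊥ disjoint_bot_left x
  rw [bot_sup_eq] at h
  exact left_eq_add.1 h

lemma E_disj {a b : B} (h : Disjoint a b) (x : F) : L.E a (L.E b x) = 0 := by
  rw [← L.E_inf, h.eq_bot, L.E_bot]

lemma E_compl (a : B) (x : F) : L.E aᶜ x = x - L.E a x := by
  have h := L.E_sup a aᶜ disjoint_compl_right x
  rw [sup_compl_eq_top, L.E_top] at h
  rw [eq_sub_iff_add_eq, add_comm]
  exact h.symm

/-- Pythagoras -/
lemma E_pyth (a : B) (x y : F) : ‖L.E a x + (y - L.E a y)‖ ^ 2 = ‖L.E a x‖ ^ 2 + ‖y - L.E a y‖ ^ 2 := by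
  have h0 : inner ℂ (L.E a x) (y - L.E a y) = 0 := by
    rw [L.E_adj, map_sub, L.E_idem, sub_self, inner_zero_right]
  have h := @norm_add_sq ℂ F _ _ _ (L.E a x) (y - L.E a y)
  rw [h, h0]
  simp

/-- projections on the one-site space -/
noncomputable def Eh (a : B) : HH F →ₗ[ℂ] HH F where
  toFun x := WithLp.toLp 2 (L.E a x.fst, L.E a x.snd)
  map_add' x y := by
    apply (WithLp.equiv 2 (F × F)).injective
    simp
  map_smul' c x := by
    apply (WithLp.equiv 2 (F × F)).injective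
    simp

@[simp] lemma Eh_fst (a : B) (x : HH F) : (L.Eh a x).fst = L.E a x.fst := rfl
@[simp] lemma Eh_snd (a : B) (x : HH F) : (L.Eh a x).snd = L.E a x.snd := rfl

lemma HH_ext {x y : HH F} (h1 : x.fst = y.fst) (h2 : x.snd = y.snd) : x = y := by
  apply (WithLp.equiv 2 (F × F)).injective
  exact Prod.ext h1 h2

lemma Eh_idem (a : B) (x : HH F) : L.Eh a (L.Eh a x) = L.Eh a x :=
  HH_ext (L.E_idem a _) (L.E_idem a _)

lemma Eh_comm (a b : B) (x : HH F) : L.Eh a (L.Eh b x) = L.Eh b (L.Eh a x) :=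
  HH_ext (L.E_comm a b _) (L.E_comm a b _)

lemma Eh_inf (a b : B) (x : HH F) : L.Eh (a ⊓ b) x = L.Eh a (L.Eh b x) :=
  HH_ext (L.E_inf a b _) (L.E_inf a b _)

lemma Eh_sup {a b : B} (h : Disjoint a b) (x : HH F) : L.Eh (a ⊔ b) x = L.Eh a x + L.Eh b x :=
  HH_ext (L.E_sup a b h _) (L.E_sup a b h _)

lemma Eh_top (x : HH F) : L.Eh ⊤ x = x := HH_ext (L.E_top _) (L.E_top _)

lemma Eh_bot (x : HH F) : L.Eh ⊥ x = 0 := HH_ext (L.E_bot _) (L.E_bot _)

lemma Eh_disj {a b : B} (h : Disjoint a b) (x : HH F) : L.Eh a (L.Eh b x) = 0 :=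
  HH_ext (L.E_disj h _) (L.E_disj h _)

lemma Eh_adj (a : B) (x y : HH F) : inner ℂ (L.Eh a x) y = inner ℂ x (L.Eh a y) := by
  rw [inner_HH, inner_HH, Eh_fst, Eh_snd, Eh_fst, Eh_snd, L.E_adj, L.E_adj]

lemma Eh_compl (a : B) (x : HH F) : L.Eh aᶜ x = x - L.Eh a x :=
  HH_ext (L.E_compl a _) (L.E_compl a _)

/-- a state commutes with the labels -/
def Lc (V : St F) : Prop := ∀ a x, V (L.Eh a x) = L.Eh a (V x)

lemma Eh_pyth (a : B) (x y : HH F) :
    ‖L.Eh a x + (y - L.Eh a y)‖ ^ 2 = ‖L.Eh a x‖ ^ 2 + ‖y - L.Eh a y‖ ^ 2 := by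
  have h0 : inner ℂ (L.Eh a x) (y - L.Eh a y) = 0 := by
    rw [L.Eh_adj, map_sub, L.Eh_idem, sub_self, inner_zero_right]
  have h := @norm_add_sq ℂ (HH F) _ _ _ (L.Eh a x) (y - L.Eh a y)
  rw [h, h0]
  simp

lemma norm_Eh_le (a : B) (x : HH F) : ‖L.Eh a x‖ ≤ ‖x‖ := by
  have h := L.Eh_pyth a x x
  rw [add_sub_cancel] at h
  nlinarith [norm_nonneg (L.Eh a x), norm_nonneg x, sq_nonneg ‖x - L.Eh a x‖]

/-- the operator which is `U` on the labels `a` and the identity elsewhere -/
noncomputable def blk (a : B) (U : St F) (h : ∀ x, U (L.Eh a x) = L.Eh a (U x)) : St F where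
  toFun x := L.Eh a (U x) + (x - L.Eh a x)
  invFun x := L.Eh a (U.symm x) + (x - L.Eh a x)
  map_add' x y := by simp only [map_add]; abel
  map_smul' c x := by simp only [map_smul, RingHom.id_apply, smul_add, smul_sub]
  left_inv x := by
    have h' : ∀ x, U.symm (L.Eh a x) = L.Eh a (U.symm x) := by
      intro x
      apply U.injective
      rw [U.apply_symm_apply, h, U.apply_symm_apply]
    change L.Eh a (U.symm (L.Eh a (U x) + (x - L.Eh a x))) +
      ((L.Eh a (U x) + (x - L.Eh a x)) - L.Eh a (L.Eh a (U x) + (x - L.Eh a x))) = x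
    simp only [map_add, map_sub, h', L.Eh_idem, U.symm_apply_apply]
    abel
  right_inv x := by
    change L.Eh a (U (L.Eh a (U.symm x) + (x - L.Eh a x))) +
      ((L.Eh a (U.symm x) + (x - L.Eh a x)) - L.Eh a (L.Eh a (U.symm x) + (x - L.Eh a x))) = x
    simp only [map_add, map_sub, h, L.Eh_idem, U.apply_symm_apply]
    abel
  norm_map' x := by
    refine (sq_eq_sq₀ (norm_nonneg _) (norm_nonneg _)).1 ?_
    change ‖L.Eh a (U x) + (x - L.Eh a x)‖ ^ 2 = ‖x‖ ^ 2
    rw [L.Eh_pyth, ← h, U.norm_map, ← L.Eh_pyth, add_sub_cancel]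

lemma blk_apply (a : B) (U : St F) (h : ∀ x, U (L.Eh a x) = L.Eh a (U x)) (x : HH F) :
    L.blk a U h x = L.Eh a (U x) + (x - L.Eh a x) := rfl

lemma xr_Eh (a : B) (b : ℝ) (x : HH F) : xr b (L.Eh a x) = L.Eh a (xr b x) := by
  refine HH_ext ?_ ?_
  · change (Real.cos b : ℂ) • L.E a x.fst - (Complex.I * (Real.sin b : ℂ)) • L.E a x.snd
      = L.E a ((Real.cos b : ℂ) • x.fst - (Complex.I * (Real.sin b : ℂ)) • x.snd)
    rw [map_sub, map_smul, map_smul]
  · change -((Complex.I * (Real.sin b : ℂ)) • L.E a x.fst) + (Real.cos b : ℂ) • L.E a x.snd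
      = L.E a (-((Complex.I * (Real.sin b : ℂ)) • x.fst) + (Real.cos b : ℂ) • x.snd)
    rw [map_add, map_neg, map_smul, map_smul]

/-- scalar of modulus one -/
noncomputable def phs (t : ℝ) : F ≃ₗᵢ[ℂ] F where
  toFun x := Complex.exp (Complex.I * t) • x
  invFun x := Complex.exp (-(Complex.I * t)) • x
  map_add' x y := smul_add _ _ _
  map_smul' c x := by simp only [RingHom.id_apply, smul_smul, mul_comm]
  left_inv x := by
    change Complex.exp (-(Complex.I * t)) • (Complex.exp (Complex.I * t) • x) = x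
    rw [smul_smul, ← Complex.exp_add, neg_add_cancel, Complex.exp_zero, one_smul]
  right_inv x := by
    change Complex.exp (Complex.I * t) • (Complex.exp (-(Complex.I * t)) • x) = x
    rw [smul_smul, ← Complex.exp_add, add_neg_cancel, Complex.exp_zero, one_smul]
  norm_map' x := by
    change ‖Complex.exp (Complex.I * t) • x‖ = ‖x‖
    rw [norm_smul, mul_comm Complex.I, Complex.norm_exp_ofReal_mul_I, one_mul]

lemma phs_apply (t : ℝ) (x : F) : phs t x = Complex.exp (Complex.I * t) • x := rfl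

/-- `exp(-i t Z)` -/
noncomputable def zs (F : Type) [NormedAddCommGroup F] [InnerProductSpace ℂ F] (t : ℝ) : St F :=
  dg (phs (-t)) (phs t)

lemma zs_Eh (a : B) (t : ℝ) (x : HH F) : zs F t (L.Eh a x) = L.Eh a (zs F t x) := by
  refine HH_ext ?_ ?_
  · change phs (-t) (L.E a x.fst) = L.E a (phs (-t) x.fst)
    rw [phs_apply, phs_apply, map_smul]
  · change phs t (L.E a x.snd) = L.E a (phs t x.snd)
    rw [phs_apply, phs_apply, map_smul]

end LW

/-- gates of the labelled model: couplings and label dependent spin rotations -/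
inductive LGate (B : Type) : Type
  | C (g : ℝ) : LGate B
  | X (a : B) (t : ℝ) : LGate B
  | Z (a : B) (t : ℝ) : LGate B

namespace LW

variable {F K B : Type} [NormedAddCommGroup F] [InnerProductSpace ℂ F]
    [NormedAddCommGroup K] [InnerProductSpace ℂ K] [BooleanAlgebra B] (L : LW F K B)

/-- action of a gate on a state -/
noncomputable def lstep : LGate B → St F → St F
  | LGate.C g, V => V.trans (L.zr ((g : ℂ) • L.iota (L.xv V)))
  | LGate.X a t, V => V.trans (L.blk a (xr t) (L.xr_Eh a t))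
  | LGate.Z a t, V => V.trans (L.blk a (zs F t) (L.zs_Eh a t))

/-- action of a word (the head is the last gate) -/
noncomputable def lrun : List (LGate B) → St F → St F
  | [], V => V
  | g :: w, V => L.lstep g (lrun w V)

/-- reachable states -/
noncomputable def lev (w : List (LGate B)) : St F := L.lrun w (LinearIsometryEquiv.refl ℂ (HH F))

end LW

end Vale.Agent.P367.B
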