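import Vale.Agent.P367.B.LBase
import Vale.Agent.P367.NI.Top

/-! P367, block B: value statement in a label system and the final assembly of block B. -/

namespace Vale.Agent.P367.A

open Complex Filter Topology MeasureTheory ProbabilityTheory

namespace LSys

variable {H K : Type*} [NormedAddCommGroup H] [InnerProductSpace ℂ H]
  [NormedAddCommGroup K] [InnerProductSpace ℂ K] (L : LSys H K)

/-- VALUE: tower data whose final state has energy at least `P - ε`. -/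
def ValueStmt (J : K → H) (P : ℝ) : Prop :=
  ∀ ε : ℝ, 0 < ε → ∃ (G : Set ℝ) (n : ℕ) (m : ℕ → ℕ) (sg : (k : ℕ) → Fin (m k) → (H →L[ℂ] H))
    (c : (k : ℕ) → Fin (m k) → ℝ) (y : ℕ → K) (Th : H →L[ℂ] H) (U : H ≃ₗᵢ[ℂ] H),
    MeasurableSet G ∧ L.mu Gᶜ ≠ 0 ∧ L.mu.real Gᶜ ≤ ε ∧
    (∀ k < n, y k = L.iota ((∑ i, (c k i : ℂ) • sg k i) L.Om)) ∧
    (∀ k < n, ∀ i, L.Sgn G (L.alg y k) (sg k i)) ∧
    Th ∈ L.alg y n ∧ Sa Th ∧ Th * L.E G = Th ∧ L.IsRot Th 1 U ∧
    P - ε ≤ L.En J (L.E G (L.xv U))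

lemma fin_E_idem {b : Set ℝ} (hb : MeasurableSet b) (x : H) : L.E b (L.E b x) = L.E b x := by
  have hB : Bm (b.indicator fun _ => (1 : ℂ)) := by
    refine ⟨measurable_const.indicator hb, 1, fun t => ?_⟩
    by_cases h : t ∈ b
    · simp [Set.indicator_of_mem h]
    · simp [Set.indicator_of_notMem h]
  have h1 := L.lab_mul _ _ hB hB
  have h2 : (fun t => b.indicator (fun _ => (1 : ℂ)) t * b.indicator (fun _ => (1 : ℂ)) t)
      = b.indicator (fun _ => (1 : ℂ)) := by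
    funext t
    by_cases h : t ∈ b
    · simp [Set.indicator_of_mem h]
    · simp [Set.indicator_of_notMem h]
  rw [h2] at h1
  have h3 := congrArg (fun T : H →L[ℂ] H => T x) h1
  simpa [E] using h3.symm

lemma fin_E_norm_le {b : Set ℝ} (hb : MeasurableSet b) (x : H) : ‖L.E b x‖ ≤ ‖x‖ := by
  have hB : Bm (b.indicator fun _ => (1 : ℂ)) := by
    refine ⟨measurable_const.indicator hb, 1, fun t => ?_⟩
    by_cases h : t ∈ b
    · simp [Set.indicator_of_mem h]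
    · simp [Set.indicator_of_notMem h]
  have h1 := L.lab_adj _ hB x (L.E b x)
  have h2 : (fun t => (starRingEnd ℂ) (b.indicator (fun _ => (1 : ℂ)) t))
      = b.indicator (fun _ => (1 : ℂ)) := by
    funext t
    by_cases h : t ∈ b
    · simp [Set.indicator_of_mem h]
    · simp [Set.indicator_of_notMem h]
  rw [h2] at h1
  change inner ℂ (L.E b x) (L.E b x) = inner ℂ x (L.E b (L.E b x)) at h1
  rw [L.fin_E_idem hb] at h1
  have h3 : ‖L.E b x‖ ^ 2 ≤ ‖x‖ * ‖L.E b x‖ := by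
    have h4 : ‖(inner ℂ (L.E b x) (L.E b x) : ℂ)‖ = ‖L.E b x‖ ^ 2 := by
      rw [inner_self_eq_norm_sq_to_K, norm_pow]
      simp
    rw [← h4, h1]
    exact norm_inner_le_norm _ _
  rcases eq_or_lt_of_le (norm_nonneg (L.E b x)) with h | h
  · rw [← h]; exact norm_nonneg _
  · nlinarith

/-- **final assembly of block B** -/
theorem hB_of {F K0 : Type} [NormedAddCommGroup F] [InnerProductSpace ℂ F]
    [NormedAddCommGroup K0] [InnerProductSpace ℂ K0] (S : NI.Weyl F K0) (J : K → H)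
    (hL : L.IsBase S J) (hT : L.TowerStmt) {P : ℝ} (hV : L.ValueStmt J P) {d : ℝ} (hd : 0 < d) :
    ∃ W : List NI.Gate, P - d ≤ S.energy W := by
  obtain ⟨s, hs0, hs1, hs⟩ : ∃ s : ℝ, 0 < s ∧ s ≤ 1 ∧ s + 2 * (s + Real.sqrt s + s) ≤ d := by
    have h1 : Tendsto (fun s : ℝ => s + 2 * (s + Real.sqrt s + s)) (𝓝[>] 0) (𝓝 0) := by
      have h2 : Continuous fun s : ℝ => s + 2 * (s + Real.sqrt s + s) := by fun_prop
      have h3 := h2.tendsto 0
      simp only [Real.sqrt_zero, add_zero, mul_zero] at h3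
      exact h3.mono_left nhdsWithin_le_nhds
    have h4 := (h1.eventually (ge_mem_nhds hd)).and
      ((eventually_le_nhds (show (0 : ℝ) < 1 by norm_num)).filter_mono nhdsWithin_le_nhds)
    obtain ⟨s, ⟨h5, h6⟩, h7⟩ := (h4.and self_mem_nhdsWithin).exists
    exact ⟨s, h7, h6, h5⟩
  obtain ⟨G, n, m, sg, c, y, Th, U, hG, hG0, hGs, hy, hsg, hTh, hSa, hThG, hU, hval⟩ := hV s hs0
  obtain ⟨Rch, hcl, hst, hex⟩ := hL.reach G hG
  obtain ⟨R, V, hRV, hx⟩ := hT G Rch hG hG0 hcl hst n m sg c y hy hsg Th hTh hSa hThG U hU s hs0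
  have hn : ‖L.E G (L.xv U)‖ ≤ 1 := by
    refine (L.fin_E_norm_le hG _).trans ?_
    unfold Sys.xv
    rw [LinearIsometryEquiv.norm_map, LinearIsometryEquiv.norm_map, LinearIsometryEquiv.norm_map,
      L.nOm]
  obtain ⟨w, hw⟩ := hex G R V hRV (L.E G (L.xv U)) hn (L.fin_E_idem hG _) s hs0
  refine ⟨w, ?_⟩
  have h8 : Real.sqrt (L.mu.real Gᶜ) ≤ Real.sqrt s := Real.sqrt_le_sqrt hGs
  linarith

end LSys

end Vale.Agent.P367.A
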