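import Vale.Agent.P367.B.LUS

/-! P367, block B: the reserve along a chain of batches (Res). -/

namespace Vale.Agent.P367.A

open Complex Filter Topology MeasureTheory

namespace LSys

variable {H K : Type*} [NormedAddCommGroup H] [InnerProductSpace ℂ H]
  [NormedAddCommGroup K] [InnerProductSpace ℂ K] (L : LSys H K)

/-- one-particle modes of a label block -/
noncomputable def res_modes (b : Set ℝ) : Submodule ℂ K :=
  LinearMap.range (L.iota.toLinearMap ∘ₗ (L.E b).toLinearMap)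

lemma res_mem (b : Set ℝ) (x : H) : L.iota (L.E b x) ∈ L.res_modes b := ⟨x, rfl⟩

lemma res_fv_mem (Q : H ≃ₗᵢ[ℂ] H) (b : Set ℝ) (V : H ≃ₗᵢ[ℂ] H) : L.fv Q b V ∈ L.res_modes b :=
  ⟨V⁻¹ (Q (V L.Om)), rfl⟩

lemma res_orth {a b : Set ℝ} (ha : MeasurableSet a) (hb : MeasurableSet b) (h : Disjoint a b)
    {v w : K} (hv : v ∈ L.res_modes a) (hw : w ∈ L.res_modes b) : (inner ℂ v w : ℂ) = 0 := by
  obtain ⟨x, rfl⟩ := hv
  obtain ⟨y, rfl⟩ := hw
  change (inner ℂ (L.iota (L.E a x)) (L.iota (L.E b y)) : ℂ) = 0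
  rw [L.iota.inner_map_map]
  exact L.inner_E_dis ha hb h x y

lemma res_zr_SW {x : H} (hx : x ∈ B.LKS.SW L.toSys) (v : K) : L.zr v x ∈ B.LKS.SW L.toSys :=
  B.LKS.SW.mapzr hx v

/-- the kick of one batch on the reserve -/
noncomputable def kick (c : ℂ) (v q : K) (x : H) : H :=
  c • L.zr v (L.pw (L.pau 1) q (L.zr (-v) x))

lemma kick_E (c : ℂ) (v q : K) (r : Set ℝ) (x : H) :
    L.E r (L.kick c v q x) = L.kick c v q (L.E r x) := by
  unfold kick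
  rw [map_smul, L.E_zr, L.E_pw, L.E_zr]

lemma kick_smul (c : ℂ) (v q : K) (d : ℂ) (x : H) : L.kick c v q (d • x) = d • L.kick c v q x := by
  unfold kick
  rw [map_smul, L.pw_smul, map_smul, smul_comm]

lemma norm_kick {c : ℂ} (hc : ‖c‖ = 1) (v q : K) (x : H) : ‖L.kick c v q x‖ = ‖x‖ := by
  unfold kick
  rw [norm_smul, hc, one_mul, LinearIsometryEquiv.norm_map, L.norm_pw,
    LinearIsometryEquiv.norm_map]

lemma kick_par {N : Submodule ℂ K} (c : ℂ) {v q : K} (hv : v ∈ N) (hq : q ∈ N) :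
    B.LKS.IsPar L.toSys N (L.kick c v q) := by
  have h1 : B.LKS.IsPar L.toSys N (fun x => L.zr v (L.pul (-(Real.pi / 4)) q (L.zr (-v) x))) :=
    B.LKS.IsPar.comp (U := L.zr v) (V := fun x => L.pul (-(Real.pi / 4)) q (L.zr (-v) x))
      (B.LKS.IsPar.zr hv) (B.LKS.IsPar.comp (U := L.pul (-(Real.pi / 4)) q) (V := L.zr (-v))
        (B.LKS.IsPar.pul _ hq) (B.LKS.IsPar.zr (N.neg_mem hv)))
  have h2 : B.LKS.IsPar L.toSys N (fun x => c • x) :=
    B.LKS.IsPar.rotX N c 0 fun x => by rw [zero_smul, add_zero]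
  have h3 := B.LKS.IsPar.comp h2 h1
  have e : L.kick c v q = fun x => c • L.zr v (L.pul (-(Real.pi / 4)) q (L.zr (-v) x)) := by
    funext x
    unfold kick
    rw [L.pw_one]
  rw [e]
  exact h3

lemma kick_SW (c : ℂ) (v q : K) {x : H} (hx : x ∈ B.LKS.SW L.toSys) :
    L.kick c v q x ∈ B.LKS.SW L.toSys := by
  unfold kick
  rw [L.pw_one]
  exact Submodule.smul_mem _ _ (B.LKS.SW.mapzr (B.LKS.SW.mappul (B.LKS.SW.mapzr hx _) _ _) _)

lemma norm_kick_Om_sub {c : ℂ} (hc : ‖c‖ = 1) (v q : K) :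
    ‖L.kick c v q L.Om - c • L.Om‖ ^ 2 ≤ 2 * (‖q‖ ^ 2 * (1 + 4 * ‖v‖ ^ 2)) := by
  have h := B.LKS.norm_kick_sub (S := L.toSys) (-(Real.pi / 4)) (-v) q
  rw [neg_neg, norm_neg] at h
  unfold kick
  rw [← smul_sub, norm_smul, hc, one_mul, L.pw_one]
  exact h

/-- **(Res)**: along a chain of kicks by disjoint batches the reserve vector stays a phase times
the initial one. -/
theorem res_chain {r : Set ℝ} (hr : MeasurableSet r) {n : ℕ} {b : ℕ → Set ℝ}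
    (hb : ∀ i < n, MeasurableSet (b i)) (hd : ∀ i j, i < j → j < n → Disjoint (b i) (b j))
    {v q : ℕ → K} (hv : ∀ i < n, v i ∈ L.res_modes (b i)) (hq : ∀ i < n, q i ∈ L.res_modes (b i))
    {c : ℕ → ℂ} (hc : ∀ i < n, ‖c i‖ = 1) {V : ℕ → (H ≃ₗᵢ[ℂ] H)}
    (h0 : ∀ x, L.E r (V 0 x) = L.E r x)
    (hs : ∀ i < n, ∀ x, L.E r (V (i + 1) x) = L.kick (c i) (v i) (q i) (L.E r (V i x)))
    (m : ℕ) (hm : m ≤ n) : ∃ θ : ℂ, ‖θ‖ = 1 ∧ ‖L.E r (V m L.Om) - θ • L.E r L.Om‖ ^ 2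
      ≤ L.mu.real r * (4 * ∑ i ∈ Finset.range m, ‖q i‖ ^ 2 * (1 + 4 * ‖v i‖ ^ 2)) := by
  have h1 : ∀ k ≤ n, ∀ x, L.E r (V k x)
      = L.E r (B.LKS.cmp (fun i => L.kick (c i) (v i) (q i)) k x) := by
    intro k
    induction k with
    | zero => intro _ x; exact h0 x
    | succ k ih =>
      intro hk x
      rw [hs k (by omega), ih (by omega), ← L.kick_E]
      rfl
  have h2 : ∀ k ≤ n, B.LKS.cmp (fun i => L.kick (c i) (v i) (q i)) k L.Om ∈ B.LKS.SW L.toSys := by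
    intro k hk
    exact B.LKS.SW.cmp (n := n) (fun i _ x hx => L.kick_SW _ _ _ hx) B.LKS.SW.Om k hk
  obtain ⟨θ, hθ, h3⟩ := B.LKS.leakage (S := L.toSys) (L := fun i => L.res_modes (b i)) (n := n)
    (U := fun i => L.kick (c i) (v i) (q i))
    (fun i j hij hj v' hv' w' hw' => L.res_orth (hb i (by omega)) (hb j hj) (hd i j hij hj) hv' hw')
    (fun i hi => L.kick_par (c i) (hv i hi) (hq i hi)) (fun i hi x => L.norm_kick (hc i hi) _ _ x)
    c m hm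
  refine ⟨θ, hθ, ?_⟩
  rw [h1 m hm, ← map_smul, ← map_sub]
  have h4 : B.LKS.cmp (fun i => L.kick (c i) (v i) (q i)) m L.Om - θ • L.Om ∈ B.LKS.SW L.toSys :=
    Submodule.sub_mem _ (h2 m hm) (Submodule.smul_mem _ _ B.LKS.SW.Om)
  rw [L.norm_E_SW hr h4]
  refine mul_le_mul_of_nonneg_left (h3.trans ?_) measureReal_nonneg
  have h5 : ∑ i ∈ Finset.range m, ‖L.kick (c i) (v i) (q i) L.Om - c i • L.Om‖ ^ 2
      ≤ ∑ i ∈ Finset.range m, 2 * (‖q i‖ ^ 2 * (1 + 4 * ‖v i‖ ^ 2)) := by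
    refine Finset.sum_le_sum fun i hi => ?_
    exact L.norm_kick_Om_sub (hc i (by have := Finset.mem_range.1 hi; omega)) _ _
  rw [← Finset.mul_sum] at h5
  change 2 * ∑ i ∈ Finset.range m, ‖L.kick (c i) (v i) (q i) L.Om - c i • L.Om‖ ^ 2 ≤ _
  linarith

/-- the two quadratures of the reserve are rotated by `-i` -/
lemma res_fv_YZ {r : Set ℝ} {V : H ≃ₗᵢ[ℂ] H} (hV : ∀ x, L.E r (V x) = V (L.E r x)) (θ : ℂ) :
    ‖L.fv (L.pau 1) r V + Complex.I • L.fv (L.pau 2) r V‖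
      ≤ 2 * ‖L.E r (V L.Om) - θ • L.E r L.Om‖ := by
  have hV' : ∀ x, L.E r (V⁻¹ x) = V⁻¹ (L.E r x) := by
    intro x
    apply V.injective
    rw [← hV, Sys.Ainv, Sys.Ainv]
  unfold fv
  rw [← map_smul, ← map_add, L.norm_iota, ← map_smul, ← map_add, ← map_smul, ← map_add, hV',
    LinearIsometryEquiv.norm_map]
  have e : L.pau 1 (V L.Om) + Complex.I • L.pau 2 (V L.Om)
      = Complex.I • L.Z (V L.Om - L.X (V L.Om)) := by
    rw [L.pau_one, L.pau_two, L.Zt_apply, L.xr_apply, L.XZ,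
      show 2 * -(Real.pi / 4) = -(Real.pi / 2) by ring, Real.cos_neg, Real.sin_neg,
      Real.cos_pi_div_two, Real.sin_pi_div_two, map_sub]
    push_cast
    module
  rw [e, map_smul, norm_smul, Complex.norm_I, one_mul, L.E_Z, LinearIsometryEquiv.norm_map]
  have h1 : L.E r (V L.Om - L.X (V L.Om)) = (L.E r (V L.Om) - θ • L.E r L.Om)
      - L.X (L.E r (V L.Om) - θ • L.E r L.Om) := by
    rw [map_sub, L.E_X, map_sub, map_smul, ← L.E_X, ← L.E_X, L.XOm]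
    abel
  rw [h1]
  refine (norm_sub_le _ _).trans ?_
  rw [LinearIsometryEquiv.norm_map, two_mul]

lemma norm_fv {b : Set ℝ} (hb : MeasurableSet b) (Q : H ≃ₗᵢ[ℂ] H) {V : H ≃ₗᵢ[ℂ] H}
    (hV : ∀ x, L.E b (V x) = V (L.E b x)) (hQ : ∀ x, L.E b (Q x) = Q (L.E b x)) :
    ‖L.fv Q b V‖ ^ 2 = L.mu.real b := by
  have hV' : ∀ x, L.E b (V⁻¹ x) = V⁻¹ (L.E b x) := by
    intro x
    apply V.injective
    rw [← hV, Sys.Ainv, Sys.Ainv]
  unfold fv
  rw [L.norm_iota, hV', LinearIsometryEquiv.norm_map, hQ, LinearIsometryEquiv.norm_map, hV,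
    LinearIsometryEquiv.norm_map, L.norm_E_Om hb]

end LSys

end Vale.Agent.P367.A
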