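import Vale.Agent.P367.NI.Soft

/-! P367 block B: parity and leakage of the reserve. -/

namespace Vale.Agent.P367.B

open Complex Vale.Agent.P367.NI

variable {F K : Type} [NormedAddCommGroup F] [InnerProductSpace ℂ F]
  [NormedAddCommGroup K] [InnerProductSpace ℂ K] (S : Weyl F K)

/-- linear map of a Weyl operator -/
noncomputable def Wl (a : K) : F →ₗ[ℂ] F := (S.W a).toLinearEquiv.toLinearMap

lemma Wl_apply (a : K) (x : F) : Wl S a x = S.W a x := rfl

/-- even (`s = 1`) or odd (`s = -1`) combinations of Weyl operators with labels in `L` -/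
def Eo (L : Submodule ℂ K) (s : ℂ) : Submodule ℂ (F →ₗ[ℂ] F) :=
  Submodule.span ℂ {A | ∃ v ∈ L, A = Wl S v + s • Wl S (-v)}

variable {S}

lemma Eo.mem {L : Submodule ℂ K} {v : K} (hv : v ∈ L) (s : ℂ) :
    Wl S v + s • Wl S (-v) ∈ Eo S L s := Submodule.subset_span ⟨v, hv, rfl⟩

lemma Wl_comp (a b : K) : Wl S a ∘ₗ Wl S b
    = Complex.exp (-(Complex.I * ((inner ℂ a b).im : ℂ))) • Wl S (a + b) := by
  ext x
  simp only [LinearMap.comp_apply, LinearMap.smul_apply, Wl_apply, S.W_mul]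

lemma Wl_comp_neg (a b : K) : Wl S (-a) ∘ₗ Wl S (-b)
    = Complex.exp (-(Complex.I * ((inner ℂ a b).im : ℂ))) • Wl S (-(a + b)) := by
  rw [Wl_comp, inner_neg_neg, neg_add]

lemma Wl_comp_neg_left (a b : K) : Wl S (-a) ∘ₗ Wl S b
    = Complex.exp (Complex.I * ((inner ℂ a b).im : ℂ)) • Wl S (-(a - b)) := by
  rw [Wl_comp, inner_neg_left]
  congr 2
  · simp
  · abel_nf

lemma Wl_comp_neg_right (a b : K) : Wl S a ∘ₗ Wl S (-b)
    = Complex.exp (Complex.I * ((inner ℂ a b).im : ℂ)) • Wl S (a - b) := by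
  rw [Wl_comp, inner_neg_right]
  congr 2
  · simp
  · abel_nf

/-- products of even and odd elements -/
lemma Eo.comp {L : Submodule ℂ K} {s t : ℂ} (ht : t * t = 1)
    {A B : F →ₗ[ℂ] F} (hA : A ∈ Eo S L s) (hB : B ∈ Eo S L t) : A ∘ₗ B ∈ Eo S L (s * t) := by
  induction hA using Submodule.span_induction with
  | mem A hA =>
    obtain ⟨v, hv, rfl⟩ := hA
    induction hB using Submodule.span_induction with
    | mem B hB =>
      obtain ⟨w, hw, rfl⟩ := hB
      have e : (Wl S v + s • Wl S (-v)) ∘ₗ (Wl S w + t • Wl S (-w))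
          = Complex.exp (-(Complex.I * ((inner ℂ v w).im : ℂ))) •
              (Wl S (v + w) + (s * t) • Wl S (-(v + w)))
            + (t * Complex.exp (Complex.I * ((inner ℂ v w).im : ℂ))) •
              (Wl S (v - w) + (s * t) • Wl S (-(v - w))) := by
        simp only [LinearMap.add_comp, LinearMap.comp_add, LinearMap.smul_comp,
          LinearMap.comp_smul]
        rw [Wl_comp v w, Wl_comp_neg v w, Wl_comp_neg_left, Wl_comp_neg_right]
        generalize Complex.exp (-(Complex.I * ((inner ℂ v w).im : ℂ))) = e1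
        generalize Complex.exp (Complex.I * ((inner ℂ v w).im : ℂ)) = e2
        have h3 : s * e2 = t * e2 * (s * t) := by linear_combination -(s * e2) * ht
        have h4 : s • (e2 • Wl S (-(v - w))) = (t * e2) • ((s * t) • Wl S (-(v - w))) := by
          rw [smul_smul, smul_smul, h3]
        rw [h4]
        module
      rw [e]
      exact Submodule.add_mem _ (Submodule.smul_mem _ _ (Eo.mem (L.add_mem hv hw) _))
        (Submodule.smul_mem _ _ (Eo.mem (L.sub_mem hv hw) _))
    | zero => simp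
    | add B C _ _ hB hC => rw [LinearMap.comp_add]; exact Submodule.add_mem _ hB hC
    | smul c B _ hB => rw [LinearMap.comp_smul]; exact Submodule.smul_mem _ _ hB
  | zero => simp
  | add A C _ _ hA hC => rw [LinearMap.add_comp]; exact Submodule.add_mem _ hA hC
  | smul c A _ hA => rw [LinearMap.smul_comp]; exact Submodule.smul_mem _ _ hA

lemma Eo.mono {L L' : Submodule ℂ K} (h : L ≤ L') (s : ℂ) : Eo S L s ≤ Eo S L' s := by
  refine Submodule.span_mono ?_
  rintro _ ⟨v, hv, rfl⟩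
  exact ⟨v, h hv, rfl⟩

/-- odd elements have no vacuum expectation -/
lemma Eo.odd {L : Submodule ℂ K} {A : F →ₗ[ℂ] F} (hA : A ∈ Eo S L (-1)) :
    inner ℂ S.Om (A S.Om) = 0 := by
  induction hA using Submodule.span_induction with
  | mem A hA =>
    obtain ⟨v, hv, rfl⟩ := hA
    simp only [LinearMap.add_apply, LinearMap.smul_apply, Wl_apply, inner_add_right,
      inner_smul_right, S.vac, norm_neg]
    ring
  | zero => simp
  | add A C _ _ hA hC => rw [LinearMap.add_apply, inner_add_right, hA, hC, add_zero]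
  | smul c A _ hA => rw [LinearMap.smul_apply, inner_smul_right, hA, mul_zero]

/-- factorisation of vacuum expectations over orthogonal labels -/
lemma Eo.factor {L L' : Submodule ℂ K} (hL : ∀ v ∈ L, ∀ w ∈ L', inner ℂ v w = 0) {s t : ℂ}
    {A B : F →ₗ[ℂ] F} (hA : A ∈ Eo S L s) (hB : B ∈ Eo S L' t) :
    inner ℂ S.Om (A (B S.Om)) = inner ℂ S.Om (A S.Om) * inner ℂ S.Om (B S.Om) := by
  have h0 : ∀ v ∈ L, ∀ w ∈ L', inner ℂ S.Om (S.W v (S.W w S.Om))
      = inner ℂ S.Om (S.W v S.Om) * inner ℂ S.Om (S.W w S.Om) := by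
    intro v hv w hw
    rw [S.W_mul, hL v hv w hw, inner_smul_right, S.vac, S.vac, S.vac, ← Complex.exp_add,
      ← Complex.exp_add]
    congr 1
    have h1 := @norm_add_sq ℂ K _ _ _ v w
    rw [hL v hv w hw] at h1
    rw [h1]
    push_cast
    simp
    ring
  induction hA using Submodule.span_induction with
  | mem A hA =>
    obtain ⟨v, hv, rfl⟩ := hA
    induction hB using Submodule.span_induction with
    | mem B hB =>
      obtain ⟨w, hw, rfl⟩ := hB
      simp only [LinearMap.add_apply, LinearMap.smul_apply, Wl_apply, inner_add_right,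
        inner_smul_right, map_add, map_smul, smul_add]
      rw [h0 v hv w hw, h0 v hv (-w) (L'.neg_mem hw), h0 (-v) (L.neg_mem hv) w hw,
        h0 (-v) (L.neg_mem hv) (-w) (L'.neg_mem hw)]
      ring
    | zero => simp
    | add B C _ _ hB hC =>
      rw [LinearMap.add_apply B C, map_add, inner_add_right, hB, hC, inner_add_right]; ring
    | smul c B _ hB =>
      rw [LinearMap.smul_apply c B, map_smul, inner_smul_right, hB, inner_smul_right]; ring
  | zero => simp
  | add A C _ _ hA hC =>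
    rw [LinearMap.add_apply, inner_add_right, hA, hC, LinearMap.add_apply, inner_add_right]; ring
  | smul c A _ hA =>
    rw [LinearMap.smul_apply, inner_smul_right, hA, LinearMap.smul_apply, inner_smul_right]; ring

variable (S)

/-- operators on the one-site space which commute with `Z (-1)^N` and only touch the modes `L` -/
structure Par (L : Submodule ℂ K) (U : HH F → HH F) (a b c d : F →ₗ[ℂ] F) : Prop where
  ha : a ∈ Eo S L 1
  hb : b ∈ Eo S L (-1)
  hc : c ∈ Eo S L (-1)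
  hd : d ∈ Eo S L 1
  h1 : ∀ x, (U x).fst = a x.fst + b x.snd
  h2 : ∀ x, (U x).snd = c x.fst + d x.snd

/-- the vector `|up> (x) vac` -/
noncomputable def up : HH F := WithLp.toLp 2 (S.Om, 0)

variable {S}

@[simp] lemma up_fst : (up S).fst = S.Om := rfl
@[simp] lemma up_snd : (up S).snd = 0 := rfl

lemma norm_up : ‖up S‖ = 1 := by
  have h := normsq_HH (up S)
  rw [up_fst, up_snd, S.norm_Om, norm_zero] at h
  nlinarith [norm_nonneg (up S)]

lemma inner_up (x : HH F) : inner ℂ (up S) x = inner ℂ S.Om x.fst := by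
  rw [inner_HH, up_fst, up_snd, inner_zero_left, add_zero]

lemma Par.comp {L : Submodule ℂ K} {U V : HH F → HH F} {a b c d a' b' c' d' : F →ₗ[ℂ] F}
    (hU : Par S L U a b c d) (hV : Par S L V a' b' c' d') :
    Par S L (fun x => U (V x)) (a ∘ₗ a' + b ∘ₗ c') (a ∘ₗ b' + b ∘ₗ d') (c ∘ₗ a' + d ∘ₗ c')
      (c ∘ₗ b' + d ∘ₗ d') := by
  have p : (1 : ℂ) * 1 = 1 := by ring
  have m : (-1 : ℂ) * (-1) = 1 := by ring
  have pm : (1 : ℂ) * (-1) = -1 := by ring
  have mp : (-1 : ℂ) * 1 = -1 := by ring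
  constructor
  · have h1 := Eo.comp p hU.ha hV.ha
    have h2 := Eo.comp m hU.hb hV.hc
    rw [p] at h1; rw [m] at h2
    exact Submodule.add_mem _ h1 h2
  · have h1 := Eo.comp m hU.ha hV.hb
    have h2 := Eo.comp p hU.hb hV.hd
    rw [pm] at h1; rw [mp] at h2
    exact Submodule.add_mem _ h1 h2
  · have h1 := Eo.comp p hU.hc hV.ha
    have h2 := Eo.comp m hU.hd hV.hc
    rw [mp] at h1; rw [pm] at h2
    exact Submodule.add_mem _ h1 h2
  · have h1 := Eo.comp m hU.hc hV.hb
    have h2 := Eo.comp p hU.hd hV.hd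
    rw [m] at h1; rw [p] at h2
    exact Submodule.add_mem _ h1 h2
  · intro x
    rw [hU.h1, hV.h1, hV.h2]
    simp only [map_add, LinearMap.add_apply, LinearMap.comp_apply]
    abel
  · intro x
    rw [hU.h2, hV.h1, hV.h2]
    simp only [map_add, LinearMap.add_apply, LinearMap.comp_apply]
    abel

lemma Par.mono {L L' : Submodule ℂ K} (h : L ≤ L') {U : HH F → HH F} {a b c d : F →ₗ[ℂ] F}
    (hU : Par S L U a b c d) : Par S L' U a b c d :=
  ⟨Eo.mono h _ hU.ha, Eo.mono h _ hU.hb, Eo.mono h _ hU.hc, Eo.mono h _ hU.hd, hU.h1, hU.h2⟩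

/-- multiplicativity of the `up` expectation over orthogonal modes -/
lemma Par.factor {L L' : Submodule ℂ K} (hL : ∀ v ∈ L, ∀ w ∈ L', inner ℂ v w = 0)
    {U V : HH F → HH F} {a b c d a' b' c' d' : F →ₗ[ℂ] F}
    (hU : Par S L U a b c d) (hV : Par S L' V a' b' c' d') :
    inner ℂ (up S) (U (V (up S))) = inner ℂ (up S) (U (up S)) * inner ℂ (up S) (V (up S)) := by
  have e1 : (V (up S)).fst = a' S.Om := by rw [hV.h1, up_fst, up_snd, map_zero, add_zero]
  have e2 : (V (up S)).snd = c' S.Om := by rw [hV.h2, up_fst, up_snd, map_zero, add_zero]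
  have e3 : (U (up S)).fst = a S.Om := by rw [hU.h1, up_fst, up_snd, map_zero, add_zero]
  rw [inner_up, inner_up, inner_up, hU.h1, e1, e2, e3, inner_add_right,
    Eo.factor hL hU.ha hV.ha, Eo.factor hL hU.hb hV.hc, Eo.odd hU.hb, zero_mul, add_zero]

lemma Eo.one (L : Submodule ℂ K) : (LinearMap.id : F →ₗ[ℂ] F) ∈ Eo S L 1 := by
  have h := Eo.mem (S := S) (L := L) L.zero_mem 1
  have e : (LinearMap.id : F →ₗ[ℂ] F) = (1 / 2 : ℂ) • (Wl S 0 + (1 : ℂ) • Wl S (-0)) := by
    ext x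
    simp only [LinearMap.id_apply, LinearMap.smul_apply, LinearMap.add_apply, Wl_apply, neg_zero,
      S.W_zero]
    module
  rw [e]
  exact Submodule.smul_mem _ _ h

/-- scalar diagonal operators -/
lemma Par.diag (L : Submodule ℂ K) {U : HH F → HH F} {c1 c2 : ℂ}
    (h1 : ∀ x, (U x).fst = c1 • x.fst) (h2 : ∀ x, (U x).snd = c2 • x.snd) :
    Par S L U (c1 • LinearMap.id) 0 0 (c2 • LinearMap.id) where
  ha := Submodule.smul_mem _ _ (Eo.one L)
  hb := Submodule.zero_mem _
  hc := Submodule.zero_mem _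
  hd := Submodule.smul_mem _ _ (Eo.one L)
  h1 x := by rw [h1]; simp
  h2 x := by rw [h2]; simp

/-- pulses `exp(-i P phi(v))` around an axis `P` in the `X-Y` plane -/
lemma Par.pulse {L : Submodule ℂ K} {U : HH F → HH F} {v : K} (hv : v ∈ L) {b1 b2 : ℂ}
    (h1 : ∀ x, (U x).fst = (1 / 2 : ℂ) • (S.W v x.fst + S.W (-v) x.fst)
      + b1 • (S.W v x.snd - S.W (-v) x.snd))
    (h2 : ∀ x, (U x).snd = b2 • (S.W v x.fst - S.W (-v) x.fst)
      + (1 / 2 : ℂ) • (S.W v x.snd + S.W (-v) x.snd)) :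
    Par S L U ((1 / 2 : ℂ) • (Wl S v + (1 : ℂ) • Wl S (-v))) (b1 • (Wl S v + (-1 : ℂ) • Wl S (-v)))
      (b2 • (Wl S v + (-1 : ℂ) • Wl S (-v))) ((1 / 2 : ℂ) • (Wl S v + (1 : ℂ) • Wl S (-v))) where
  ha := Submodule.smul_mem _ _ (Eo.mem hv _)
  hb := Submodule.smul_mem _ _ (Eo.mem hv _)
  hc := Submodule.smul_mem _ _ (Eo.mem hv _)
  hd := Submodule.smul_mem _ _ (Eo.mem hv _)
  h1 x := by
    rw [h1]
    simp only [LinearMap.smul_apply, LinearMap.add_apply, Wl_apply, one_smul]
    module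
  h2 x := by
    rw [h2]
    simp only [LinearMap.smul_apply, LinearMap.add_apply, Wl_apply, one_smul]
    module

variable (S)

/-- `Z (-1)^N`-even operators on the modes `L` -/
def IsPar (L : Submodule ℂ K) (U : HH F → HH F) : Prop := ∃ a b c d, Par S L U a b c d

variable {S}

lemma IsPar.comp {L : Submodule ℂ K} {U V : HH F → HH F} (hU : IsPar S L U) (hV : IsPar S L V) :
    IsPar S L fun x => U (V x) := by
  obtain ⟨a, b, c, d, hU⟩ := hU
  obtain ⟨a', b', c', d', hV⟩ := hV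
  exact ⟨_, _, _, _, hU.comp hV⟩

lemma IsPar.mono {L L' : Submodule ℂ K} (h : L ≤ L') {U : HH F → HH F} (hU : IsPar S L U) :
    IsPar S L' U := by
  obtain ⟨a, b, c, d, hU⟩ := hU
  exact ⟨_, _, _, _, hU.mono h⟩

lemma IsPar.id (L : Submodule ℂ K) : IsPar S L fun x => x :=
  ⟨_, _, _, _, Par.diag (c1 := 1) (c2 := 1) L (fun _ => (one_smul _ _).symm)
    (fun _ => (one_smul _ _).symm)⟩

lemma IsPar.factor {L L' : Submodule ℂ K} (hL : ∀ v ∈ L, ∀ w ∈ L', inner ℂ v w = 0)
    {U V : HH F → HH F} (hU : IsPar S L U) (hV : IsPar S L' V) :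
    inner ℂ (up S) (U (V (up S))) = inner ℂ (up S) (U (up S)) * inner ℂ (up S) (V (up S)) := by
  obtain ⟨a, b, c, d, hU⟩ := hU
  obtain ⟨a', b', c', d', hV⟩ := hV
  exact hU.factor hL hV

/-- `U (n-1) o ... o U 0` -/
noncomputable def cmp (U : ℕ → HH F → HH F) : ℕ → HH F → HH F
  | 0, x => x
  | n + 1, x => U n (cmp U n x)

/-- **Leakage formula**: the vacuum expectation of the composition of block operators on the
reserve is the product of the vacuum expectations. -/
theorem inner_cmp {L : ℕ → Submodule ℂ K} {U : ℕ → HH F → HH F} {n : ℕ}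
    (hL : ∀ i j, i < j → j < n → ∀ v ∈ L i, ∀ w ∈ L j, inner ℂ v w = 0)
    (hU : ∀ i < n, IsPar S (L i) (U i)) :
    inner ℂ (up S) (cmp U n (up S)) = ∏ i ∈ Finset.range n, inner ℂ (up S) (U i (up S)) := by
  have key : ∀ m ≤ n, IsPar S (⨆ i ∈ Finset.range m, L i) (cmp U m) ∧
      inner ℂ (up S) (cmp U m (up S)) = ∏ i ∈ Finset.range m, inner ℂ (up S) (U i (up S)) := by
    intro m
    induction m with
    | zero =>
      intro _
      refine ⟨IsPar.id _, ?_⟩
      simp only [cmp, Finset.range_zero, Finset.prod_empty]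
      rw [inner_self_eq_norm_sq_to_K, norm_up]
      simp
    | succ m ih =>
      intro hm
      obtain ⟨h1, h2⟩ := ih (by omega)
      constructor
      · change IsPar S _ (fun x => U m (cmp U m x))
        refine IsPar.comp (U := U m) (V := cmp U m) (IsPar.mono ?_ (hU m (by omega)))
          (IsPar.mono ?_ h1)
        · exact le_iSup₂_of_le m (Finset.self_mem_range_succ m) le_rfl
        · refine iSup₂_le fun i hi => ?_
          exact le_iSup₂_of_le i (Finset.mem_range.2 (by have := Finset.mem_range.1 hi; omega)) le_rfl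
      · rw [Finset.prod_range_succ, ← h2, mul_comm]
        change inner ℂ (up S) (U m (cmp U m (up S))) = _
        refine IsPar.factor ?_ (hU m (by omega)) h1
        intro v hv w hw
        have h3 : (⨆ i ∈ Finset.range m, L i) ≤ (Submodule.span ℂ {v})ᗮ := by
          refine iSup₂_le fun i hi => ?_
          intro u hu
          rw [Submodule.mem_orthogonal_singleton_iff_inner_left]
          exact hL i m (Finset.mem_range.1 hi) (by omega) u hu v hv
        have h4 := h3 hw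
        rwa [Submodule.mem_orthogonal_singleton_iff_inner_right] at h4
  exact (key n le_rfl).2

/-- distance of a unit vector to the line of `e` -/
lemma one_sub_inner_le {E : Type*} [NormedAddCommGroup E] [InnerProductSpace ℂ E] {e x : E}
    (he : ‖e‖ = 1) (hx : ‖x‖ = 1) (c : ℂ) : 1 - ‖inner ℂ e x‖ ^ 2 ≤ ‖x - c • e‖ ^ 2 := by
  have h := @norm_sub_sq ℂ E _ _ _ x (c • e)
  rw [norm_smul, he, hx, inner_smul_right, mul_one] at h
  rw [h]
  have h1 : RCLike.re (c * inner ℂ x e) ≤ ‖c‖ * ‖inner ℂ e x‖ := by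
    refine (RCLike.re_le_norm _).trans ?_
    rw [norm_mul, norm_inner_symm]
  nlinarith [sq_nonneg (‖c‖ - ‖inner ℂ e x‖)]

lemma exists_phase {E : Type*} [NormedAddCommGroup E] [InnerProductSpace ℂ E] {e x : E}
    (he : ‖e‖ = 1) (hx : ‖x‖ = 1) : ∃ c : ℂ, ‖c‖ = 1 ∧
      ‖x - c • e‖ ^ 2 ≤ 2 * (1 - ‖inner ℂ e x‖ ^ 2) := by
  set z : ℂ := inner ℂ e x with hz
  have hz1 : ‖z‖ ≤ 1 := by
    have := norm_inner_le_norm (𝕜 := ℂ) e x
    rwa [he, hx, one_mul, ← hz] at this
  have key : ∀ c : ℂ, ‖c‖ = 1 → RCLike.re (c * inner ℂ x e) = ‖z‖ →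
      ‖x - c • e‖ ^ 2 ≤ 2 * (1 - ‖z‖ ^ 2) := by
    intro c hc h1
    have h := @norm_sub_sq ℂ E _ _ _ x (c • e)
    rw [norm_smul, he, hx, inner_smul_right, mul_one, hc, h1] at h
    rw [h]
    nlinarith [norm_nonneg z]
  by_cases h0 : z = 0
  · refine ⟨1, norm_one, key 1 norm_one ?_⟩
    rw [one_mul, ← inner_conj_symm, ← hz, h0]
    simp
  · have hn : (‖z‖ : ℂ) ≠ 0 := by
      exact_mod_cast norm_ne_zero_iff.2 h0
    have hc : ‖z / (‖z‖ : ℂ)‖ = 1 := by
      rw [norm_div, Complex.norm_real, norm_norm]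
      exact div_self (norm_ne_zero_iff.2 h0)
    refine ⟨z / (‖z‖ : ℂ), hc, key _ hc ?_⟩
    have e1 : (inner ℂ x e : ℂ) = (starRingEnd ℂ) z := by rw [hz, inner_conj_symm]
    rw [e1]
    have e2 : z / (‖z‖ : ℂ) * (starRingEnd ℂ) z = (‖z‖ : ℂ) := by
      rw [div_mul_eq_mul_div, Complex.mul_conj, Complex.normSq_eq_norm_sq]
      push_cast
      field_simp
    rw [e2]
    simp

lemma one_sub_prod_le {n : ℕ} {r : ℕ → ℝ} (h0 : ∀ i < n, 0 ≤ r i) (h1 : ∀ i < n, r i ≤ 1) :
    1 - ∏ i ∈ Finset.range n, r i ≤ ∑ i ∈ Finset.range n, (1 - r i) := by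
  have key : ∀ m ≤ n, 0 ≤ ∏ i ∈ Finset.range m, r i ∧ ∏ i ∈ Finset.range m, r i ≤ 1 ∧
      1 - ∏ i ∈ Finset.range m, r i ≤ ∑ i ∈ Finset.range m, (1 - r i) := by
    intro m
    induction m with
    | zero => intro _; simp
    | succ m ih =>
      intro hm
      obtain ⟨a, b, c⟩ := ih (by omega)
      have h2 := h0 m (by omega)
      have h3 := h1 m (by omega)
      rw [Finset.prod_range_succ, Finset.sum_range_succ]
      refine ⟨mul_nonneg a h2, by nlinarith, ?_⟩
      nlinarith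
  exact (key n le_rfl).2.2

/-- **Leakage estimate** -/
theorem leakage {L : ℕ → Submodule ℂ K} {U : ℕ → HH F → HH F} {n : ℕ}
    (hL : ∀ i j, i < j → j < n → ∀ v ∈ L i, ∀ w ∈ L j, inner ℂ v w = 0)
    (hU : ∀ i < n, IsPar S (L i) (U i)) (hn : ∀ i < n, ∀ x, ‖U i x‖ = ‖x‖)
    (c : ℕ → ℂ) : ∃ θ : ℂ, ‖θ‖ = 1 ∧ ‖cmp U n (up S) - θ • up S‖ ^ 2 ≤
      2 * ∑ i ∈ Finset.range n, ‖U i (up S) - c i • up S‖ ^ 2 := by
  have hnorm : ∀ m ≤ n, ‖cmp U m (up S)‖ = 1 := by
    intro m
    induction m with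
    | zero => intro _; exact norm_up
    | succ m ih =>
      intro hm
      change ‖U m (cmp U m (up S))‖ = 1
      rw [hn m (by omega), ih (by omega)]
  obtain ⟨θ, h1, h2⟩ := exists_phase (norm_up (S := S)) (hnorm n le_rfl)
  refine ⟨θ, h1, h2.trans ?_⟩
  rw [inner_cmp hL hU, norm_prod, ← Finset.prod_pow]
  have h3 := one_sub_prod_le (n := n) (r := fun i => ‖inner ℂ (up S) (U i (up S))‖ ^ 2)
    (fun i _ => by positivity) (fun i hi => by
      have := norm_inner_le_norm (𝕜 := ℂ) (up S) (U i (up S))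
      rw [norm_up, hn i hi, norm_up, one_mul] at this
      exact pow_le_one₀ (norm_nonneg _) this)
  have h4 : ∑ i ∈ Finset.range n, (1 - ‖inner ℂ (up S) (U i (up S))‖ ^ 2)
      ≤ ∑ i ∈ Finset.range n, ‖U i (up S) - c i • up S‖ ^ 2 := by
    refine Finset.sum_le_sum fun i hi => ?_
    exact one_sub_inner_le norm_up (by rw [hn i (Finset.mem_range.1 hi), norm_up]) (c i)
  linarith

end Vale.Agent.P367.B
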