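import Vale.Agent.P367.B.LFin
import Vale.Agent.P367.A.Main

/-! P367: final assembly modulo the three block statements BASE, TOWER, VALUE. -/

namespace Vale.Agent.P367.A

open Filter Topology

lemma noG_plain (γ β : ℕ → ℝ) (p : ℕ) : NI.NoG (NI.plain γ β p) := by
  induction p with
  | zero => intro g hg; simp [NI.plain] at hg
  | succ p ih =>
    intro g hg k
    simp only [NI.plain, List.mem_cons] at hg
    rcases hg with rfl | rfl | hg
    · simp
    · simp
    · exact ih g hg k

/-- The depth limit of QAOA on the Sherrington-Kirkpatrick model is optimal, given BASE, TOWER and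
VALUE. -/
theorem main_of (hbase : LSys.BaseStmt)
    (htower : ∀ {K' : Type} [NormedAddCommGroup K'] [InnerProductSpace ℂ K']
      (L : LSys (NI.HH NI.FN) K'), L.TowerStmt)
    (hval : ∀ {K' : Type} [NormedAddCommGroup K'] [InnerProductSpace ℂ K']
      (L : LSys (NI.HH NI.FN) K') (J : K' → NI.HH NI.FN) (S : NI.Weyl NI.FN NI.L2N),
      L.IsBase S J → L.ValueStmt J Gap.Pstar) :
    Tendsto Gap.Qsup atTop (𝓝 Gap.Pstar) := by
  obtain ⟨S, K', _, _, L, J, hL⟩ := hbase
  refine NI.tendsto_Qsup S (fun W d hd => ?_) fun d hd => L.hB_of S J hL (htower L)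
    (hval L J S hL) hd
  obtain ⟨p, γ, β, h⟩ := plain_of_labelled S W hd
  exact ⟨_, noG_plain γ β p, h⟩

end Vale.Agent.P367.A
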