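import Vale.Agent.P367.B.LSys

/-! P367, block B: the next control algebra is a control algebra (helper739). -/

namespace Vale.Agent.P367.A

open Complex Filter Topology MeasureTheory

namespace LSys

variable {H K : Type*} [NormedAddCommGroup H] [InnerProductSpace ℂ H]
  [NormedAddCommGroup K] [InnerProductSpace ℂ K] (L : LSys H K)

/-- the Weyl operators of the field `y` -/
noncomputable def Wc (v : K) : H →L[ℂ] H :=
  (L.W v).toContinuousLinearEquiv.toContinuousLinearMap

lemma Wc_apply (v : K) (x : H) : L.Wc v x = L.W v x := rfl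

/-- Weyl operators with vanishing symplectic form commute -/
lemma W_comm_of_im {a b : K} (h : (inner ℂ a b : ℂ).im = 0) (x : H) :
    L.W a (L.W b x) = L.W b (L.W a x) := by
  have h2 : (inner ℂ b a : ℂ).im = 0 := by
    have : (inner ℂ b a : ℂ) = (starRingEnd ℂ) (inner ℂ a b) := (inner_conj_symm _ _).symm
    rw [this, Complex.conj_im, h, neg_zero]
  rw [L.WW, L.WW, h, h2, add_comm]

/-- the pairing of two commuting self-adjoint operators in the vacuum is real -/
lemma im_inner_real {S T : H →L[ℂ] H} (hS : Sa S) (hT : Sa T) (h : S * T = T * S) (u : H) :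
    (inner ℂ (S u) (T u) : ℂ).im = 0 := by
  have e1 : inner ℂ (S u) (T u) = inner ℂ u (S (T u)) := hS _ _
  have e2 : inner ℂ (T u) (S u) = inner ℂ u (T (S u)) := hT _ _
  have e3 : S (T u) = T (S u) := by
    have := congrArg (fun A : H →L[ℂ] H => A u) h
    exact this
  have e4 : (inner ℂ (S u) (T u) : ℂ) = inner ℂ (T u) (S u) := by rw [e1, e2, e3]
  have e5 : (inner ℂ (T u) (S u) : ℂ) = (starRingEnd ℂ) (inner ℂ (S u) (T u)) :=
    (inner_conj_symm _ _).symm
  rw [e5] at e4
  have e6 := congrArg Complex.im e4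
  rw [Complex.conj_im] at e6
  linarith

lemma Sa.smul {T : H →L[ℂ] H} (hT : Sa T) (s : ℝ) : Sa ((s : ℂ) • T) := by
  intro x y
  rw [smul_apply, smul_apply, inner_smul_left,
    inner_smul_right, hT, Complex.conj_ofReal]

section

variable {L} {𝔄 : Set (H →L[ℂ] H)} {psi : H →L[ℂ] H}

lemma im_iota_real {S T : H →L[ℂ] H} (hS : Sa S) (hT : Sa T) (h : S * T = T * S) :
    (inner ℂ (L.iota (S L.Om)) (L.iota (T L.Om)) : ℂ).im = 0 := by
  rw [LinearIsometry.inner_map_map]
  exact im_inner_real hS hT h L.Om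

lemma smul_y (s : ℝ) : (s : ℂ) • L.iota (psi L.Om) = L.iota (((s : ℂ) • psi) L.Om) := by
  rw [smul_apply, map_smul]

/-- base elements commute with the Weyl operators of the new field -/
lemma base_Wc (hA : L.Ctl 𝔄) (hp : psi ∈ 𝔄) (hs : Sa psi) {a : H →L[ℂ] H} (ha : a ∈ 𝔄) (s : ℝ)
    (x : H) : a (L.W ((s : ℂ) • L.iota (psi L.Om)) x) = L.W ((s : ℂ) • L.iota (psi L.Om)) (a x) := by
  rw [smul_y]
  refine hA.W a ha ((s : ℂ) • psi) (hs.smul s) ?_ x
  intro b hb
  rw [smul_mul_assoc, mul_smul_comm, hA.comm psi b hp hb]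

/-- elements of the next algebra commute with everything commuting with the generators -/
lemma gen_comm {y : K} {T : H → H} (hTadd : ∀ x z, T (x + z) = T x + T z)
    (hTc : Continuous T) (h1 : ∀ a ∈ 𝔄, ∀ x, a (T x) = T (a x))
    (h2 : ∀ (s : ℝ) (x : H), L.W ((s : ℂ) • y) (T x) = T (L.W ((s : ℂ) • y) x))
    {a : H →L[ℂ] H} (ha : L.Gen 𝔄 y a) : ∀ x, a (T x) = T (a x) := by
  induction ha with
  | base a ha => exact h1 a ha
  | W s => exact h2 s
  | add a b _ _ iha ihb =>
    intro x
    rw [add_apply, add_apply, iha, ihb, hTadd]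
  | mul a b _ _ iha ihb =>
    intro x
    change a (b (T x)) = T (a (b x))
    rw [ihb, iha]
  | lim a a0 C _ _ hlim ih =>
    intro x
    have e1 : Tendsto (fun n => a n (T x)) atTop (𝓝 (a0 (T x))) := hlim (T x)
    have e2 : Tendsto (fun n => T (a n x)) atTop (𝓝 (T (a0 x))) := (hTc.tendsto _).comp (hlim x)
    have e3 : (fun n => a n (T x)) = fun n => T (a n x) := funext fun n => ih n x
    rw [e3] at e1
    exact tendsto_nhds_unique e1 e2

/-- commutativity of the next algebra -/
lemma gen_comm_gen (hA : L.Ctl 𝔄) (hp : psi ∈ 𝔄) (hs : Sa psi) {a b : H →L[ℂ] H}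
    (ha : L.Gen 𝔄 (L.iota (psi L.Om)) a) (hb : L.Gen 𝔄 (L.iota (psi L.Om)) b) (x : H) :
    a (b x) = b (a x) := by
  -- `b` commutes with base elements
  have hb1 : ∀ c ∈ 𝔄, ∀ x, c (b x) = b (c x) := by
    intro c hc x
    have h := gen_comm (L := L) (𝔄 := 𝔄) (y := L.iota (psi L.Om)) (T := fun x => c x)
      (fun x z => map_add c x z) c.continuous
      (fun a ha x => by
        have := congrArg (fun A : H →L[ℂ] H => A x) (hA.comm a c ha hc)
        exact this)
      (fun s x => (base_Wc hA hp hs hc s x).symm) hb x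
    exact h.symm
  have hb2 : ∀ (s : ℝ) (x : H), L.W ((s : ℂ) • L.iota (psi L.Om)) (b x)
      = b (L.W ((s : ℂ) • L.iota (psi L.Om)) x) := by
    intro s x
    have h := gen_comm (L := L) (𝔄 := 𝔄) (y := L.iota (psi L.Om))
      (T := fun x => L.W ((s : ℂ) • L.iota (psi L.Om)) x)
      (fun x z => map_add _ x z) (L.W _).continuous
      (fun a ha x => base_Wc hA hp hs ha s x)
      (fun t x => by
        apply L.W_comm_of_im
        rw [inner_smul_left, inner_smul_right, inner_self_eq_norm_sq_to_K]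
        simp [← Complex.ofReal_pow, ← Complex.ofReal_mul]) hb x
    exact h.symm
  exact gen_comm (fun x z => map_add b x z) b.continuous hb1 hb2 ha x

lemma gen_adj [CompleteSpace H] (hA : L.Ctl 𝔄) (hp : psi ∈ 𝔄) (hs : Sa psi) {a : H →L[ℂ] H}
    (ha : L.Gen 𝔄 (L.iota (psi L.Om)) a) :
    ∃ b, L.Gen 𝔄 (L.iota (psi L.Om)) b ∧ ∀ x y, inner ℂ (a x) y = inner ℂ x (b y) := by
  induction ha with
  | base a ha =>
    obtain ⟨b, hb, h⟩ := hA.adj a ha
    exact ⟨b, Gen.base b hb, h⟩
  | W s =>
    refine ⟨_, Gen.W (-s), ?_⟩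
    intro x y
    change inner ℂ (L.W ((s : ℂ) • L.iota (psi L.Om)) x) y
      = inner ℂ x (L.W (((-s : ℝ) : ℂ) • L.iota (psi L.Om)) y)
    rw [L.inner_W]
    congr 3
    push_cast
    rw [neg_smul]
  | add a b _ _ iha ihb =>
    obtain ⟨a', ha', h1⟩ := iha
    obtain ⟨b', hb', h2⟩ := ihb
    refine ⟨a' + b', Gen.add _ _ ha' hb', ?_⟩
    intro x y
    rw [add_apply, add_apply, inner_add_left,
      inner_add_right, h1, h2]
  | mul a b _ _ iha ihb =>
    obtain ⟨a', ha', h1⟩ := iha
    obtain ⟨b', hb', h2⟩ := ihb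
    refine ⟨b' * a', Gen.mul _ _ hb' ha', ?_⟩
    intro x y
    change inner ℂ (a (b x)) y = inner ℂ x (b' (a' y))
    rw [h1, h2]
  | lim a a0 C hg hC hlim ih =>
    choose b hb hab using ih
    -- normality
    have hadj : ∀ n m u v, inner ℂ ((a n - a m) u) v = inner ℂ u ((b n - b m) v) := by
      intro n m u v
      rw [sub_apply, sub_apply, inner_sub_left,
        inner_sub_right, hab, hab]
    have hadj' : ∀ n m u v, inner ℂ ((b n - b m) u) v = inner ℂ u ((a n - a m) v) := by
      intro n m u v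
      rw [← inner_conj_symm, ← hadj, inner_conj_symm]
    have hnorm : ∀ n m x, ‖(b n - b m) x‖ = ‖(a n - a m) x‖ := by
      intro n m x
      have hc : (a n - a m) ((b n - b m) x) = (b n - b m) ((a n - a m) x) := by
        simp only [sub_apply, map_sub]
        rw [gen_comm_gen hA hp hs (hg n) (hb n), gen_comm_gen hA hp hs (hg m) (hb n),
          gen_comm_gen hA hp hs (hg n) (hb m), gen_comm_gen hA hp hs (hg m) (hb m)]
        abel
      have h1 : inner ℂ ((b n - b m) x) ((b n - b m) x)
          = inner ℂ ((a n - a m) x) ((a n - a m) x) := by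
        rw [hadj', hc, ← hadj]
      rw [inner_self_eq_norm_sq_to_K, inner_self_eq_norm_sq_to_K] at h1
      have h2 : ‖(b n - b m) x‖ ^ 2 = ‖(a n - a m) x‖ ^ 2 := by exact_mod_cast h1
      exact (sq_eq_sq₀ (norm_nonneg _) (norm_nonneg _)).1 h2
    have hcau : ∀ x, CauchySeq fun n => b n x := by
      intro x
      have h1 : CauchySeq fun n => a n x := (hlim x).cauchySeq
      rw [Metric.cauchySeq_iff] at h1 ⊢
      intro e he
      obtain ⟨N, hN⟩ := h1 e he
      refine ⟨N, fun m hm n hn => ?_⟩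
      have h2 := hN m hm n hn
      rw [dist_eq_norm] at h2 ⊢
      have h3 := hnorm m n x
      rw [sub_apply, sub_apply] at h3
      rwa [h3]
    have hlim' : ∀ x, ∃ z, Tendsto (fun n => b n x) atTop (𝓝 z) := fun x =>
      cauchySeq_tendsto_of_complete (hcau x)
    have hb0 : ∀ x, Tendsto (fun n => b n x) atTop (𝓝 (ContinuousLinearMap.adjoint a0 x)) := by
      intro x
      obtain ⟨z, hz⟩ := hlim' x
      have e : z = ContinuousLinearMap.adjoint a0 x := by
        refine ext_inner_left ℂ fun v => ?_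
        rw [ContinuousLinearMap.adjoint_inner_right]
        have e1 : Tendsto (fun n => (inner ℂ v (b n x) : ℂ)) atTop (𝓝 (inner ℂ v z)) :=
          tendsto_const_nhds.inner hz
        have e2 : Tendsto (fun n => (inner ℂ (a n v) x : ℂ)) atTop (𝓝 (inner ℂ (a0 v) x)) :=
          (hlim v).inner tendsto_const_nhds
        have e3 : (fun n => (inner ℂ v (b n x) : ℂ)) = fun n => inner ℂ (a n v) x :=
          funext fun n => (hab n v x).symm
        rw [e3] at e1
        exact tendsto_nhds_unique e1 e2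
      rw [← e]
      exact hz
    have hbn : ∀ n, ‖b n‖ ≤ C := by
      intro n
      have hbe : b n = ContinuousLinearMap.adjoint (a n) := by
        rw [ContinuousLinearMap.eq_adjoint_iff]
        intro x y
        have h := hab n y x
        rw [← inner_conj_symm, ← h, inner_conj_symm]
      rw [hbe, LinearIsometryEquiv.norm_map]
      exact hC n
    refine ⟨ContinuousLinearMap.adjoint a0, Gen.lim b _ C hb hbn hb0, ?_⟩
    intro x y
    rw [ContinuousLinearMap.adjoint_inner_right]

/-- NEST0 -/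
theorem nestCtl [CompleteSpace H] (L : LSys H K) : L.NestCtlStmt := by
  intro 𝔄 psi hA hp hs
  refine ⟨fun f hf => Gen.base _ (hA.lab f hf), fun a b ha hb => Gen.add a b ha hb,
    fun a b ha hb => Gen.mul a b ha hb, ?_, ?_, ?_, ?_, ?_⟩
  · intro a ha
    obtain ⟨b, hb, h⟩ := gen_adj hA hp hs ha
    exact ⟨b, hb, h⟩
  · intro a b ha hb
    ext x
    exact gen_comm_gen hA hp hs ha hb x
  · intro a ha
    exact gen_comm (fun x z => map_add L.X x z) L.X.continuous hA.X (fun s x => L.WX _ x) ha
  · intro a ha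
    exact gen_comm (fun x z => map_add L.Z x z) L.Z.continuous hA.Z (fun s x => L.WZ _ x) ha
  · intro a ha T hT hTc
    refine gen_comm (fun x z => map_add (L.W (L.iota (T L.Om))) x z) (L.W _).continuous ?_ ?_ ha
    · intro c hc x
      exact hA.W c hc T hT (fun b hb => hTc b (Gen.base b hb)) x
    · intro s x
      apply L.W_comm_of_im
      rw [inner_smul_left, Complex.conj_ofReal, Complex.im_ofReal_mul]
      rw [im_iota_real hs hT (hTc psi (Gen.base psi hp)).symm, mul_zero]

end

end LSys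

end Vale.Agent.P367.A
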