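import Vale.Agent.P367.B.LBas
import Vale.Agent.P367.B.T2Fin

/-! P367, block B: T2 from its finite form (helper96). -/

namespace Vale.Agent.P367.A

open Complex Filter Topology MeasureTheory

namespace LSys

lemma bm_expI {f : ℝ → ℝ} (hf : Measurable f) :
    Bm (fun t => Complex.exp (Complex.I * (f t : ℂ))) := by
  refine ⟨Complex.measurable_exp.comp (measurable_const.mul
    (Complex.measurable_ofReal.comp hf)), 1, fun t => ?_⟩
  change ‖Complex.exp (Complex.I * (f t : ℂ))‖ ≤ 1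
  rw [mul_comm, Complex.norm_exp_ofReal_mul_I]

lemma bm_expI' {f : ℝ → ℝ} (hf : Measurable f) :
    Bm (fun t => Complex.exp (-(Complex.I * (f t : ℂ)))) := by
  refine ⟨Complex.measurable_exp.comp (measurable_const.mul
    (Complex.measurable_ofReal.comp hf)).neg, 1, fun t => ?_⟩
  change ‖Complex.exp (-(Complex.I * (f t : ℂ)))‖ ≤ 1
  rw [show -(Complex.I * (f t : ℂ)) = ((-f t : ℝ) : ℂ) * Complex.I by push_cast; ring,
    Complex.norm_exp_ofReal_mul_I]

variable {H K : Type*} [NormedAddCommGroup H] [InnerProductSpace ℂ H]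
  [NormedAddCommGroup K] [InnerProductSpace ℂ K] (L : LSys H K)

/-- the state which is `V` off `b` and the identity on `b` -/
noncomputable def offb (b : Set ℝ) (hb : MeasurableSet b) (V : H ≃ₗᵢ[ℂ] H)
    (hV : ∀ x, L.E b (V x) = V (L.E b x)) : H ≃ₗᵢ[ℂ] H where
  toFun x := V (x - L.E b x) + L.E b x
  invFun x := V⁻¹ (x - L.E b x) + L.E b x
  map_add' x y := by simp only [map_add, map_sub]; abel
  map_smul' c x := by simp only [map_sub, map_smul, RingHom.id_apply, smul_add, smul_sub]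
  left_inv x := by
    have h1 : L.E b (V (x - L.E b x) + L.E b x) = L.E b x := by
      rw [map_add, hV, map_sub, L.o_E_idem hb, sub_self, map_zero, zero_add]
    change V⁻¹ (V (x - L.E b x) + L.E b x - L.E b (V (x - L.E b x) + L.E b x))
      + L.E b (V (x - L.E b x) + L.E b x) = x
    rw [h1, add_sub_cancel_right, Sys.invA, sub_add_cancel]
  right_inv x := by
    have hV' : ∀ x, L.E b (V⁻¹ x) = V⁻¹ (L.E b x) := by
      intro x
      apply V.injective
      rw [← hV, Sys.Ainv, Sys.Ainv]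
    have h1 : L.E b (V⁻¹ (x - L.E b x) + L.E b x) = L.E b x := by
      rw [map_add, hV', map_sub, L.o_E_idem hb, sub_self, map_zero, zero_add]
    change V (V⁻¹ (x - L.E b x) + L.E b x - L.E b (V⁻¹ (x - L.E b x) + L.E b x))
      + L.E b (V⁻¹ (x - L.E b x) + L.E b x) = x
    rw [h1, add_sub_cancel_right, Sys.Ainv, sub_add_cancel]
  norm_map' x := by
    refine (sq_eq_sq₀ (norm_nonneg _) (norm_nonneg _)).1 ?_
    change ‖V (x - L.E b x) + L.E b x‖ ^ 2 = ‖x‖ ^ 2
    have h1 : L.E b (V (x - L.E b x) + L.E b x) = L.E b x := by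
      rw [map_add, hV, map_sub, L.o_E_idem hb, sub_self, map_zero, zero_add]
    rw [L.o_norm_sq_E hb (V (x - L.E b x) + L.E b x), h1, add_sub_cancel_right, V.norm_map,
      L.o_norm_sq_E hb x]

lemma offb_apply (b : Set ℝ) (hb : MeasurableSet b) (V : H ≃ₗᵢ[ℂ] H)
    (hV : ∀ x, L.E b (V x) = V (L.E b x)) (x : H) :
    L.offb b hb V hV x = V (x - L.E b x) + L.E b x := rfl

lemma x2_E_mem {𝔄 : Set (H →L[ℂ] H)} (hA : L.Ctl 𝔄) {b : Set ℝ} (hb : MeasurableSet b) :
    L.E b ∈ 𝔄 := hA.lab _ (bm_ind hb)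

/-- Weyl operators of real vectors commute with the controls -/
lemma W_fv_comm {𝔄 : Set (H →L[ℂ] H)} (hA : L.Ctl 𝔄) {V : H ≃ₗᵢ[ℂ] H}
    (hV : ∀ a ∈ 𝔄, ∀ x, a (V x) = V (a x)) {b : Set ℝ} (hb : MeasurableSet b) (s : ℝ) :
    ∀ a ∈ 𝔄, ∀ x, a (L.W ((s : ℂ) • L.fv L.Z b V) x) = L.W ((s : ℂ) • L.fv L.Z b V) (a x) := by
  intro a ha x
  have hEb := L.x2_E_mem hA hb
  have hVi : ∀ a ∈ 𝔄, ∀ x, a (V⁻¹ x) = V⁻¹ (a x) := by
    intro a ha x
    apply V.injective
    rw [← hV a ha, Sys.Ainv, Sys.Ainv]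
  -- the operator `T = s E_b V⁻¹ Z V`
  set T : H →L[ℂ] H := (s : ℂ) • (L.E b * (V⁻¹).toContinuousLinearEquiv.toContinuousLinearMap
    * L.Z.toContinuousLinearEquiv.toContinuousLinearMap
    * V.toContinuousLinearEquiv.toContinuousLinearMap) with hT
  have hTx : ∀ x, T x = (s : ℂ) • L.E b (V⁻¹ (L.Z (V x))) := fun x => rfl
  have hsa : Sa T := by
    intro x y
    rw [hTx, hTx, inner_smul_left, inner_smul_right, Complex.conj_ofReal, L.o_E_sa b hb]
    congr 1
    have e1 : inner ℂ x (V⁻¹ (L.E b (L.Z (V y)))) = inner ℂ (V x) (L.E b (L.Z (V y))) := by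
      rw [← V.inner_map_map x, Sys.Ainv]
    rw [Sys.inner_invA, L.inner_Z, ← hV _ hEb, ← L.o_E_Z, ← e1, hVi _ hEb]
  have hco : ∀ c ∈ 𝔄, T * c = c * T := by
    intro c hc
    ext y
    change T (c y) = c (T y)
    rw [hTx, hTx, map_smul, ← hV c hc, ← hA.Z c hc, ← hVi c hc]
    congr 1
    have := congrArg (fun A : H →L[ℂ] H => A (V⁻¹ (L.Z (V y)))) (hA.comm _ _ hEb hc)
    exact this
  have h := hA.W a ha T hsa hco x
  have e : L.iota (T L.Om) = (s : ℂ) • L.fv L.Z b V := by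
    rw [hTx, map_smul]; rfl
  rwa [e] at h

/-- the reference unitary commutes with the controls -/
lemma isProd_comm {𝔄 : Set (H →L[ℂ] H)} (hA : L.Ctl 𝔄) {V U : H ≃ₗᵢ[ℂ] H} {G : Set ℝ}
    (hG : MeasurableSet G) (hV : ∀ a ∈ 𝔄, ∀ x, a (V x) = V (a x)) {sg : H →L[ℂ] H} {s : ℝ}
    (hsg : L.Sgn G 𝔄 sg) (hU : L.IsProd G sg s V U) : ∀ a ∈ 𝔄, ∀ x, a (U x) = U (a x) := by
  intro a ha x
  have hEG := L.x2_E_mem hA hG
  have c1 : ∀ y, a (L.E G y) = L.E G (a y) := fun y =>
    congrArg (fun A : H →L[ℂ] H => A y) (hA.comm _ _ ha hEG)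
  have c2 : ∀ y, a (sg y) = sg (a y) := fun y =>
    congrArg (fun A : H →L[ℂ] H => A y) (hA.comm _ _ ha hsg.1)
  have c3 : ∀ (r : ℝ) y, a (L.W ((r : ℂ) • L.fv L.Z G V) y)
      = L.W ((r : ℂ) • L.fv L.Z G V) (a y) := fun r y => L.W_fv_comm hA hV hG r a ha y
  have c4 : ∀ (r : ℝ) y, a (L.W ((r : ℂ) • L.iota (sg L.Om)) y)
      = L.W ((r : ℂ) • L.iota (sg L.Om)) (a y) := by
    intro r y
    have h := hA.W a ha ((r : ℂ) • sg) (fun u v => by
        change inner ℂ ((r : ℂ) • sg u) v = inner ℂ u ((r : ℂ) • sg v)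
        rw [inner_smul_left, inner_smul_right, Complex.conj_ofReal, hsg.2.1])
      (fun b hb => by rw [smul_mul_assoc, mul_smul_comm, hA.comm _ _ hsg.1 hb]) y
    have e : L.iota (((r : ℂ) • sg) L.Om) = (r : ℂ) • L.iota (sg L.Om) := by
      change L.iota ((r : ℂ) • sg L.Om) = _
      rw [map_smul]
    rwa [e] at h
  have c5 : ∀ y, a (L.zr ((s : ℂ) • L.iota (sg L.Om)) y)
      = L.zr ((s : ℂ) • L.iota (sg L.Om)) (a y) := by
    intro y
    have en : -((s : ℂ) • L.iota (sg L.Om)) = ((-s : ℝ) : ℂ) • L.iota (sg L.Om) := by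
      push_cast; rw [neg_smul]
    rw [L.zr_apply, L.zr_apply, en]
    simp only [map_add, map_sub, map_smul, c4, hA.Z a ha]
  have en : -((s : ℂ) • L.fv L.Z G V) = ((-s : ℝ) : ℂ) • L.fv L.Z G V := by
    push_cast; rw [neg_smul]
  rw [hU x, hU (a x), en]
  simp only [map_add, map_sub, map_smul, c5, c3, c1, c2]

/-- `U` of `IsProd` commutes with `E G` and is the identity off `G` -/
lemma isProd_off {V U : H ≃ₗᵢ[ℂ] H} {G : Set ℝ} (hG : MeasurableSet G) {sg : H →L[ℂ] H} {s : ℝ}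
    {𝔄 : Set (H →L[ℂ] H)} (hA : L.Ctl 𝔄) (hV : ∀ a ∈ 𝔄, ∀ x, a (V x) = V (a x))
    (hsg : L.Sgn G 𝔄 sg) (hU : L.IsProd G sg s V U) {b : Set ℝ} (hb : MeasurableSet b)
    (hd : Disjoint b G) (x : H) : L.E b (U x) = L.E b x := by
  have hcm := L.isProd_comm hA hG hV hsg hU _ (L.x2_E_mem hA hb)
  rw [hcm, hU]
  have h1 : L.E G (L.E b x) = 0 := L.o_E_disj hG hb hd.symm x
  have h2 : sg (L.E b x) = 0 := by
    have h3 : sg * L.E G = sg := by
      have h4 : sg * L.E G = L.E G * sg := hA.comm _ _ hsg.1 (L.x2_E_mem hA hG)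
      -- norm argument: `(sg - sg E_G)^* (sg - sg E_G) = 0`
      ext y
      change sg (L.E G y) = sg y
      have h5 : inner ℂ (sg (L.E G y) - sg y) (sg (L.E G y) - sg y) = (0 : ℂ) := by
        rw [← map_sub, hsg.2.1]
        have h6 : sg (sg (L.E G y - y)) = L.E G (L.E G y - y) := by
          have := congrArg (fun A : H →L[ℂ] H => A (L.E G y - y)) hsg.2.2
          exact this
        rw [h6, map_sub, L.o_E_idem hG, sub_self, inner_zero_right]
      exact sub_eq_zero.1 (inner_self_eq_zero.1 h5)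
    have := congrArg (fun A : H →L[ℂ] H => A (L.E b x)) h3
    change sg (L.E G (L.E b x)) = sg (L.E b x) at this
    rw [← this, h1, map_zero]
  rw [h1, h2, add_zero, sub_zero, map_zero, map_zero, add_zero, smul_zero, map_zero, zero_add,
    sub_zero]

/-- phase unitary -/
noncomputable def phU {f : ℝ → ℝ} (hf : Measurable f) {C : ℝ} (hC : ∀ t, |f t| ≤ C) :
    H ≃ₗᵢ[ℂ] H :=
  mkU (L.lab (fun t => Complex.exp (Complex.I * (f t : ℂ)))).toLinearMap
    (L.lab (fun t => Complex.exp (-(Complex.I * (f t : ℂ))))).toLinearMap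
    (fun x => by
      have h1 := bm_expI hf
      have h2 := bm_expI' hf
      have h := L.lab_mul _ _ h2 h1
      have e : (fun t => Complex.exp (-(Complex.I * (f t : ℂ))) * Complex.exp (Complex.I * (f t : ℂ)))
          = fun _ => (1 : ℂ) := by
        ext t; rw [← Complex.exp_add, neg_add_cancel, Complex.exp_zero]
      rw [e, L.lab_one] at h
      exact (congrArg (fun A : H →L[ℂ] H => A x) h).symm)
    (fun x => by
      have h1 := bm_expI hf
      have h2 := bm_expI' hf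
      have h := L.lab_mul _ _ h1 h2
      have e : (fun t => Complex.exp (Complex.I * (f t : ℂ)) * Complex.exp (-(Complex.I * (f t : ℂ))))
          = fun _ => (1 : ℂ) := by
        ext t; rw [← Complex.exp_add, add_neg_cancel, Complex.exp_zero]
      rw [e, L.lab_one] at h
      exact (congrArg (fun A : H →L[ℂ] H => A x) h).symm)
    (fun x y => by
      have h := L.lab_adj _ (bm_expI hf) x y
      have e : (fun t => (starRingEnd ℂ) (Complex.exp (Complex.I * (f t : ℂ))))
          = fun t => Complex.exp (-(Complex.I * (f t : ℂ))) := by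
        ext t
        rw [← Complex.exp_conj, map_mul, Complex.conj_I, Complex.conj_ofReal, neg_mul]
      rw [e] at h
      exact h)

lemma phU_apply {f : ℝ → ℝ} (hf : Measurable f) {C : ℝ} (hC : ∀ t, |f t| ≤ C) (x : H) :
    L.phU hf hC x = L.lab (fun t => Complex.exp (Complex.I * (f t : ℂ))) x := rfl

lemma phU_isPh [CompleteSpace H] {f : ℝ → ℝ} (hf : Measurable f) {C : ℝ} (hC : ∀ t, |f t| ≤ C) :
    IsPh (L.lab (fun t => ((-f t : ℝ) : ℂ))) (L.phU hf hC) := by
  intro x
  have hb : Bm (fun t => ((-f t : ℝ) : ℂ)) :=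
    bm_real hf.neg (C := C) fun t => by rw [abs_neg]; exact hC t
  rw [← L.lab_smul _ hb, L.exp_lab (bm_smul _ hb), phU_apply]
  congr 3
  ext t
  congr 1
  push_cast
  ring

/-- **T2 from its finite form** -/
theorem t2_of_fin [CompleteSpace H] [TopologicalSpace.SeparableSpace H] (hF : L.T2FinStmt) :
    L.T2Stmt := by
  intro G 𝔄 Rch hG hA hC M R R' V sg s hR hR'm hsub hmu hsg U hU
  obtain ⟨hMm, hRm, hMR, hGM⟩ := hC.meas M R V hR
  have hV := hC.comm M R V hR
  set R0 : Set ℝ := R \ R' with hR0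
  have hR0m : MeasurableSet R0 := hRm.diff hR'm
  have hR0R : R0 ⊆ R := Set.sdiff_subset
  have hMR0 : Disjoint M R0 := hMR.mono_right hR0R
  have hGR0 : Disjoint G R0 := hMR0.mono_left hGM
  have hER0 := L.x2_E_mem hA hR0m
  have hVR0 : ∀ x, L.E R0 (V x) = V (L.E R0 x) := fun x => hV _ hER0 x
  set V1 := L.offb R0 hR0m V hVR0 with hV1
  have hca : ∀ a ∈ 𝔄, ∀ {b : Set ℝ}, MeasurableSet b → ∀ x, a (L.E b x) = L.E b (a x) := by
    intro a ha b hb x
    exact congrArg (fun A : H →L[ℂ] H => A x) (hA.comm _ _ ha (L.x2_E_mem hA hb))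
  have hV1c : ∀ a ∈ 𝔄, ∀ x, a (V1 x) = V1 (a x) := by
    intro a ha x
    rw [hV1, offb_apply, offb_apply, map_add, hV a ha, map_sub, hca a ha hR0m]
  have hV1M : ∀ x, L.E M (V1 x) = L.E M (V x) := by
    intro x
    rw [hV1, offb_apply, map_add, map_sub, ← hVR0, map_sub, L.o_E_disj hMm hR0m hMR0,
      L.o_E_disj hMm hR0m hMR0, sub_zero, add_zero]
  have hV1R : ∀ x, L.E R0 (V1 x) = L.E R0 x := by
    intro x
    rw [hV1, offb_apply, map_add, map_sub, ← hVR0, map_sub, L.o_E_idem hR0m, L.o_E_idem hR0m,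
      sub_self, zero_add]
  have hR1 := hC.act M R R0 V V1 hR hR0m hR0R hV1c hV1M hV1R
  have eR : R \ R0 = R' := by
    rw [hR0, Set.sdiff_sdiff_right_self, Set.inter_eq_right.2 hsub]
  rw [eR] at hR1
  have hEGV1 : ∀ x, L.E G (V1 x) = L.E G (V x) := by
    intro x
    rw [← L.o_E_sub_mem hG hMm hGM, hV1M, L.o_E_sub_mem hG hMm hGM]
  have hinv : ∀ (Y : H ≃ₗᵢ[ℂ] H), (∀ x, L.E G (Y x) = Y (L.E G x)) →
      ∀ x, L.E G (Y⁻¹ x) = Y⁻¹ (L.E G x) := by
    intro Y hY x
    apply Y.injective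
    rw [← hY, Sys.Ainv, Sys.Ainv]
  have hVG : ∀ x, L.E G (V x) = V (L.E G x) := fun x => hV _ (L.x2_E_mem hA hG) x
  have hV1G : ∀ x, L.E G (V1 x) = V1 (L.E G x) := fun x => hV1c _ (L.x2_E_mem hA hG) x
  have hEGi : ∀ x, L.E G (V1⁻¹ x) = L.E G (V⁻¹ x) := by
    intro x
    rw [hinv V1 hV1G, hinv V hVG]
    apply V1.injective
    rw [Sys.Ainv]
    have h1 : V1 (V⁻¹ (L.E G x)) = V1 (L.E G (V⁻¹ (L.E G x))) := by
      rw [hinv V hVG, L.o_E_idem hG]
    rw [h1, ← hV1G, hEGV1, Sys.Ainv, L.o_E_idem hG]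
  have hfv : L.fv L.Z G V1 = L.fv L.Z G V := by
    unfold fv
    congr 1
    rw [hEGi, hinv V hVG, hinv V hVG, L.o_E_Z, L.o_E_Z, hEGV1]
  have hU1 : L.IsProd G sg s V1 U := by
    intro x
    rw [hfv]
    exact hU x
  have hUc := L.isProd_comm hA hG hV hsg hU
  -- the approximating states
  have key : ∀ n : ℕ, ∃ W : H ≃ₗᵢ[ℂ] H, Rch M R' W ∧
      (∀ x, L.E (M \ G) (W x) = L.E (M \ G) (V x)) ∧
      ∀ k ≤ n, ‖L.E G (W (TopologicalSpace.denseSeq H k))
        - L.E G (U (V (TopologicalSpace.denseSeq H k)))‖ ≤ 1 / ((n : ℝ) + 1) := by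
    intro n
    classical
    obtain ⟨V', f, hfm, ⟨C, hfC⟩, hf0, hRV', hoff, hclose⟩ := hF G 𝔄 Rch hG hA hC (M ∪ R0) R' R0 V1
      sg s hR1 hR0m Set.subset_union_right hGR0 hmu hV1R hsg U hU1
      ((Finset.range (n + 1)).image (TopologicalSpace.denseSeq H)) (1 / ((n : ℝ) + 1))
      (by positivity)
    refine ⟨L.phU hfm hfC * V', ?_, ?_, ?_⟩
    · have hph := hC.ph (M ∪ R0) R' V' (L.lab (fun t => ((-f t : ℝ) : ℂ))) (L.phU hfm hfC) hRV'
        (hA.lab _ (bm_real hfm.neg (C := C) fun t => by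
          rw [abs_neg]; exact hfC t))
        (fun x y => by
          have h := L.lab_adj (fun t => ((-f t : ℝ) : ℂ)) (bm_real hfm.neg (C := C) fun t => by
            rw [abs_neg]; exact hfC t) x y
          simp only [Complex.conj_ofReal] at h
          exact h) (L.phU_isPh hfm hfC)
      exact hC.shrink (M ∪ R0) M R' _ hph hMm Set.subset_union_left hGM
    · intro x
      have hMG : MeasurableSet (M \ G) := hMm.diff hG
      have hcm : MeasurableSet (G ∪ R0)ᶜ := (hG.union hR0m).compl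
      have hin : M \ G ⊆ (G ∪ R0)ᶜ := by
        intro t ht hgt
        rcases hgt with h | h
        · exact ht.2 h
        · exact (Set.disjoint_left.1 hMR0) ht.1 h
      change L.E (M \ G) (L.phU hfm hfC (V' x)) = _
      rw [phU_apply]
      have e1 : L.E (M \ G) (L.lab (fun t => Complex.exp (Complex.I * (f t : ℂ))) (V' x))
          = L.E (M \ G) (V' x) := by
        have h := L.lab_mul _ _ (bm_ind hMG) (bm_expI hfm)
        have e2 : (fun t => (M \ G).indicator (fun _ => (1 : ℂ)) t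
            * Complex.exp (Complex.I * (f t : ℂ))) = (M \ G).indicator (fun _ => (1 : ℂ)) := by
          ext t
          by_cases ht : t ∈ M \ G
          · rw [Set.indicator_of_mem ht, hf0 t ht.2]; simp
          · rw [Set.indicator_of_notMem ht, zero_mul]
        rw [e2] at h
        exact (congrArg (fun A : H →L[ℂ] H => A (V' x)) h).symm
      rw [e1, ← L.o_E_sub_mem hMG hcm hin, hoff, L.o_E_sub_mem hMG hcm hin]
      rw [← L.o_E_sub_mem hMG hMm Set.sdiff_subset, hV1M, L.o_E_sub_mem hMG hMm Set.sdiff_subset]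
    · intro k hk
      have h := hclose (TopologicalSpace.denseSeq H k)
        (Finset.mem_image_of_mem _ (Finset.mem_range.2 (by omega)))
      change ‖L.E G (L.phU hfm hfC (V' _)) - _‖ ≤ _
      rw [phU_apply]
      have e1 : ∀ y, L.E G (L.lab (fun t => Complex.exp (Complex.I * (f t : ℂ))) y)
          = L.lab (fun t => Complex.exp (Complex.I * (f t : ℂ))) (L.E G y) := fun y =>
        congrArg (fun A : H →L[ℂ] H => A y) (L.o_lab_comm (bm_ind hG) (bm_expI hfm))
      have e2 : L.E G (U (V1 (TopologicalSpace.denseSeq H k)))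
          = L.E G (U (V (TopologicalSpace.denseSeq H k))) := by
        rw [hUc _ (L.x2_E_mem hA hG), hUc _ (L.x2_E_mem hA hG), hEGV1]
      rw [e1, ← e2]
      exact h
  choose W hW1 hW2 hW3 using key
  refine hC.lim M R' W (U * V) hW1 (fun a ha x => ?_) (fun x => ?_)
  · change a (U (V x)) = U (V (a x))
    rw [hUc a ha, hV a ha]
  · -- convergence on `M`
    have hMG : MeasurableSet (M \ G) := hMm.diff hG
    have hMU : M = G ∪ (M \ G) := (Set.union_sdiff_cancel hGM).symm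
    have hEM : ∀ y, L.E M y = L.E G y + L.E (M \ G) y := by
      intro y
      conv_lhs => rw [hMU]
      exact L.o_E_unionA hG hMG Set.disjoint_sdiff_right y
    have hoffU : L.E (M \ G) (U (V x)) = L.E (M \ G) (V x) :=
      L.isProd_off hG hA hV hsg hU hMG Set.disjoint_sdiff_left (V x)
    have hlim : Tendsto (fun n => L.E G (W n x)) atTop (𝓝 (L.E G (U (V x)))) := by
      rw [Metric.tendsto_atTop]
      intro ε hε
      obtain ⟨k, hk⟩ : ∃ k, ‖x - TopologicalSpace.denseSeq H k‖ < ε / 4 := by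
        obtain ⟨k, hk⟩ := (TopologicalSpace.denseRange_denseSeq H).exists_dist_lt x
          (show 0 < ε / 4 by positivity)
        exact ⟨k, by rwa [← dist_eq_norm]⟩
      obtain ⟨N, hN⟩ := exists_nat_gt (4 / ε)
      refine ⟨max N k, fun n hn => ?_⟩
      have hnk : k ≤ n := (le_max_right _ _).trans hn
      have hnN : N ≤ n := (le_max_left _ _).trans hn
      have h1 := hW3 n k hnk
      have h2 : 1 / ((n : ℝ) + 1) < ε / 4 := by
        have h3 : (N : ℝ) ≤ n := by exact_mod_cast hnN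
        have h4 : 4 / ε < (n : ℝ) + 1 := by linarith
        rw [div_lt_iff₀ (by positivity)]
        rw [div_lt_iff₀ hε] at h4
        linarith
      rw [dist_eq_norm]
      set y := TopologicalSpace.denseSeq H k with hy
      have e : L.E G (W n x) - L.E G (U (V x)) = L.E G (W n (x - y))
          + (L.E G (W n y) - L.E G (U (V y))) - L.E G (U (V (x - y))) := by
        simp only [map_sub]; abel
      rw [e]
      have h5 : ‖L.E G (W n (x - y))‖ ≤ ‖x - y‖ := by
        refine (L.o_norm_E_le hG _).trans ?_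
        rw [(W n).norm_map]
      have h6 : ‖L.E G (U (V (x - y)))‖ ≤ ‖x - y‖ := by
        refine (L.o_norm_E_le hG _).trans ?_
        rw [U.norm_map, V.norm_map]
      calc _ ≤ ‖L.E G (W n (x - y))‖ + ‖L.E G (W n y) - L.E G (U (V y))‖
            + ‖L.E G (U (V (x - y)))‖ := by
            refine (norm_sub_le _ _).trans ?_
            gcongr
            exact norm_add_le _ _
        _ < ε := by linarith
    have := hlim.add (tendsto_const_nhds (x := L.E (M \ G) (V x)) (f := atTop (α := ℕ)))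
    rw [← hoffU, ← hEM] at this
    refine this.congr fun n => ?_
    rw [hoffU, ← hW2 n, ← hEM]

end LSys

end Vale.Agent.P367.A
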