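import Vale.Agent.P367.B.LBase

/-! P367, block B: the tower of levels (helper739). -/

namespace Vale.Agent.P367.A

open Complex Filter Topology MeasureTheory

/-- splitting a set of positive mass of an atomless measure on the line -/
lemma exists_split_atomless (μ : Measure ℝ) (hμ : ∀ t, μ {t} = 0) {R : Set ℝ}
    (hR : MeasurableSet R) (hR0 : μ R ≠ 0) :
    ∃ R' : Set ℝ, MeasurableSet R' ∧ R' ⊆ R ∧ μ R' ≠ 0 ∧ μ (R \ R') ≠ 0 := by
  by_contra hcon
  push Not at hcon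
  have key : ∀ t : ℝ, μ (R ∩ Set.Iic t) = 0 ∨ μ (R ∩ Set.Ioi t) = 0 := by
    intro t
    by_cases h : μ (R ∩ Set.Iic t) = 0
    · exact Or.inl h
    · right
      have h1 := hcon (R ∩ Set.Iic t) (hR.inter measurableSet_Iic) Set.inter_subset_left h
      have h2 : R \ (R ∩ Set.Iic t) = R ∩ Set.Ioi t := by
        ext x
        simp only [Set.mem_sdiff, Set.mem_inter_iff, Set.mem_Iic, Set.mem_Ioi]
        constructor
        · rintro ⟨h1, h2⟩
          exact ⟨h1, not_le.1 fun h => h2 ⟨h1, h⟩⟩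
        · rintro ⟨h1, h2⟩
          exact ⟨h1, fun h => absurd h.2 (not_le.2 h2)⟩
      rwa [h2] at h1
  apply hR0
  refine measure_null_of_locally_null R fun x hx => ?_
  by_cases h1 : ∃ t < x, μ (R ∩ Set.Ioi t) = 0
  · obtain ⟨t, ht, h⟩ := h1
    exact ⟨R ∩ Set.Ioi t, inter_mem self_mem_nhdsWithin
      (mem_nhdsWithin_of_mem_nhds (Ioi_mem_nhds ht)), h⟩
  by_cases h2 : ∃ t > x, μ (R ∩ Set.Iic t) = 0
  · obtain ⟨t, ht, h⟩ := h2
    exact ⟨R ∩ Set.Iic t, inter_mem self_mem_nhdsWithin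
      (mem_nhdsWithin_of_mem_nhds (Iic_mem_nhds ht)), h⟩
  exfalso
  apply hR0
  have h3 : μ (R \ {x}) = 0 := by
    refine measure_null_of_locally_null _ fun y hy => ?_
    rcases lt_or_gt_of_ne hy.2 with hyx | hyx
    · obtain ⟨t, ht1, ht2⟩ := exists_between hyx
      have h4 : μ (R ∩ Set.Iic t) = 0 := by
        rcases key t with h | h
        · exact h
        · exact absurd ⟨t, ht2, h⟩ h1
      refine ⟨R ∩ Set.Iic t, inter_mem ?_ (mem_nhdsWithin_of_mem_nhds (Iic_mem_nhds ht1)), h4⟩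
      exact mem_of_superset self_mem_nhdsWithin Set.sdiff_subset
    · obtain ⟨t, ht1, ht2⟩ := exists_between hyx
      have h4 : μ (R ∩ Set.Ioi t) = 0 := by
        rcases key t with h | h
        · exact absurd ⟨t, ht1, h⟩ h2
        · exact h
      refine ⟨R ∩ Set.Ioi t, inter_mem ?_ (mem_nhdsWithin_of_mem_nhds (Ioi_mem_nhds ht2)), h4⟩
      exact mem_of_superset self_mem_nhdsWithin Set.sdiff_subset
  have h5 : μ R ≤ μ (R \ {x}) + μ {x} := by
    refine (measure_mono ?_).trans (measure_union_le _ _)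
    intro y hy
    by_cases h : y = x
    · right; exact h
    · left; exact ⟨hy, h⟩
  rw [h3, hμ x, add_zero] at h5
  exact nonpos_iff_eq_zero.1 h5

namespace LSys

variable {H K : Type*} [NormedAddCommGroup H] [InnerProductSpace ℂ H]
  [NormedAddCommGroup K] [InnerProductSpace ℂ K] (L : LSys H K)

lemma tw_Bm_const (c : ℂ) : Bm fun _ => c := ⟨measurable_const, ‖c‖, fun _ => le_rfl⟩

lemma tw_ctl0 : L.Ctl L.alg0 where
  lab f hf := ⟨f, hf, rfl⟩
  add := by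
    rintro a b ⟨f, hf, rfl⟩ ⟨g, hg, rfl⟩
    obtain ⟨hf1, C, hC⟩ := hf
    obtain ⟨hg1, D, hD⟩ := hg
    exact ⟨fun t => f t + g t, ⟨hf1.add hg1, C + D, fun x => (norm_add_le _ _).trans
      (add_le_add (hC x) (hD x))⟩, (L.lab_add f g ⟨hf1, C, hC⟩ ⟨hg1, D, hD⟩).symm⟩
  mul := by
    rintro a b ⟨f, hf, rfl⟩ ⟨g, hg, rfl⟩
    obtain ⟨hf1, C, hC⟩ := hf
    obtain ⟨hg1, D, hD⟩ := hg
    refine ⟨fun t => f t * g t, ⟨hf1.mul hg1, C * D, fun x => ?_⟩,
      (L.lab_mul f g ⟨hf1, C, hC⟩ ⟨hg1, D, hD⟩).symm⟩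
    rw [norm_mul]
    exact mul_le_mul (hC x) (hD x) (norm_nonneg _) ((norm_nonneg _).trans (hC x))
  adj := by
    rintro a ⟨f, hf, rfl⟩
    refine ⟨L.lab (fun t => (starRingEnd ℂ) (f t)), ⟨_, ⟨?_, ?_⟩, rfl⟩, L.lab_adj f hf⟩
    · exact Complex.continuous_conj.measurable.comp hf.1
    · obtain ⟨C, hC⟩ := hf.2
      exact ⟨C, fun x => by rw [RCLike.norm_conj]; exact hC x⟩
  comm := by
    rintro a b ⟨f, hf, rfl⟩ ⟨g, hg, rfl⟩
    rw [← L.lab_mul f g hf hg, ← L.lab_mul g f hg hf]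
    congr 1
    funext t
    exact mul_comm _ _
  X := by
    rintro a ⟨f, hf, rfl⟩ x
    exact L.lab_X f x
  Z := by
    rintro a ⟨f, hf, rfl⟩ x
    exact L.lab_Z f x
  W := by
    rintro a ⟨f, hf, rfl⟩ T _ _ x
    exact L.lab_W f _ x

lemma tw_ctl_smul {𝔄 : Set (H →L[ℂ] H)} (h : L.Ctl 𝔄) (c : ℂ) {a : H →L[ℂ] H} (ha : a ∈ 𝔄) :
    c • a ∈ 𝔄 := by
  have h1 := h.mul _ _ (h.lab (fun _ => c) (tw_Bm_const c)) ha
  rw [L.lab_const, smul_mul_assoc, one_mul] at h1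
  exact h1

lemma tw_ctl_sum {𝔄 : Set (H →L[ℂ] H)} (h : L.Ctl 𝔄) {n : ℕ} (sg : Fin n → (H →L[ℂ] H))
    (c : Fin n → ℝ) (hs : ∀ i, sg i ∈ 𝔄) : (∑ i, (c i : ℂ) • sg i) ∈ 𝔄 := by
  refine Finset.sum_induction _ (fun a => a ∈ 𝔄) (fun a b ha hb => h.add a b ha hb) ?_ ?_
  · have h1 := h.lab (fun _ => 0) (tw_Bm_const 0)
    rw [L.lab_const, zero_smul] at h1
    exact h1
  · intro i _
    exact L.tw_ctl_smul h _ (hs i)

lemma tw_Sa_sum {n : ℕ} (sg : Fin n → (H →L[ℂ] H)) (c : Fin n → ℝ) (hs : ∀ i, Sa (sg i)) :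
    Sa (∑ i, (c i : ℂ) • sg i) := by
  intro x y
  rw [sum_apply, sum_apply, sum_inner, inner_sum]
  refine Finset.sum_congr rfl fun i _ => ?_
  rw [smul_apply, smul_apply, inner_smul_left, inner_smul_right, hs i, Complex.conj_ofReal]

/-- **the tower** -/
theorem tower (h2 : L.T2Stmt) (hC : L.NestCtlStmt) (hN : L.NestStmt) : L.TowerStmt := by
  intro G Rch hG hG0 hcl hst n m sg c y hy hsg Th hTh hSa hThG U hU ε hε
  have hctl : ∀ k ≤ n, L.Ctl (L.alg y k) := by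
    intro k
    induction k with
    | zero => intro _; exact L.tw_ctl0
    | succ k ih =>
      intro hk
      have h1 := ih (by omega)
      have h3 := hsg k (by omega)
      change L.Ctl (L.nxt (L.alg y k) (y k))
      rw [hy k (by omega)]
      exact hC _ _ h1 (L.tw_ctl_sum h1 _ _ fun i => (h3 i).1)
        (tw_Sa_sum _ _ fun i => (h3 i).2.1)
  have main : ∀ k ≤ n, ∃ Rk : Set ℝ → Set ℝ → (H ≃ₗᵢ[ℂ] H) → Prop,
      L.Closed G (L.alg y k) Rk ∧ Rk G Gᶜ 1 ∧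
      ∀ R V, Rk G R V → L.mu R ≠ 0 → ∀ ε > 0, ∃ R'' V', Rch G R'' V' ∧
        ‖L.E G (L.xv V') - L.E G (L.xv V)‖ < ε := by
    intro k
    induction k with
    | zero =>
      intro _
      refine ⟨Rch, hcl, hst, fun R V h _ ε hε => ⟨R, V, h, ?_⟩⟩
      rw [sub_self, norm_zero]
      exact hε
    | succ k ih =>
      intro hk
      obtain ⟨Rk, hcl1, hst1, hd1⟩ := ih (by omega)
      have h3 := hsg k (by omega)
      obtain ⟨Rk', hcl2, hst2, hd2⟩ := hN G (L.alg y k) Rk hG (hctl k (by omega)) hcl1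
        (h2 G (L.alg y k) Rk hG (hctl k (by omega)) hcl1) (m k) (sg k) (c k) h3
      refine ⟨Rk', ?_, ?_, ?_⟩
      · change L.Closed G (L.nxt (L.alg y k) (y k)) Rk'
        rw [hy k (by omega)]
        exact hcl2
      · exact hst2 G Gᶜ 1 hst1 fun a _ x => rfl
      · intro R V hRV hR0 ε hε
        have hRm := (hcl2.meas G R V hRV).2.1
        obtain ⟨R', hR'm, hR's, hR'0, hR'1⟩ := exists_split_atomless L.mu L.noAtoms hRm hR0
        obtain ⟨V1, hV1, hV1'⟩ := hd2 G R R' V hRV hR'm hR's hR'1 (ε / 2) (by linarith)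
        obtain ⟨R'', V', h4, h5⟩ := hd1 R' V1 hV1 hR'0 (ε / 2) (by linarith)
        refine ⟨R'', V', h4, ?_⟩
        have e : L.E G (L.xv V') - L.E G (L.xv V) = (L.E G (L.xv V') - L.E G (L.xv V1))
            + (L.E G (L.xv V1) - L.E G (L.xv V)) := by abel
        rw [e]
        exact (norm_add_le _ _).trans_lt (by linarith)
  obtain ⟨Rn, hcln, hstn, hdn⟩ := main n le_rfl
  have h5 : Rn G Gᶜ (U * 1) := hcln.rot G Gᶜ 1 Th 1 U hstn hTh hSa hThG hU
  rw [mul_one] at h5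
  exact hdn Gᶜ U h5 hG0 ε hε

end LSys

end Vale.Agent.P367.A
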