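import Vale.Agent.P367.B.Main0
import Vale.Agent.P367.B.Tower
import Vale.Agent.P367.B.T2Exit
import Vale.Agent.P367.B.NestCtl

/-! P367: final assembly modulo BASE, T2 (finite form), NEST, VALUE. -/

namespace Vale.Agent.P367.A

open Filter Topology

theorem main1_of (hbase : LSys.BaseStmt)
    (ht2 : ∀ {K' : Type} [NormedAddCommGroup K'] [InnerProductSpace ℂ K']
      (L : LSys (NI.HH NI.FN) K'), L.T2FinStmt)
    (hnest : ∀ {K' : Type} [NormedAddCommGroup K'] [InnerProductSpace ℂ K']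
      (L : LSys (NI.HH NI.FN) K'), L.NestStmt)
    (hval : ∀ {K' : Type} [NormedAddCommGroup K'] [InnerProductSpace ℂ K']
      (L : LSys (NI.HH NI.FN) K') (J : K' → NI.HH NI.FN) (S : NI.Weyl NI.FN NI.L2N),
      L.IsBase S J → L.ValueStmt J Gap.Pstar) :
    Tendsto Gap.Qsup atTop (𝓝 Gap.Pstar) :=
  main_of hbase (fun L => L.tower (L.t2_of_fin (ht2 L)) L.nestCtl (hnest L)) hval

end Vale.Agent.P367.A
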