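import Vale.Agent.P367.B.Sweep
import Vale.Agent.P367.B.FGf

/-! P367, block B, T2: existence of sweeps, unconditional. -/

namespace Vale.Agent.P367.A

open Filter Topology

namespace LSys

variable {H K : Type} [NormedAddCommGroup H] [InnerProductSpace ℂ H]
  [NormedAddCommGroup K] [InnerProductSpace ℂ K]

/-- (S) existence of sweeps -/
theorem sweep_all [CompleteSpace H] (L : LSys H K)
    (hc : ∀ x : H, Tendsto (fun a => L.W a x) (𝓝 0) (𝓝 x)) : L.SweepStmt hc :=
  L.sweepStmt hc L.fgStmt

end LSys

end Vale.Agent.P367.A
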