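import Vale.Agent.P367.B.LSys
import Vale.Agent.P367.B.LBasic
import Vale.Agent.P367.B.NestCtl
import Vale.Agent.P367.B.Own
import Vale.Agent.P367.B.Trotter
import Vale.Agent.P367.B.T1

/-! P367, block B, NEST (N1): rotations controlled by the next control algebra.

`UU` is a class of unitaries closed under products and strong limits which contains
`exp(-iaP)` for the old controls `a` and the label gates `zr (k y)` on the system labels.
Then it contains `exp(-iaP)` for all controls `a` of the next level. -/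

namespace Vale.Agent.P367.A

open Complex Filter Topology
open Vale.Agent.P367.B (ex ex_add ex_zero ex_commute star_ex norm_ex norm_ex_sub_ex_le ex_neg_mul
  ex_mul_neg lie_trotter)

namespace LSys

variable {H K : Type} [NormedAddCommGroup H] [InnerProductSpace ℂ H] [CompleteSpace H]
  [NormedAddCommGroup K] [InnerProductSpace ℂ K] (L : LSys H K)

/-- bounded operator of a Pauli operator -/
noncomputable def pc (P : Fin 3) : H →L[ℂ] H :=
  (L.pau P).toContinuousLinearEquiv.toContinuousLinearMap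

omit [CompleteSpace H] in
lemma pc_apply (P : Fin 3) (x : H) : L.pc P x = L.pau P x := rfl

/-- class of admissible unitaries -/
structure UCl (G : Set ℝ) (𝔄 : Set (H →L[ℂ] H)) (y : K) (UU : Set (H ≃ₗᵢ[ℂ] H)) : Prop where
  mul : ∀ U V, U ∈ UU → V ∈ UU → U * V ∈ UU
  lim : ∀ (U : ℕ → (H ≃ₗᵢ[ℂ] H)) (U0 : H ≃ₗᵢ[ℂ] H), (∀ n, U n ∈ UU) →
    (∀ a ∈ L.nxt 𝔄 y, ∀ x, a (U0 x) = U0 (a x)) →
    (∀ x, Tendsto (fun n => U n x) atTop (𝓝 (U0 x))) → U0 ∈ UU
  rot : ∀ a P U, a ∈ 𝔄 → Sa a → a * L.E G = a → L.IsRot a P U → U ∈ UU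
  zrG : ∀ (k : ℝ) (U : H ≃ₗᵢ[ℂ] H),
    (∀ x, U x = L.zr ((k : ℂ) • y) (L.E G x) + (x - L.E G x)) → U ∈ UU

/-- the unitary `exp(-iA)` of a bounded self-adjoint operator -/
noncomputable def eU (A : H →L[ℂ] H) (hA : IsSelfAdjoint A) : H ≃ₗᵢ[ℂ] H :=
  mkU (ex (-A)).toLinearMap (ex A).toLinearMap
    (fun x => by
      have := congrArg (fun T : H →L[ℂ] H => T x) (ex_mul_neg A)
      exact this)
    (fun x => by
      have := congrArg (fun T : H →L[ℂ] H => T x) (ex_neg_mul A)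
      exact this)
    (fun x y => by
      have h : star (ex (-A)) = ex A := by
        rw [star_ex hA.neg, neg_neg]
      change inner ℂ (ex (-A) x) y = inner ℂ x (ex A y)
      rw [← h, ContinuousLinearMap.star_eq_adjoint, ContinuousLinearMap.adjoint_inner_right])

lemma eU_apply (A : H →L[ℂ] H) (hA : IsSelfAdjoint A) (x : H) : eU A hA x = ex (-A) x := rfl

/-! ### operator algebra -/

lemma opext {A B : H →L[ℂ] H} (h : ∀ x, A x = B x) : A = B := ContinuousLinearMap.ext h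

lemma sa_iff {A : H →L[ℂ] H} : Sa A ↔ IsSelfAdjoint A := by
  rw [ContinuousLinearMap.isSelfAdjoint_iff_isSymmetric]
  rfl

lemma isRot_iff {a : H →L[ℂ] H} {P : Fin 3} {U : H ≃ₗᵢ[ℂ] H} :
    L.IsRot a P U ↔ ∀ x, U x = ex (-(a * L.pc P)) x := by
  unfold IsRot ex pc
  rw [smul_neg, ← neg_smul]

omit [CompleteSpace H] in
lemma pau_zero' : L.pau 0 = L.X := rfl
omit [CompleteSpace H] in
lemma pau_one' : L.pau 1 = L.Zt (-(Real.pi / 4)) := rfl
omit [CompleteSpace H] in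
lemma pau_two' : L.pau 2 = L.Z := rfl

omit [CompleteSpace H] in
lemma pc_one_apply (x : H) : L.pc 1 x = Complex.I • L.X (L.Z x) := by
  rw [pc_apply, pau_one', L.Zt_apply]
  have : 2 * -(Real.pi / 4) = -(Real.pi / 2) := by ring
  rw [this, L.xr_neg_pi_div_two]

omit [CompleteSpace H] in
lemma pc_sq (P : Fin 3) : L.pc P * L.pc P = 1 := by
  refine ContinuousLinearMap.ext fun x => ?_
  change L.pau P (L.pau P x) = x
  fin_cases P
  · exact L.XX x
  · exact L.Zt_sq _ x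
  · exact L.ZZ x

lemma pc_sa (P : Fin 3) : IsSelfAdjoint (L.pc P) := by
  rw [← sa_iff]
  intro x y
  change inner ℂ (L.pau P x) y = inner ℂ x (L.pau P y)
  fin_cases P
  · exact L.inner_X x y
  · exact L.inner_Zt _ x y
  · exact L.inner_Z x y

omit [CompleteSpace H] in
lemma pc_Wc (P : Fin 3) (a : K) : Commute (L.pc P) (L.Wc a) := by
  refine ContinuousLinearMap.ext fun x => ?_
  change L.pau P (L.W a x) = L.W a (L.pau P x)
  fin_cases P
  · exact (L.WX a x).symm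
  · exact (L.W_ZtA a _ x).symm
  · exact (L.WZ a x).symm

omit [CompleteSpace H] in
lemma pc_ctl {𝔄 : Set (H →L[ℂ] H)} (h : L.Ctl 𝔄) {a : H →L[ℂ] H} (ha : a ∈ 𝔄) (P : Fin 3) :
    Commute (L.pc P) a := by
  have hX := h.X a ha
  have hZ := h.Z a ha
  refine ContinuousLinearMap.ext fun x => ?_
  fin_cases P
  · exact (hX x).symm
  · change L.pc 1 (a x) = a (L.pc 1 x)
    rw [pc_one_apply, pc_one_apply, map_smul, hX, hZ]
  · exact (hZ x).symm

omit [CompleteSpace H] in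
/-- `X Z = - Z X` -/
lemma pX_pZ : L.pc 0 * L.pc 2 = -(L.pc 2 * L.pc 0) := by
  refine ContinuousLinearMap.ext fun x => ?_
  exact L.XZ x

omit [CompleteSpace H] in
/-- `Y = i X Z` -/
lemma pY_eq : L.pc 1 = Complex.I • (L.pc 0 * L.pc 2) := by
  refine ContinuousLinearMap.ext fun x => ?_
  exact L.pc_one_apply x

omit [CompleteSpace H] in
lemma Wc_zero : L.Wc 0 = 1 := by
  refine ContinuousLinearMap.ext fun x => ?_
  exact L.W_zero_apply x

omit [CompleteSpace H] in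
lemma Wc_mul (y : K) (s t : ℝ) :
    L.Wc ((s : ℂ) • y) * L.Wc ((t : ℂ) • y) = L.Wc (((s + t : ℝ) : ℂ) • y) := by
  refine ContinuousLinearMap.ext fun x => ?_
  change L.W ((s : ℂ) • y) (L.W ((t : ℂ) • y) x) = L.W (((s + t : ℝ) : ℂ) • y) x
  rw [L.WW', th_smul_left, th_smul_right, th_self]
  have : (s : ℂ) • y + (t : ℂ) • y = ((s + t : ℝ) : ℂ) • y := by push_cast; module
  rw [this]
  simp

lemma Wc_star (a : K) : star (L.Wc a) = L.Wc (-a) := by
  rw [ContinuousLinearMap.star_eq_adjoint]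
  symm
  rw [ContinuousLinearMap.eq_adjoint_iff]
  intro x y
  change inner ℂ (L.W (-a) x) y = inner ℂ x (L.W a y)
  rw [L.inner_W, neg_neg]

/-- `cos (phi (k y))` -/
noncomputable def csY (y : K) (k : ℝ) : H →L[ℂ] H :=
  (1 / 2 : ℂ) • (L.Wc ((k : ℂ) • y) + L.Wc (((-k : ℝ) : ℂ) • y))

/-- `sin (phi (k y))` -/
noncomputable def snY (y : K) (k : ℝ) : H →L[ℂ] H :=
  (-(Complex.I / 2) : ℂ) • (L.Wc ((k : ℂ) • y) - L.Wc (((-k : ℝ) : ℂ) • y))

omit [CompleteSpace H] in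
lemma Wc_eq (y : K) (k : ℝ) : L.Wc ((k : ℂ) • y) = L.csY y k + Complex.I • L.snY y k := by
  unfold csY snY
  rw [smul_smul]
  have : Complex.I * (-(Complex.I / 2)) = 1 / 2 := by
    linear_combination (-(1 / 2) : ℂ) * Complex.I_mul_I
  rw [this]
  module

omit [CompleteSpace H] in
lemma Wc_neg_eq (y : K) (k : ℝ) :
    L.Wc (((-k : ℝ) : ℂ) • y) = L.csY y k - Complex.I • L.snY y k := by
  unfold csY snY
  rw [smul_smul]
  have : Complex.I * (-(Complex.I / 2)) = 1 / 2 := by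
    linear_combination (-(1 / 2) : ℂ) * Complex.I_mul_I
  rw [this]
  module

lemma Wc_star_real (y : K) (k : ℝ) : star (L.Wc ((k : ℂ) • y)) = L.Wc (((-k : ℝ) : ℂ) • y) := by
  rw [Wc_star]
  congr 1
  push_cast
  module

lemma csY_sa (y : K) (k : ℝ) : IsSelfAdjoint (L.csY y k) := by
  unfold csY
  rw [IsSelfAdjoint, star_smul, star_add, Wc_star_real, Wc_star_real, neg_neg, add_comm]
  congr 1
  simp

lemma snY_sa (y : K) (k : ℝ) : IsSelfAdjoint (L.snY y k) := by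
  unfold snY
  rw [IsSelfAdjoint, star_smul, star_sub, Wc_star_real, Wc_star_real, neg_neg]
  have : star (-(Complex.I / 2) : ℂ) = Complex.I / 2 := by
    simp [Complex.conj_I, neg_div]
  rw [this]
  module

omit [CompleteSpace H] in
lemma csY_neg (y : K) (k : ℝ) : L.csY y (-k) = L.csY y k := by
  unfold csY
  rw [neg_neg, add_comm]

omit [CompleteSpace H] in
lemma snY_neg (y : K) (k : ℝ) : L.snY y (-k) = -L.snY y k := by
  unfold snY
  rw [neg_neg]
  module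

/-- operator of `zr (k y)` -/
noncomputable def zc (y : K) (k : ℝ) : H →L[ℂ] H :=
  L.csY y k - Complex.I • (L.snY y k * L.pc 2)

omit [CompleteSpace H] in
lemma zc_apply (y : K) (k : ℝ) (x : H) : L.zc y k x = L.zr ((k : ℂ) • y) x := by
  have e : (-((k : ℂ) • y)) = ((-k : ℝ) : ℂ) • y := by push_cast; module
  rw [L.zr_apply, e]
  change L.csY y k x - Complex.I • (L.snY y k (L.Z x)) = _
  have h1 : ∀ z, L.W ((k : ℂ) • y) z = L.csY y k z + Complex.I • L.snY y k z := by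
    intro z
    have := congrArg (fun T : H →L[ℂ] H => T z) (L.Wc_eq y k)
    exact this
  have h2 : ∀ z, L.W (((-k : ℝ) : ℂ) • y) z = L.csY y k z - Complex.I • L.snY y k z := by
    intro z
    have := congrArg (fun T : H →L[ℂ] H => T z) (L.Wc_neg_eq y k)
    exact this
  rw [h1, h2, h1, h2]
  module

/-! ### the class of good generators -/

section good

variable {L} {G : Set ℝ} {𝔄 : Set (H →L[ℂ] H)} {y : K} {UU : Set (H ≃ₗᵢ[ℂ] H)}

/-- generators whose exponentials lie in `UU` -/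
structure Gd (L : LSys H K) (𝔄 : Set (H →L[ℂ] H)) (y : K) (UU : Set (H ≃ₗᵢ[ℂ] H))
    (A : H →L[ℂ] H) : Prop where
  sa : IsSelfAdjoint A
  cm : ∀ a ∈ L.nxt 𝔄 y, Commute A a
  mem : ∀ U : H ≃ₗᵢ[ℂ] H, (∀ x, U x = ex (-A) x) → U ∈ UU

lemma Gd.eU {A : H →L[ℂ] H} (h : Gd L 𝔄 y UU A) : eU A h.sa ∈ UU :=
  h.mem _ fun x => eU_apply A h.sa x

lemma Gd.of_eU {A : H →L[ℂ] H} (hA : IsSelfAdjoint A) (hc : ∀ a ∈ L.nxt 𝔄 y, Commute A a)
    (h : LSys.eU A hA ∈ UU) : Gd L 𝔄 y UU A := by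
  refine ⟨hA, hc, fun U hU => ?_⟩
  have : U = LSys.eU A hA := LinearIsometryEquiv.ext fun x => by rw [hU, eU_apply]
  rwa [this]

lemma eU_commute {A a : H →L[ℂ] H} (hA : IsSelfAdjoint A) (h : Commute A a) (x : H) :
    a (LSys.eU A hA x) = LSys.eU A hA (a x) := by
  have h1 : Commute (ex (-A)) a := ex_commute h.neg_left
  have := congrArg (fun T : H →L[ℂ] H => T x) h1
  exact this.symm

lemma Gd.add (hU : L.UCl G 𝔄 y UU) {A B : H →L[ℂ] H} (hA : Gd L 𝔄 y UU A) (hB : Gd L 𝔄 y UU B)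
    (h : Commute A B) : Gd L 𝔄 y UU (A + B) := by
  refine Gd.of_eU (hA.sa.add hB.sa) (fun a ha => (hA.cm a ha).add_left (hB.cm a ha)) ?_
  have e : LSys.eU (A + B) (hA.sa.add hB.sa) = LSys.eU A hA.sa * LSys.eU B hB.sa := by
    refine LinearIsometryEquiv.ext fun x => ?_
    change ex (-(A + B)) x = ex (-A) (ex (-B) x)
    rw [neg_add, ex_add (h.neg_left.neg_right)]
    rfl
  rw [e]
  exact hU.mul _ _ hA.eU hB.eU

/-- strong limits of good generators -/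
lemma Gd.lim (hU : L.UCl G 𝔄 y UU) {A : ℕ → H →L[ℂ] H} {A0 : H →L[ℂ] H}
    (hA : ∀ n, Gd L 𝔄 y UU (A n)) (h0 : IsSelfAdjoint A0) (hc : ∀ a ∈ L.nxt 𝔄 y, Commute A0 a)
    (hcom : ∀ n, Commute (A n) A0) (h : ∀ x, Tendsto (fun n => A n x) atTop (𝓝 (A0 x))) :
    Gd L 𝔄 y UU A0 := by
  refine Gd.of_eU h0 hc ?_
  refine hU.lim (fun n => LSys.eU (A n) (hA n).sa) _ (fun n => (hA n).eU)
    (fun a ha x => eU_commute h0 (hc a ha) x) fun x => ?_
  rw [tendsto_iff_norm_sub_tendsto_zero]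
  refine squeeze_zero (fun n => norm_nonneg _) (fun n => ?_)
    (tendsto_iff_norm_sub_tendsto_zero.1 (h x))
  have h1 := norm_ex_sub_ex_le (hA n).sa.neg h0.neg ((hcom n).neg_left.neg_right) x
  have e : (-(A n) - -A0) x = -(A n x - A0 x) := by
    change -(A n x) - -(A0 x) = _
    abel
  rw [e, norm_neg] at h1
  exact h1

lemma Gd.zero (hL : L.Ctl 𝔄) (hU : L.UCl G 𝔄 y UU) : Gd L 𝔄 y UU 0 := by
  refine ⟨IsSelfAdjoint.zero _, fun a _ => Commute.zero_left a, fun U hU' => ?_⟩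
  have h0 : (0 : H →L[ℂ] H) ∈ 𝔄 := by
    have := hL.lab (fun _ => 0) ⟨measurable_const, 0, fun x => by simp⟩
    rw [L.lab_const] at this
    simpa using this
  refine hU.rot 0 0 U h0 (fun x y => by simp) (by simp) ?_
  rw [isRot_iff]
  intro x
  rw [hU']
  simp

lemma pow_mem (hL : L.Ctl 𝔄) (hU : L.UCl G 𝔄 y UU) {U : H ≃ₗᵢ[ℂ] H} (h : U ∈ UU) (n : ℕ) :
    U ^ n ∈ UU := by
  induction n with
  | zero =>
    rw [pow_zero]
    refine (Gd.zero hL hU).mem 1 fun x => ?_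
    rw [neg_zero, ex_zero]
    rfl
  | succ n ih =>
    rw [pow_succ]
    exact hU.mul _ _ ih h

lemma coe_pow (U : H ≃ₗᵢ[ℂ] H) (T : H →L[ℂ] H) (h : ∀ x, U x = T x) (n : ℕ) (x : H) :
    (U ^ n) x = (T ^ n) x := by
  induction n generalizing x with
  | zero => rfl
  | succ n ih =>
    rw [pow_succ, pow_succ]
    change (U ^ n) (U x) = (T ^ n) (T x)
    rw [h, ih]

lemma real_smul_sa {A : H →L[ℂ] H} (hA : IsSelfAdjoint A) (t : ℝ) :
    IsSelfAdjoint ((t : ℂ) • A) := by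
  rw [IsSelfAdjoint, star_smul, hA.star_eq]
  congr 1
  exact Complex.conj_ofReal t

/-- Lie-Trotter -/
lemma Gd.trot (hL : L.Ctl 𝔄) (hU : L.UCl G 𝔄 y UU) {A B : H →L[ℂ] H}
    (hA : ∀ t : ℝ, Gd L 𝔄 y UU ((t : ℂ) • A)) (hB : ∀ t : ℝ, Gd L 𝔄 y UU ((t : ℂ) • B)) :
    Gd L 𝔄 y UU (A + B) := by
  have hA1 : Gd L 𝔄 y UU A := by simpa using hA 1
  have hB1 : Gd L 𝔄 y UU B := by simpa using hB 1
  refine Gd.of_eU (hA1.sa.add hB1.sa) (fun a ha => (hA1.cm a ha).add_left (hB1.cm a ha)) ?_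
  refine hU.lim (fun m : ℕ => (LSys.eU _ (hA ((m : ℝ)⁻¹)).sa * LSys.eU _ (hB ((m : ℝ)⁻¹)).sa) ^ m) _
    (fun m => pow_mem hL hU (hU.mul _ _ (hA _).eU (hB _).eU) m)
    (fun a ha x => eU_commute _ ((hA1.cm a ha).add_left (hB1.cm a ha)) x) fun x => ?_
  have h1 : ‖(1 : H →L[ℂ] H)‖ ≤ 1 := ContinuousLinearMap.norm_id_le
  have h := lie_trotter h1 (Complex.I • (-A)) (Complex.I • (-B))
  have h2 : Tendsto (fun m : ℕ => ((NormedSpace.exp (((m : ℂ)⁻¹) • (Complex.I • (-A)))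
      * NormedSpace.exp (((m : ℂ)⁻¹) • (Complex.I • (-B)))) ^ m) x) atTop
      (𝓝 (NormedSpace.exp (Complex.I • (-A) + Complex.I • (-B)) x)) :=
    ((ContinuousLinearMap.apply ℂ H x).continuous.tendsto _).comp h
  have e0 : NormedSpace.exp (Complex.I • (-A) + Complex.I • (-B)) x
      = LSys.eU (A + B) (hA1.sa.add hB1.sa) x := by
    change _ = NormedSpace.exp (Complex.I • (-(A + B))) x
    rw [← smul_add, neg_add]
  rw [e0] at h2
  refine h2.congr fun m => ?_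
  symm
  refine coe_pow _ _ (fun z => ?_) m x
  change NormedSpace.exp (Complex.I • (-((((m : ℝ)⁻¹ : ℝ) : ℂ) • A)))
      (NormedSpace.exp (Complex.I • (-((((m : ℝ)⁻¹ : ℝ) : ℂ) • B))) z) = _
  have e1 : ∀ T : H →L[ℂ] H, Complex.I • (-((((m : ℝ)⁻¹ : ℝ) : ℂ) • T))
      = ((m : ℂ)⁻¹) • (Complex.I • (-T)) := by
    intro T
    push_cast
    module
  rw [e1, e1]
  rfl

/-- conjugation by members of the class -/
lemma Gd.conj (hU : L.UCl G 𝔄 y UU) {A : H →L[ℂ] H} (hA : Gd L 𝔄 y UU A)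
    {V V' : H ≃ₗᵢ[ℂ] H} (hV : V ∈ UU) (hV' : V' ∈ UU) {T T' : H →L[ℂ] H}
    (hT : ∀ x, V x = T x) (hT' : ∀ x, V' x = T' x) (h1 : T * T' = 1) (h2 : T' * T = 1)
    (h3 : star T = T') (hc : ∀ a ∈ L.nxt 𝔄 y, Commute T a) : Gd L 𝔄 y UU (T * A * T') := by
  have hc' : ∀ a ∈ L.nxt 𝔄 y, Commute T' a := by
    intro a ha
    have h := hc a ha
    change T' * a = a * T'
    calc T' * a = T' * a * (T * T') := by rw [h1, mul_one]
      _ = T' * (a * T) * T' := by noncomm_ring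
      _ = T' * (T * a) * T' := by rw [h.eq]
      _ = (T' * T) * a * T' := by noncomm_ring
      _ = a * T' := by rw [h2, one_mul]
  have hsa : IsSelfAdjoint (T * A * T') := by
    rw [IsSelfAdjoint, star_mul, star_mul, hA.sa.star_eq, h3, ← h3, star_star, h3, mul_assoc]
  refine Gd.of_eU hsa (fun a ha => ((hc a ha).mul_left (hA.cm a ha)).mul_left (hc' a ha)) ?_
  have e : LSys.eU (T * A * T') hsa = V * (LSys.eU A hA.sa * V') := by
    refine LinearIsometryEquiv.ext fun x => ?_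
    change ex (-(T * A * T')) x = V (ex (-A) (V' x))
    rw [hT, hT']
    have e2 : ex (-(T * A * T')) = T * ex (-A) * T' := by
      let _ : NormedAlgebra ℚ (H →L[ℂ] H) := .restrictScalars ℚ ℂ (H →L[ℂ] H)
      unfold ex
      have h := NormedSpace.exp_units_conj (⟨T, T', h1, h2⟩ : (H →L[ℂ] H)ˣ) (Complex.I • (-A))
      change NormedSpace.exp (T * (Complex.I • (-A)) * T')
        = T * NormedSpace.exp (Complex.I • (-A)) * T' at h
      rw [← h]
      congr 1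
      rw [mul_smul_comm, smul_mul_assoc, mul_neg, neg_mul]
    rw [e2]
    rfl
  rw [e]
  exact hU.mul _ _ hV (hU.mul _ _ hA.eU hV')

end good

/-! ### exponential of a projected involution -/

lemma exp_mul_of_zero {E D : H →L[ℂ] H} (h : E * D = 0) : E * NormedSpace.exp D = E := by
  let _ : NormedAlgebra ℚ (H →L[ℂ] H) := .restrictScalars ℚ ℂ (H →L[ℂ] H)
  have hs := NormedSpace.expSeries_summable' (𝕂 := ℂ) D
  rw [NormedSpace.exp_eq_tsum ℂ]
  change E * (∑' n : ℕ, ((n.factorial : ℂ)⁻¹) • D ^ n) = E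
  rw [← hs.tsum_mul_left, tsum_eq_single 0]
  · simp
  · intro n hn
    obtain ⟨m, rfl⟩ := Nat.exists_eq_succ_of_ne_zero hn
    rw [pow_succ', mul_smul_comm, ← mul_assoc, h, zero_mul, smul_zero]

/-- `exp(E C) = E exp(C) + (1 - E)` for a commuting idempotent `E` -/
lemma exp_idem {E C : H →L[ℂ] H} (hE : E * E = E) (hc : Commute E C) :
    NormedSpace.exp (E * C) = E * NormedSpace.exp C + (1 - E) := by
  let _ : NormedAlgebra ℚ (H →L[ℂ] H) := .restrictScalars ℚ ℂ (H →L[ℂ] H)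
  have h1 : E * ((1 - E) * C) = 0 := by
    rw [← mul_assoc, mul_sub, mul_one, hE, sub_self, zero_mul]
  have h2 : (1 - E) * (E * C) = 0 := by
    rw [← mul_assoc, sub_mul, one_mul, hE, sub_self, zero_mul]
  have h3 := exp_mul_of_zero h1
  have h4 := exp_mul_of_zero h2
  have hcc : Commute ((1 - E) * C) (E * C) := by
    have e1 : Commute E (E * C) := (Commute.refl E).mul_right hc
    have e2 : Commute C (E * C) := hc.symm.mul_right (Commute.refl C)
    exact (((Commute.one_left _).sub_left e1)).mul_left e2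
  have h5 : NormedSpace.exp C = NormedSpace.exp ((1 - E) * C) * NormedSpace.exp (E * C) := by
    rw [← NormedSpace.exp_add_of_commute hcc]
    congr 1
    noncomm_ring
  calc NormedSpace.exp (E * C) = E * NormedSpace.exp (E * C) + (1 - E) * NormedSpace.exp (E * C) := by
        noncomm_ring
    _ = E * NormedSpace.exp (E * C) + (1 - E) := by rw [h4]
    _ = (E * NormedSpace.exp ((1 - E) * C)) * NormedSpace.exp (E * C) + (1 - E) := by rw [h3]
    _ = E * NormedSpace.exp C + (1 - E) := by rw [h5, mul_assoc]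

/-- rotation of the labels in `G` about the axis `P` -/
noncomputable def rc (E P : H →L[ℂ] H) (θ : ℝ) : H →L[ℂ] H :=
  E * ((Real.cos θ : ℂ) • (1 : H →L[ℂ] H) - (Complex.I * (Real.sin θ : ℂ)) • P) + (1 - E)

lemma ex_rot {E P : H →L[ℂ] H} (hE : E * E = E) (hP : P * P = 1) (hc : Commute E P) (θ : ℝ) :
    ex (-((θ : ℂ) • (E * P))) = rc E P θ := by
  have h := exp_idem hE (C := (-(Complex.I * (θ : ℂ))) • P) (hc.smul_right _)
  rw [Vale.Agent.P367.B.exp_inv hP θ] at h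
  unfold rc ex
  change _ = E * Vale.Agent.P367.B.Er P θ + (1 - E)
  rw [← h]
  congr 1
  rw [mul_smul_comm]
  module

/-! ### the algebra of the label gates -/

section alg

variable {L} {G : Set ℝ} {𝔄 : Set (H →L[ℂ] H)} {y : K} {UU : Set (H ≃ₗᵢ[ℂ] H)}

omit [CompleteSpace H] in
lemma Ec_idem (hG : MeasurableSet G) : L.E G * L.E G = L.E G :=
  ContinuousLinearMap.ext fun x => L.E_E hG x

lemma Ec_sa (hG : MeasurableSet G) : IsSelfAdjoint (L.E G) := by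
  rw [← sa_iff]
  intro x y
  exact L.E_sa hG x y

omit [CompleteSpace H] in
lemma Ec_mem (hG : MeasurableSet G) (hL : L.Ctl 𝔄) : L.E G ∈ 𝔄 := hL.lab _ (Bm.ind hG 1)

omit [CompleteSpace H] in
lemma Ec_pc (P : Fin 3) : Commute (L.E G) (L.pc P) :=
  ContinuousLinearMap.ext fun x => L.E_pau G P x

omit [CompleteSpace H] in
lemma Ec_Wc (a : K) : Commute (L.E G) (L.Wc a) :=
  ContinuousLinearMap.ext fun x => L.E_W G a x

omit [CompleteSpace H] in
lemma Wc_Wc (s t : ℝ) : Commute (L.Wc ((s : ℂ) • y)) (L.Wc ((t : ℂ) • y)) := by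
  change L.Wc ((s : ℂ) • y) * L.Wc ((t : ℂ) • y) = L.Wc ((t : ℂ) • y) * L.Wc ((s : ℂ) • y)
  rw [Wc_mul, Wc_mul, add_comm]

omit [CompleteSpace H] in
/-- what commutes with the Weyl operators commutes with `cos` and `sin` -/
lemma com_cs {T : H →L[ℂ] H} (h : ∀ s : ℝ, Commute T (L.Wc ((s : ℂ) • y))) (k : ℝ) :
    Commute T (L.csY y k) :=
  ((h k).add_right (h (-k))).smul_right _

omit [CompleteSpace H] in
lemma com_sn {T : H →L[ℂ] H} (h : ∀ s : ℝ, Commute T (L.Wc ((s : ℂ) • y))) (k : ℝ) :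
    Commute T (L.snY y k) :=
  ((h k).sub_right (h (-k))).smul_right _

omit [CompleteSpace H] in
lemma cs_Wc (k s : ℝ) : Commute (L.csY y k) (L.Wc ((s : ℂ) • y)) :=
  (com_cs (fun t => Wc_Wc s t) k).symm

omit [CompleteSpace H] in
lemma sn_Wc (k s : ℝ) : Commute (L.snY y k) (L.Wc ((s : ℂ) • y)) :=
  (com_sn (fun t => Wc_Wc s t) k).symm

omit [CompleteSpace H] in
lemma cs_sn (k l : ℝ) : Commute (L.csY y k) (L.snY y l) := com_sn (fun s => cs_Wc k s) l

omit [CompleteSpace H] in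
lemma I_I_smul (T : H →L[ℂ] H) : Complex.I • (Complex.I • T) = -T := by
  rw [smul_smul, Complex.I_mul_I]
  module

omit [CompleteSpace H] in
lemma cs_sq_add (k : ℝ) : L.csY y k * L.csY y k + L.snY y k * L.snY y k = 1 := by
  have h1 : L.Wc ((k : ℂ) • y) * L.Wc (((-k : ℝ) : ℂ) • y) = 1 := by
    rw [Wc_mul, add_neg_cancel]
    simp [Wc_zero]
  rw [Wc_eq, Wc_neg_eq] at h1
  rw [← h1]
  have h2 : L.csY y k * L.snY y k = L.snY y k * L.csY y k := cs_sn k k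
  simp only [add_mul, mul_sub, smul_mul_assoc, mul_smul_comm, h2, smul_add, smul_sub,
    I_I_smul]
  module

omit [CompleteSpace H] in
lemma cs_double (k : ℝ) : L.csY y (2 * k) = L.csY y k * L.csY y k - L.snY y k * L.snY y k := by
  have h1 : L.Wc (((2 * k : ℝ) : ℂ) • y) = L.Wc ((k : ℂ) • y) * L.Wc ((k : ℂ) • y) := by
    rw [Wc_mul, two_mul]
  have h2 : L.Wc (((-(2 * k) : ℝ) : ℂ) • y)
      = L.Wc (((-k : ℝ) : ℂ) • y) * L.Wc (((-k : ℝ) : ℂ) • y) := by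
    rw [Wc_mul]
    congr 3
    ring
  have h4 : L.csY y k * L.snY y k = L.snY y k * L.csY y k := cs_sn k k
  conv_lhs => unfold csY
  rw [h1, h2, Wc_eq, Wc_neg_eq]
  simp only [add_mul, mul_add, sub_mul, mul_sub, smul_mul_assoc, mul_smul_comm, h4, smul_add,
    smul_sub, I_I_smul]
  module

omit [CompleteSpace H] in
lemma sn_double (k : ℝ) : L.snY y (2 * k) = (2 : ℂ) • (L.csY y k * L.snY y k) := by
  have h1 : L.Wc (((2 * k : ℝ) : ℂ) • y) = L.Wc ((k : ℂ) • y) * L.Wc ((k : ℂ) • y) := by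
    rw [Wc_mul, two_mul]
  have h2 : L.Wc (((-(2 * k) : ℝ) : ℂ) • y)
      = L.Wc (((-k : ℝ) : ℂ) • y) * L.Wc (((-k : ℝ) : ℂ) • y) := by
    rw [Wc_mul]
    congr 3
    ring
  have h4 : L.snY y k * L.csY y k = L.csY y k * L.snY y k := (cs_sn k k).symm
  conv_lhs => unfold snY
  rw [h1, h2, Wc_eq, Wc_neg_eq]
  simp only [add_mul, mul_add, sub_mul, mul_sub, smul_mul_assoc, mul_smul_comm, h4, smul_add,
    smul_sub, I_I_smul]
  have h5 : -(Complex.I / 2) * Complex.I = 1 / 2 := by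
    linear_combination (-(1 / 2) : ℂ) * Complex.I_mul_I
  have h6 : ∀ T : H →L[ℂ] H, -(Complex.I / 2) • (Complex.I • T) = (1 / 2 : ℂ) • T := by
    intro T
    rw [smul_smul, h5]
  simp only [smul_add, smul_sub, h6]
  module

omit [CompleteSpace H] in
/-- what commutes with the Weyl operators and `Z` commutes with `zr` -/
lemma com_zc {T : H →L[ℂ] H} (h : ∀ s : ℝ, Commute T (L.Wc ((s : ℂ) • y)))
    (hZ : Commute T (L.pc 2)) (k : ℝ) : Commute T (L.zc y k) :=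
  (com_cs h k).sub_right (((com_sn h k).mul_right hZ).smul_right _)

omit [CompleteSpace H] in
lemma pc_cs (P : Fin 3) (k : ℝ) : Commute (L.pc P) (L.csY y k) :=
  com_cs (fun s => L.pc_Wc P _) k

omit [CompleteSpace H] in
lemma pc_sn (P : Fin 3) (k : ℝ) : Commute (L.pc P) (L.snY y k) :=
  com_sn (fun s => L.pc_Wc P _) k

omit [CompleteSpace H] in
/-- `Z X = i Y` -/
lemma pZ_pX : L.pc 2 * L.pc 0 = Complex.I • L.pc 1 := by
  rw [pY_eq, I_I_smul, pX_pZ, neg_neg]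

omit [CompleteSpace H] in
/-- `X Z = -i Y` -/
lemma pX_pZ' : L.pc 0 * L.pc 2 = -(Complex.I • L.pc 1) := by
  rw [pX_pZ, pZ_pX]

omit [CompleteSpace H] in
/-- `X Y = i Z` -/
lemma pX_pY : L.pc 0 * L.pc 1 = Complex.I • L.pc 2 := by
  rw [pY_eq, mul_smul_comm, ← mul_assoc, pc_sq, one_mul]

omit [CompleteSpace H] in
/-- `Y X = -i Z` -/
lemma pY_pX : L.pc 1 * L.pc 0 = -(Complex.I • L.pc 2) := by
  rw [pY_eq, smul_mul_assoc, mul_assoc, pZ_pX, mul_smul_comm, pX_pY, I_I_smul]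

omit [CompleteSpace H] in
/-- `Y Z = i X` -/
lemma pY_pZ : L.pc 1 * L.pc 2 = Complex.I • L.pc 0 := by
  rw [pY_eq, smul_mul_assoc, mul_assoc, pc_sq, mul_one]

omit [CompleteSpace H] in
/-- `Z Y = -i X` -/
lemma pZ_pY : L.pc 2 * L.pc 1 = -(Complex.I • L.pc 0) := by
  rw [pY_eq, mul_smul_comm, ← mul_assoc, pZ_pX, smul_mul_assoc, pY_pZ, I_I_smul]

omit [CompleteSpace H] in
lemma pX_pY_anti : L.pc 0 * L.pc 1 = -(L.pc 1 * L.pc 0) := by rw [pX_pY, pY_pX, neg_neg]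

omit [CompleteSpace H] in
lemma pY_pZ_anti : L.pc 1 * L.pc 2 = -(L.pc 2 * L.pc 1) := by rw [pY_pZ, pZ_pY, neg_neg]

omit [CompleteSpace H] in
lemma zc_eq_neg (k : ℝ) : L.zc y (-k) = L.csY y k + Complex.I • (L.snY y k * L.pc 2) := by
  unfold zc
  rw [csY_neg, snY_neg, neg_mul, smul_neg, sub_neg_eq_add]

omit [CompleteSpace H] in
lemma zc_sq (k : ℝ) : L.zc y k * L.zc y k
    = L.csY y (2 * k) - Complex.I • (L.snY y (2 * k) * L.pc 2) := by
  have hc : L.pc 2 * L.csY y k = L.csY y k * L.pc 2 := pc_cs 2 k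
  have hs : L.pc 2 * L.snY y k = L.snY y k * L.pc 2 := pc_sn 2 k
  have h4 : L.snY y k * L.csY y k = L.csY y k * L.snY y k := (cs_sn k k).symm
  have hz : L.pc 2 * L.pc 2 = 1 := L.pc_sq 2
  have e1 : L.snY y k * L.pc 2 * L.csY y k = L.csY y k * L.snY y k * L.pc 2 := by
    rw [mul_assoc, hc, ← mul_assoc, h4]
  have e2 : L.snY y k * L.pc 2 * L.snY y k * L.pc 2 = L.snY y k * L.snY y k := by
    calc L.snY y k * L.pc 2 * L.snY y k * L.pc 2
        = L.snY y k * (L.pc 2 * L.snY y k) * L.pc 2 := by noncomm_ring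
      _ = L.snY y k * (L.snY y k * L.pc 2) * L.pc 2 := by rw [hs]
      _ = L.snY y k * L.snY y k * (L.pc 2 * L.pc 2) := by noncomm_ring
      _ = L.snY y k * L.snY y k := by rw [hz, mul_one]
  rw [cs_double, sn_double]
  unfold zc
  simp only [sub_mul, mul_sub, smul_mul_assoc, mul_smul_comm, smul_sub, I_I_smul, e1, e2,
    ← mul_assoc]
  module

omit [CompleteSpace H] in
lemma zc_mul_neg (k : ℝ) : L.zc y k * L.zc y (-k) = 1 := by
  have hc : L.pc 2 * L.csY y k = L.csY y k * L.pc 2 := pc_cs 2 k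
  have hs : L.pc 2 * L.snY y k = L.snY y k * L.pc 2 := pc_sn 2 k
  have h4 : L.snY y k * L.csY y k = L.csY y k * L.snY y k := (cs_sn k k).symm
  have hz : L.pc 2 * L.pc 2 = 1 := L.pc_sq 2
  have e1 : L.snY y k * L.pc 2 * L.csY y k = L.csY y k * L.snY y k * L.pc 2 := by
    rw [mul_assoc, hc, ← mul_assoc, h4]
  have e2 : L.snY y k * L.pc 2 * L.snY y k * L.pc 2 = L.snY y k * L.snY y k := by
    calc L.snY y k * L.pc 2 * L.snY y k * L.pc 2
        = L.snY y k * (L.pc 2 * L.snY y k) * L.pc 2 := by noncomm_ring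
      _ = L.snY y k * (L.snY y k * L.pc 2) * L.pc 2 := by rw [hs]
      _ = L.snY y k * L.snY y k * (L.pc 2 * L.pc 2) := by noncomm_ring
      _ = L.snY y k * L.snY y k := by rw [hz, mul_one]
  rw [zc_eq_neg, ← cs_sq_add (L := L) (y := y) k]
  unfold zc
  simp only [sub_mul, mul_add, smul_mul_assoc, mul_smul_comm, smul_add, smul_sub, I_I_smul, e1,
    e2, ← mul_assoc]
  module

omit [CompleteSpace H] in
lemma zc_neg_mul (k : ℝ) : L.zc y (-k) * L.zc y k = 1 := by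
  have h := zc_mul_neg (L := L) (y := y) (-k)
  rwa [neg_neg] at h

lemma zc_star (k : ℝ) : star (L.zc y k) = L.zc y (-k) := by
  have hs : L.pc 2 * L.snY y k = L.snY y k * L.pc 2 := pc_sn 2 k
  rw [zc_eq_neg]
  unfold zc
  rw [star_sub, star_smul, star_mul, (L.csY_sa y k).star_eq, (L.snY_sa y k).star_eq,
    (L.pc_sa 2).star_eq, hs]
  have : star Complex.I = -Complex.I := Complex.conj_I
  rw [this]
  module

omit [CompleteSpace H] in
/-- an operator anticommuting with `Z` -/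
lemma anti_zc {T : H →L[ℂ] H} (h : ∀ s : ℝ, Commute T (L.Wc ((s : ℂ) • y)))
    (hZ : T * L.pc 2 = -(L.pc 2 * T)) (k : ℝ) : T * L.zc y (-k) = L.zc y k * T := by
  have hc : T * L.csY y k = L.csY y k * T := com_cs h k
  have hs : T * L.snY y k = L.snY y k * T := com_sn h k
  rw [zc_eq_neg]
  unfold zc
  rw [mul_add, sub_mul, mul_smul_comm, smul_mul_assoc, ← mul_assoc, hs, hc, mul_assoc, hZ,
    mul_assoc]
  rw [mul_neg]
  module

omit [CompleteSpace H] in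
lemma zc_X (k : ℝ) : L.zc y k * L.pc 0 * L.zc y (-k)
    = L.csY y (2 * k) * L.pc 0 + L.snY y (2 * k) * L.pc 1 := by
  rw [mul_assoc, anti_zc (fun s => L.pc_Wc 0 _) L.pX_pZ k, ← mul_assoc, zc_sq, sub_mul,
    smul_mul_assoc, mul_assoc (L.snY y (2 * k)), pZ_pX, mul_smul_comm, I_I_smul, sub_neg_eq_add]

omit [CompleteSpace H] in
lemma zc_Y (k : ℝ) : L.zc y k * L.pc 1 * L.zc y (-k)
    = L.csY y (2 * k) * L.pc 1 - L.snY y (2 * k) * L.pc 0 := by
  rw [mul_assoc, anti_zc (fun s => L.pc_Wc 1 _) pY_pZ_anti k, ← mul_assoc, zc_sq, sub_mul,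
    smul_mul_assoc, mul_assoc (L.snY y (2 * k)), pZ_pY, mul_neg, mul_smul_comm, smul_neg,
    I_I_smul, neg_neg]

end alg

/-! ### rotations of a block -/

section blk

variable {L} {G : Set ℝ} {𝔄 : Set (H →L[ℂ] H)} {y : K} {UU : Set (H ≃ₗᵢ[ℂ] H)}

/-- `T` on the labels of `E`, identity elsewhere -/
noncomputable def on (E T : H →L[ℂ] H) : H →L[ℂ] H := T * E + (1 - E)

omit [CompleteSpace H] in
lemma on_mul {E T T' : H →L[ℂ] H} (hE : E * E = E) (hc : Commute E T') (h : T * T' = 1) :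
    on E T * on E T' = 1 := by
  unfold on
  have h1 : (1 - E) * E = 0 := by rw [sub_mul, one_mul, hE, sub_self]
  have h2 : E * (1 - E) = 0 := by rw [mul_sub, mul_one, hE, sub_self]
  have h3 : (1 - E) * (1 - E) = 1 - E := by rw [mul_sub, mul_one, h1, sub_zero]
  calc (T * E + (1 - E)) * (T' * E + (1 - E))
      = T * (E * T') * E + T * (E * (1 - E)) + (1 - E) * T' * E + (1 - E) * (1 - E) := by
        noncomm_ring
    _ = T * (T' * E) * E + 0 + (T' * ((1 - E) * E)) + (1 - E) := by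
        rw [hc.eq, h2, h3, mul_zero]
        congr 2
        have : (1 - E) * T' = T' * (1 - E) := by
          rw [sub_mul, mul_sub, hc.eq, one_mul, mul_one]
        rw [this, mul_assoc]
    _ = T * T' * (E * E) + (1 - E) := by rw [h1, mul_zero, add_zero, add_zero]; noncomm_ring
    _ = 1 := by rw [h, one_mul, hE]; noncomm_ring

lemma on_star {E T T' : H →L[ℂ] H} (hE : IsSelfAdjoint E) (hc : Commute E T') (h : star T = T') :
    star (on E T) = on E T' := by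
  unfold on
  rw [star_add, star_mul, star_sub, star_one, hE.star_eq, h, hc.eq]

omit [CompleteSpace H] in
lemma on_conj {E T T' m : H →L[ℂ] H} (hT : Commute E T') (hm : Commute E m)
    (h : m * E = m) : on E T * m * on E T' = T * m * T' := by
  unfold on
  have h1 : E * m = m := by rw [hm.eq, h]
  have h2 : (1 - E) * m = 0 := by rw [sub_mul, one_mul, h1, sub_self]
  have h3 : m * T' * E = m * T' := by rw [mul_assoc, ← hT.eq, ← mul_assoc, h]
  have h4 : m * (1 - E) = 0 := by rw [mul_sub, mul_one, h, sub_self]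
  calc (T * E + (1 - E)) * m * (T' * E + (1 - E))
      = (T * (E * m) + (1 - E) * m) * (T' * E + (1 - E)) := by noncomm_ring
    _ = T * (m * T' * E) + T * (m * (1 - E)) := by rw [h1, h2]; noncomm_ring
    _ = T * m * T' := by rw [h3, h4]; noncomm_ring

omit [CompleteSpace H] in
lemma on_com {E T a : H →L[ℂ] H} (hT : Commute T a) (hE : Commute E a) : Commute (on E T) a :=
  (hT.mul_left hE).add_left ((Commute.one_left a).sub_left hE)

omit [CompleteSpace H] in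
lemma rc_eq_on {E P : H →L[ℂ] H} (hc : Commute E P) (θ : ℝ) : rc E P θ
    = on E ((Real.cos θ : ℂ) • (1 : H →L[ℂ] H) - (Complex.I * (Real.sin θ : ℂ)) • P) := by
  unfold rc on
  congr 1
  exact ((Commute.one_right E).smul_right _).sub_right (hc.smul_right _)

omit [CompleteSpace H] in
lemma smul_mem (hL : L.Ctl 𝔄) {b : H →L[ℂ] H} (hb : b ∈ 𝔄) (c : ℂ) : c • b ∈ 𝔄 := by
  have := hL.mul _ _ (hL.lab (fun _ => c) ⟨measurable_const, ‖c‖, fun _ => le_rfl⟩) hb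
  rw [L.lab_const, smul_mul_assoc, one_mul] at this
  exact this

lemma star_mem' (hL : L.Ctl 𝔄) {b : H →L[ℂ] H} (hb : b ∈ 𝔄) : star b ∈ 𝔄 := by
  obtain ⟨c, hc, h⟩ := hL.adj b hb
  have : star b = c := by
    rw [ContinuousLinearMap.star_eq_adjoint]
    symm
    rw [ContinuousLinearMap.eq_adjoint_iff]
    intro x z
    have h1 := h z x
    rw [← inner_conj_symm, ← h1, inner_conj_symm]
  rwa [this]

/-- nice controls -/
structure Nc (L : LSys H K) (G : Set ℝ) (𝔄 : Set (H →L[ℂ] H)) (b : H →L[ℂ] H) : Prop where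
  mem : b ∈ 𝔄
  sa : IsSelfAdjoint b
  mE : b * L.E G = b

lemma Nc.smul (hL : L.Ctl 𝔄) {b : H →L[ℂ] H} (hb : Nc L G 𝔄 b) (t : ℝ) :
    Nc L G 𝔄 ((t : ℂ) • b) :=
  ⟨smul_mem hL hb.mem _, real_smul_sa hb.sa t, by rw [smul_mul_assoc, hb.mE]⟩

/-- the standing hypotheses -/
structure Nst (L : LSys H K) (G : Set ℝ) (𝔄 : Set (H →L[ℂ] H)) (y : K)
    (UU : Set (H ≃ₗᵢ[ℂ] H)) : Prop where
  hG : MeasurableSet G
  hL : L.Ctl 𝔄
  hN : L.Ctl (L.nxt 𝔄 y)
  hW : ∀ a ∈ 𝔄, ∀ s : ℝ, Commute a (L.Wc ((s : ℂ) • y))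
  hU : L.UCl G 𝔄 y UU

lemma Nst.E (h : Nst L G 𝔄 y UU) : Nc L G 𝔄 (L.E G) :=
  ⟨Ec_mem h.hG h.hL, Ec_sa h.hG, Ec_idem h.hG⟩

lemma Nst.base (_h : Nst L G 𝔄 y UU) {a : H →L[ℂ] H} (ha : a ∈ 𝔄) : a ∈ L.nxt 𝔄 y :=
  Gen.base a ha

lemma Nst.Wc (_h : Nst L G 𝔄 y UU) (s : ℝ) : L.Wc ((s : ℂ) • y) ∈ L.nxt 𝔄 y := Gen.W s

lemma Nst.cs (h : Nst L G 𝔄 y UU) (k : ℝ) : L.csY y k ∈ L.nxt 𝔄 y :=
  smul_mem h.hN (h.hN.add _ _ (h.Wc _) (h.Wc _)) _

lemma Nst.sn (h : Nst L G 𝔄 y UU) (k : ℝ) : L.snY y k ∈ L.nxt 𝔄 y := by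
  refine smul_mem h.hN ?_ _
  have h1 := h.hN.add _ _ (h.Wc k) (smul_mem h.hN (h.Wc (-k)) (-1))
  rw [neg_one_smul, ← sub_eq_add_neg] at h1
  exact h1

lemma Nst.com (h : Nst L G 𝔄 y UU) {a b : H →L[ℂ] H} (ha : a ∈ L.nxt 𝔄 y)
    (hb : b ∈ L.nxt 𝔄 y) : Commute a b := h.hN.comm a b ha hb

lemma Nst.pc (h : Nst L G 𝔄 y UU) {a : H →L[ℂ] H} (ha : a ∈ L.nxt 𝔄 y) (P : Fin 3) :
    Commute (L.pc P) a := L.pc_ctl h.hN ha P

lemma Nst.gsa (h : Nst L G 𝔄 y UU) {a : H →L[ℂ] H} (ha : a ∈ L.nxt 𝔄 y)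
    (hs : IsSelfAdjoint a) (P : Fin 3) : IsSelfAdjoint (a * L.pc P) := by
  rw [IsSelfAdjoint, star_mul, hs.star_eq, (L.pc_sa P).star_eq, (h.pc ha P).eq]

lemma Nst.gcm (h : Nst L G 𝔄 y UU) {a : H →L[ℂ] H} (ha : a ∈ L.nxt 𝔄 y) (P : Fin 3) :
    ∀ b ∈ L.nxt 𝔄 y, Commute (a * L.pc P) b := fun b hb =>
  (h.com ha hb).mul_left (h.pc hb P)

lemma Nst.gd (h : Nst L G 𝔄 y UU) {b : H →L[ℂ] H} (hb : Nc L G 𝔄 b) (P : Fin 3) :
    Gd L 𝔄 y UU (b * L.pc P) := by
  refine ⟨h.gsa (h.base hb.mem) hb.sa P, h.gcm (h.base hb.mem) P, fun U hU => ?_⟩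
  exact h.hU.rot b P U hb.mem (sa_iff.2 hb.sa) hb.mE (L.isRot_iff.2 hU)

/-- the gates `zr (k y)` on `G` -/
lemma Nst.gate (h : Nst L G 𝔄 y UU) (k : ℝ) :
    ∃ V ∈ UU, ∀ x, V x = on (L.E G) (L.zc y k) x := by
  have hz : ∀ x, L.E G (L.zr ((k : ℂ) • y) x) = L.zr ((k : ℂ) • y) (L.E G x) := L.E_zr G _
  refine ⟨L.bU h.hG (L.zr ((k : ℂ) • y)) hz, h.hU.zrG k _ (fun x => L.bU_apply h.hG _ hz x), ?_⟩
  intro x
  rw [bU_apply]
  change _ = L.zc y k (L.E G x) + (x - L.E G x)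
  rw [zc_apply]

lemma Nst.gate_com (h : Nst L G 𝔄 y UU) (k : ℝ) :
    ∀ a ∈ L.nxt 𝔄 y, Commute (on (L.E G) (L.zc y k)) a := by
  intro a ha
  refine on_com ?_ (h.com (h.base h.E.mem) ha)
  exact (com_zc (fun s => h.com ha (h.Wc s)) (h.pc ha 2).symm k).symm

lemma Ec_zc (k : ℝ) : Commute (L.E G) (L.zc y k) :=
  com_zc (fun _ => Ec_Wc _) (Ec_pc 2) k

/-- conjugation by the gates -/
lemma Nst.conjZ (h : Nst L G 𝔄 y UU) {m : H →L[ℂ] H} (hm : Gd L 𝔄 y UU m) (hE : m * L.E G = m)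
    (k : ℝ) : Gd L 𝔄 y UU (L.zc y k * m * L.zc y (-k)) := by
  obtain ⟨V, hV, hVe⟩ := h.gate k
  obtain ⟨V', hV', hVe'⟩ := h.gate (-k)
  have hc : Commute (L.E G) m := (hm.cm _ (h.base h.E.mem)).symm
  have hg := hm.conj h.hU hV hV' hVe hVe'
    (on_mul (Ec_idem h.hG) (Ec_zc (-k)) (zc_mul_neg k))
    (on_mul (Ec_idem h.hG) (Ec_zc k) (zc_neg_mul k))
    (on_star (Ec_sa h.hG) (Ec_zc (-k)) (zc_star k)) (h.gate_com k)
  rwa [on_conj (Ec_zc (-k)) hc hE] at hg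

omit [CompleteSpace H] in
lemma mul_pc_E (P : Fin 3) {m : H →L[ℂ] H} (hE : m * L.E G = m) :
    m * L.pc P * L.E G = m * L.pc P := by
  rw [mul_assoc, ← (Ec_pc (L := L) (G := G) P).eq, ← mul_assoc, hE]

lemma Nst.zc_nc (h : Nst L G 𝔄 y UU) {b : H →L[ℂ] H} (hb : Nc L G 𝔄 b) (k : ℝ) :
    Commute b (L.zc y k) :=
  com_zc (fun s => h.hW b hb.mem s) (h.pc (h.base hb.mem) 2).symm k

lemma Nst.gdX (h : Nst L G 𝔄 y UU) {b : H →L[ℂ] H} (hb : Nc L G 𝔄 b) (k : ℝ) :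
    Gd L 𝔄 y UU (b * (L.csY y (2 * k) * L.pc 0 + L.snY y (2 * k) * L.pc 1)) := by
  have h1 := h.conjZ (h.gd hb 0) (mul_pc_E 0 hb.mE) k
  rwa [← mul_assoc, ← (h.zc_nc hb k).eq, mul_assoc b, mul_assoc b, zc_X] at h1

lemma Nst.gdY (h : Nst L G 𝔄 y UU) {b : H →L[ℂ] H} (hb : Nc L G 𝔄 b) (k : ℝ) :
    Gd L 𝔄 y UU (b * (L.csY y (2 * k) * L.pc 1 - L.snY y (2 * k) * L.pc 0)) := by
  have h1 := h.conjZ (h.gd hb 1) (mul_pc_E 1 hb.mE) k
  rwa [← mul_assoc, ← (h.zc_nc hb k).eq, mul_assoc b, mul_assoc b, zc_Y] at h1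

/-- `b cos(phi(k y)) X`, `b sin(phi(k y)) X`, ... -/
lemma Nst.gcX (h : Nst L G 𝔄 y UU) {b : H →L[ℂ] H} (hb : Nc L G 𝔄 b) (k : ℝ) :
    Gd L 𝔄 y UU (b * L.csY y k * L.pc 0) := by
  have h1 : ∀ t : ℝ, Gd L 𝔄 y UU ((t : ℂ) • ((1 / 2 : ℂ) • (b *
      (L.csY y k * L.pc 0 + L.snY y k * L.pc 1)))) := by
    intro t
    have := h.gdX (hb.smul h.hL (t / 2)) (k / 2)
    rw [mul_div_cancel₀ k (by norm_num : (2 : ℝ) ≠ 0), smul_mul_assoc] at this
    rw [smul_smul]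
    push_cast at this
    convert this using 2
    ring
  have h2 : ∀ t : ℝ, Gd L 𝔄 y UU ((t : ℂ) • ((1 / 2 : ℂ) • (b *
      (L.csY y k * L.pc 0 - L.snY y k * L.pc 1)))) := by
    intro t
    have := h.gdX (hb.smul h.hL (t / 2)) (-k / 2)
    rw [mul_div_cancel₀ (-k) (by norm_num : (2 : ℝ) ≠ 0), smul_mul_assoc, csY_neg, snY_neg,
      neg_mul, ← sub_eq_add_neg] at this
    rw [smul_smul]
    push_cast at this
    convert this using 2
    ring
  have h3 := Gd.trot h.hL h.hU h1 h2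
  convert h3 using 1
  rw [mul_assoc]
  simp only [mul_add, mul_sub]
  module

lemma Nst.gsY (h : Nst L G 𝔄 y UU) {b : H →L[ℂ] H} (hb : Nc L G 𝔄 b) (k : ℝ) :
    Gd L 𝔄 y UU (b * L.snY y k * L.pc 1) := by
  have h1 : ∀ t : ℝ, Gd L 𝔄 y UU ((t : ℂ) • ((1 / 2 : ℂ) • (b *
      (L.csY y k * L.pc 0 + L.snY y k * L.pc 1)))) := by
    intro t
    have := h.gdX (hb.smul h.hL (t / 2)) (k / 2)
    rw [mul_div_cancel₀ k (by norm_num : (2 : ℝ) ≠ 0), smul_mul_assoc] at this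
    rw [smul_smul]
    push_cast at this
    convert this using 2
    ring
  have h2 : ∀ t : ℝ, Gd L 𝔄 y UU ((t : ℂ) • ((-(1 / 2) : ℂ) • (b *
      (L.csY y k * L.pc 0 - L.snY y k * L.pc 1)))) := by
    intro t
    have := h.gdX (hb.smul h.hL (-(t / 2))) (-k / 2)
    rw [mul_div_cancel₀ (-k) (by norm_num : (2 : ℝ) ≠ 0), smul_mul_assoc, csY_neg, snY_neg,
      neg_mul, ← sub_eq_add_neg] at this
    rw [smul_smul]
    push_cast at this
    convert this using 2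
    ring
  have h3 := Gd.trot h.hL h.hU h1 h2
  convert h3 using 1
  rw [mul_assoc]
  simp only [mul_add, mul_sub]
  module

lemma Nst.gcY (h : Nst L G 𝔄 y UU) {b : H →L[ℂ] H} (hb : Nc L G 𝔄 b) (k : ℝ) :
    Gd L 𝔄 y UU (b * L.csY y k * L.pc 1) := by
  have h1 : ∀ t : ℝ, Gd L 𝔄 y UU ((t : ℂ) • ((1 / 2 : ℂ) • (b *
      (L.csY y k * L.pc 1 - L.snY y k * L.pc 0)))) := by
    intro t
    have := h.gdY (hb.smul h.hL (t / 2)) (k / 2)
    rw [mul_div_cancel₀ k (by norm_num : (2 : ℝ) ≠ 0), smul_mul_assoc] at this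
    rw [smul_smul]
    push_cast at this
    convert this using 2
    ring
  have h2 : ∀ t : ℝ, Gd L 𝔄 y UU ((t : ℂ) • ((1 / 2 : ℂ) • (b *
      (L.csY y k * L.pc 1 + L.snY y k * L.pc 0)))) := by
    intro t
    have := h.gdY (hb.smul h.hL (t / 2)) (-k / 2)
    rw [mul_div_cancel₀ (-k) (by norm_num : (2 : ℝ) ≠ 0), smul_mul_assoc, csY_neg, snY_neg,
      neg_mul, sub_neg_eq_add] at this
    rw [smul_smul]
    push_cast at this
    convert this using 2
    ring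
  have h3 := Gd.trot h.hL h.hU h1 h2
  convert h3 using 1
  rw [mul_assoc]
  simp only [mul_add, mul_sub]
  module

lemma Nst.gsX (h : Nst L G 𝔄 y UU) {b : H →L[ℂ] H} (hb : Nc L G 𝔄 b) (k : ℝ) :
    Gd L 𝔄 y UU (b * L.snY y k * L.pc 0) := by
  have h1 : ∀ t : ℝ, Gd L 𝔄 y UU ((t : ℂ) • ((-(1 / 2) : ℂ) • (b *
      (L.csY y k * L.pc 1 - L.snY y k * L.pc 0)))) := by
    intro t
    have := h.gdY (hb.smul h.hL (-(t / 2))) (k / 2)
    rw [mul_div_cancel₀ k (by norm_num : (2 : ℝ) ≠ 0), smul_mul_assoc] at this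
    rw [smul_smul]
    push_cast at this
    convert this using 2
    ring
  have h2 : ∀ t : ℝ, Gd L 𝔄 y UU ((t : ℂ) • ((1 / 2 : ℂ) • (b *
      (L.csY y k * L.pc 1 + L.snY y k * L.pc 0)))) := by
    intro t
    have := h.gdY (hb.smul h.hL (t / 2)) (-k / 2)
    rw [mul_div_cancel₀ (-k) (by norm_num : (2 : ℝ) ≠ 0), smul_mul_assoc, csY_neg, snY_neg,
      neg_mul, sub_neg_eq_add] at this
    rw [smul_smul]
    push_cast at this
    convert this using 2
    ring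
  have h3 := Gd.trot h.hL h.hU h1 h2
  convert h3 using 1
  rw [mul_assoc]
  simp only [mul_add, mul_sub]
  module

/-- the operator `cos(t) - i sin(t) Y` -/
noncomputable def ry (L : LSys H K) (t : ℝ) : H →L[ℂ] H :=
  (Real.cos t : ℂ) • (1 : H →L[ℂ] H) - (Complex.I * (Real.sin t : ℂ)) • L.pc 1

omit [CompleteSpace H] in
lemma ry_mul (s t : ℝ) : ry L s * ry L t = ry L (s + t) := by
  unfold ry
  have h := L.pc_sq 1
  rw [Real.cos_add, Real.sin_add]
  simp only [sub_mul, mul_sub, smul_mul_assoc, mul_smul_comm, one_mul, mul_one, smul_sub, h]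
  push_cast
  have e : ∀ (a b : ℂ) (T : H →L[ℂ] H), (Complex.I * a) • ((Complex.I * b) • T)
      = -((a * b) • T) := by
    intro a b T
    rw [smul_smul, ← neg_smul]
    congr 1
    linear_combination (a * b) * Complex.I_mul_I
  rw [e]
  module

omit [CompleteSpace H] in
lemma ry_zero : ry L 0 = 1 := by
  unfold ry
  simp

lemma ry_star (t : ℝ) : star (ry L t) = ry L (-t) := by
  unfold ry
  rw [star_sub, star_smul, star_smul, star_one, (L.pc_sa 1).star_eq, Real.cos_neg, Real.sin_neg]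
  have e1 : star (Real.cos t : ℂ) = (Real.cos t : ℂ) := Complex.conj_ofReal _
  have e2 : star (Complex.I * (Real.sin t : ℂ)) = Complex.I * ((-Real.sin t : ℝ) : ℂ) := by
    rw [star_mul']
    have h1 : star (Real.sin t : ℂ) = (Real.sin t : ℂ) := Complex.conj_ofReal _
    have h2 : star Complex.I = -Complex.I := Complex.conj_I
    rw [h1, h2]
    push_cast
    ring
  rw [e1, e2]

omit [CompleteSpace H] in
lemma ry_X (t : ℝ) : ry L t * L.pc 0 = L.pc 0 * ry L (-t) := by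
  unfold ry
  have h : L.pc 1 * L.pc 0 = -(L.pc 0 * L.pc 1) := by rw [pX_pY_anti, neg_neg]
  rw [Real.cos_neg, Real.sin_neg, sub_mul, mul_sub, smul_mul_assoc, smul_mul_assoc,
    mul_smul_comm, mul_smul_comm, h]
  push_cast
  simp only [one_mul, mul_one]
  module

omit [CompleteSpace H] in
lemma ry_half : ry L (Real.pi / 2) = -(Complex.I • L.pc 1) := by
  unfold ry
  rw [Real.cos_pi_div_two, Real.sin_pi_div_two]
  simp

lemma Nst.rot_mem (h : Nst L G 𝔄 y UU) (t : ℝ) :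
    ∃ V ∈ UU, ∀ x, V x = on (L.E G) (ry L t) x := by
  have hg := h.gd (h.E.smul h.hL t) 1
  rw [smul_mul_assoc] at hg
  refine ⟨_, hg.eU, fun x => ?_⟩
  rw [eU_apply, ex_rot (Ec_idem h.hG) (L.pc_sq 1) (Ec_pc 1), rc_eq_on (Ec_pc 1)]
  rfl

omit [CompleteSpace H] in
lemma Ec_ry (t : ℝ) : Commute (L.E G) (ry L t) :=
  ((Commute.one_right _).smul_right _).sub_right ((Ec_pc 1).smul_right _)

/-- from the axis `X` to the axis `Z` -/
lemma Nst.gdZ (h : Nst L G 𝔄 y UU) {m : H →L[ℂ] H} (hm : m ∈ L.nxt 𝔄 y) (hE : m * L.E G = m)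
    (hg : Gd L 𝔄 y UU (m * L.pc 0)) : Gd L 𝔄 y UU (m * L.pc 2) := by
  obtain ⟨V, hV, hVe⟩ := h.rot_mem (-(Real.pi / 4))
  obtain ⟨V', hV', hVe'⟩ := h.rot_mem (Real.pi / 4)
  have hst : star (ry L (-(Real.pi / 4))) = ry L (Real.pi / 4) := by rw [ry_star, neg_neg]
  have h1 : ry L (-(Real.pi / 4)) * ry L (Real.pi / 4) = 1 := by
    rw [ry_mul, neg_add_cancel, ry_zero]
  have h2 : ry L (Real.pi / 4) * ry L (-(Real.pi / 4)) = 1 := by
    rw [ry_mul, add_neg_cancel, ry_zero]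
  have hcm : ∀ a ∈ L.nxt 𝔄 y, Commute (on (L.E G) (ry L (-(Real.pi / 4)))) a := by
    intro a ha
    refine on_com ?_ (h.com (h.base h.E.mem) ha)
    exact ((Commute.one_left a).smul_left _).sub_left ((h.pc ha 1).smul_left _)
  have hc : Commute (L.E G) (m * L.pc 0) := (hg.cm _ (h.base h.E.mem)).symm
  have hk := hg.conj h.hU hV hV' hVe hVe'
    (on_mul (Ec_idem h.hG) (Ec_ry _) h1) (on_mul (Ec_idem h.hG) (Ec_ry _) h2)
    (on_star (Ec_sa h.hG) (Ec_ry _) hst) hcm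
  rw [on_conj (Ec_ry _) hc (mul_pc_E 0 hE)] at hk
  have hmr : Commute (ry L (-(Real.pi / 4))) m :=
    ((Commute.one_left m).smul_left _).sub_left ((h.pc hm 1).smul_left _)
  have e : ry L (-(Real.pi / 4)) * (m * L.pc 0) * ry L (Real.pi / 4) = m * L.pc 2 := by
    rw [← mul_assoc, hmr.eq, mul_assoc m, ry_X, neg_neg, mul_assoc, mul_assoc, ry_mul]
    have : Real.pi / 4 + Real.pi / 4 = Real.pi / 2 := by ring
    rw [this, ry_half, mul_neg, mul_smul_comm, pX_pY, I_I_smul, neg_neg]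
  rwa [e] at hk

lemma Nst.gc (h : Nst L G 𝔄 y UU) {b : H →L[ℂ] H} (hb : Nc L G 𝔄 b) (k : ℝ) (P : Fin 3) :
    Gd L 𝔄 y UU (b * L.csY y k * L.pc P) := by
  fin_cases P
  · exact h.gcX hb k
  · exact h.gcY hb k
  · refine h.gdZ (h.hN.mul _ _ (h.base hb.mem) (h.cs k)) ?_ (h.gcX hb k)
    rw [mul_assoc, ← (com_cs (fun _ => Ec_Wc _) k : Commute (L.E G) (L.csY y k)).eq, ← mul_assoc,
      hb.mE]

lemma Nst.gs (h : Nst L G 𝔄 y UU) {b : H →L[ℂ] H} (hb : Nc L G 𝔄 b) (k : ℝ) (P : Fin 3) :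
    Gd L 𝔄 y UU (b * L.snY y k * L.pc P) := by
  fin_cases P
  · exact h.gsX hb k
  · exact h.gsY hb k
  · refine h.gdZ (h.hN.mul _ _ (h.base hb.mem) (h.sn k)) ?_ (h.gsX hb k)
    rw [mul_assoc, ← (com_sn (fun _ => Ec_Wc _) k : Commute (L.E G) (L.snY y k)).eq, ← mul_assoc,
      hb.mE]

end blk

/-! ### the next algebra -/

section next

variable {L} {G : Set ℝ} {𝔄 : Set (H →L[ℂ] H)} {y : K} {UU : Set (H ≃ₗᵢ[ℂ] H)}

/-- normal form of the elements of the next algebra -/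
inductive T0 (L : LSys H K) (𝔄 : Set (H →L[ℂ] H)) (y : K) : (H →L[ℂ] H) → Prop
  | gen (b : H →L[ℂ] H) (s : ℝ) : b ∈ 𝔄 → T0 L 𝔄 y (b * L.Wc ((s : ℂ) • y))
  | add (a b) : T0 L 𝔄 y a → T0 L 𝔄 y b → T0 L 𝔄 y (a + b)
  | lim (a : ℕ → H →L[ℂ] H) (a0 : H →L[ℂ] H) (C : ℝ) : (∀ n, T0 L 𝔄 y (a n)) →
      (∀ n, ‖a n‖ ≤ C) → (∀ x, Tendsto (fun n => a n x) atTop (𝓝 (a0 x))) → T0 L 𝔄 y a0

lemma T0.nxt {a : H →L[ℂ] H} (ha : T0 L 𝔄 y a) : a ∈ L.nxt 𝔄 y := by
  induction ha with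
  | gen b s hb => exact Gen.mul _ _ (Gen.base b hb) (Gen.W s)
  | add a b _ _ iha ihb => exact Gen.add _ _ iha ihb
  | lim a a0 C _ hC hlim ih => exact Gen.lim a a0 C ih hC hlim

lemma T0.gen_mul (h : Nst L G 𝔄 y UU) {b : H →L[ℂ] H} (hb : b ∈ 𝔄) (s : ℝ) {c : H →L[ℂ] H}
    (hc : T0 L 𝔄 y c) : T0 L 𝔄 y (b * L.Wc ((s : ℂ) • y) * c) := by
  induction hc with
  | gen b' t hb' =>
    have e : b * L.Wc ((s : ℂ) • y) * (b' * L.Wc ((t : ℂ) • y))
        = (b * b') * L.Wc (((s + t : ℝ) : ℂ) • y) := by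
      rw [← L.Wc_mul y s t]
      have := (h.hW b' hb' s).eq
      calc b * L.Wc ((s : ℂ) • y) * (b' * L.Wc ((t : ℂ) • y))
          = b * (L.Wc ((s : ℂ) • y) * b') * L.Wc ((t : ℂ) • y) := by simp only [mul_assoc]
        _ = b * (b' * L.Wc ((s : ℂ) • y)) * L.Wc ((t : ℂ) • y) := by rw [this]
        _ = _ := by simp only [mul_assoc]
    rw [e]
    exact T0.gen _ _ (h.hL.mul _ _ hb hb')
  | add a c _ _ iha ihc =>
    rw [mul_add]
    exact T0.add _ _ iha ihc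
  | lim a a0 C _ hC hlim ih =>
    refine T0.lim (fun n => b * L.Wc ((s : ℂ) • y) * a n) _ (‖b * L.Wc ((s : ℂ) • y)‖ * C) ih
      (fun n => ?_) fun x => ?_
    · exact (norm_mul_le _ _).trans (mul_le_mul_of_nonneg_left (hC n) (norm_nonneg _))
    · exact ((b * L.Wc ((s : ℂ) • y)).continuous.tendsto _).comp (hlim x)

lemma T0.mul (h : Nst L G 𝔄 y UU) {a c : H →L[ℂ] H} (ha : T0 L 𝔄 y a) (hc : T0 L 𝔄 y c) :
    T0 L 𝔄 y (a * c) := by
  induction ha with
  | gen b s hb => exact T0.gen_mul h hb s hc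
  | add a b _ _ iha ihb =>
    rw [add_mul]
    exact T0.add _ _ iha ihb
  | lim a a0 C _ hC hlim ih =>
    refine T0.lim (fun n => a n * c) _ (C * ‖c‖) ih (fun n => ?_) fun x => hlim (c x)
    exact (norm_mul_le _ _).trans (mul_le_mul_of_nonneg_right (hC n) (norm_nonneg _))

lemma T0.of_gen (h : Nst L G 𝔄 y UU) {a : H →L[ℂ] H} (ha : L.Gen 𝔄 y a) : T0 L 𝔄 y a := by
  induction ha with
  | base a ha =>
    have h1 := T0.gen (L := L) (y := y) a 0 ha
    have e : ((0 : ℝ) : ℂ) • y = 0 := by simp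
    rwa [e, L.Wc_zero, mul_one] at h1
  | W s =>
    have h0 : (1 : H →L[ℂ] H) ∈ 𝔄 := by
      have := h.hL.lab (fun _ => 1) ⟨measurable_const, 1, fun x => by simp⟩
      rw [L.lab_const] at this
      simpa using this
    have h1 := T0.gen (L := L) (y := y) 1 s h0
    rwa [one_mul] at h1
  | add a b _ _ iha ihb => exact T0.add _ _ iha ihb
  | mul a b _ _ iha ihb => exact iha.mul h ihb
  | lim a a0 C _ hC hlim ih => exact T0.lim a a0 C ih hC hlim

/-- real part -/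
noncomputable def rp (A : H →L[ℂ] H) : H →L[ℂ] H := (1 / 2 : ℂ) • (A + star A)

lemma star_half : star (1 / 2 : ℂ) = 1 / 2 := by simp

lemma rp_sa (A : H →L[ℂ] H) : IsSelfAdjoint (rp A) := by
  unfold rp
  rw [IsSelfAdjoint, star_smul, star_add, star_star, star_half, add_comm]

lemma rp_add (A B : H →L[ℂ] H) : rp (A + B) = rp A + rp B := by
  unfold rp
  rw [star_add]
  module

lemma rp_of_sa {A : H →L[ℂ] H} (h : IsSelfAdjoint A) : rp A = A := by
  unfold rp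
  rw [h.star_eq]
  module

lemma rp_mem {𝔅 : Set (H →L[ℂ] H)} (h : L.Ctl 𝔅) {A : H →L[ℂ] H} (hA : A ∈ 𝔅) : rp A ∈ 𝔅 :=
  smul_mem h (h.add _ _ hA (star_mem' h hA)) _

/-- strong convergence of adjoints of commuting normal operators -/
lemma Nst.star_lim (h : Nst L G 𝔄 y UU) {a : ℕ → H →L[ℂ] H} {a0 : H →L[ℂ] H}
    (ha : ∀ n, a n ∈ L.nxt 𝔄 y) (h0 : a0 ∈ L.nxt 𝔄 y)
    (hlim : ∀ x, Tendsto (fun n => a n x) atTop (𝓝 (a0 x))) (x : H) :
    Tendsto (fun n => star (a n) x) atTop (𝓝 (star a0 x)) := by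
  rw [tendsto_iff_norm_sub_tendsto_zero]
  refine (tendsto_iff_norm_sub_tendsto_zero.1 (hlim x)).congr fun n => ?_
  have hD : a n - a0 ∈ L.nxt 𝔄 y := by
    have h1 := h.hN.add _ _ (ha n) (smul_mem h.hN h0 (-1))
    rwa [neg_one_smul, ← sub_eq_add_neg] at h1
  have hc : Commute (a n - a0) (star (a n - a0)) := h.com hD (star_mem' h.hN hD)
  have e1 : a n x - a0 x = (a n - a0) x := rfl
  have e2 : star (a n) x - star a0 x = (star (a n - a0)) x := by
    rw [star_sub]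
    rfl
  rw [e1, e2]
  have h2 : inner ℂ ((star (a n - a0)) x) ((star (a n - a0)) x)
      = inner ℂ ((a n - a0) x) ((a n - a0) x) := by
    have e3 : ∀ u v, inner ℂ ((star (a n - a0)) u) v = inner ℂ u ((a n - a0) v) := by
      intro u v
      rw [ContinuousLinearMap.star_eq_adjoint, ContinuousLinearMap.adjoint_inner_left]
    have e4 : ∀ u v, inner ℂ ((a n - a0) u) v = inner ℂ u ((star (a n - a0)) v) := by
      intro u v
      rw [ContinuousLinearMap.star_eq_adjoint, ContinuousLinearMap.adjoint_inner_right]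
    rw [e3, e4]
    congr 1
    have := congrArg (fun T : H →L[ℂ] H => T x) hc
    exact this
  rw [inner_self_eq_norm_sq_to_K, inner_self_eq_norm_sq_to_K] at h2
  have h3 : ‖(star (a n - a0)) x‖ ^ 2 = ‖(a n - a0) x‖ ^ 2 := by exact_mod_cast h2
  exact ((sq_eq_sq₀ (norm_nonneg _) (norm_nonneg _)).1 h3).symm

lemma Nst.pp (h : Nst L G 𝔄 y UU) {a b : H →L[ℂ] H} (ha : a ∈ L.nxt 𝔄 y) (hb : b ∈ L.nxt 𝔄 y)
    (P : Fin 3) : Commute (a * L.pc P) (b * L.pc P) :=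
  (h.gcm ha P b hb).mul_right ((h.pc ha P).symm.mul_left (Commute.refl _))

lemma Nst.main (h : Nst L G 𝔄 y UU) {a : H →L[ℂ] H} (ha : T0 L 𝔄 y a) :
    ∀ (c : ℂ) (P : Fin 3), Gd L 𝔄 y UU (rp (c • (a * L.E G)) * L.pc P) := by
  induction ha with
  | gen b s hb =>
    intro c P
    set β : H →L[ℂ] H := c • (b * L.E G) with hβ
    have hβm : β ∈ 𝔄 := smul_mem h.hL (h.hL.mul _ _ hb h.E.mem) c
    have hβE : β * L.E G = β := by
      rw [hβ, smul_mul_assoc, mul_assoc, Ec_idem h.hG]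
    have hβs : star β ∈ 𝔄 := star_mem' h.hL hβm
    have hβE' : star β * L.E G = star β := by
      have h1 : L.E G * β = β := by rw [h.hL.comm _ _ h.E.mem hβm, hβE]
      have h2 := congrArg star h1
      rwa [star_mul, (Ec_sa h.hG).star_eq] at h2
    set β1 : H →L[ℂ] H := (1 / 2 : ℂ) • (β + star β) with hβ1
    set β2 : H →L[ℂ] H := (Complex.I / 2 : ℂ) • (β - star β) with hβ2
    have h1 : Nc L G 𝔄 β1 := by
      refine ⟨smul_mem h.hL (h.hL.add _ _ hβm hβs) _, rp_sa β, ?_⟩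
      rw [hβ1, smul_mul_assoc, add_mul, hβE, hβE']
    have h2 : Nc L G 𝔄 β2 := by
      refine ⟨?_, ?_, ?_⟩
      · refine smul_mem h.hL ?_ _
        have h3 := h.hL.add _ _ hβm (smul_mem h.hL hβs (-1))
        rwa [neg_one_smul, ← sub_eq_add_neg] at h3
      · rw [hβ2, IsSelfAdjoint, star_smul, star_sub, star_star]
        have : star (Complex.I / 2 : ℂ) = -(Complex.I / 2) := by
          simp [Complex.conj_I, neg_div]
        rw [this]
        module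
      · rw [hβ2, smul_mul_assoc, sub_mul, hβE, hβE']
    have hβe : β = β1 - Complex.I • β2 := by
      rw [hβ1, hβ2, smul_smul]
      have : Complex.I * (Complex.I / 2) = -(1 / 2) := by
        linear_combination (1 / 2 : ℂ) * Complex.I_mul_I
      rw [this]
      module
    have hβe' : star β = β1 + Complex.I • β2 := by
      rw [hβ1, hβ2, smul_smul]
      have : Complex.I * (Complex.I / 2) = -(1 / 2) := by
        linear_combination (1 / 2 : ℂ) * Complex.I_mul_I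
      rw [this]
      module
    have e1 : c • (b * L.Wc ((s : ℂ) • y) * L.E G) = β * L.Wc ((s : ℂ) • y) := by
      rw [hβ, smul_mul_assoc, mul_assoc, ← (Ec_Wc (L := L) (G := G) _).eq, ← mul_assoc]
    have e2 : star (β * L.Wc ((s : ℂ) • y)) = star β * L.Wc (((-s : ℝ) : ℂ) • y) := by
      rw [star_mul, Wc_star_real, (h.hW _ hβs (-s)).eq]
    have e3 : rp (c • (b * L.Wc ((s : ℂ) • y) * L.E G))
        = β1 * L.csY y s + β2 * L.snY y s := by
      rw [e1]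
      unfold rp
      rw [e2, L.Wc_eq, L.Wc_neg_eq, hβe', hβe]
      simp only [add_mul, sub_mul, mul_add, mul_sub, smul_mul_assoc, mul_smul_comm, smul_add,
        smul_sub, I_I_smul]
      module
    rw [e3, add_mul]
    exact Gd.add h.hU (h.gc h1 s P) (h.gs h2 s P)
      (h.pp (h.hN.mul _ _ (h.base h1.mem) (h.cs s)) (h.hN.mul _ _ (h.base h2.mem) (h.sn s)) P)
  | add a b ha hb iha ihb =>
    intro c P
    have e : rp (c • ((a + b) * L.E G)) * L.pc P
        = rp (c • (a * L.E G)) * L.pc P + rp (c • (b * L.E G)) * L.pc P := by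
      rw [add_mul, smul_add, rp_add, add_mul]
    rw [e]
    exact Gd.add h.hU (iha c P) (ihb c P)
      (h.pp (rp_mem h.hN (smul_mem h.hN (h.hN.mul _ _ ha.nxt (h.base h.E.mem)) c))
        (rp_mem h.hN (smul_mem h.hN (h.hN.mul _ _ hb.nxt (h.base h.E.mem)) c)) P)
  | lim a a0 C ha hC hlim ih =>
    intro c P
    have h0 : a0 ∈ L.nxt 𝔄 y := Gen.lim a a0 C (fun n => (ha n).nxt) hC hlim
    have hm : ∀ {b : H →L[ℂ] H}, b ∈ L.nxt 𝔄 y → rp (c • (b * L.E G)) ∈ L.nxt 𝔄 y := by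
      intro b hb
      exact rp_mem h.hN (smul_mem h.hN (h.hN.mul _ _ hb (h.base h.E.mem)) c)
    refine Gd.lim h.hU (fun n => ih n c P) (h.gsa (hm h0) (rp_sa _) P) (h.gcm (hm h0) P)
      (fun n => h.pp (hm (ha n).nxt) (hm h0) P) fun x => ?_
    have key : ∀ b : H →L[ℂ] H, (rp (c • (b * L.E G)) * L.pc P) x
        = (1 / 2 : ℂ) • (c • b (L.E G (L.pc P x)) + (star c) • L.E G (star b (L.pc P x))) := by
      intro b
      unfold rp
      rw [star_smul, star_mul, (Ec_sa h.hG).star_eq]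
      rfl
    rw [key]
    simp_rw [key]
    refine Tendsto.const_smul (Tendsto.add ((hlim _).const_smul c) (Tendsto.const_smul ?_ _)) _
    exact ((L.E G).continuous.tendsto _).comp
      (h.star_lim (fun n => (ha n).nxt) h0 hlim (L.pc P x))

end next

/-- controlled rotations of the next level -/
theorem nest_rot {G : Set ℝ} {𝔄 : Set (H →L[ℂ] H)} {psi : H →L[ℂ] H} {UU : Set (H ≃ₗᵢ[ℂ] H)}
    (hG : MeasurableSet G) (hL : L.Ctl 𝔄) (hN : L.Ctl (L.nxt 𝔄 (L.iota (psi L.Om))))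
    (hp : psi ∈ 𝔄) (hs : Sa psi) (hU : L.UCl G 𝔄 (L.iota (psi L.Om)) UU) :
    ∀ a ∈ L.nxt 𝔄 (L.iota (psi L.Om)), Sa a → a * L.E G = a →
      ∀ P U, L.IsRot a P U → U ∈ UU := by
  intro a ha hsa haE P U hrot
  have h : Nst L G 𝔄 (L.iota (psi L.Om)) UU :=
    ⟨hG, hL, hN, fun b hb s => ContinuousLinearMap.ext fun x => base_Wc hL hp hs hb s x, hU⟩
  have hg := h.main (T0.of_gen h ha) 1 P
  rw [one_smul, haE, rp_of_sa (sa_iff.1 hsa)] at hg
  exact hg.mem U (L.isRot_iff.1 hrot)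

end LSys

end Vale.Agent.P367.A
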