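import Vale.Agent.P367.B.Nest5
import Vale.Agent.P367.B.NestCtl
import Vale.Agent.P367.B.NestRot

/-! P367, block B: the level step. -/

namespace Vale.Agent.P367.A

open Complex Filter Topology MeasureTheory

namespace LSys

variable {H K : Type} [NormedAddCommGroup H] [InnerProductSpace ℂ H]
  [NormedAddCommGroup K] [InnerProductSpace ℂ K] (L : LSys H K)

theorem nest [CompleteSpace H] : L.NestStmt := by
  intro G 𝔄 Rch hG hA hR hT n sg c hsg
  set psi : H →L[ℂ] H := ∑ i, (c i : ℂ) • sg i with hpsi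
  have hpA : psi ∈ 𝔄 := hA.nst_sum_mem _ _ fun j _ => hA.nst_smul_mem _ (hsg j).1
  have hps : Sa psi := nst_sum_sa c (fun j => (hsg j).2.1) _
  have hpG : psi * L.E G = psi := by
    rw [hpsi, Finset.sum_mul]
    refine Finset.sum_congr rfl fun j _ => ?_
    ext x
    change (c j : ℂ) • sg j (L.E G x) = (c j : ℂ) • sg j x
    rw [L.nst_sg_E hG (hsg j).2.1 (hsg j).2.2]
  set 𝔅 := L.nxt 𝔄 (L.iota (psi L.Om)) with hBdef
  have hB : L.Ctl 𝔅 := nestCtl L 𝔄 psi hA hpA hps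
  have hAB : 𝔄 ⊆ 𝔅 := fun a ha => Gen.base a ha
  have hpB : psi ∈ 𝔅 := hAB hpA
  have hmem : ∀ t : ℝ, nst_cl (L.W ((t : ℂ) • L.iota (psi L.Om))) ∈ 𝔅 := fun t => Gen.W t
  refine ⟨L.NstRp G 𝔅 psi Rch, ?_, fun M R V h hV => L.nst_rp_start hR h hV,
    fun M R R' V h h1 h2 h3 ε hε => L.nst_rp_exit hB h h1 h2 h3 hε⟩
  have hlim : ∀ M R (V : ℕ → (H ≃ₗᵢ[ℂ] H)) (V0 : H ≃ₗᵢ[ℂ] H),
      (∀ n, L.NstRp G 𝔅 psi Rch M R (V n)) → (∀ a ∈ 𝔅, ∀ x, a (V0 x) = V0 (a x)) →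
      (∀ x, Tendsto (fun n => L.E M (V n x)) atTop (𝓝 (L.E M (V0 x)))) →
      L.NstRp G 𝔅 psi Rch M R V0 := fun M R V V0 h h0 hx => L.nst_rp_lim h h0 hx
  refine ⟨fun M R V h => h.1, fun M R V h => h.2.1, hlim,
    fun M R R' V h h1 h2 => L.nst_rp_mono h h1 h2,
    fun M M' R V h h1 h2 h3 => L.nst_rp_shrink hR h h1 h2 h3,
    fun M R R0 V V' h h1 h2 h3 h4 h5 => L.nst_rp_act hB hAB hR hG hpB hpG h h1 h2 h3 h4 h5,
    fun M R V f P U h hf hr hs hU => L.nst_rp_rotl hB hR h hf hr hs hU, ?_,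
    fun M R V a U h ha hs hU => L.nst_rp_ph hB hpB hR h ha hs hU,
    fun M R V A B P Q c U h h1 h2 h3 h4 h5 h6 =>
      L.nst_rp_coup hA hB hAB hR hG hpA hps hpG h h1 h2 h3 h4 h5 h6⟩
  -- rotations by the new controls
  intro M R V a P U h ha hs haG hU
  set UU : Set (H ≃ₗᵢ[ℂ] H) := {U | NstCm 𝔅 U ∧ ∀ M R V, L.NstRp G 𝔅 psi Rch M R V →
    L.NstRp G 𝔅 psi Rch M R (U * V)} with hUU
  have hcl : L.UCl G 𝔄 (L.iota (psi L.Om)) UU := by
    refine ⟨fun U V hU hV => ⟨hU.1.mul hV.1, fun M R W hW => ?_⟩, fun U U0 hU h0 hx => ?_,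
      fun a P U ha hs hG' hU => ⟨L.nst_rot_CmA hB (hAB ha) hU, fun M R W hW =>
        L.nst_rp_rotA hB hAB hR hW ha hs hG' hU⟩, fun k U hU => ?_⟩
    · rw [mul_assoc]
      exact hU.2 _ _ _ (hV.2 _ _ _ hW)
    · refine ⟨h0, fun M R W hW => hlim M R (fun n => U n * W) (U0 * W)
        (fun n => (hU n).2 _ _ _ hW) ((show NstCm 𝔅 U0 from h0).mul hW.2.1) fun x => ?_⟩
      exact ((L.E M).continuous.tendsto _).comp (hx (W x))
    · have e : U = L.nst_NG hG ((k : ℂ) • L.iota (psi L.Om)) := by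
        ext x
        rw [hU x, nst_NG_apply]
      refine ⟨?_, fun M R W hW => ?_⟩
      · intro b hb x
        rw [hU, hU, map_add, map_sub, hB.nst_comm_apply hb (hB.nst_E_mem hG)]
        congr 1
        rw [← hB.nst_comm_apply hb (hB.nst_E_mem hG) x]
        refine L.nst_comm_pw (P := 2) (map_add _) (map_sub _) (fun c x => map_smul _ c x)
          (hB.Z b hb) (fun x => hB.nst_comm_apply hb (hmem k) x) (fun x => ?_) _
        have h2 := hB.nst_comm_apply hb (hmem (-k)) x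
        simp only [ofReal_neg, neg_smul] at h2
        exact h2
      · rw [e]
        exact L.nst_rp_zrG hA hB hAB hR hT hG hsg hpsi hmem hW k
  exact (nest_rot L hG hA hB hpA hps hcl a ha hs haG P U hU).2 M R V h

end LSys

end Vale.Agent.P367.A
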