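import Vale.Agent.P367.B.Main3
import Vale.Agent.P367.B.BaseFin

/-! P367: final assembly modulo CORE (T2), VALUE. -/

namespace Vale.Agent.P367.A

open Filter Topology

theorem main4_of
    (hcore : ∀ {K' : Type} [NormedAddCommGroup K'] [InnerProductSpace ℂ K']
      (L : LSys (NI.HH NI.FN) K'), L.CoreStmt (fun x => L.tendsto_W0 x))
    (hval : ∀ {K' : Type} [NormedAddCommGroup K'] [InnerProductSpace ℂ K']
      (L : LSys (NI.HH NI.FN) K') (J : K' → NI.HH NI.FN) (S : NI.Weyl NI.FN NI.L2N),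
      L.IsBase S J → L.ValueStmt J Gap.Pstar) :
    Tendsto Gap.Qsup atTop (𝓝 Gap.Pstar) :=
  main3_of NI.baseStmt hcore hval

end Vale.Agent.P367.A
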