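import Vale.Agent.P367.B.Val1

/-! P367, block B, value: consequences of the functional calculus; values of the calculus belong to
the control algebras. -/

namespace Vale.Agent.P367.A

open Complex Filter Topology MeasureTheory ProbabilityTheory

namespace LSys

variable {H K : Type*} [NormedAddCommGroup H] [InnerProductSpace ℂ H]
  [NormedAddCommGroup K] [InnerProductSpace ℂ K] (L : LSys H K)

/-- forget the last variable -/
def val_p {n : ℕ} (z : ℝ × (Fin (n + 1) → ℝ)) : ℝ × (Fin n → ℝ) := (z.1, fun i => z.2 i.castSucc)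

lemma val_law_prob (n : ℕ) : IsProbabilityMeasure (L.law n) := by
  have := L.prob
  unfold law
  infer_instance

lemma val_p_mp (n : ℕ) : MeasurePreserving (val_p (n := n)) (L.law (n + 1)) (L.law n) := by
  have := L.prob
  have h1 := (measurePreserving_piFinSuccAbove (fun _ : Fin (n + 1) => gaussianReal 0 1)
    (Fin.last n))
  have h2 : MeasurePreserving (Prod.snd : ℝ × (Fin n → ℝ) → (Fin n → ℝ))
      ((gaussianReal 0 1).prod (Measure.pi fun _ : Fin n => gaussianReal 0 1))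
      (Measure.pi fun _ : Fin n => gaussianReal 0 1) := measurePreserving_snd
  have h3 := h2.comp h1
  have h4 := (MeasurePreserving.id L.mu).prod h3
  have e : val_p (n := n) = Prod.map id (Prod.snd ∘
      ⇑(MeasurableEquiv.piFinSuccAbove (fun _ : Fin (n + 1) => ℝ) (Fin.last n))) := by
    funext z
    unfold val_p
    refine Prod.ext rfl ?_
    funext i
    change z.2 i.castSucc = z.2 ((Fin.last n).succAbove i)
    rw [Fin.succAbove_last]
  rw [e]
  exact h4

lemma val_bmn_p {n : ℕ} {f : ℝ × (Fin n → ℝ) → ℂ} (hf : Bmn f) :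
    Bmn (fun z : ℝ × (Fin (n + 1) → ℝ) => f (val_p z)) := by
  obtain ⟨h1, C, h2⟩ := hf
  refine ⟨h1.comp ?_, C, fun z => h2 _⟩
  unfold val_p
  refine measurable_fst.prodMk ?_
  rw [measurable_pi_iff]
  intro i
  exact (measurable_pi_apply _).comp measurable_snd

section fcal

variable {L}
variable {n : ℕ} {y : Fin n → K} {fc : (ℝ × (Fin n → ℝ) → ℂ) → (H →L[ℂ] H)} (h : L.FCal y fc)

include h

lemma val_fc_const (c : ℂ) : fc (fun _ => c) = c • (1 : H →L[ℂ] H) := by
  have h1 := h.lab (fun _ => c) ⟨measurable_const, ‖c‖, fun _ => le_rfl⟩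
  rw [L.lab_const] at h1
  exact h1

lemma val_fc_smul (c : ℂ) {f : ℝ × (Fin n → ℝ) → ℂ} (hf : Bmn f) :
    fc (fun z => c * f z) = c • fc f := by
  rw [h.mul _ _ (val_bmn_const c) hf, val_fc_const h]
  ext x
  simp

lemma val_fc_zero : fc (fun _ => 0) = 0 := by
  rw [val_fc_const h, zero_smul]

lemma val_fc_sum {ι : Type*} (s : Finset ι) (f : ι → ℝ × (Fin n → ℝ) → ℂ)
    (hf : ∀ i, Bmn (f i)) : Bmn (fun z => ∑ i ∈ s, f i z) ∧
      fc (fun z => ∑ i ∈ s, f i z) = ∑ i ∈ s, fc (f i) := by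
  classical
  induction s using Finset.induction_on with
  | empty =>
    simp only [Finset.sum_empty]
    exact ⟨val_bmn_const 0, val_fc_zero h⟩
  | insert a s ha ih =>
    simp only [Finset.sum_insert ha]
    refine ⟨val_bmn_add (hf a) ih.1, ?_⟩
    rw [h.add _ _ (hf a) ih.1, ih.2]

lemma val_fc_exp (k0 : ℝ) (k : Fin n → ℝ) (x : H) :
    fc (fun z => Complex.exp (Complex.I * ((k0 * z.1 + ∑ i, k i * z.2 i : ℝ) : ℂ))) x =
      L.lab (fun t => Complex.exp (Complex.I * ((k0 * t : ℝ) : ℂ)))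
        (L.W (∑ i, (k i : ℂ) • y i) x) := by
  have hb : Bm (fun t : ℝ => Complex.exp (Complex.I * ((k0 * t : ℝ) : ℂ))) := by
    refine ⟨Continuous.measurable (by fun_prop), 1, fun t => ?_⟩
    change ‖Complex.exp (Complex.I * ((k0 * t : ℝ) : ℂ))‖ ≤ 1
    rw [mul_comm, Complex.norm_exp_ofReal_mul_I]
  have e : (fun z : ℝ × (Fin n → ℝ) => Complex.exp (Complex.I *
      ((k0 * z.1 + ∑ i, k i * z.2 i : ℝ) : ℂ))) =
      fun z => (fun z : ℝ × (Fin n → ℝ) => Complex.exp (Complex.I * ((k0 * z.1 : ℝ) : ℂ))) z *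
        (fun z : ℝ × (Fin n → ℝ) => Complex.exp (Complex.I * ((∑ i, k i * z.2 i : ℝ) : ℂ))) z := by
    funext z
    simp only
    rw [← Complex.exp_add, ← mul_add, ← Complex.ofReal_add]
  rw [e, h.mul _ _ (val_bmn_fst hb) (val_bmn_W k)]
  have h1 := h.lab _ hb
  rw [h1, mul_apply_eq_comp, h.W]

lemma val_inner_fc {f g : ℝ × (Fin n → ℝ) → ℂ} (hf : Bmn f) (hg : Bmn g) :
    inner ℂ (fc f L.Om) (fc g L.Om) = ∫ z, (starRingEnd ℂ) (f z) * g z ∂(L.law n) := by
  rw [h.adj f hf, ← mul_apply_eq_comp, ← h.mul _ _ (val_bmn_conj hf) hg,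
    h.vac _ (val_bmn_mul (val_bmn_conj hf) hg)]

lemma val_norm_fc {f : ℝ × (Fin n → ℝ) → ℂ} (hf : Bmn f) :
    ‖fc f L.Om‖ ^ 2 = ∫ z, ‖f z‖ ^ 2 ∂(L.law n) := by
  have h1 := val_inner_fc h hf hf
  rw [inner_self_eq_norm_sq_to_K] at h1
  have h2 : ∀ z, (starRingEnd ℂ) (f z) * f z = ((‖f z‖ ^ 2 : ℝ) : ℂ) := by
    intro z
    rw [← Complex.normSq_eq_conj_mul_self, Complex.normSq_eq_norm_sq]
  simp only [h2] at h1
  rw [integral_complex_ofReal] at h1
  exact Complex.ofReal_injective (by rw [← h1]; push_cast; rfl)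

/-- compatibility of the calculus for `n + 1` and for `n` fields -/
theorem val_compat {y' : Fin (n + 1) → K} {fc' : (ℝ × (Fin (n + 1) → ℝ) → ℂ) → (H →L[ℂ] H)}
    (h' : L.FCal y' fc') (hy : ∀ i : Fin n, y' i.castSucc = y i) :
    ∀ f, Bmn f → fc' (fun z => f (val_p z)) = fc f := by
  have := L.val_law_prob n
  refine val_ind (L.law n) (fun f => fc' (fun z => f (val_p z)) = fc f) ?_ ?_ ?_ ?_ ?_
  · intro k0 k
    ext x
    rw [val_fc_exp h]
    have h1 := val_fc_exp h' k0 (Fin.snoc k 0 : Fin (n + 1) → ℝ) x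
    have e1 : (fun z : ℝ × (Fin (n + 1) → ℝ) => Complex.exp (Complex.I *
        ((k0 * z.1 + ∑ i, (Fin.snoc k 0 : Fin (n + 1) → ℝ) i * z.2 i : ℝ) : ℂ))) =
        fun z => (fun z : ℝ × (Fin n → ℝ) => Complex.exp (Complex.I *
          ((k0 * z.1 + ∑ i, k i * z.2 i : ℝ) : ℂ))) (val_p z) := by
      funext z
      simp only [val_p]
      rw [Fin.sum_univ_castSucc]
      simp
    have e2 : ∑ i, (((Fin.snoc k 0 : Fin (n + 1) → ℝ) i : ℝ) : ℂ) • y' i =
        ∑ i, (k i : ℂ) • y i := by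
      rw [Fin.sum_univ_castSucc]
      simp [hy]
    rw [e1, e2] at h1
    exact h1
  · intro f g hf hg e1 e2
    have h1 := h'.add _ _ (val_bmn_p hf) (val_bmn_p hg)
    rw [h.add _ _ hf hg, ← e1, ← e2]
    exact h1
  · intro c f hf e1
    have h1 := val_fc_smul h' c (val_bmn_p hf)
    rw [val_fc_smul h c hf, ← e1]
    exact h1
  · intro f g hf hg e1 e2
    have h1 := h'.mul _ _ (val_bmn_p hf) (val_bmn_p hg)
    rw [h.mul _ _ hf hg, ← e1, ← e2]
    exact h1
  · intro f f0 C hf hf0 hC hlim he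
    ext x
    have h1 := h.lim f f0 C hf hf0 hC hlim x
    have h2 := h'.lim (fun m z => f m (val_p z)) (fun z => f0 (val_p z)) C
      (fun m => val_bmn_p (hf m)) (val_bmn_p hf0) (fun m z => hC m _)
      ((L.val_p_mp n).quasiMeasurePreserving.ae hlim) x
    simp only [he] at h2
    exact tendsto_nhds_unique h2 h1

end fcal

/-! ### the control algebras -/

lemma val_alg0_const (c : ℂ) : c • (1 : H →L[ℂ] H) ∈ L.alg0 :=
  ⟨fun _ => c, ⟨measurable_const, ‖c‖, fun _ => le_rfl⟩, (L.lab_const c).symm⟩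

lemma val_alg_mono (Y : ℕ → K) (k : ℕ) : L.alg Y k ⊆ L.alg Y (k + 1) := fun a ha => Gen.base a ha

lemma val_alg0_sub (Y : ℕ → K) (k : ℕ) : L.alg0 ⊆ L.alg Y k := by
  induction k with
  | zero => exact subset_rfl
  | succ k ih => exact ih.trans (L.val_alg_mono Y k)

lemma val_alg_const (Y : ℕ → K) (k : ℕ) (c : ℂ) : c • (1 : H →L[ℂ] H) ∈ L.alg Y k :=
  L.val_alg0_sub Y k (L.val_alg0_const c)

lemma val_alg_add (Y : ℕ → K) (k : ℕ) {a b : H →L[ℂ] H} (ha : a ∈ L.alg Y k)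
    (hb : b ∈ L.alg Y k) : a + b ∈ L.alg Y k := by
  cases k with
  | zero =>
    obtain ⟨f, hf, rfl⟩ := ha
    obtain ⟨g, hg, rfl⟩ := hb
    refine ⟨fun t => f t + g t, ?_, (L.lab_add f g hf hg).symm⟩
    obtain ⟨h1, C, h2⟩ := hf
    obtain ⟨h3, D, h4⟩ := hg
    exact ⟨h1.add h3, C + D, fun x => (norm_add_le _ _).trans (add_le_add (h2 x) (h4 x))⟩
  | succ k => exact Gen.add a b ha hb

lemma val_alg_mul (Y : ℕ → K) (k : ℕ) {a b : H →L[ℂ] H} (ha : a ∈ L.alg Y k)
    (hb : b ∈ L.alg Y k) : a * b ∈ L.alg Y k := by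
  cases k with
  | zero =>
    obtain ⟨f, hf, rfl⟩ := ha
    obtain ⟨g, hg, rfl⟩ := hb
    refine ⟨fun t => f t * g t, ?_, (L.lab_mul f g hf hg).symm⟩
    obtain ⟨h1, C, h2⟩ := hf
    obtain ⟨h3, D, h4⟩ := hg
    refine ⟨h1.mul h3, C * D, fun x => ?_⟩
    rw [norm_mul]
    exact mul_le_mul (h2 x) (h4 x) (norm_nonneg _) ((norm_nonneg _).trans (h2 x))
  | succ k => exact Gen.mul a b ha hb

lemma val_alg_smul (Y : ℕ → K) (k : ℕ) (c : ℂ) {a : H →L[ℂ] H} (ha : a ∈ L.alg Y k) :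
    c • a ∈ L.alg Y k := by
  have h := L.val_alg_mul Y k (L.val_alg_const Y k c) ha
  have e : (c • (1 : H →L[ℂ] H)) * a = c • a := by
    ext x
    simp
  rwa [e] at h

/-- Weyl operators as bounded operators -/
noncomputable def val_W (v : K) : H →L[ℂ] H := (L.W v).toContinuousLinearEquiv.toContinuousLinearMap

lemma val_W_apply (v : K) (x : H) : L.val_W v x = L.W v x := rfl

lemma val_W_zero : L.val_W 0 = (1 : ℂ) • (1 : H →L[ℂ] H) := by
  ext x
  rw [val_W_apply, L.W_zero_apply]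
  simp

lemma val_W_add (a b : K) : L.val_W (a + b) =
    Complex.exp (Complex.I * ((inner ℂ a b : ℂ).im : ℂ)) • (L.val_W a * L.val_W b) := by
  ext x
  rw [_root_.smul_apply, mul_apply_eq_comp, val_W_apply, val_W_apply,
    val_W_apply, L.WW, smul_smul, ← Complex.exp_add, add_neg_cancel, Complex.exp_zero, one_smul]

lemma val_W_mem (Y : ℕ → K) (k : ℕ) (c : ℕ → ℝ) :
    L.val_W (∑ i ∈ Finset.range k, ((c i : ℝ) : ℂ) • Y i) ∈ L.alg Y k := by
  induction k with
  | zero =>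
    rw [Finset.sum_range_zero, val_W_zero]
    exact L.val_alg0_const 1
  | succ k ih =>
    rw [Finset.sum_range_succ, val_W_add]
    refine L.val_alg_smul Y (k + 1) _ (L.val_alg_mul Y (k + 1) (L.val_alg_mono Y k ih) ?_)
    exact Gen.W (c k)

/-- the calculus has values in the control algebra -/
theorem val_mem (Y : ℕ → K) (n : ℕ) {fc : (ℝ × (Fin n → ℝ) → ℂ) → (H →L[ℂ] H)}
    (h : L.FCal (fun i : Fin n => Y i) fc) : ∀ f, Bmn f → fc f ∈ L.alg Y n := by
  cases n with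
  | zero =>
    intro f hf
    obtain ⟨h1, C, h2⟩ := hf
    have hb : Bm (fun t => f (t, Fin.elim0)) :=
      ⟨h1.comp (measurable_id.prodMk measurable_const), C, fun t => h2 _⟩
    have e : fc (fun z => f (z.1, Fin.elim0)) = L.lab (fun t => f (t, Fin.elim0)) := h.lab _ hb
    have e2 : (fun z : ℝ × (Fin 0 → ℝ) => f (z.1, Fin.elim0)) = f := by
      funext z
      congr 1
      exact Prod.ext rfl (Subsingleton.elim _ _)
    rw [e2] at e
    exact ⟨_, hb, e⟩
  | succ n =>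
    have := L.val_law_prob (n + 1)
    refine val_ind (L.law (n + 1)) (fun f => fc f ∈ L.alg Y (n + 1)) ?_ ?_ ?_ ?_ ?_
    · intro k0 k
      have hb : Bm (fun t : ℝ => Complex.exp (Complex.I * ((k0 * t : ℝ) : ℂ))) := by
        refine ⟨Continuous.measurable (by fun_prop), 1, fun t => ?_⟩
        change ‖Complex.exp (Complex.I * ((k0 * t : ℝ) : ℂ))‖ ≤ 1
        rw [mul_comm, Complex.norm_exp_ofReal_mul_I]
      have e : fc (fun z => Complex.exp (Complex.I * ((k0 * z.1 + ∑ i, k i * z.2 i : ℝ) : ℂ))) =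
          L.lab (fun t => Complex.exp (Complex.I * ((k0 * t : ℝ) : ℂ))) *
            L.val_W (∑ i : Fin (n + 1), (k i : ℂ) • Y i) := by
        ext x
        rw [val_fc_exp h]
        rfl
      have e2 : ∑ i : Fin (n + 1), (k i : ℂ) • Y i = ∑ i ∈ Finset.range (n + 1),
          (((fun i : ℕ => if hi : i < n + 1 then k ⟨i, hi⟩ else 0) i : ℝ) : ℂ) • Y i := by
        rw [Finset.sum_range]
        refine Finset.sum_congr rfl fun i _ => ?_
        simp only [dif_pos i.2, Fin.eta]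
      rw [e, e2]
      exact L.val_alg_mul Y (n + 1) (L.val_alg0_sub Y (n + 1) ⟨_, hb, rfl⟩)
        (L.val_W_mem Y (n + 1) _)
    · intro f g hf hg h1 h2
      rw [h.add _ _ hf hg]
      exact L.val_alg_add Y _ h1 h2
    · intro c f hf h1
      rw [val_fc_smul h c hf]
      exact L.val_alg_smul Y _ c h1
    · intro f g hf hg h1 h2
      rw [h.mul _ _ hf hg]
      exact L.val_alg_mul Y _ h1 h2
    · intro f f0 C hf hf0 hC hlim hm
      have hC0 : 0 ≤ C := (norm_nonneg _).trans (hC 0 (0, 0))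
      exact Gen.lim (fun m => fc (f m)) (fc f0) C hm
        (fun m => ContinuousLinearMap.opNorm_le_bound _ hC0 (h.norm _ (hf m) C (hC m)))
        (h.lim f f0 C hf hf0 hC hlim)

/-- sign valued controls -/
theorem val_sgn (Y : ℕ → K) (n : ℕ) {fc : (ℝ × (Fin n → ℝ) → ℂ) → (H →L[ℂ] H)}
    (h : L.FCal (fun i : Fin n => Y i) fc) {G : Set ℝ} (hG : MeasurableSet G)
    (σ : ℝ × (Fin n → ℝ) → ℝ) (hσ : Measurable σ) (hσ2 : ∀ z, σ z * σ z = 1) :
    L.Sgn G (L.alg Y n) (fc (fun z => ((G.indicator (fun _ => (1 : ℝ)) z.1 * σ z : ℝ) : ℂ))) := by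
  have hG1 : Measurable fun z : ℝ × (Fin n → ℝ) => G.indicator (fun _ => (1 : ℝ)) z.1 :=
    (measurable_const.indicator hG).comp measurable_fst
  have hGle : ∀ t : ℝ, |G.indicator (fun _ => (1 : ℝ)) t| ≤ 1 := by
    intro t
    by_cases ht : t ∈ G
    · simp [Set.indicator_of_mem ht]
    · simp [Set.indicator_of_notMem ht]
  have hσ1 : ∀ z, |σ z| ≤ 1 := fun z => by
    have h1 : |σ z| * |σ z| = 1 := by rw [abs_mul_abs_self, hσ2]
    nlinarith [abs_nonneg (σ z)]
  have hb : Bmn (fun z => ((G.indicator (fun _ => (1 : ℝ)) z.1 * σ z : ℝ) : ℂ)) :=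
    val_bmn_ofReal (C := 1) (hG1.mul hσ) (fun z => by
      rw [abs_mul]
      exact mul_le_one₀ (hGle _) (abs_nonneg _) (hσ1 z))
  refine ⟨L.val_mem Y n h _ hb, fun x y => ?_, ?_⟩
  · rw [h.adj _ hb]
    simp only [Complex.conj_ofReal]
  · rw [← h.mul _ _ hb hb]
    have hB : Bm (G.indicator fun _ => (1 : ℂ)) := by
      refine ⟨measurable_const.indicator hG, 1, fun t => ?_⟩
      by_cases ht : t ∈ G
      · simp [Set.indicator_of_mem ht]
      · simp [Set.indicator_of_notMem ht]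
    unfold E
    rw [← h.lab _ hB]
    congr 1
    funext z
    by_cases ht : z.1 ∈ G
    · simp only [Set.indicator_of_mem ht, one_mul]
      rw [← Complex.ofReal_mul, hσ2, Complex.ofReal_one]
    · simp [Set.indicator_of_notMem ht]

/-- decomposition of a function with finitely many values into sign valued controls -/
theorem val_decomp (Y : ℕ → K) (n : ℕ) {fc : (ℝ × (Fin n → ℝ) → ℂ) → (H →L[ℂ] H)}
    (h : L.FCal (fun i : Fin n => Y i) fc) {G : Set ℝ} (hG : MeasurableSet G)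
    (F : ℝ × (Fin n → ℝ) → ℝ) (hF : Measurable F) (hfin : (Set.range F).Finite) :
    ∃ (m : ℕ) (sg : Fin m → (H →L[ℂ] H)) (c : Fin m → ℝ), (∀ i, L.Sgn G (L.alg Y n) (sg i)) ∧
      ∑ i, (c i : ℂ) • sg i =
        fc (fun z => ((G.indicator (fun _ => (1 : ℝ)) z.1 * F z : ℝ) : ℂ)) := by
  classical
  set s : Finset ℝ := hfin.toFinset with hs
  -- the sign functions
  set σ : s × Bool → ℝ × (Fin n → ℝ) → ℝ := fun p z =>
    if p.2 then 1 else (if F z = p.1 then 1 else -1) with hσ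
  have hσm : ∀ p, Measurable (σ p) := by
    intro p
    simp only [hσ]
    by_cases hp : p.2 = true
    · simp only [hp, if_true]
      exact measurable_const
    · simp only [if_neg hp]
      exact Measurable.ite (hF (measurableSet_singleton _)) measurable_const measurable_const
  have hσ2 : ∀ p z, σ p z * σ p z = 1 := by
    intro p z
    simp only [hσ]
    split_ifs <;> norm_num
  set e := Fintype.equivFin (s × Bool) with he
  refine ⟨Fintype.card (s × Bool), fun i => fc (fun z =>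
    ((G.indicator (fun _ => (1 : ℝ)) z.1 * σ (e.symm i) z : ℝ) : ℂ)),
    fun i => ((e.symm i).1 : ℝ) / 2, fun i => L.val_sgn Y n h hG _ (hσm _) (hσ2 _), ?_⟩
  have hG1 : Measurable fun z : ℝ × (Fin n → ℝ) => G.indicator (fun _ => (1 : ℝ)) z.1 :=
    (measurable_const.indicator hG).comp measurable_fst
  have hGle : ∀ t : ℝ, |G.indicator (fun _ => (1 : ℝ)) t| ≤ 1 := by
    intro t
    by_cases ht : t ∈ G
    · simp [Set.indicator_of_mem ht]
    · simp [Set.indicator_of_notMem ht]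
  have hb : ∀ p, Bmn (fun z => ((G.indicator (fun _ => (1 : ℝ)) z.1 * σ p z : ℝ) : ℂ)) := by
    intro p
    refine val_bmn_ofReal (C := 1) (hG1.mul (hσm p)) (fun z => ?_)
    rw [abs_mul]
    have hσ1 : |σ p z| ≤ 1 := by
      have h1 : |σ p z| * |σ p z| = 1 := by rw [abs_mul_abs_self, hσ2]
      nlinarith [abs_nonneg (σ p z)]
    exact mul_le_one₀ (hGle _) (abs_nonneg _) hσ1
  have e1 : ∑ i, ((((e.symm i).1 : ℝ) / 2 : ℝ) : ℂ) • fc (fun z =>
      ((G.indicator (fun _ => (1 : ℝ)) z.1 * σ (e.symm i) z : ℝ) : ℂ)) =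
      ∑ p : s × Bool, ((((p.1 : ℝ) / 2 : ℝ) : ℂ)) • fc (fun z =>
      ((G.indicator (fun _ => (1 : ℝ)) z.1 * σ p z : ℝ) : ℂ)) :=
    Fintype.sum_equiv e.symm _ _ fun i => rfl
  rw [e1]
  have e2 : ∀ p : s × Bool, ((((p.1 : ℝ) / 2 : ℝ) : ℂ)) • fc (fun z =>
      ((G.indicator (fun _ => (1 : ℝ)) z.1 * σ p z : ℝ) : ℂ)) =
      fc (fun z => ((((p.1 : ℝ) / 2 : ℝ) : ℂ)) *
        ((G.indicator (fun _ => (1 : ℝ)) z.1 * σ p z : ℝ) : ℂ)) := fun p =>
    (val_fc_smul h _ (hb p)).symm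
  simp only [e2]
  rw [← (val_fc_sum h Finset.univ _ fun p => val_bmn_smul _ (hb p)).2]
  congr 1
  funext z
  have hz : F z ∈ s := by
    rw [hs, Set.Finite.mem_toFinset]
    exact ⟨z, rfl⟩
  rw [Fintype.sum_prod_type]
  simp only [Fintype.sum_bool, hσ, if_true, Bool.false_eq_true, if_false]
  rw [Finset.sum_eq_single (⟨F z, hz⟩ : s)]
  · simp only [if_true]
    push_cast
    ring
  · intro v _ hv
    have : ¬ F z = v := fun hh => hv (Subtype.ext hh.symm)
    simp only [if_neg this]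
    push_cast
    ring
  · intro hh
    exact absurd (Finset.mem_univ _) hh

end LSys

end Vale.Agent.P367.A
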