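import Vale.Agent.P367.B.LBase
import Vale.Agent.P367.B.LUS
import Vale.Agent.P367.B.Val2

/-! P367, block B, VALUE: the creation map `J` on the vacuum and the energy of a state in the
commutative algebra of the fields `phi(y_i)`. -/

namespace Vale.Agent.P367.A

open Complex Filter Topology MeasureTheory ProbabilityTheory

namespace LSys

variable {H K : Type*} [NormedAddCommGroup H] [InnerProductSpace ℂ H]
  [NormedAddCommGroup K] [InnerProductSpace ℂ K] (L : LSys H K)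

/-- inner product of coherent vectors -/
lemma ven_ip (a b : K) : inner ℂ (L.W a L.Om) (L.W b L.Om)
    = Complex.exp (I * ((inner ℂ a b).im : ℂ) - ((‖b - a‖ ^ 2 / 2 : ℝ) : ℂ)) := by
  rw [L.inner_W, L.WW, inner_smul_right, L.vac, ← Complex.exp_add,
    show -a + b = b - a from neg_add_eq_sub a b]
  congr 1
  rw [inner_neg_left, Complex.neg_im]
  push_cast
  ring

lemma ven_self {E : Type*} [NormedAddCommGroup E] [InnerProductSpace ℂ E] (u : E) :
    (inner ℂ u u : ℂ) = ((‖u‖ ^ 2 : ℝ) : ℂ) := by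
  rw [inner_self_eq_norm_sq_to_K]
  simp

lemma ven_norm_W (a : K) : ‖L.W a L.Om‖ = 1 := by rw [LinearIsometryEquiv.norm_map, L.nOm]

lemma ven_real {s : ℝ} (h0 : 0 ≤ s) (h1 : s ≤ 1) :
    4 - 4 * Real.exp (-(s / 2)) - 2 * (Real.exp (-s) * Real.sin s) ≤ 4 * s ^ 2 := by
  have a1 : 1 - s / 2 ≤ Real.exp (-(s / 2)) := by
    have := Real.add_one_le_exp (-(s / 2)); linarith
  have a2 : 1 - s ≤ Real.exp (-s) := by
    have := Real.add_one_le_exp (-s); linarith
  rcases eq_or_lt_of_le h0 with rfl | h0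
  · simp
  have a3 : s - s ^ 3 / 4 < Real.sin s := by
    have := Real.sin_gt_sub_cube h0
    have : 0 < s ^ 3 := by positivity
    linarith
  have a4 : (1 - s) * (s - s ^ 3 / 4) ≤ Real.exp (-s) * Real.sin s := by
    apply mul_le_mul a2 a3.le _ (Real.exp_pos _).le
    have : s ^ 3 ≤ s := by nlinarith [mul_nonneg h0.le (sub_nonneg.2 h1), sq_nonneg s]
    linarith
  nlinarith [mul_nonneg h0.le (sub_nonneg.2 h1), sq_nonneg s,
    mul_nonneg (sq_nonneg s) (sub_nonneg.2 h1), mul_nonneg (sq_nonneg s) h0.le]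

lemma ven_norm_D (u : K) (t : ℝ) :
    ‖(-I) • (L.W ((t : ℂ) • u) L.Om - L.Om) - (L.W (-((I * (t : ℂ)) • u)) L.Om - L.Om)‖ ^ 2
      = 4 - 4 * Real.exp (-(t ^ 2 * ‖u‖ ^ 2 / 2))
        - 2 * (Real.exp (-(t ^ 2 * ‖u‖ ^ 2)) * Real.sin (t ^ 2 * ‖u‖ ^ 2)) := by
  obtain ⟨p, hp⟩ : ∃ p, p = L.W ((t : ℂ) • u) L.Om := ⟨_, rfl⟩
  obtain ⟨q, hq⟩ : ∃ q, q = L.W (-((I * (t : ℂ)) • u)) L.Om := ⟨_, rfl⟩
  obtain ⟨s, hs⟩ : ∃ s : ℝ, s = t ^ 2 * ‖u‖ ^ 2 := ⟨_, rfl⟩
  have np : ‖p‖ = 1 := by rw [hp]; exact L.ven_norm_W _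
  have nq : ‖q‖ = 1 := by rw [hq]; exact L.ven_norm_W _
  have n1 : ‖(t : ℂ) • u‖ ^ 2 = s := by
    rw [norm_smul, mul_pow, Complex.norm_real, Real.norm_eq_abs, sq_abs, hs]
  have n2 : ‖-((I * (t : ℂ)) • u)‖ ^ 2 = s := by
    rw [norm_neg, norm_smul, mul_pow, norm_mul, Complex.norm_I, one_mul, Complex.norm_real,
      Real.norm_eq_abs, sq_abs, hs]
  have hOp : (inner ℂ p L.Om : ℂ) = Complex.exp (-((s / 2 : ℝ) : ℂ)) := by
    rw [hp, L.inner_W, L.vac, norm_neg, n1]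
  have hOq : (inner ℂ q L.Om : ℂ) = Complex.exp (-((s / 2 : ℝ) : ℂ)) := by
    rw [hq, L.inner_W, L.vac, norm_neg, n2]
  have hin : (inner ℂ ((t : ℂ) • u) (-((I * (t : ℂ)) • u)) : ℂ) = -(I * (s : ℂ)) := by
    rw [inner_neg_right, inner_smul_left, inner_smul_right, ven_self, hs,
      Complex.conj_ofReal]
    push_cast
    ring
  have hpq : (inner ℂ p q : ℂ) = Complex.exp (-(s : ℂ)) * Complex.exp (-(I * (s : ℂ))) := by
    have e1 : ‖-((I * (t : ℂ)) • u) - (t : ℂ) • u‖ ^ 2 = 2 * s := by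
      have e2 : -((I * (t : ℂ)) • u) - (t : ℂ) • u = (-((1 + I) * (t : ℂ))) • u := by module
      rw [e2, norm_smul, mul_pow, norm_neg, norm_mul, mul_pow, Complex.norm_real,
        Real.norm_eq_abs, sq_abs, hs]
      have e3 : ‖(1 : ℂ) + I‖ ^ 2 = 2 := by
        rw [← Complex.normSq_eq_norm_sq]
        simp [Complex.normSq_apply]
        norm_num
      rw [e3]
      ring
    rw [hp, hq, L.ven_ip, hin, e1, ← Complex.exp_add]
    congr 1
    simp
    ring
  obtain ⟨e1, he1⟩ : ∃ e1 : ℝ, e1 = Real.exp (-(s / 2)) := ⟨_, rfl⟩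
  obtain ⟨e2, he2⟩ : ∃ e2 : ℝ, e2 = Real.exp (-s) := ⟨_, rfl⟩
  have c1 : Complex.exp (-((s / 2 : ℝ) : ℂ)) = (e1 : ℂ) := by
    rw [he1, Complex.ofReal_exp, Complex.ofReal_neg]
  have c2 : Complex.exp (-(s : ℂ)) = (e2 : ℂ) := by
    rw [he2, Complex.ofReal_exp, Complex.ofReal_neg]
  have c3 : Complex.exp (-(I * (s : ℂ))) = (Real.cos s : ℂ) - (Real.sin s : ℂ) * I := by
    rw [show -(I * (s : ℂ)) = ((-s : ℝ) : ℂ) * I by push_cast; ring, Complex.exp_mul_I,
      ← Complex.ofReal_cos, ← Complex.ofReal_sin, Real.cos_neg, Real.sin_neg, Complex.ofReal_neg]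
    ring
  rw [c1] at hOp hOq
  rw [c2, c3] at hpq
  have hOp' : (inner ℂ L.Om p : ℂ) = (e1 : ℂ) := by
    rw [← inner_conj_symm, hOp, Complex.conj_ofReal]
  have hOq' : (inner ℂ L.Om q : ℂ) = (e1 : ℂ) := by
    rw [← inner_conj_symm, hOq, Complex.conj_ofReal]
  have hqp : (inner ℂ q p : ℂ) = (e2 : ℂ) * ((Real.cos s : ℂ) + (Real.sin s : ℂ) * I) := by
    rw [← inner_conj_symm, hpq]
    simp only [map_mul, map_sub, Complex.conj_ofReal, Complex.conj_I]
    ring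
  have hpp : (inner ℂ p p : ℂ) = 1 := by rw [ven_self, np]; simp
  have hqq : (inner ℂ q q : ℂ) = 1 := by rw [ven_self, nq]; simp
  have hoo : (inner ℂ L.Om L.Om : ℂ) = 1 := by rw [ven_self, L.nOm]; simp
  rw [← hp, ← hq, ← hs, ← he1, ← he2]
  have hD : (-I) • (p - L.Om) - (q - L.Om) = (-I) • p + (-1 : ℂ) • q + (1 + I) • L.Om := by
    module
  rw [hD]
  have key : ((‖(-I) • p + (-1 : ℂ) • q + (1 + I) • L.Om‖ ^ 2 : ℝ) : ℂ)
      = ((4 - 4 * e1 - 2 * (e2 * Real.sin s) : ℝ) : ℂ) := by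
    rw [← ven_self]
    simp only [inner_add_left, inner_add_right, inner_smul_left, inner_smul_right, map_add,
      map_neg, map_one, Complex.conj_I, hpp, hqq, hoo, hpq, hqp, hOp, hOq, hOp', hOq']
    push_cast
    have hI := I_mul_I
    linear_combination (-2 + 2 * (e1 : ℂ) + 2 * (e2 : ℂ) * (Complex.sin s)) * hI
  exact_mod_cast key

lemma ven_tendsto_D (u : K) : Tendsto (fun t : ℝ => ((t : ℂ)⁻¹) •
    ((-I) • (L.W ((t : ℂ) • u) L.Om - L.Om) - (L.W (-((I * (t : ℂ)) • u)) L.Om - L.Om)))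
    (𝓝[≠] 0) (𝓝 0) := by
  have hb : ∀ᶠ t : ℝ in 𝓝[≠] 0, ‖((t : ℂ)⁻¹) •
      ((-I) • (L.W ((t : ℂ) • u) L.Om - L.Om) - (L.W (-((I * (t : ℂ)) • u)) L.Om - L.Om))‖
      ≤ 2 * |t| * ‖u‖ ^ 2 := by
    have h1 : Tendsto (fun t : ℝ => t ^ 2 * ‖u‖ ^ 2) (𝓝[≠] 0) (𝓝 0) := by
      have h : Continuous fun t : ℝ => t ^ 2 * ‖u‖ ^ 2 := by fun_prop
      have h2 := h.tendsto 0
      simp only [ne_eq, OfNat.ofNat_ne_zero, not_false_eq_true, zero_pow, zero_mul] at h2
      exact h2.mono_left nhdsWithin_le_nhds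
    filter_upwards [h1.eventually (ge_mem_nhds zero_lt_one), self_mem_nhdsWithin] with t ht ht0
    have ht0 : t ≠ 0 := ht0
    have h2 := ven_real (s := t ^ 2 * ‖u‖ ^ 2) (by positivity) ht
    rw [← L.ven_norm_D u t] at h2
    rw [norm_smul, norm_inv, Complex.norm_real, Real.norm_eq_abs]
    have ht1 : 0 < |t| := abs_pos.2 ht0
    rw [inv_mul_le_iff₀ ht1]
    refine le_of_sq_le_sq (h2.trans (le_of_eq ?_)) (by positivity)
    rw [← sq_abs t]
    ring
  have h3 : Tendsto (fun t : ℝ => 2 * |t| * ‖u‖ ^ 2) (𝓝[≠] 0) (𝓝 0) := by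
    have h : Continuous fun t : ℝ => 2 * |t| * ‖u‖ ^ 2 := by fun_prop
    have h2 := h.tendsto 0
    simp only [abs_zero, mul_zero, zero_mul] at h2
    exact h2.mono_left nhdsWithin_le_nhds
  exact squeeze_zero_norm' hb h3

variable {L} {J : K → H}

/-- `W(tu) Om` has derivative `i J u` -/
lemma ven_J2 (hJ : L.IsJ J) (u : K) :
    Tendsto (fun t : ℝ => ((t : ℂ)⁻¹) • (L.W ((t : ℂ) • u) L.Om - L.Om)) (𝓝[≠] 0)
      (𝓝 (I • J u)) := by
  have h := ((L.ven_tendsto_D u).add (hJ u)).const_smul I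
  rw [zero_add] at h
  refine h.congr fun t => ?_
  have hI := I_mul_I
  rw [← smul_add, smul_comm, sub_add_cancel, smul_smul I, mul_neg, hI, neg_neg, one_smul]

lemma ven_J_I (hJ : L.IsJ J) (u : K) : J (I • u) = I • J u := by
  refine tendsto_nhds_unique ((hJ (I • u)).congr fun t => ?_) (ven_J2 hJ u)
  have e : -((I * (t : ℂ)) • I • u) = (t : ℂ) • u := by
    rw [smul_smul, mul_right_comm, I_mul_I, ← neg_smul]
    congr 1
    ring
  rw [e]

lemma ven_J_real (hJ : L.IsJ J) (c : ℝ) (u : K) : J ((c : ℂ) • u) = (c : ℂ) • J u := by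
  by_cases hc : c = 0
  · subst hc
    have h := hJ (((0 : ℝ) : ℂ) • u)
    rw [ofReal_zero, zero_smul]
    rw [ofReal_zero, zero_smul] at h
    rw [zero_smul]
    refine tendsto_nhds_unique (h.congr (f₂ := fun _ => (0 : H)) fun t => ?_) tendsto_const_nhds
    rw [smul_zero, neg_zero, L.W_zero_apply, sub_self, smul_zero]
  · have h1 : Tendsto (fun t : ℝ => c * t) (𝓝[≠] 0) (𝓝[≠] 0) := by
      refine tendsto_nhdsWithin_iff.2 ⟨?_, ?_⟩
      · have h : Continuous fun t : ℝ => c * t := by fun_prop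
        have h2 := h.tendsto 0
        simp only [mul_zero] at h2
        exact h2.mono_left nhdsWithin_le_nhds
      · filter_upwards [self_mem_nhdsWithin] with t ht
        exact mul_ne_zero hc ht
    have h2 := ((hJ u).comp h1).const_smul (c : ℂ)
    refine tendsto_nhds_unique (hJ _) (h2.congr fun t => ?_)
    have hc' : (c : ℂ) ≠ 0 := by exact_mod_cast hc
    simp only [Function.comp]
    rw [smul_smul, ofReal_mul, mul_inv, mul_inv_cancel_left₀ hc', smul_smul]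
    congr 5
    ring_nf

lemma ven_t0 {f : ℝ → K} (hf : Continuous f) (h0 : f 0 = 0) (x : H) :
    Tendsto (fun t => L.W (f t) x) (𝓝[≠] 0) (𝓝 x) := by
  have h := hf.tendsto 0
  rw [h0] at h
  exact (L.tendsto_W0 x).comp (h.mono_left nhdsWithin_le_nhds)

lemma ven_J_add (hJ : L.IsJ J) (u v : K) : J (u + v) = J u + J v := by
  have hu := hJ u
  have hv := hJ v
  -- the middle term
  have h1 : Tendsto (fun t : ℝ => L.W (-((I * (t : ℂ)) • u))
      (((t : ℂ)⁻¹) • (L.W (-((I * (t : ℂ)) • v)) L.Om - L.Om))) (𝓝[≠] 0) (𝓝 (J v)) := by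
    have h2 : Tendsto (fun t : ℝ => L.W (-((I * (t : ℂ)) • u)) (J v)) (𝓝[≠] 0) (𝓝 (J v)) :=
      ven_t0 (by fun_prop) (by simp) _
    have h3 : Tendsto (fun t : ℝ => L.W (-((I * (t : ℂ)) • u))
        (((t : ℂ)⁻¹) • (L.W (-((I * (t : ℂ)) • v)) L.Om - L.Om) - J v)) (𝓝[≠] 0) (𝓝 0) := by
      rw [tendsto_zero_iff_norm_tendsto_zero]
      simp only [LinearIsometryEquiv.norm_map]
      rw [← tendsto_zero_iff_norm_tendsto_zero]
      have := hv.sub_const (J v)
      rwa [sub_self] at this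
    have h4 := h3.add h2
    rw [zero_add] at h4
    refine h4.congr fun t => ?_
    rw [← map_add, sub_add_cancel]
  -- the phase
  obtain ⟨τ, hτ⟩ : ∃ τ : ℝ, τ = (inner ℂ u v : ℂ).im := ⟨_, rfl⟩
  have h5 : Tendsto (fun t : ℝ => (t : ℂ)⁻¹ * (Complex.exp (I * ((t ^ 2 * τ : ℝ) : ℂ)) - 1))
      (𝓝[≠] 0) (𝓝 0) := by
    have hd : HasDerivAt (fun t : ℝ => Complex.exp (I * ((t ^ 2 * τ : ℝ) : ℂ))) 0 0 := by
      have h6 : HasDerivAt (fun t : ℝ => ((t ^ 2 * τ : ℝ) : ℂ)) ((0 : ℝ) : ℂ) 0 := by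
        have h7 : HasDerivAt (fun t : ℝ => t ^ 2 * τ) 0 0 := by
          have := (hasDerivAt_pow 2 (0 : ℝ)).mul_const τ
          simpa using this
        exact h7.ofReal_comp
      have h8 := (h6.const_mul I).cexp
      simpa using h8
    have h9 := hd.tendsto_slope_zero
    simp only [zero_add] at h9
    refine h9.congr fun t => ?_
    rw [Complex.real_smul, ofReal_inv]
    simp
  have h6 : Tendsto (fun t : ℝ => ((t : ℂ)⁻¹ * (Complex.exp (I * ((t ^ 2 * τ : ℝ) : ℂ)) - 1)) •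
      L.W (-((I * (t : ℂ)) • u)) (L.W (-((I * (t : ℂ)) • v)) L.Om)) (𝓝[≠] 0) (𝓝 0) := by
    rw [tendsto_zero_iff_norm_tendsto_zero]
    simp only [norm_smul, LinearIsometryEquiv.norm_map, L.nOm, mul_one]
    exact tendsto_zero_iff_norm_tendsto_zero.1 h5
  have h7 := (h6.add h1).add hu
  rw [zero_add, add_comm (J v)] at h7
  refine tendsto_nhds_unique (hJ (u + v)) (h7.congr fun t => ?_)
  have hin : (inner ℂ (-((I * (t : ℂ)) • u)) (-((I * (t : ℂ)) • v)) : ℂ).im = t ^ 2 * τ := by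
    rw [inner_neg_neg, inner_smul_left, inner_smul_right, ← mul_assoc, map_mul, Complex.conj_I,
      Complex.conj_ofReal, hτ,
      show (-I * (t : ℂ)) * (I * (t : ℂ)) = ((t ^ 2 : ℝ) : ℂ) by
        push_cast; linear_combination (-(t : ℂ) ^ 2) * I_mul_I]
    exact Complex.im_ofReal_mul _ _
  have hsum : -((I * (t : ℂ)) • (u + v)) = -((I * (t : ℂ)) • u) + -((I * (t : ℂ)) • v) := by
    rw [smul_add, neg_add]
  have hW : L.W (-((I * (t : ℂ)) • (u + v))) L.Om = Complex.exp (I * ((t ^ 2 * τ : ℝ) : ℂ)) •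
      L.W (-((I * (t : ℂ)) • u)) (L.W (-((I * (t : ℂ)) • v)) L.Om) := by
    rw [hsum, L.WW, hin, smul_smul, ← Complex.exp_add, add_neg_cancel, Complex.exp_zero, one_smul]
  rw [hW, map_smul, map_sub]
  module

lemma ven_J_smul (hJ : L.IsJ J) (c : ℂ) (u : K) : J (c • u) = c • J u := by
  have e : c • u = ((c.re : ℝ) : ℂ) • u + ((c.im : ℝ) : ℂ) • I • u := by
    rw [smul_smul, ← add_smul, Complex.re_add_im]
  rw [e, ven_J_add hJ, ven_J_real hJ, ven_J_real hJ, ven_J_I hJ, smul_smul, ← add_smul,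
    Complex.re_add_im]

lemma ven_J_sum (hJ : L.IsJ J) {ι : Type*} (s : Finset ι) (f : ι → K) :
    J (∑ i ∈ s, f i) = ∑ i ∈ s, J (f i) := by
  classical
  induction s using Finset.induction_on with
  | empty =>
    have := ven_J_smul hJ 0 (0 : K)
    rw [zero_smul, zero_smul] at this
    simpa using this
  | insert a s ha ih => rw [Finset.sum_insert ha, Finset.sum_insert ha, ven_J_add hJ, ih]

/-- `J u` has spin `X = 1` -/
lemma ven_X_J (hJ : L.IsJ J) (u : K) : L.X (J u) = J u := by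
  have h := (L.X.continuous.tendsto (J u)).comp (hJ u)
  refine tendsto_nhds_unique (h.congr fun t => ?_) (hJ u)
  simp only [Function.comp]
  rw [map_smul, map_sub, ← L.WX, L.XOm]

section fc

variable {N : ℕ} {y : Fin N → K} {fc : (ℝ × (Fin N → ℝ) → ℂ) → (H →L[ℂ] H)}

/-- `fc` commutes with the spin operator `X` -/
lemma ven_fc_X (h : L.FCal y fc) {f : ℝ × (Fin N → ℝ) → ℂ} (hf : Bmn f) (x : H) :
    fc f (L.X x) = L.X (fc f x) := by
  have h1 := h.comm f hf (L.X.toContinuousLinearEquiv.toContinuousLinearMap) (fun g _ => by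
    ext x; exact L.lab_X g x) (fun k x => L.WX _ x)
  exact congrArg (fun T : H →L[ℂ] H => T x) h1

lemma ven_fc_Z (h : L.FCal y fc) {f : ℝ × (Fin N → ℝ) → ℂ} (hf : Bmn f) (x : H) :
    fc f (L.Z x) = L.Z (fc f x) := by
  have h1 := h.comm f hf (L.Z.toContinuousLinearEquiv.toContinuousLinearMap) (fun g _ => by
    ext x; exact L.lab_Z g x) (fun k x => L.WZ _ x)
  exact congrArg (fun T : H →L[ℂ] H => T x) h1

lemma ven_Bmn_conj {f : ℝ × (Fin N → ℝ) → ℂ} (hf : Bmn f) :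
    Bmn (fun z => (starRingEnd ℂ) (f z)) :=
  ⟨continuous_conj.measurable.comp hf.1, hf.2.imp fun C h x => by rw [RCLike.norm_conj]; exact h x⟩

/-- `fc` commutes with the displacements orthogonal to `y` -/
lemma ven_fc_W (h : L.FCal y fc) {f : ℝ × (Fin N → ℝ) → ℂ} (hf : Bmn f) {w : K}
    (hw : ∀ j, inner ℂ (y j) w = 0) (x : H) :
    fc f (L.W w x) = L.W w (fc f x) := by
  have h1 := h.comm f hf ((L.W w).toContinuousLinearEquiv.toContinuousLinearMap) (fun g _ => by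
    ext x; exact L.lab_W g w x) (fun k x => by
      have e1 : (inner ℂ (∑ i, (k i : ℂ) • y i) w : ℂ) = 0 := by
        rw [sum_inner]
        exact Finset.sum_eq_zero fun i _ => by rw [inner_smul_left, hw, mul_zero]
      have e2 : (inner ℂ w (∑ i, (k i : ℂ) • y i) : ℂ) = 0 := by
        rw [← inner_conj_symm, e1, map_zero]
      change L.W (∑ i, (k i : ℂ) • y i) (L.W w x) = L.W w (L.W (∑ i, (k i : ℂ) • y i) x)
      rw [L.WW, L.WW, e1, e2, add_comm])
  exact congrArg (fun T : H →L[ℂ] H => T x) h1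

/-- fields orthogonal to `y` do not see the algebra of `y` -/
lemma ven_perp (hJ : L.IsJ J) (h : L.FCal y fc) {f : ℝ × (Fin N → ℝ) → ℂ} (hf : Bmn f) {r : K}
    (hr : ∀ j, inner ℂ (y j) r = 0) : inner ℂ (fc f L.Om) (J r) = (0 : ℂ) := by
  obtain ⟨g, hg⟩ : ∃ g : H, g = fc (fun z => (starRingEnd ℂ) (f z)) L.Om := ⟨_, rfl⟩
  have key : ∀ r : K, (∀ j, inner ℂ (y j) r = 0) →
      (inner ℂ (fc f L.Om) (J r) : ℂ) = inner ℂ (J r) g := by
    intro r hr
    have h1 : Tendsto (fun t : ℝ => (inner ℂ (fc f L.Om)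
        (((t : ℂ)⁻¹) • (L.W ((t : ℂ) • r) L.Om - L.Om)) : ℂ)) (𝓝[≠] 0)
        (𝓝 (inner ℂ (fc f L.Om) (I • J r))) := tendsto_const_nhds.inner (ven_J2 hJ r)
    have h2 : Tendsto (fun t : ℝ => (inner ℂ
        (((t : ℂ)⁻¹) • (L.W ((t : ℂ) • (-r)) L.Om - L.Om)) g : ℂ)) (𝓝[≠] 0)
        (𝓝 (inner ℂ (I • J (-r)) g)) := (ven_J2 hJ (-r)).inner tendsto_const_nhds
    have h3 := tendsto_nhds_unique (h1.congr fun t => ?_) h2
    · have h4 : J (-r) = -J r := by
        have := ven_J_smul hJ (-1) r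
        simpa using this
      rw [h4, inner_smul_right, inner_smul_left, inner_neg_left, Complex.conj_I] at h3
      have h5 : I * ((inner ℂ (fc f L.Om) (J r) : ℂ) - inner ℂ (J r) g) = 0 := by
        linear_combination h3
      rcases mul_eq_zero.1 h5 with h6 | h6
      · exact absurd h6 I_ne_zero
      · exact sub_eq_zero.1 h6
    · have hw : ∀ j, inner ℂ (y j) ((t : ℂ) • (-r)) = (0 : ℂ) := fun j => by
        rw [inner_smul_right, inner_neg_right, hr, neg_zero, mul_zero]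
      have e1 : (inner ℂ (fc f L.Om) (L.W ((t : ℂ) • r) L.Om) : ℂ)
          = inner ℂ (L.W ((t : ℂ) • (-r)) L.Om) g := by
        have e2 := L.inner_W ((t : ℂ) • (-r)) (fc f L.Om) L.Om
        rw [show -((t : ℂ) • (-r)) = (t : ℂ) • r by module] at e2
        rw [← e2, ← ven_fc_W h hf hw, h.adj f hf, hg]
      have e3 : (inner ℂ (fc f L.Om) L.Om : ℂ) = inner ℂ L.Om g := by rw [h.adj f hf, hg]
      rw [inner_smul_right, inner_sub_right, e1, e3, inner_smul_left, inner_sub_left, map_inv₀,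
        Complex.conj_ofReal]
  have k1 := key r hr
  have k2 := key (I • r) fun j => by rw [inner_smul_right, hr, mul_zero]
  rw [ven_J_I hJ, inner_smul_right, inner_smul_left, Complex.conj_I, ← k1] at k2
  have h5 : I * (inner ℂ (fc f L.Om) (J r) : ℂ) = 0 := by linear_combination (1 / 2 : ℂ) * k2
  rcases mul_eq_zero.1 h5 with h6 | h6
  · exact absurd h6 I_ne_zero
  · exact h6

/-- vectors of spin `X = -1` are orthogonal to `J u` -/
lemma ven_odd (hJ : L.IsJ J) (h : L.FCal y fc) {f : ℝ × (Fin N → ℝ) → ℂ} (hf : Bmn f) (u : K) :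
    inner ℂ (fc f (L.Z L.Om)) (J u) = (0 : ℂ) := by
  have h1 : (inner ℂ (fc f (L.Z L.Om)) (L.X (J u)) : ℂ) = -inner ℂ (fc f (L.Z L.Om)) (J u) := by
    rw [← L.inner_X, ← ven_fc_X h hf, L.XZ, L.XOm, map_neg, inner_neg_left]
  rw [ven_X_J hJ] at h1
  have h2 : (2 : ℂ) * inner ℂ (fc f (L.Z L.Om)) (J u) = 0 := by linear_combination h1
  rcases mul_eq_zero.1 h2 with h3 | h3
  · norm_num at h3
  · exact h3

lemma ven_odd' (h : L.FCal y fc) {f g : ℝ × (Fin N → ℝ) → ℂ} (hf : Bmn f) (hg : Bmn g) :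
    inner ℂ (fc g L.Om) (fc f (L.Z L.Om)) = (0 : ℂ) := by
  have h1 : (inner ℂ (L.X (fc g L.Om)) (fc f (L.Z L.Om)) : ℂ)
      = -inner ℂ (fc g L.Om) (fc f (L.Z L.Om)) := by
    rw [L.inner_X, ← ven_fc_X h hf, L.XZ, L.XOm, map_neg, inner_neg_right]
  rw [← ven_fc_X h hg, L.XOm] at h1
  have h2 : (2 : ℂ) * inner ℂ (fc g L.Om) (fc f (L.Z L.Om)) = 0 := by linear_combination h1
  rcases mul_eq_zero.1 h2 with h3 | h3
  · norm_num at h3
  · exact h3

lemma ven_snd_int (L : LSys H K) (k : Fin N) :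
    Integrable (fun z : ℝ × (Fin N → ℝ) => z.2 k) (L.law N) := by
  have := L.prob
  have h1 : MeasurePreserving (fun z : ℝ × (Fin N → ℝ) => z.2 k) (L.law N) (gaussianReal 0 1) :=
    (measurePreserving_eval (fun _ : Fin N => gaussianReal 0 1) k).comp measurePreserving_snd
  have h2 : Integrable (id : ℝ → ℝ) (gaussianReal 0 1) :=
    (memLp_id_gaussianReal 1).integrable (by simp)
  have h3 : Integrable (id : ℝ → ℝ) ((L.law N).map fun z : ℝ × (Fin N → ℝ) => z.2 k) := by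
    rwa [h1.map_eq]
  exact (integrable_map_measure h3.aestronglyMeasurable h1.measurable.aemeasurable).1 h3

/-- moments of the fields -/
lemma ven_field (hJ : L.IsJ J) (h : L.FCal y fc) {f : ℝ × (Fin N → ℝ) → ℂ} (hf : Bmn f)
    (k : Fin N) : inner ℂ (fc f L.Om) (J (y k))
      = ∫ z, (starRingEnd ℂ) (f z) * (z.2 k : ℂ) ∂(L.law N) := by
  have hlp := L.val_law_prob N
  obtain ⟨C, hC⟩ := hf.2
  have hC0 : 0 ≤ C := (norm_nonneg _).trans (hC (0, 0))
  obtain ⟨e, he⟩ : ∃ e : ℝ → ℝ × (Fin N → ℝ) → ℂ, e = fun (t : ℝ) (z : ℝ × (Fin N → ℝ)) =>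
    (t : ℂ)⁻¹ * (Complex.exp (I * ((t * z.2 k : ℝ) : ℂ)) - 1) := ⟨_, rfl⟩
  have hE : ∀ t : ℝ, Bmn (fun z : ℝ × (Fin N → ℝ) => Complex.exp (I * ((t * z.2 k : ℝ) : ℂ))) ∧
      ∀ x, fc (fun z : ℝ × (Fin N → ℝ) => Complex.exp (I * ((t * z.2 k : ℝ) : ℂ))) x
        = L.W ((t : ℂ) • y k) x := by
    intro t
    have e1 : (fun z : ℝ × (Fin N → ℝ) => Complex.exp (I * ((t * z.2 k : ℝ) : ℂ)))
        = fun z => Complex.exp (I * ((∑ i, (Pi.single k t : Fin N → ℝ) i * z.2 i : ℝ) : ℂ)) := by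
      funext z
      rw [Finset.sum_eq_single k (fun i _ hi => by rw [Pi.single_eq_of_ne hi, zero_mul])
        (fun h => absurd (Finset.mem_univ k) h), Pi.single_eq_same]
    rw [e1]
    refine ⟨val_bmn_W _, fun x => ?_⟩
    rw [h.W]
    congr 2
    rw [Finset.sum_eq_single k (fun i _ hi => by rw [Pi.single_eq_of_ne hi, ofReal_zero, zero_smul])
        (fun h => absurd (Finset.mem_univ k) h), Pi.single_eq_same]
  have hEb : ∀ t, Bmn (fun z : ℝ × (Fin N → ℝ) =>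
      Complex.exp (I * ((t * z.2 k : ℝ) : ℂ)) + (-1)) := fun t =>
    val_bmn_add (hE t).1 (val_bmn_const (-1))
  have heb : ∀ t, Bmn (e t) := fun t => by
    have := val_bmn_smul ((t : ℂ)⁻¹) (hEb t)
    rw [he]
    simpa [sub_eq_add_neg] using this
  have hfe : ∀ t : ℝ, fc (e t) L.Om = ((t : ℂ)⁻¹) • (L.W ((t : ℂ) • y k) L.Om - L.Om) := by
    intro t
    have e2 : e t = fun z => (t : ℂ)⁻¹ * (Complex.exp (I * ((t * z.2 k : ℝ) : ℂ)) + (-1)) := by
      rw [he]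
      funext z
      exact congrArg (fun w => (t : ℂ)⁻¹ * w) (sub_eq_add_neg _ _)
    rw [e2, val_fc_smul h _ (hEb t), h.add _ _ (hE t).1 (val_bmn_const (-1)),
      val_fc_const h]
    change ((t : ℂ)⁻¹) • (fc (fun z => Complex.exp (I * ((t * z.2 k : ℝ) : ℂ))) L.Om
      + (-1 : ℂ) • L.Om) = _
    rw [(hE t).2]
    module
  have h1 : Tendsto (fun t : ℝ => (inner ℂ (fc f L.Om)
      (((t : ℂ)⁻¹) • (L.W ((t : ℂ) • y k) L.Om - L.Om)) : ℂ)) (𝓝[≠] 0)
      (𝓝 (inner ℂ (fc f L.Om) (I • J (y k)))) := tendsto_const_nhds.inner (ven_J2 hJ (y k))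
  have h2 : Tendsto (fun t : ℝ => ∫ z, (starRingEnd ℂ) (f z) * e t z ∂(L.law N)) (𝓝[≠] 0)
      (𝓝 (∫ z, (starRingEnd ℂ) (f z) * (I * (z.2 k : ℂ)) ∂(L.law N))) := by
    refine tendsto_integral_filter_of_dominated_convergence (fun z => C * |z.2 k|) ?_ ?_ ?_ ?_
    · exact Eventually.of_forall fun t =>
        (val_bmn_mul (val_bmn_conj hf) (heb t)).1.aestronglyMeasurable
    · filter_upwards [self_mem_nhdsWithin] with t ht
      have ht0 : t ≠ 0 := ht
      refine Eventually.of_forall fun z => ?_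
      rw [norm_mul, RCLike.norm_conj]
      refine mul_le_mul (hC z) ?_ (norm_nonneg _) hC0
      rw [he]
      simp only
      rw [norm_mul, norm_inv, Complex.norm_real, Real.norm_eq_abs,
        inv_mul_le_iff₀ (abs_pos.2 ht0), ← abs_mul, ← Real.norm_eq_abs (t * z.2 k)]
      exact Real.norm_exp_I_mul_ofReal_sub_one_le
    · exact (L.ven_snd_int k).abs.const_mul C
    · refine Eventually.of_forall fun z => ?_
      refine Tendsto.const_mul _ ?_
      have hd : HasDerivAt (fun t : ℝ => Complex.exp (I * ((t * z.2 k : ℝ) : ℂ)))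
          (I * (z.2 k : ℂ)) 0 := by
        have h7 : HasDerivAt (fun t : ℝ => t * z.2 k) (z.2 k) 0 := by
          simpa using (hasDerivAt_id (0 : ℝ)).mul_const (z.2 k)
        have h8 := (h7.ofReal_comp.const_mul I).cexp
        simpa using h8
      have h9 := hd.tendsto_slope_zero
      simp only [zero_add] at h9
      refine h9.congr fun t => ?_
      rw [Complex.real_smul, ofReal_inv, he]
      simp
  have h3 := tendsto_nhds_unique (h1.congr fun t => by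
    rw [← hfe, val_inner_fc h hf (heb t)]) h2
  rw [inner_smul_right] at h3
  have h4 : ∫ z, (starRingEnd ℂ) (f z) * (I * (z.2 k : ℂ)) ∂(L.law N)
      = I * ∫ z, (starRingEnd ℂ) (f z) * (z.2 k : ℂ) ∂(L.law N) := by
    rw [← integral_const_mul]
    exact integral_congr_ae (Eventually.of_forall fun z => by ring)
  rw [h4] at h3
  exact mul_left_cancel₀ I_ne_zero h3

/-- **energy in the algebra of the fields** -/
theorem ven_energy (hJ : L.IsJ J) (hy : Orthonormal ℂ y) (h : L.FCal y fc)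
    {c m : ℝ × (Fin N → ℝ) → ℂ} (hc : Bmn c) (hm : Bmn m) {x : H}
    (hx : x = fc c (L.Z L.Om) + fc m L.Om) :
    L.En J x = (∑ k, inner ℂ (y k) (L.iota x)
      * ∫ z, (starRingEnd ℂ) (m z) * (z.2 k : ℂ) ∂(L.law N)).re := by
  obtain ⟨r, hr⟩ : ∃ r : K, r = L.iota x - ∑ k, (inner ℂ (y k) (L.iota x) : ℂ) • y k := ⟨_, rfl⟩
  have hr0 : ∀ j, inner ℂ (y j) r = (0 : ℂ) := by
    intro j
    rw [hr, inner_sub_right, hy.inner_right_fintype, sub_self]
  have hdec : L.iota x = (∑ k, (inner ℂ (y k) (L.iota x) : ℂ) • y k) + r := by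
    rw [hr, add_sub_cancel]
  have hJx : J (L.iota x) = (∑ k, (inner ℂ (y k) (L.iota x) : ℂ) • J (y k)) + J r := by
    conv_lhs => rw [hdec]
    rw [ven_J_add hJ, ven_J_sum hJ]
    simp only [ven_J_smul hJ]
  have e1 : (inner ℂ x (J (L.iota x)) : ℂ) = inner ℂ (fc c (L.Z L.Om) + fc m L.Om)
      ((∑ k, (inner ℂ (y k) (L.iota x) : ℂ) • J (y k)) + J r) := by rw [← hx, ← hJx]
  unfold En
  rw [e1]
  congr 1
  rw [inner_add_left, inner_add_right, inner_add_right, inner_sum, inner_sum,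
    ven_odd hJ h hc, ven_perp hJ h hm hr0]
  simp only [inner_smul_right, ven_odd hJ h hc, ven_field hJ h hm, mul_zero,
    Finset.sum_const_zero, zero_add, add_zero]

lemma ven_ind_int (L : LSys H K) {G : Set ℝ} (hG : MeasurableSet G) (F : (Fin N → ℝ) → ℝ) :
    ∫ z, (G.indicator (fun _ => (1 : ℝ)) z.1 * F z.2) ∂(L.law N)
      = L.mu.real G * ∫ z, F z ∂(Measure.pi fun _ : Fin N => gaussianReal 0 1) := by
  have := L.prob
  unfold law
  rw [integral_prod_mul, integral_indicator_const _ hG, smul_eq_mul, mul_one]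

/-- the vector of a field `y` against a magnetisation -/
lemma ven_inner_m (h : L.FCal y fc) {G : Set ℝ} (hG : MeasurableSet G) {r : ℝ}
    {c : ℝ × (Fin N → ℝ) → ℂ} (hc : Bmn c) {φ m : (Fin N → ℝ) → ℝ} (hφ : Measurable φ)
    (hφb : ∃ C, ∀ z, |φ z| ≤ C) (hm : Measurable m) (hmb : ∃ C, ∀ z, |m z| ≤ C) {u : K}
    (hu : u = L.iota (fc (fun z => ((r * G.indicator (fun _ => (1 : ℝ)) z.1 * φ z.2 : ℝ) : ℂ)) L.Om))
    {x : H} (hx : x = fc c (L.Z L.Om)
      + fc (fun z => ((G.indicator (fun _ => (1 : ℝ)) z.1 * m z.2 : ℝ) : ℂ)) L.Om) :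
    inner ℂ u (L.iota x) = ((r * (L.mu.real G
      * ∫ z, φ z * m z ∂(Measure.pi fun _ : Fin N => gaussianReal 0 1)) : ℝ) : ℂ) := by
  have hind : Measurable fun z : ℝ × (Fin N → ℝ) => G.indicator (fun _ => (1 : ℝ)) z.1 :=
    (measurable_const.indicator hG).comp measurable_fst
  have hi1 : ∀ t, |G.indicator (fun _ => (1 : ℝ)) t| ≤ 1 := fun t => by
    by_cases ht : t ∈ G <;> simp [ht]
  have hi2 : ∀ t, G.indicator (fun _ => (1 : ℝ)) t * G.indicator (fun _ => (1 : ℝ)) t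
      = G.indicator (fun _ => (1 : ℝ)) t := fun t => by
    by_cases ht : t ∈ G <;> simp [ht]
  obtain ⟨C, hC⟩ := hφb
  obtain ⟨D, hD⟩ := hmb
  have b1 : Bmn fun z : ℝ × (Fin N → ℝ) =>
      ((r * G.indicator (fun _ => (1 : ℝ)) z.1 * φ z.2 : ℝ) : ℂ) :=
    val_bmn_ofReal ((hind.const_mul r).mul (hφ.comp measurable_snd)) (C := |r| * 1 * C)
      fun z => by
        rw [abs_mul, abs_mul]
        exact mul_le_mul (mul_le_mul_of_nonneg_left (hi1 _) (abs_nonneg _)) (hC _)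
          (abs_nonneg _) (by positivity)
  have b2 : Bmn fun z : ℝ × (Fin N → ℝ) =>
      ((G.indicator (fun _ => (1 : ℝ)) z.1 * m z.2 : ℝ) : ℂ) :=
    val_bmn_ofReal (hind.mul (hm.comp measurable_snd)) (C := 1 * D)
      fun z => by
        rw [abs_mul]
        exact mul_le_mul (hi1 _) (hD _) (abs_nonneg _) (by positivity)
  rw [hu, L.iota.inner_map_map, hx, inner_add_right, ven_odd' h hc b1, zero_add,
    val_inner_fc h b1 b2]
  have e1 : ∀ z : ℝ × (Fin N → ℝ), (starRingEnd ℂ)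
      (((r * G.indicator (fun _ => (1 : ℝ)) z.1 * φ z.2 : ℝ) : ℂ))
      * ((G.indicator (fun _ => (1 : ℝ)) z.1 * m z.2 : ℝ) : ℂ)
      = ((r * (G.indicator (fun _ => (1 : ℝ)) z.1 * (φ z.2 * m z.2)) : ℝ) : ℂ) := by
    intro z
    rw [Complex.conj_ofReal, ← ofReal_mul]
    congr 1
    linear_combination (r * φ z.2 * m z.2) * hi2 z.1
  simp only [e1]
  rw [integral_complex_ofReal, integral_const_mul,
    ven_ind_int L hG (fun z => φ z * m z)]

/-- **value of the final state** -/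
theorem ven_value_gen (hJ : L.IsJ J) (hy : Orthonormal ℂ y) (h : L.FCal y fc) {G : Set ℝ}
    (hG : MeasurableSet G) {r : ℝ} {c : ℝ × (Fin N → ℝ) → ℂ} (hc : Bmn c)
    {φ : Fin N → (Fin N → ℝ) → ℝ} {m : (Fin N → ℝ) → ℝ} (hφ : ∀ k, Measurable (φ k))
    (hφb : ∀ k, ∃ C, ∀ z, |φ k z| ≤ C) (hm : Measurable m) (hmb : ∃ C, ∀ z, |m z| ≤ C)
    (hyk : ∀ k, y k = L.iota
      (fc (fun z => ((r * G.indicator (fun _ => (1 : ℝ)) z.1 * φ k z.2 : ℝ) : ℂ)) L.Om))
    {x : H} (hx : x = fc c (L.Z L.Om)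
      + fc (fun z => ((G.indicator (fun _ => (1 : ℝ)) z.1 * m z.2 : ℝ) : ℂ)) L.Om) :
    L.En J x = r * L.mu.real G ^ 2 * ∑ k,
      (∫ z, φ k z * m z ∂(Measure.pi fun _ : Fin N => gaussianReal 0 1))
        * ∫ z, z k * m z ∂(Measure.pi fun _ : Fin N => gaussianReal 0 1) := by
  have hind : Measurable fun z : ℝ × (Fin N → ℝ) => G.indicator (fun _ => (1 : ℝ)) z.1 :=
    (measurable_const.indicator hG).comp measurable_fst
  have hi1 : ∀ t, |G.indicator (fun _ => (1 : ℝ)) t| ≤ 1 := fun t => by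
    by_cases ht : t ∈ G <;> simp [ht]
  have b2 : Bmn fun z : ℝ × (Fin N → ℝ) =>
      ((G.indicator (fun _ => (1 : ℝ)) z.1 * m z.2 : ℝ) : ℂ) := by
    obtain ⟨D, hD⟩ := hmb
    exact val_bmn_ofReal (hind.mul (hm.comp measurable_snd)) (C := 1 * D)
      fun z => by
        rw [abs_mul]
        exact mul_le_mul (hi1 _) (hD _) (abs_nonneg _) (by positivity)
  have e1 : ∀ k : Fin N, ∫ z, (starRingEnd ℂ)
      ((G.indicator (fun _ => (1 : ℝ)) z.1 * m z.2 : ℝ) : ℂ) * (z.2 k : ℂ) ∂(L.law N)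
      = ((L.mu.real G * ∫ z, z k * m z ∂(Measure.pi fun _ : Fin N => gaussianReal 0 1) : ℝ) : ℂ) := by
    intro k
    rw [← ven_ind_int L hG (fun z => z k * m z), ← integral_complex_ofReal]
    refine integral_congr_ae (Eventually.of_forall fun z => ?_)
    simp only
    rw [Complex.conj_ofReal, ← ofReal_mul]
    congr 1
    ring
  rw [ven_energy hJ hy h hc b2 hx]
  simp only [e1, ven_inner_m h hG hc (hφ _) (hφb _) hm hmb (hyk _) hx]
  rw [Complex.re_sum, Finset.mul_sum]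
  refine Finset.sum_congr rfl fun k _ => ?_
  rw [← ofReal_mul, ofReal_re]
  ring

end fc

/-- **VALUE, energy half**: energy `g ^ (3/2) sum_k (∫ psi_k m) (∫ z_{k+1} m)`. -/
theorem ven_value {J : K → H} (hJ : L.IsJ J) {n : ℕ} {y : Fin (n + 1) → K}
    {fc : (ℝ × (Fin (n + 1) → ℝ) → ℂ) → (H →L[ℂ] H)} (hy : Orthonormal ℂ y) (h : L.FCal y fc)
    {G : Set ℝ} (hG : MeasurableSet G) {c : ℝ × (Fin (n + 1) → ℝ) → ℂ} (hc : Bmn c)
    {ψ : Fin n → (Fin (n + 1) → ℝ) → ℝ} {m : (Fin (n + 1) → ℝ) → ℝ} (hψ : ∀ k, Measurable (ψ k))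
    (hψb : ∀ k, ∃ C, ∀ z, |ψ k z| ≤ C) (hm : Measurable m) (hmb : ∃ C, ∀ z, |m z| ≤ C)
    (hm0 : ∫ z, m z ∂(Measure.pi fun _ : Fin (n + 1) => gaussianReal 0 1) = 0)
    (hy0 : y 0 = L.iota (fc (fun z => (((√(L.mu.real G))⁻¹
      * G.indicator (fun _ => (1 : ℝ)) z.1 : ℝ) : ℂ)) L.Om))
    (hyk : ∀ k : Fin n, y k.succ = L.iota (fc (fun z => (((√(L.mu.real G))⁻¹
      * G.indicator (fun _ => (1 : ℝ)) z.1 * ψ k z.2 : ℝ) : ℂ)) L.Om))
    {x : H} (hx : x = fc c (L.Z L.Om)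
      + fc (fun z => ((G.indicator (fun _ => (1 : ℝ)) z.1 * m z.2 : ℝ) : ℂ)) L.Om) :
    L.En J x = L.mu.real G * √(L.mu.real G) * ∑ k : Fin n,
      (∫ z, ψ k z * m z ∂(Measure.pi fun _ : Fin (n + 1) => gaussianReal 0 1))
        * ∫ z, z k.succ * m z ∂(Measure.pi fun _ : Fin (n + 1) => gaussianReal 0 1) := by
  have h1 := ven_value_gen hJ hy h hG (r := (√(L.mu.real G))⁻¹) hc
    (φ := Fin.cons (fun _ => 1) ψ) (m := m)
    (fun k => by
      refine Fin.cases ?_ (fun k => ?_) k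
      · exact measurable_const
      · exact hψ k)
    (fun k => by
      refine Fin.cases ?_ (fun k => ?_) k
      · exact ⟨1, fun z => by simp⟩
      · exact hψb k) hm hmb
    (fun k => by
      refine Fin.cases ?_ (fun k => ?_) k
      · rw [hy0]
        simp only [Fin.cons_zero, mul_one]
      · rw [hyk]
        simp only [Fin.cons_succ]) hx
  rw [h1, Fin.sum_univ_succ]
  simp only [Fin.cons_zero, Fin.cons_succ, one_mul, hm0, zero_mul, zero_add]
  rw [show (√(L.mu.real G))⁻¹ * L.mu.real G ^ 2 = L.mu.real G * √(L.mu.real G) by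
    rcases eq_or_lt_of_le (measureReal_nonneg (μ := L.mu) (s := G)) with h0 | h0
    · rw [← h0]; simp
    · rw [inv_mul_eq_iff_eq_mul₀ (Real.sqrt_pos.2 h0).ne']
      have := Real.mul_self_sqrt h0.le
      linear_combination (-(L.mu.real G)) * this]

end LSys

end Vale.Agent.P367.A
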