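import Vale.Agent.P367.B.Val5
import Vale.Agent.P367.B.VEn
import Vale.Agent.P367.Cl.EVal

/-! P367, block B: VALUE. -/

namespace Vale.Agent.P367.A

open Complex Filter Topology MeasureTheory ProbabilityTheory

namespace LSys

variable {H K : Type*} [NormedAddCommGroup H] [InnerProductSpace ℂ H]
  [NormedAddCommGroup K] [InnerProductSpace ℂ K] (L : LSys H K)

lemma val_en {J : K → H} (hJ : L.IsJ J) : L.ValEn J := by
  intro N y fc hy h c m hc hm
  rw [ven_energy (L := L) hJ hy h hc hm rfl, Complex.re_sum]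
  refine Finset.sum_congr rfl fun k _ => ?_
  have e : ∀ z : ℝ × (Fin N → ℝ), (starRingEnd ℂ) ((m z : ℝ) : ℂ) * (z.2 k : ℂ) =
      ((m z * z.2 k : ℝ) : ℂ) := fun z => by
    rw [Complex.conj_ofReal, Complex.ofReal_mul]
  simp only [e]
  rw [integral_complex_ofReal, Complex.re_mul_ofReal, mul_comm]

lemma val_sch : ValScheme Gap.Pstar := by
  intro d hd
  obtain ⟨n, ψ, m, -, h1, h2, h3, h4, h5, h6, -, h7, h8, -, -, h9⟩ := Cl.val_scheme hd
  exact ⟨n, ψ, m, h1, h2, h3, h4, h5, h6, h7, h8, h9⟩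

/-- **VALUE**: in every label system with functional calculus the towers of simple controls reach
the value of the Parisi formula. -/
theorem val_stmt [CompleteSpace H] {J : K → H} (hJ : L.IsJ J)
    (hfc : ∀ (n : ℕ) (y : Fin n → K), Orthonormal ℂ y → ∃ fc, L.FCal y fc) :
    L.ValueStmt J Gap.Pstar :=
  L.val_stmt_of J (L.val_en hJ) hfc val_sch

/-- VALUE for the base system -/
theorem val_base {K' : Type} [NormedAddCommGroup K'] [InnerProductSpace ℂ K']
    (L : LSys (NI.HH NI.FN) K') (J : K' → NI.HH NI.FN) (S : NI.Weyl NI.FN NI.L2N)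
    (h : L.IsBase S J) : L.ValueStmt J Gap.Pstar := by
  have : CompleteSpace (NI.HH NI.FN) := inferInstance
  exact L.val_stmt h.isJ h.fcal

end LSys

end Vale.Agent.P367.A
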