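import Vale.Agent.P367.B.Main4
import Vale.Agent.P367.B.Core6
import Vale.Agent.P367.B.Val

/-! P367: `Q_p → P_*`. -/

namespace Vale.Agent.P367

open Filter Topology

/-- **Main theorem**: the optimal depth-`p` QAOA value tends to the ground-state energy. -/
theorem tendsto_Qsup_Pstar : Tendsto Gap.Qsup atTop (𝓝 Gap.Pstar) :=
  A.main4_of (fun L => L.coreStmt _) (fun L J S h => L.val_base J S h)

end Vale.Agent.P367
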