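import Vale.Agent.P367.B.FGb

/-! P367, block B, NEST: couplings applied to dressed states. -/

namespace Vale.Agent.P367.A

open Complex Filter Topology MeasureTheory

section expo

variable {H : Type*} [NormedAddCommGroup H] [InnerProductSpace ℂ H] [CompleteSpace H]

lemma nc_exp_sum (T : H →L[ℂ] H) (y : H) :
    HasSum (fun n : ℕ => ((n.factorial : ℂ)⁻¹) • (T ^ n) y) (NormedSpace.exp T y) := by
  have h4 := NormedSpace.exp_series_hasSum_exp' (𝕂 := ℂ) T
  exact h4.mapL (ContinuousLinearMap.apply ℂ H y)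

/-- exponentials agree on an invariant set where the operators agree -/
lemma nc_exp_eq_on {T T' : H →L[ℂ] H} {p : H → Prop} (hp : ∀ y, p y → p (T' y))
    (h : ∀ y, p y → T y = T' y) {y : H} (hy : p y) :
    NormedSpace.exp T y = NormedSpace.exp T' y := by
  have h1 : ∀ (n : ℕ) (y : H), p y → (T ^ n) y = (T' ^ n) y := by
    intro n
    induction n with
    | zero => intro y _; rfl
    | succ n ih =>
      intro y hy
      rw [pow_succ, pow_succ]
      change (T ^ n) (T y) = (T' ^ n) (T' y)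
      rw [h y hy, ih _ (hp y hy)]
  have h2 := nc_exp_sum T y
  simp only [h1 _ y hy] at h2
  exact h2.unique (nc_exp_sum T' y)

/-- a bounded operator commuting with `T` commutes with `exp T` -/
lemma nc_exp_comm {T : H →L[ℂ] H} {U : H →L[ℂ] H} (h : ∀ x, U (T x) = T (U x)) (y : H) :
    U (NormedSpace.exp T y) = NormedSpace.exp T (U y) := by
  have h1 : ∀ (n : ℕ) (y : H), U ((T ^ n) y) = (T ^ n) (U y) := by
    intro n
    induction n with
    | zero => intro y; rfl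
    | succ n ih =>
      intro y
      rw [pow_succ]
      change U ((T ^ n) (T y)) = (T ^ n) (T (U y))
      rw [ih, h]
  have h2 := (nc_exp_sum T y).mapL U
  simp only [map_smul, h1] at h2
  exact h2.unique (nc_exp_sum T (U y))

end expo

namespace LSys

variable {H K : Type*} [NormedAddCommGroup H] [InnerProductSpace ℂ H]
  [NormedAddCommGroup K] [InnerProductSpace ℂ K] (L : LSys H K)

/-- controls commute with the Pauli operators -/
lemma nc_A_pau {𝔄 : Set (H →L[ℂ] H)} (hA : L.Ctl 𝔄) (P : Fin 3) :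
    ∀ a ∈ 𝔄, ∀ x, a (L.pau P x) = L.pau P (a x) := by
  intro a ha x
  fin_cases P
  · exact hA.X a ha x
  · change a (L.Zt (-(Real.pi / 4)) x) = L.Zt (-(Real.pi / 4)) (a x)
    rw [L.Zt_apply, L.Zt_apply, L.xr_apply, L.xr_apply, map_sub, map_smul, map_smul, hA.X a ha,
      hA.Z a ha]
  · exact hA.Z a ha x

lemma nc_E_mem {𝔄 : Set (H →L[ℂ] H)} (hA : L.Ctl 𝔄) {b : Set ℝ} (hb : MeasurableSet b) :
    L.E b ∈ 𝔄 := hA.lab _ (Bm.ind hb 1)

/-- Weyl operators of block field vectors commute with the controls -/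
lemma nc_W_fv {𝔄 : Set (H →L[ℂ] H)} (hA : L.Ctl 𝔄) {V : H ≃ₗᵢ[ℂ] H}
    (hV : ∀ a ∈ 𝔄, ∀ x, a (V x) = V (a x)) {b : Set ℝ} (hb : MeasurableSet b) (P : Fin 3) (s : ℝ) :
    ∀ a ∈ 𝔄, ∀ x, a (L.W ((s : ℂ) • L.fv (L.pau P) b V) x)
      = L.W ((s : ℂ) • L.fv (L.pau P) b V) (a x) := by
  intro a ha x
  have hEb := L.nc_E_mem hA hb
  have hVi : ∀ a ∈ 𝔄, ∀ x, a (V⁻¹ x) = V⁻¹ (a x) := by
    intro a ha x
    apply V.injective
    rw [← hV a ha, Sys.Ainv, Sys.Ainv]
  set T : H →L[ℂ] H := (s : ℂ) • (L.E b * (V⁻¹).toContinuousLinearEquiv.toContinuousLinearMap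
    * (L.pau P).toContinuousLinearEquiv.toContinuousLinearMap
    * V.toContinuousLinearEquiv.toContinuousLinearMap) with hT
  have hTx : ∀ x, T x = (s : ℂ) • L.E b (V⁻¹ (L.pau P (V x))) := fun x => rfl
  have hsa : Sa T := by
    intro x y
    rw [hTx, hTx, inner_smul_left, inner_smul_right, Complex.conj_ofReal, L.E_sa hb]
    congr 1
    have e1 : inner ℂ x (V⁻¹ (L.E b (L.pau P (V y)))) = inner ℂ (V x) (L.E b (L.pau P (V y))) := by
      rw [← V.inner_map_map x, Sys.Ainv]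
    rw [Sys.inner_invA, L.inner_pau, ← hV _ hEb, ← L.E_pau, ← e1, hVi _ hEb]
  have hco : ∀ c ∈ 𝔄, T * c = c * T := by
    intro c hc
    ext y
    change T (c y) = c (T y)
    rw [hTx, hTx, map_smul, ← hV c hc, ← L.nc_A_pau hA P c hc, ← hVi c hc]
    have h := congrArg (fun A : H →L[ℂ] H => A (V⁻¹ (L.pau P (V y)))) (hA.comm _ _ hEb hc)
    change L.E b (c _) = c (L.E b _) at h
    rw [h]
  have h := hA.W a ha T hsa hco x
  have e : L.iota (T L.Om) = (s : ℂ) • L.fv (L.pau P) b V := by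
    rw [hTx, map_smul]
    rfl
  rwa [e] at h

/-- the shift property of a dressing unitary `S = exp(-i psi phi(q))` (times central phases) -/
def Shift (𝔄 : Set (H →L[ℂ] H)) (psi : H →L[ℂ] H) (q : K) (S : H ≃ₗᵢ[ℂ] H) : Prop :=
  ∀ a : K, (∀ g ∈ 𝔄, ∀ x, g (L.W a x) = L.W a (g x)) → ∀ x, L.W a (S x)
    = S (L.W a (NormedSpace.exp ((-(2 * Complex.I * ((inner ℂ q a).im : ℂ))) • psi) x))

/-- one block of a dressed coupling -/
lemma nc_block [CompleteSpace H] {𝔄 : Set (H →L[ℂ] H)} (hA : L.Ctl 𝔄) {S : H ≃ₗᵢ[ℂ] H}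
    {psi : H →L[ℂ] H} {q : K} (hpsi : psi ∈ 𝔄)
    (hSX : ∀ x, L.X (S x) = S (L.X x)) (hSZ : ∀ x, L.Z (S x) = S (L.Z x))
    (hSA : ∀ a ∈ 𝔄, ∀ x, a (S x) = S (a x)) (hsh : L.Shift 𝔄 psi q S)
    {A : Set ℝ} (hAm : MeasurableSet A) {P : Fin 3} {b : K} {c θ : ℝ}
    (hθ : θ = 2 * c * (inner ℂ q b).im)
    (hb : ∀ t : ℝ, ∀ g ∈ 𝔄, ∀ x, g (L.W ((t : ℂ) • b) x) = L.W ((t : ℂ) • b) (g x))
    {RA : H ≃ₗᵢ[ℂ] H} (hRA : L.IsRot ((θ : ℂ) • (psi * L.E A)) P RA) {z : H} (hz : L.E A z = z) :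
    RA (L.pw (L.pau P) ((c : ℂ) • b) (S z)) = S (L.pw (L.pau P) ((c : ℂ) • b) z) := by
  have hSP : ∀ x, L.pau P (S x) = S (L.pau P x) := by
    intro x
    fin_cases P
    · exact hSX x
    · change L.Zt (-(Real.pi / 4)) (S x) = S (L.Zt (-(Real.pi / 4)) x)
      rw [L.Zt_apply, L.Zt_apply, L.xr_apply, L.xr_apply, map_sub, map_smul, map_smul, hSZ, hSX]
    · exact hSZ x
  have hEA := L.nc_E_mem hA hAm
  -- the rotation commutes with anything commuting with `psi E_A P`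
  set T : H →L[ℂ] H := (-Complex.I) • (((θ : ℂ) • (psi * L.E A)) *
    (L.pau P).toContinuousLinearEquiv.toContinuousLinearMap) with hT
  have hTx : ∀ x, T x = (-(Complex.I * (θ : ℂ))) • psi (L.E A (L.pau P x)) := by
    intro x
    change (-Complex.I) • ((θ : ℂ) • psi (L.E A (L.pau P x))) = _
    rw [smul_smul, neg_mul]
  have hRx : ∀ x, RA x = NormedSpace.exp T x := hRA
  have hcR : ∀ U : H →L[ℂ] H, (∀ x, U (psi x) = psi (U x)) → (∀ x, U (L.E A x) = L.E A (U x)) →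
      (∀ x, U (L.pau P x) = L.pau P (U x)) → ∀ x, U (RA x) = RA (U x) := by
    intro U h1 h2 h3 x
    rw [hRx, hRx]
    refine nc_exp_comm (fun y => ?_) x
    rw [hTx, hTx, map_smul, h1, h2, h3]
  have cRS : ∀ x, S (RA x) = RA (S x) := by
    intro x
    exact hcR S.toContinuousLinearEquiv.toContinuousLinearMap (fun x => (hSA _ hpsi x).symm)
      (fun x => (hSA _ hEA x).symm) (fun x => (hSP x).symm) x
  have cRW : ∀ (t : ℝ) x, L.W ((t : ℂ) • b) (RA x) = RA (L.W ((t : ℂ) • b) x) := by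
    intro t x
    exact hcR (L.W ((t : ℂ) • b)).toContinuousLinearEquiv.toContinuousLinearMap
      (fun x => (hb t _ hpsi x).symm) (fun x => (hb t _ hEA x).symm)
      (fun x => L.W_pau P _ x) x
  -- phases
  set u : ℝ → H →L[ℂ] H := fun t => NormedSpace.exp ((Complex.I * (t : ℂ)) • psi) with hu
  have huu : ∀ t x, u (-t) (u t x) = x := by
    intro t x
    have e : (Complex.I * ((-t : ℝ) : ℂ)) • psi = -((Complex.I * (t : ℂ)) • psi) := by
      rw [← neg_smul]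
      congr 1
      push_cast
      ring
    change NormedSpace.exp ((Complex.I * ((-t : ℝ) : ℂ)) • psi)
      (NormedSpace.exp ((Complex.I * (t : ℂ)) • psi) x) = x
    rw [e]
    exact fgb_exp_neg_mul _ x
  have cRu : ∀ t x, u t (RA x) = RA (u t x) := by
    intro t x
    have h1 : ∀ g ∈ 𝔄, ∀ x, g (u t x) = u t (g x) := by
      intro g hg x
      refine nc_exp_comm (fun y => ?_) x
      change g ((Complex.I * (t : ℂ)) • psi y) = (Complex.I * (t : ℂ)) • psi (g y)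
      rw [map_smul]
      congr 1
      exact congrArg (fun A : H →L[ℂ] H => A y) (hA.comm _ _ hg hpsi)
    refine hcR (u t) (fun x => (h1 _ hpsi x).symm) (fun x => (h1 _ hEA x).symm) (fun x => ?_) x
    refine (nc_exp_comm (U := (L.pau P).toContinuousLinearEquiv.toContinuousLinearMap)
      (fun y => ?_) x).symm
    change L.pau P ((Complex.I * (t : ℂ)) • psi y) = (Complex.I * (t : ℂ)) • psi (L.pau P y)
    rw [map_smul, L.nc_A_pau hA P _ hpsi]
  -- action on eigenvectors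
  have hcE : ∀ y, L.E A (psi y) = psi (L.E A y) := fun y =>
    congrArg (fun A : H →L[ℂ] H => A y) (hA.comm _ _ hEA hpsi)
  have hRp : ∀ y, L.E A y = y → L.pau P y = y → RA y = u (-θ) y := by
    intro y h1 h2
    rw [hRx]
    refine nc_exp_eq_on (p := fun y => L.E A y = y ∧ L.pau P y = y) ?_ ?_ ⟨h1, h2⟩
    · rintro y ⟨h1, h2⟩
      change L.E A ((Complex.I * ((-θ : ℝ) : ℂ)) • psi y) = (Complex.I * ((-θ : ℝ) : ℂ)) • psi y ∧
        L.pau P ((Complex.I * ((-θ : ℝ) : ℂ)) • psi y) = (Complex.I * ((-θ : ℝ) : ℂ)) • psi y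
      rw [map_smul, map_smul, hcE, h1, ← L.nc_A_pau hA P _ hpsi, h2]
      exact ⟨rfl, rfl⟩
    · rintro y ⟨h1, h2⟩
      rw [hTx, h2, h1]
      change _ = (Complex.I * ((-θ : ℝ) : ℂ)) • psi y
      congr 1
      push_cast
      ring
  have hRm : ∀ y, L.E A y = y → L.pau P y = -y → RA y = u θ y := by
    intro y h1 h2
    rw [hRx]
    refine nc_exp_eq_on (p := fun y => L.E A y = y ∧ L.pau P y = -y) ?_ ?_ ⟨h1, h2⟩
    · rintro y ⟨h1, h2⟩
      change L.E A ((Complex.I * (θ : ℂ)) • psi y) = (Complex.I * (θ : ℂ)) • psi y ∧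
        L.pau P ((Complex.I * (θ : ℂ)) • psi y) = -((Complex.I * (θ : ℂ)) • psi y)
      rw [map_smul, map_smul, hcE, h1, ← L.nc_A_pau hA P _ hpsi, h2, map_neg, smul_neg]
      exact ⟨rfl, rfl⟩
    · rintro y ⟨h1, h2⟩
      rw [hTx, h2, map_neg, h1, map_neg]
      change _ = (Complex.I * (θ : ℂ)) • psi y
      rw [smul_neg, neg_smul, neg_neg]
  -- the two eigenspaces
  set yp : H := (1 / 2 : ℂ) • (z + L.pau P z) with hyp
  set ym : H := (1 / 2 : ℂ) • (z - L.pau P z) with hym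
  have hEp : L.E A yp = yp := by
    rw [hyp, map_smul, map_add, L.E_pau, hz]
  have hEm : L.E A ym = ym := by
    rw [hym, map_smul, map_sub, L.E_pau, hz]
  have hPp : L.pau P yp = yp := by
    rw [hyp, map_smul, map_add, L.pau_sq, add_comm]
  have hPm : L.pau P ym = -ym := by
    rw [hym, map_smul, map_sub, L.pau_sq, ← smul_neg, neg_sub]
  have en : -((c : ℂ) • b) = ((-c : ℝ) : ℂ) • b := by push_cast; rw [neg_smul]
  have e1 : L.pw (L.pau P) ((c : ℂ) • b) (S z) = S (L.W (-((c : ℂ) • b)) (u θ yp))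
      + S (L.W ((c : ℂ) • b) (u (-θ) ym)) := by
    have h1 : L.pw (L.pau P) ((c : ℂ) • b) (S z) = L.W (-((c : ℂ) • b)) (S yp)
        + L.W ((c : ℂ) • b) (S ym) := by
      rw [hyp, hym]
      unfold pw
      rw [hSP]
      simp only [map_smul, map_add, map_sub]
      module
    have h2 := hsh (-((c : ℂ) • b)) (fun g hg x => by rw [en]; exact hb (-c) g hg x) yp
    have h3 := hsh ((c : ℂ) • b) (fun g hg x => hb c g hg x) ym
    have e3 : -(2 * Complex.I * ((inner ℂ q (-((c : ℂ) • b))).im : ℂ)) = Complex.I * (θ : ℂ) := by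
      rw [inner_neg_right, inner_smul_right, Complex.neg_im, Complex.im_ofReal_mul, hθ]
      push_cast
      ring
    have e4 : -(2 * Complex.I * ((inner ℂ q ((c : ℂ) • b)).im : ℂ))
        = Complex.I * ((-θ : ℝ) : ℂ) := by
      rw [inner_smul_right, Complex.im_ofReal_mul, hθ]
      push_cast
      ring
    rw [e3] at h2
    rw [e4] at h3
    rw [h1, h2, h3]
  have e2 : L.pw (L.pau P) ((c : ℂ) • b) z = L.W (-((c : ℂ) • b)) yp + L.W ((c : ℂ) • b) ym := by
    rw [hyp, hym]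
    unfold pw
    simp only [map_smul, map_add, map_sub]
    module
  have hupp : u θ (u (-θ) yp) = yp := by
    have h := huu (-θ) yp
    rwa [neg_neg] at h
  rw [e1, e2, map_add, map_add, ← cRS, ← cRS, en, ← cRW, ← cRW, ← cRu, ← cRu, hRp yp hEp hPp,
    hRm ym hEm hPm, hupp, huu]

/-- a rotation supported in `A` is trivial off `A` -/
lemma nc_rot_off [CompleteSpace H] {a : H →L[ℂ] H} {A : Set ℝ} (hab : a * L.E A = a) {P : Fin 3}
    {l : H ≃ₗᵢ[ℂ] H} (hl : L.IsRot a P l) {z : H} (hz : L.E A z = 0) : l z = z := by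
  rw [hl z]
  set T : H →L[ℂ] H := (-Complex.I) • (a * (L.pau P).toContinuousLinearEquiv.toContinuousLinearMap)
    with hT
  have hTz : T z = 0 := by
    have h1 : T z = (-Complex.I) • a (L.pau P z) := rfl
    have h2 : a (L.pau P z) = 0 := by
      have h3 : a (L.pau P z) = (a * L.E A) (L.pau P z) := by rw [hab]
      rw [h3]
      change a (L.E A (L.pau P z)) = 0
      rw [L.E_pau, hz, map_zero, map_zero]
    rw [h1, h2, smul_zero]
  have h5 := nc_exp_eq_on (T := T) (T' := 0) (p := fun y => y = z ∨ y = 0)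
    (by rintro y _; right; rfl) (by
      rintro y (rfl | rfl)
      · rw [hTz]; rfl
      · rw [map_zero, map_zero]) (y := z) (Or.inl rfl)
  rw [h5, NormedSpace.exp_zero]
  rfl

/-- **dressed coupling** -/
theorem ncoup [CompleteSpace H] {G : Set ℝ} {𝔄 : Set (H →L[ℂ] H)}
    {Rch : Set ℝ → Set ℝ → (H ≃ₗᵢ[ℂ] H) → Prop} (hG : MeasurableSet G) (hA : L.Ctl 𝔄)
    (hC : L.Closed G 𝔄 Rch) {M R : Set ℝ} {S V1 D : H ≃ₗᵢ[ℂ] H} {psi : H →L[ℂ] H} {q : K}
    (hR : Rch M R (S * V1)) (hV1 : ∀ a ∈ 𝔄, ∀ x, a (V1 x) = V1 (a x))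
    (hpsi : psi ∈ 𝔄) (hsa : Sa psi) (hpG : psi * L.E G = psi)
    (hSX : ∀ x, L.X (S x) = S (L.X x)) (hSZ : ∀ x, L.Z (S x) = S (L.Z x))
    (hSA : ∀ a ∈ 𝔄, ∀ x, a (S x) = S (a x)) (hsh : L.Shift 𝔄 psi q S)
    {A B : Set ℝ} (hAm : MeasurableSet A) (hBm : MeasurableSet B) (hAM : A ⊆ M) (hBM : B ⊆ M)
    (hAB : Disjoint A B) {P Q : Fin 3} {c : ℝ} (hD : L.IsCoup A B P Q c V1 D) :
    Rch M R (S * (D * V1)) := by
  have hSP : ∀ (P : Fin 3) x, L.pau P (S x) = S (L.pau P x) := by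
    intro P x
    fin_cases P
    · exact hSX x
    · change L.Zt (-(Real.pi / 4)) (S x) = S (L.Zt (-(Real.pi / 4)) x)
      rw [L.Zt_apply, L.Zt_apply, L.xr_apply, L.xr_apply, map_sub, map_smul, map_smul, hSZ, hSX]
    · exact hSZ x
  obtain ⟨U, hU⟩ := L.exists_coup hAm hBm hAB P Q c (S * V1)
  have hR1 := hC.coup M R (S * V1) A B P Q c U hR hAm hBm hAM hBM hAB hU
  have hfv : ∀ (Q : Fin 3) (B : Set ℝ), L.fv (L.pau Q) B (S * V1) = L.fv (L.pau Q) B V1 := by
    intro Q B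
    unfold fv
    congr 2
    rw [Sys.mulA, hSP, mul_inv_rev, Sys.mulA, Sys.invA]
  set θA : ℝ := 2 * c * (inner ℂ q (L.fv (L.pau Q) B V1)).im with hθA
  set θB : ℝ := 2 * c * (inner ℂ q (L.fv (L.pau P) A V1)).im with hθB
  have hmem : ∀ (θ : ℝ) (A : Set ℝ), MeasurableSet A → (θ : ℂ) • (psi * L.E A) ∈ 𝔄 :=
    fun θ A hAm => L.smul_mem_ctl hA (hA.mul _ _ hpsi (L.nc_E_mem hA hAm)) _
  have hcE : ∀ (A : Set ℝ), MeasurableSet A → psi * L.E A = L.E A * psi :=
    fun A hAm => hA.comm _ _ hpsi (L.nc_E_mem hA hAm)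
  have hSa : ∀ (θ : ℝ) (A : Set ℝ), MeasurableSet A → Sa ((θ : ℂ) • (psi * L.E A)) := by
    intro θ A hAm x y
    have h1 : psi (L.E A y) = L.E A (psi y) :=
      congrArg (fun A : H →L[ℂ] H => A y) (hcE A hAm)
    change inner ℂ ((θ : ℂ) • psi (L.E A x)) y = inner ℂ x ((θ : ℂ) • psi (L.E A y))
    rw [inner_smul_left, inner_smul_right, Complex.conj_ofReal, hsa, L.E_sa hAm, h1]
  have hGa : ∀ (θ : ℝ) (A : Set ℝ), MeasurableSet A →
      ((θ : ℂ) • (psi * L.E A)) * L.E G = (θ : ℂ) • (psi * L.E A) := by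
    intro θ A hAm
    rw [smul_mul_assoc, mul_assoc, hA.comm _ _ (L.nc_E_mem hA hAm) (L.nc_E_mem hA hG),
      ← mul_assoc, hpG]
  have hAa : ∀ (θ : ℝ) (A : Set ℝ), MeasurableSet A →
      ((θ : ℂ) • (psi * L.E A)) * L.E A = (θ : ℂ) • (psi * L.E A) := by
    intro θ A hAm
    rw [smul_mul_assoc, mul_assoc]
    congr 2
    ext x
    exact L.E_E hAm x
  have hPa : ∀ (θ : ℝ) (A : Set ℝ) (P : Fin 3), MeasurableSet A →
      ∀ x, ((θ : ℂ) • (psi * L.E A)) (L.pau P x) = L.pau P (((θ : ℂ) • (psi * L.E A)) x) :=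
    fun θ A P hAm x => L.nc_A_pau hA P _ (hmem θ A hAm) x
  obtain ⟨RA, hRA⟩ := L.exists_rot (hSa θA A hAm) (hPa θA A P hAm)
  obtain ⟨RB, hRB⟩ := L.exists_rot (hSa θB B hBm) (hPa θB B Q hBm)
  have hR2 := hC.rot M R _ _ P RA hR1 (hmem θA A hAm) (hSa θA A hAm) (hGa θA A hAm) hRA
  have hR3 := hC.rot M R _ _ Q RB hR2 (hmem θB B hBm) (hSa θB B hBm) (hGa θB B hBm) hRB
  have hEq : RB * (RA * (U * (S * V1))) = S * (D * V1) := by
    ext x
    simp only [Sys.mulA]
    generalize V1 x = z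
    have hz : z = L.E A z + L.E B z + (z - L.E A z - L.E B z) := by abel
    have eA : L.E A (L.E A z) = L.E A z := L.E_E hAm z
    have eB : L.E B (L.E B z) = L.E B z := L.E_E hBm z
    have eBA : L.E B (L.E A z) = 0 := L.E_dis hBm hAm hAB.symm z
    have eAB : L.E A (L.E B z) = 0 := L.E_dis hAm hBm hAB z
    have r1 : L.E A (z - L.E A z - L.E B z) = 0 := by
      rw [map_sub, map_sub, eA, eAB]; simp
    have r2 : L.E B (z - L.E A z - L.E B z) = 0 := by
      rw [map_sub, map_sub, eB, eBA]; simp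
    have hSE : ∀ (A : Set ℝ), MeasurableSet A → ∀ x, L.E A (S x) = S (L.E A x) :=
      fun A hAm x => hSA _ (L.nc_E_mem hA hAm) x
    have hp0 : ∀ (i : Fin 3) (v : K), L.pw (L.pau i) v 0 = 0 := by
      intro i v
      unfold pw
      simp
    -- block A
    have kA : RB (RA (U (S (L.E A z)))) = S (D (L.E A z)) := by
      have h1 : U (S (L.E A z)) = L.pw (L.pau P) ((c : ℂ) • L.fv (L.pau Q) B V1) (S (L.E A z)) := by
        rw [hU, hSE A hAm, eA, hSE B hBm, eBA, map_zero, hp0, hfv]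
        simp
      have h2 : D (L.E A z) = L.pw (L.pau P) ((c : ℂ) • L.fv (L.pau Q) B V1) (L.E A z) := by
        rw [hD, eA, eBA, hp0]
        simp
      rw [h1, L.nc_block hA hpsi hSX hSZ hSA hsh hAm hθA
        (fun t g hg x => L.nc_W_fv hA hV1 hBm Q t g hg x) hRA eA, h2]
      refine L.nc_rot_off (hAa θB B hBm) hRB ?_
      rw [hSE B hBm, L.E_pw, eBA, hp0, map_zero]
    have kB : RB (RA (U (S (L.E B z)))) = S (D (L.E B z)) := by
      have h1 : U (S (L.E B z)) = L.pw (L.pau Q) ((c : ℂ) • L.fv (L.pau P) A V1) (S (L.E B z)) := by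
        rw [hU, hSE B hBm, eB, hSE A hAm, eAB, map_zero, hp0, hfv]
        simp
      have h2 : D (L.E B z) = L.pw (L.pau Q) ((c : ℂ) • L.fv (L.pau P) A V1) (L.E B z) := by
        rw [hD, eB, eAB, hp0]
        simp
      have h3 : RA (L.pw (L.pau Q) ((c : ℂ) • L.fv (L.pau P) A V1) (S (L.E B z)))
          = L.pw (L.pau Q) ((c : ℂ) • L.fv (L.pau P) A V1) (S (L.E B z)) := by
        refine L.nc_rot_off (hAa θA A hAm) hRA ?_
        rw [L.E_pw, hSE A hAm, eAB, map_zero, hp0]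
      rw [h1, h3, L.nc_block hA hpsi hSX hSZ hSA hsh hBm hθB
        (fun t g hg x => L.nc_W_fv hA hV1 hAm P t g hg x) hRB eB, h2]
    have kR : RB (RA (U (S (z - L.E A z - L.E B z)))) = S (D (z - L.E A z - L.E B z)) := by
      have h1 : U (S (z - L.E A z - L.E B z)) = S (z - L.E A z - L.E B z) := by
        rw [hU, hSE A hAm, hSE B hBm, r1, r2, map_zero, hp0, hp0]
        simp
      have h2 : D (z - L.E A z - L.E B z) = z - L.E A z - L.E B z := by
        rw [hD, r1, r2, hp0, hp0]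
        simp
      rw [h1, h2, L.nc_rot_off (hAa θA A hAm) hRA (by rw [hSE A hAm, r1, map_zero]),
        L.nc_rot_off (hAa θB B hBm) hRB (by rw [hSE B hBm, r2, map_zero])]
    rw [hz]
    simp only [map_add] at kA kB kR ⊢
    rw [kA, kB, kR]
  rwa [hEq] at hR3

end LSys

end Vale.Agent.P367.A
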