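import Vale.Agent.P367.B.LSys

/-! P367, block B: basic facts on label systems (labels, block unitaries, pulses, strong continuity).
Used for the level step (Nest.lean). -/

namespace Vale.Agent.P367.A

open Complex Filter Topology MeasureTheory

namespace LSys

variable {H K : Type*} [NormedAddCommGroup H] [InnerProductSpace ℂ H]
  [NormedAddCommGroup K] [InnerProductSpace ℂ K] (L : LSys H K)

/-! ### labels -/

lemma nst_bm_ind {b : Set ℝ} (hb : MeasurableSet b) : Bm (b.indicator fun _ => (1 : ℂ)) := by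
  refine ⟨measurable_const.indicator hb, 1, fun x => ?_⟩
  by_cases h : x ∈ b <;> simp [h]

lemma nst_E_mul {A B : Set ℝ} (hA : MeasurableSet A) (hB : MeasurableSet B) :
    L.E A * L.E B = L.E (A ∩ B) := by
  unfold E
  rw [← L.lab_mul _ _ (nst_bm_ind hA) (nst_bm_ind hB)]
  congr 1
  ext t
  by_cases h1 : t ∈ A <;> by_cases h2 : t ∈ B <;> simp [h1, h2]

lemma nst_E_add {A B : Set ℝ} (hA : MeasurableSet A) (hB : MeasurableSet B) (h : Disjoint A B) :
    L.E A + L.E B = L.E (A ∪ B) := by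
  unfold E
  rw [← L.lab_add _ _ (nst_bm_ind hA) (nst_bm_ind hB)]
  congr 1
  ext t
  by_cases h1 : t ∈ A
  · have h2 : t ∉ B := Set.disjoint_left.1 h h1
    simp [h1, h2]
  · by_cases h2 : t ∈ B <;> simp [h1, h2]

lemma nst_E_univ : L.E Set.univ = 1 := by
  unfold E
  have := L.lab_const 1
  rw [one_smul] at this
  rw [← this]
  congr 1
  ext t
  simp

lemma nst_E_empty : L.E ∅ = 0 := by
  unfold E
  have := L.lab_const 0
  rw [zero_smul] at this
  rw [← this]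
  congr 1
  ext t
  simp

lemma nst_E_sa {b : Set ℝ} (hb : MeasurableSet b) : Sa (L.E b) := by
  intro x y
  unfold E
  rw [L.lab_adj _ (nst_bm_ind hb)]
  congr 3
  ext t
  by_cases h : t ∈ b <;> simp [h]

lemma nst_E_X (b : Set ℝ) (x : H) : L.E b (L.X x) = L.X (L.E b x) := L.lab_X _ x
lemma nst_E_Z (b : Set ℝ) (x : H) : L.E b (L.Z x) = L.Z (L.E b x) := L.lab_Z _ x
lemma nst_E_W (b : Set ℝ) (a : K) (x : H) : L.E b (L.W a x) = L.W a (L.E b x) := L.lab_W _ a x

lemma nst_E_E {A B : Set ℝ} (hA : MeasurableSet A) (hB : MeasurableSet B) (x : H) :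
    L.E A (L.E B x) = L.E (A ∩ B) x := by
  rw [← L.nst_E_mul hA hB]; rfl

lemma nst_E_sub {A B : Set ℝ} (hA : MeasurableSet A) (hB : MeasurableSet B) (h : A ⊆ B) (x : H) :
    L.E A (L.E B x) = L.E A x := by
  rw [L.nst_E_E hA hB, Set.inter_eq_left.2 h]

lemma nst_E_sub' {A B : Set ℝ} (hA : MeasurableSet A) (hB : MeasurableSet B) (h : A ⊆ B) (x : H) :
    L.E B (L.E A x) = L.E A x := by
  rw [L.nst_E_E hB hA, Set.inter_eq_right.2 h]

lemma nst_E_idem {A : Set ℝ} (hA : MeasurableSet A) (x : H) : L.E A (L.E A x) = L.E A x :=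
  L.nst_E_sub hA hA le_rfl x

lemma nst_E_disj {A B : Set ℝ} (hA : MeasurableSet A) (hB : MeasurableSet B) (h : Disjoint A B)
    (x : H) : L.E A (L.E B x) = 0 := by
  rw [L.nst_E_E hA hB, Set.disjoint_iff_inter_eq_empty.1 h, L.nst_E_empty]; rfl

lemma nst_norm_E_le {b : Set ℝ} (hb : MeasurableSet b) (x : H) : ‖L.E b x‖ ≤ ‖x‖ := by
  have h1 : (inner ℂ (L.E b x) (L.E b x) : ℂ) = inner ℂ x (L.E b x) := by
    rw [L.nst_E_sa hb, L.nst_E_idem hb]
  have h2 : ‖L.E b x‖ ^ 2 ≤ ‖x‖ * ‖L.E b x‖ := by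
    have h3 := congrArg norm h1
    rw [inner_self_eq_norm_sq_to_K] at h3
    have h4 : ‖((‖L.E b x‖ : ℝ) : ℂ) ^ 2‖ = ‖L.E b x‖ ^ 2 := by
      rw [norm_pow, Complex.norm_real, norm_norm]
    have h5 := norm_inner_le_norm (𝕜 := ℂ) x (L.E b x)
    calc ‖L.E b x‖ ^ 2 = ‖(inner ℂ x (L.E b x) : ℂ)‖ := by rw [← h3]; exact h4.symm
      _ ≤ _ := h5
  by_contra hc
  push Not at hc
  have h0 : 0 ≤ ‖x‖ := norm_nonneg x
  nlinarith

/-! ### Paulis and pulses -/

lemma nst_E_xr (b : Set ℝ) (t : ℝ) (x : H) : L.E b (L.xr t x) = L.xr t (L.E b x) := by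
  rw [Sys.xr_apply, Sys.xr_apply, map_sub, map_smul, map_smul, L.nst_E_X]

lemma nst_E_pau (b : Set ℝ) (P : Fin 3) (x : H) : L.E b (L.pau P x) = L.pau P (L.E b x) := by
  fin_cases P
  · exact L.nst_E_X b x
  · change L.E b (L.Zt _ x) = L.Zt _ (L.E b x)
    rw [Sys.Zt_apply, Sys.Zt_apply, nst_E_xr, nst_E_Z]
  · exact L.nst_E_Z b x

lemma nst_pau_pau (P : Fin 3) (x : H) : L.pau P (L.pau P x) = x := by
  fin_cases P
  · exact L.XX x
  · exact L.Zt_sq _ x
  · exact L.ZZ x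

lemma nst_W_pau (P : Fin 3) (a : K) (x : H) : L.W a (L.pau P x) = L.pau P (L.W a x) := by
  fin_cases P
  · exact L.WX a x
  · exact L.W_ZtA a _ x
  · exact L.WZ a x

/-- an operator commuting with `X`, `Z` commutes with the Paulis -/
lemma nst_comm_pau {f : H → H} (hadd : ∀ x y, f (x - y) = f x - f y)
    (hsmul : ∀ (c : ℂ) x, f (c • x) = c • f x) (hX : ∀ x, f (L.X x) = L.X (f x))
    (hZ : ∀ x, f (L.Z x) = L.Z (f x)) (P : Fin 3) (x : H) :
    f (L.pau P x) = L.pau P (f x) := by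
  fin_cases P
  · exact hX x
  · change f (L.Zt _ x) = L.Zt _ (f x)
    rw [Sys.Zt_apply, Sys.Zt_apply, Sys.xr_apply, Sys.xr_apply, hadd, hsmul, hsmul, hX, hZ]
  · exact hZ x

lemma nst_inner_pau (P : Fin 3) (x y : H) : inner ℂ (L.pau P x) y = inner ℂ x (L.pau P y) := by
  have h := (L.pau P).inner_map_map x (L.pau P y)
  rwa [L.nst_pau_pau] at h

/-- the pulse `exp(-i P phi(v))` as a linear map -/
noncomputable def nst_pwL (P : Fin 3) (v : K) : H →ₗ[ℂ] H :=
  (1 / 2 : ℂ) • ((L.W (-v)).toLinearEquiv.toLinearMap + (L.W v).toLinearEquiv.toLinearMap)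
  + (1 / 2 : ℂ) • ((L.W (-v)).toLinearEquiv.toLinearMap - (L.W v).toLinearEquiv.toLinearMap)
      ∘ₗ (L.pau P).toLinearEquiv.toLinearMap

lemma nst_pwL_apply (P : Fin 3) (v : K) (x : H) : L.nst_pwL P v x = L.pw (L.pau P) v x := rfl

lemma nst_pw_pw_neg (P : Fin 3) (v : K) (x : H) :
    L.pw (L.pau P) v (L.pw (L.pau P) (-v) x) = x := by
  simp only [pw, map_add, map_sub, map_smul, neg_neg, L.nst_W_pau, L.nst_pau_pau, L.W_neg_W, L.W_W_neg]
  module

/-- the pulse `exp(-i P phi(v))` -/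
noncomputable def nst_pwU (P : Fin 3) (v : K) : H ≃ₗᵢ[ℂ] H :=
  mkU (L.nst_pwL P v) (L.nst_pwL P (-v))
    (fun x => by
      have := L.nst_pw_pw_neg P (-v) x
      rw [neg_neg] at this
      exact this)
    (fun x => L.nst_pw_pw_neg P v x)
    (fun x y => by
      simp only [nst_pwL_apply, pw, inner_sub_left, inner_sub_right, inner_smul_left, inner_smul_right,
        L.nst_inner_pau, L.inner_W, inner_add_left, inner_add_right, neg_neg, ← L.nst_W_pau, map_div₀,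
        map_one, Complex.conj_ofNat])

lemma nst_pwU_apply (P : Fin 3) (v : K) (x : H) : L.nst_pwU P v x = L.pw (L.pau P) v x := rfl

lemma nst_pw_two (v : K) (x : H) : L.pw (L.pau 2) v x = L.zr v x := rfl

lemma nst_comm_pw {f : H → H} (hadd : ∀ x y, f (x + y) = f x + f y)
    (hsub : ∀ x y, f (x - y) = f x - f y)
    (hsmul : ∀ (c : ℂ) x, f (c • x) = c • f x) {P : Fin 3} {v : K}
    (hP : ∀ x, f (L.pau P x) = L.pau P (f x))
    (h1 : ∀ x, f (L.W v x) = L.W v (f x)) (h2 : ∀ x, f (L.W (-v) x) = L.W (-v) (f x)) (x : H) :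
    f (L.pw (L.pau P) v x) = L.pw (L.pau P) v (f x) := by
  simp only [pw, hadd, hsub, hsmul, h1, h2, hP]

lemma nst_E_pw (b : Set ℝ) (P : Fin 3) (v : K) (x : H) :
    L.E b (L.pw (L.pau P) v x) = L.pw (L.pau P) v (L.E b x) :=
  L.nst_comm_pw (map_add _) (map_sub _) (fun c x => map_smul _ c x) (L.nst_E_pau b P) (L.nst_E_W b v)
    (L.nst_E_W b (-v)) x

lemma nst_E_pwU (b : Set ℝ) (P : Fin 3) (v : K) (x : H) :
    L.E b (L.nst_pwU P v x) = L.nst_pwU P v (L.E b x) := L.nst_E_pw b P v x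

/-! ### block unitaries -/

/-- linear map of a block -/
noncomputable def nst_blkL (S : Set ℝ) (U : H ≃ₗᵢ[ℂ] H) : H →ₗ[ℂ] H :=
  U.toLinearEquiv.toLinearMap ∘ₗ (L.E S).toLinearMap + (LinearMap.id - (L.E S).toLinearMap)

lemma nst_blkL_apply (S : Set ℝ) (U : H ≃ₗᵢ[ℂ] H) (x : H) :
    L.nst_blkL S U x = U (L.E S x) + (x - L.E S x) := rfl

lemma nst_blkL_inv {S : Set ℝ} (hS : MeasurableSet S) {U V : H ≃ₗᵢ[ℂ] H}
    (hU : ∀ x, L.E S (V x) = V (L.E S x)) (h : ∀ x, U (V x) = x) (x : H) :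
    L.nst_blkL S U (L.nst_blkL S V x) = x := by
  rw [nst_blkL_apply, nst_blkL_apply, map_add, map_sub, hU, L.nst_E_idem hS, sub_self, add_zero, h]
  abel

/-- the unitary acting as `U` on the labels in `S` and trivially on the others -/
noncomputable def nst_blk {S : Set ℝ} (hS : MeasurableSet S) {U : H ≃ₗᵢ[ℂ] H}
    (hU : ∀ x, L.E S (U x) = U (L.E S x)) : H ≃ₗᵢ[ℂ] H :=
  mkU (L.nst_blkL S U) (L.nst_blkL S U⁻¹)
    (L.nst_blkL_inv hS hU (fun x => U.symm_apply_apply x))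
    (L.nst_blkL_inv hS (fun x => by
      apply U.injective
      rw [← hU, Sys.Ainv, Sys.Ainv]) (fun x => U.apply_symm_apply x))
    (fun x y => by
      have h : ∀ x y, inner ℂ (L.E S x) y = inner ℂ x (L.E S y) := L.nst_E_sa hS
      rw [nst_blkL_apply, nst_blkL_apply, inner_add_left, inner_add_right, inner_sub_left, inner_sub_right,
        h]
      congr 1
      rw [← (U⁻¹).inner_map_map, Sys.invA, h]
      congr 1
      apply U.injective
      rw [← hU, Sys.Ainv, Sys.Ainv])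

lemma nst_blk_apply {S : Set ℝ} (hS : MeasurableSet S) {U : H ≃ₗᵢ[ℂ] H}
    (hU : ∀ x, L.E S (U x) = U (L.E S x)) (x : H) :
    L.nst_blk hS hU x = U (L.E S x) + (x - L.E S x) := rfl

/-! ### strong continuity of the Weyl operators -/

lemma nst_inner_WOm (a b : K) : inner ℂ (L.W a L.Om) (L.W b L.Om)
    = Complex.exp (Complex.I * (th a b : ℂ)) * Complex.exp (-((‖b - a‖ ^ 2 / 2 : ℝ) : ℂ)) := by
  rw [L.inner_W, L.WW', inner_smul_right, L.vac, th_neg_left, neg_add_eq_sub]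
  congr 2
  push_cast
  ring

lemma nst_continuous_W_Om : Continuous fun v => L.W v L.Om := by
  rw [continuous_iff_continuousAt]
  intro v
  rw [ContinuousAt, tendsto_iff_norm_sub_tendsto_zero]
  have h1 : ∀ w, ‖L.W w L.Om - L.W v L.Om‖ ^ 2
      = 2 - 2 * (Complex.exp (Complex.I * (th w v : ℂ))
        * Complex.exp (-((‖v - w‖ ^ 2 / 2 : ℝ) : ℂ))).re := by
    intro w
    rw [@norm_sub_sq ℂ H, (L.W w).norm_map, (L.W v).norm_map, L.nOm, nst_inner_WOm,
      RCLike.re_to_complex]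
    ring
  have h2 : Continuous fun w : K => 2 - 2 * (Complex.exp (Complex.I * (th w v : ℂ))
        * Complex.exp (-((‖v - w‖ ^ 2 / 2 : ℝ) : ℂ))).re := by
    unfold th
    fun_prop
  have h3 : Tendsto (fun w => ‖L.W w L.Om - L.W v L.Om‖ ^ 2) (𝓝 v) (𝓝 0) := by
    have h4 := h2.tendsto v
    simp only [sub_self, norm_zero, th_self] at h4
    norm_num at h4
    refine h4.congr fun w => ?_
    rw [h1]
    push_cast
    rfl
  have h5 := h3.sqrt
  rw [Real.sqrt_zero] at h5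
  refine h5.congr fun w => ?_
  exact Real.sqrt_sq (norm_nonneg _)

lemma nst_continuous_W (x : H) : Continuous fun v => L.W v x := by
  have key : ∀ x ∈ (Submodule.span ℂ {x : H | ∃ (T : H →L[ℂ] H) (a : K),
      (∀ b y, L.W b (T y) = T (L.W b y)) ∧ (∀ f, Bm f → ∀ y, L.lab f (T y) = T (L.lab f y)) ∧
      x = T (L.W a L.Om)}), Continuous fun v => L.W v x := by
    intro x hx
    induction hx using Submodule.span_induction with
    | mem x hx =>
      obtain ⟨T, a, hT, _, rfl⟩ := hx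
      simp only [hT, L.WW', map_smul]
      refine Continuous.smul ?_ (T.continuous.comp (L.nst_continuous_W_Om.comp
        (continuous_id.add continuous_const)))
      unfold th
      fun_prop
    | zero => simp only [map_zero]; exact continuous_const
    | add x y _ _ hx hy => simp only [map_add]; exact hx.add hy
    | smul c x _ hx => simp only [map_smul]; exact hx.const_smul c
  rw [Metric.continuous_iff]
  intro v ε hε
  have hd : x ∈ closure ((Submodule.span ℂ {x : H | ∃ (T : H →L[ℂ] H) (a : K),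
      (∀ b y, L.W b (T y) = T (L.W b y)) ∧ (∀ f, Bm f → ∀ y, L.lab f (T y) = T (L.lab f y)) ∧
      x = T (L.W a L.Om)} : Submodule ℂ H) : Set H) := by
    rw [← Submodule.topologicalClosure_coe, L.cyc]
    trivial
  obtain ⟨z, hz, hxz⟩ := Metric.mem_closure_iff.1 hd (ε / 3) (by positivity)
  obtain ⟨δ, hδ, h⟩ := Metric.continuous_iff.1 (key z hz) v (ε / 3) (by positivity)
  refine ⟨δ, hδ, fun w hw => ?_⟩
  have h1 : dist (L.W w x) (L.W w z) = dist x z := (L.W w).dist_map x z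
  have h2 : dist (L.W v z) (L.W v x) = dist x z := by rw [(L.W v).dist_map, dist_comm]
  have h3 := h w hw
  calc dist (L.W w x) (L.W v x) ≤ dist (L.W w x) (L.W w z) + dist (L.W w z) (L.W v z)
        + dist (L.W v z) (L.W v x) := dist_triangle4 _ _ _ _
    _ < ε := by rw [h1, h2]; linarith

lemma nst_tendsto_W {α : Type*} {l : Filter α} {v : α → K} {v0 : K} {x : α → H} {x0 : H}
    (hv : Tendsto v l (𝓝 v0)) (hx : Tendsto x l (𝓝 x0)) :
    Tendsto (fun i => L.W (v i) (x i)) l (𝓝 (L.W v0 x0)) := by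
  have h1 : Tendsto (fun i => L.W (v i) x0) l (𝓝 (L.W v0 x0)) :=
    ((L.nst_continuous_W x0).tendsto v0).comp hv
  have h2 : Tendsto (fun i => L.W (v i) (x i) - L.W (v i) x0) l (𝓝 0) := by
    rw [tendsto_zero_iff_norm_tendsto_zero]
    have h3 : Tendsto (fun i => ‖x i - x0‖) l (𝓝 0) := tendsto_iff_norm_sub_tendsto_zero.1 hx
    refine h3.congr fun i => ?_
    rw [← map_sub, (L.W (v i)).norm_map]
  have h4 := h2.add h1
  rw [zero_add] at h4
  exact h4.congr fun i => by abel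

lemma nst_tendsto_pw {α : Type*} {l : Filter α} (P : Fin 3) {v : α → K} {v0 : K} {x : α → H} {x0 : H}
    (hv : Tendsto v l (𝓝 v0)) (hx : Tendsto x l (𝓝 x0)) :
    Tendsto (fun i => L.pw (L.pau P) (v i) (x i)) l (𝓝 (L.pw (L.pau P) v0 x0)) := by
  have hP : Tendsto (fun i => L.pau P (x i)) l (𝓝 (L.pau P x0)) :=
    ((L.pau P).continuous.tendsto x0).comp hx
  unfold pw
  exact (((L.nst_tendsto_W hv.neg hx).add (L.nst_tendsto_W hv hx)).const_smul _).add
    (((L.nst_tendsto_W hv.neg hP).sub (L.nst_tendsto_W hv hP)).const_smul _)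

/-! ### `E_M`-strong convergence of states -/

section conv

variable {α : Type*} {l : Filter α} {V : α → (H ≃ₗᵢ[ℂ] H)} {V0 : H ≃ₗᵢ[ℂ] H} {M : Set ℝ}

lemma nst_conv_sub (hM : MeasurableSet M)
    (h : ∀ x, Tendsto (fun i => L.E M (V i x)) l (𝓝 (L.E M (V0 x)))) {B : Set ℝ}
    (hB : MeasurableSet B) (hBM : B ⊆ M) (x : H) :
    Tendsto (fun i => L.E B (V i x)) l (𝓝 (L.E B (V0 x))) := by
  have h1 := ((L.E B).continuous.tendsto _).comp (h x)
  rw [L.nst_E_sub hB hM hBM] at h1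
  exact h1.congr fun i => L.nst_E_sub hB hM hBM _

/-- convergence of the inverses -/
lemma nst_conv_inv (hV : ∀ i x, L.E M (V i x) = V i (L.E M x))
    (h : ∀ x, Tendsto (fun i => L.E M (V i x)) l (𝓝 (L.E M (V0 x)))) (x : H) :
    Tendsto (fun i => L.E M ((V i)⁻¹ x)) l (𝓝 (L.E M (V0⁻¹ x))) := by
  rw [tendsto_iff_norm_sub_tendsto_zero]
  have h1 := tendsto_iff_norm_sub_tendsto_zero.1 (h (V0⁻¹ x))
  refine h1.congr fun i => ?_
  rw [Sys.Ainv]
  have h2 : L.E M ((V i)⁻¹ x) = (V i)⁻¹ (L.E M x) := by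
    apply (V i).injective
    rw [← hV, Sys.Ainv, Sys.Ainv]
  rw [h2, ← (V i).norm_map ((V i)⁻¹ (L.E M x) - L.E M (V0⁻¹ x)), map_sub, Sys.Ainv, ← hV,
    norm_sub_rev]

/-- convergence of the field vectors -/
lemma nst_conv_obs (hV : ∀ i x, L.E M (V i x) = V i (L.E M x))
    (h : ∀ x, Tendsto (fun i => L.E M (V i x)) l (𝓝 (L.E M (V0 x)))) (Q : H ≃ₗᵢ[ℂ] H)
    (hQ : ∀ x, L.E M (Q x) = Q (L.E M x)) (y : H) :
    Tendsto (fun i => L.E M ((V i)⁻¹ (Q (V i y)))) l (𝓝 (L.E M (V0⁻¹ (Q (V0 y))))) := by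
  have h1 := L.nst_conv_inv hV h (Q (V0 y))
  have h2 : Tendsto (fun i => L.E M ((V i)⁻¹ (Q (V i y))) - L.E M ((V i)⁻¹ (Q (V0 y)))) l
      (𝓝 0) := by
    rw [tendsto_zero_iff_norm_tendsto_zero]
    refine (tendsto_iff_norm_sub_tendsto_zero.1 (h y)).congr fun i => ?_
    have h3 : ∀ z, L.E M ((V i)⁻¹ z) = (V i)⁻¹ (L.E M z) := by
      intro z
      apply (V i).injective
      rw [← hV, Sys.Ainv, Sys.Ainv]
    rw [h3, h3, ← map_sub (V i)⁻¹, ((V i)⁻¹).norm_map, hQ, hQ, ← map_sub Q, Q.norm_map]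
  have h4 := h2.add h1
  rw [zero_add] at h4
  exact h4.congr fun i => by abel

end conv

/-! ### the coupling unitary -/

/-- the coupling unitary -/
noncomputable def nst_coupU {A B : Set ℝ} (hA : MeasurableSet A) (hB : MeasurableSet B)
    (P Q : Fin 3) (c : ℝ) (V : H ≃ₗᵢ[ℂ] H) : H ≃ₗᵢ[ℂ] H :=
  L.nst_blk hA (U := L.nst_pwU P ((c : ℂ) • L.fv (L.pau Q) B V)) (L.nst_E_pwU A P _) *
  L.nst_blk hB (U := L.nst_pwU Q ((c : ℂ) • L.fv (L.pau P) A V)) (L.nst_E_pwU B Q _)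

lemma nst_coupU_isCoup {A B : Set ℝ} (hA : MeasurableSet A) (hB : MeasurableSet B)
    (hAB : Disjoint A B) (P Q : Fin 3) (c : ℝ) (V : H ≃ₗᵢ[ℂ] H) :
    L.IsCoup A B P Q c V (L.nst_coupU hA hB P Q c V) := by
  intro x
  rw [nst_coupU, Sys.mulA, nst_blk_apply, nst_blk_apply, nst_pwU_apply, nst_pwU_apply]
  simp only [map_add, map_sub, L.nst_E_pw, L.nst_E_disj hA hB hAB]
  have h0 : L.pw (L.pau Q) ((c : ℂ) • L.fv (L.pau P) A V) 0 = 0 := by
    simp [pw]
  rw [h0, sub_zero, zero_add]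
  abel

lemma nst_isCoup_unique {A B : Set ℝ} {P Q : Fin 3} {c : ℝ} {V U U' : H ≃ₗᵢ[ℂ] H}
    (h : L.IsCoup A B P Q c V U) (h' : L.IsCoup A B P Q c V U') : U = U' := by
  ext x
  rw [h x, h' x]

end LSys

end Vale.Agent.P367.A
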