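import Vale.Agent.P367.B.Nest0

/-! P367, block B, level step: exponentials, dressings. -/

namespace Vale.Agent.P367.A

open Complex Filter Topology MeasureTheory

namespace LSys

section expo

variable {H : Type*} [NormedAddCommGroup H] [InnerProductSpace ℂ H] [CompleteSpace H]

/-- a unitary as a bounded operator -/
noncomputable abbrev nst_cl (V : H ≃ₗᵢ[ℂ] H) : H →L[ℂ] H :=
  V.toContinuousLinearEquiv.toContinuousLinearMap

omit [CompleteSpace H] in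
lemma nst_cl_apply (V : H ≃ₗᵢ[ℂ] H) (x : H) : nst_cl V x = V x := rfl

lemma nst_exp_mul_of_zero {Y B : H →L[ℂ] H} (h : Y * B = 0) : NormedSpace.exp Y * B = B := by
  have h1 := (NormedSpace.exp_series_hasSum_exp' (𝕂 := ℂ) Y).mul_right B
  have h2 : HasSum (fun n => ((n.factorial : ℂ)⁻¹ • Y ^ n) * B)
      (((Nat.factorial 0 : ℂ)⁻¹ • Y ^ 0) * B) := by
    apply hasSum_single
    intro n hn
    obtain ⟨m, rfl⟩ := Nat.exists_eq_succ_of_ne_zero hn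
    rw [pow_succ, smul_mul_assoc, mul_assoc, h, mul_zero, smul_zero]
  have h3 := h1.unique h2
  rw [h3]
  simp

lemma nst_exp_mul_eq {A C B : H →L[ℂ] H} (h : Commute A C) (hB : (A - C) * B = 0) :
    NormedSpace.exp A * B = NormedSpace.exp C * B := by
  have e : A = C + (A - C) := by abel
  have hc : Commute C (A - C) := (h.symm).sub_right (Commute.refl C)
  let +nondep : NormedAlgebra ℚ (H →L[ℂ] H) := .restrictScalars ℚ ℂ (H →L[ℂ] H)
  rw [e, NormedSpace.exp_add_of_commute hc, mul_assoc, nst_exp_mul_of_zero hB]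

lemma nst_exp_comm {a : H →L[ℂ] H} {b : H →L[ℂ] H} (h : Commute a b) (z : ℂ) :
    Commute (NormedSpace.exp (z • a)) b := (h.smul_left z).exp_left

/-- `exp(-i t a)` -/
noncomputable def nst_ep (t : ℝ) (a : H →L[ℂ] H) : H →L[ℂ] H :=
  NormedSpace.exp ((-(Complex.I * (t : ℂ))) • a)

lemma nst_ep_comm {a b : H →L[ℂ] H} (h : Commute a b) (t : ℝ) : Commute (nst_ep t a) b := nst_exp_comm h _

lemma nst_ep_comm' {a : H →L[ℂ] H} {f : H → H} {b : H →L[ℂ] H} (hf : ∀ x, f x = b x)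
    (h : ∀ x, a (f x) = f (a x)) (t : ℝ) (x : H) : nst_ep t a (f x) = f (nst_ep t a x) := by
  have h1 : Commute a b := by
    ext x
    have := h x
    rw [hf, hf] at this
    exact this
  rw [hf, hf]
  exact DFunLike.congr_fun (nst_ep_comm h1 t) x

lemma nst_ep_V {a : H →L[ℂ] H} {V : H ≃ₗᵢ[ℂ] H} (h : ∀ x, a (V x) = V (a x)) (t : ℝ) (x : H) :
    nst_ep t a (V x) = V (nst_ep t a x) :=
  nst_ep_comm' (b := nst_cl V) (fun _ => rfl) h t x

lemma nst_ep_zero (a : H →L[ℂ] H) : nst_ep 0 a = 1 := by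
  simp [nst_ep]

lemma nst_ep_add (s t : ℝ) (a : H →L[ℂ] H) : nst_ep (s + t) a = nst_ep s a * nst_ep t a := by
  unfold nst_ep
  let +nondep : NormedAlgebra ℚ (H →L[ℂ] H) := .restrictScalars ℚ ℂ (H →L[ℂ] H)
  rw [← NormedSpace.exp_add_of_commute
    (((Commute.refl a).smul_left _).smul_right _), ← add_smul]
  congr 2
  push_cast
  ring

lemma nst_ep_add' {a b : H →L[ℂ] H} (h : Commute a b) (t : ℝ) : nst_ep t (a + b) = nst_ep t a * nst_ep t b := by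
  unfold nst_ep
  let +nondep : NormedAlgebra ℚ (H →L[ℂ] H) := .restrictScalars ℚ ℂ (H →L[ℂ] H)
  rw [← NormedSpace.exp_add_of_commute ((h.smul_left _).smul_right _), ← smul_add]

lemma nst_ep_mul_neg (t : ℝ) (a : H →L[ℂ] H) : nst_ep t a * nst_ep (-t) a = 1 := by
  rw [← nst_ep_add, add_neg_cancel, nst_ep_zero]

lemma nst_ep_neg_mul (t : ℝ) (a : H →L[ℂ] H) : nst_ep (-t) a * nst_ep t a = 1 := by
  rw [← nst_ep_add, neg_add_cancel, nst_ep_zero]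

lemma nst_inner_ep {a : H →L[ℂ] H} (ha : Sa a) (t : ℝ) (x y : H) :
    inner ℂ (nst_ep t a x) y = inner ℂ x (nst_ep (-t) a y) := by
  have hs : IsSelfAdjoint a := ContinuousLinearMap.isSelfAdjoint_iff_isSymmetric.2 ha
  have h1 : star (nst_ep t a) = nst_ep (-t) a := by
    unfold nst_ep
    rw [NormedSpace.star_exp, star_smul, hs.star_eq]
    congr 2
    simp
  rw [← h1, ContinuousLinearMap.star_eq_adjoint, ContinuousLinearMap.adjoint_inner_right]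

/-- `exp(-i t a)` as a unitary -/
noncomputable def nst_epU (t : ℝ) {a : H →L[ℂ] H} (ha : Sa a) : H ≃ₗᵢ[ℂ] H :=
  mkU (nst_ep t a).toLinearMap (nst_ep (-t) a).toLinearMap
    (fun x => DFunLike.congr_fun (nst_ep_neg_mul t a) x)
    (fun x => DFunLike.congr_fun (nst_ep_mul_neg t a) x)
    (fun x y => nst_inner_ep ha t x y)

lemma nst_epU_apply (t : ℝ) {a : H →L[ℂ] H} (ha : Sa a) (x : H) : nst_epU t ha x = nst_ep t a x := rfl

lemma nst_isPh_iff {a : H →L[ℂ] H} {U : H ≃ₗᵢ[ℂ] H} : IsPh a U ↔ ∀ x, U x = nst_ep 1 a x := by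
  unfold IsPh nst_ep
  simp

omit [CompleteSpace H] in
lemma Sa.nst_smul {a : H →L[ℂ] H} (ha : Sa a) (t : ℝ) : Sa ((t : ℂ) • a) := by
  intro x y
  simp only [smul_apply, inner_smul_left, inner_smul_right, ha x y,
    Complex.conj_ofReal]

omit [CompleteSpace H] in
lemma Sa.nst_mul {a b : H →L[ℂ] H} (ha : Sa a) (hb : Sa b) (h : a * b = b * a) : Sa (a * b) := by
  intro x y
  change inner ℂ (a (b x)) y = inner ℂ x ((a * b) y)
  rw [ha, hb, h]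
  rfl

omit [CompleteSpace H] in
lemma Sa.nst_add {a b : H →L[ℂ] H} (ha : Sa a) (hb : Sa b) : Sa (a + b) := by
  intro x y
  simp only [add_apply, inner_add_left, inner_add_right, ha x y, hb x y]

omit [CompleteSpace H] in
lemma Sa.nst_zero : Sa (0 : H →L[ℂ] H) := by
  intro x y
  simp

omit [CompleteSpace H] in
/-- commuting self-adjoint operators: real inner product -/
lemma nst_im_zero {a b : H →L[ℂ] H} (ha : Sa a) (hb : Sa b) (h : ∀ x, a (b x) = b (a x)) (y : H) :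
    (inner ℂ (a y) (b y) : ℂ).im = 0 := by
  have h1 : (inner ℂ (a y) (b y) : ℂ) = inner ℂ (b y) (a y) := by
    rw [ha, h, hb]
  rw [← inner_conj_symm (b y) (a y)] at h1
  exact Complex.conj_eq_iff_im.1 h1.symm

/-- unitary commuting with a set of operators -/
def NstCm (𝔅 : Set (H →L[ℂ] H)) (V : H ≃ₗᵢ[ℂ] H) : Prop := ∀ a ∈ 𝔅, ∀ x, a (V x) = V (a x)

omit [CompleteSpace H] in
lemma NstCm.one (𝔅 : Set (H →L[ℂ] H)) : NstCm 𝔅 1 := fun _ _ _ => rfl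

omit [CompleteSpace H] in
lemma NstCm.mul {𝔅 : Set (H →L[ℂ] H)} {U V : H ≃ₗᵢ[ℂ] H} (hU : NstCm 𝔅 U) (hV : NstCm 𝔅 V) :
    NstCm 𝔅 (U * V) := by
  intro a ha x
  rw [Sys.mulA, Sys.mulA, hU a ha, hV a ha]

omit [CompleteSpace H] in
lemma NstCm.inv {𝔅 : Set (H →L[ℂ] H)} {U : H ≃ₗᵢ[ℂ] H} (hU : NstCm 𝔅 U) : NstCm 𝔅 U⁻¹ := by
  intro a ha x
  apply U.injective
  rw [← hU a ha, Sys.Ainv, Sys.Ainv]

omit [CompleteSpace H] in
lemma NstCm.mono {𝔅 ℭ : Set (H →L[ℂ] H)} {U : H ≃ₗᵢ[ℂ] H} (hU : NstCm ℭ U) (h : 𝔅 ⊆ ℭ) :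
    NstCm 𝔅 U := fun a ha => hU a (h ha)

end expo

variable {H K : Type*} [NormedAddCommGroup H] [InnerProductSpace ℂ H]
  [NormedAddCommGroup K] [InnerProductSpace ℂ K] (L : LSys H K)

namespace Ctl

variable {L} {𝔄 : Set (H →L[ℂ] H)} (h : L.Ctl 𝔄)

include h

lemma nst_E_mem {b : Set ℝ} (hb : MeasurableSet b) : L.E b ∈ 𝔄 := h.lab _ (nst_bm_ind hb)

lemma nst_smul_mem (c : ℂ) {a : H →L[ℂ] H} (ha : a ∈ 𝔄) : c • a ∈ 𝔄 := by
  have h1 : L.lab (fun _ => c) ∈ 𝔄 := h.lab _ ⟨measurable_const, ‖c‖, fun _ => le_rfl⟩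
  have h2 := h.mul _ _ h1 ha
  rwa [L.lab_const, smul_mul_assoc, one_mul] at h2

lemma nst_zero_mem : (0 : H →L[ℂ] H) ∈ 𝔄 := by
  have h1 : L.lab (fun _ => (0 : ℂ)) ∈ 𝔄 := h.lab _ ⟨measurable_const, 0, fun _ => by simp⟩
  rwa [L.lab_const, zero_smul] at h1

lemma nst_sum_mem {ι : Type*} (s : Finset ι) (f : ι → (H →L[ℂ] H)) (hf : ∀ i ∈ s, f i ∈ 𝔄) :
    ∑ i ∈ s, f i ∈ 𝔄 := by
  classical
  induction s using Finset.induction_on with
  | empty => simpa using h.nst_zero_mem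
  | insert i s hi ih =>
    rw [Finset.sum_insert hi]
    exact h.add _ _ (hf i (Finset.mem_insert_self i s))
      (ih fun j hj => hf j (Finset.mem_insert_of_mem hj))

lemma nst_comm_apply {a b : H →L[ℂ] H} (ha : a ∈ 𝔄) (hb : b ∈ 𝔄) (x : H) : a (b x) = b (a x) :=
  DFunLike.congr_fun (h.comm a b ha hb) x

lemma nst_pauC {a : H →L[ℂ] H} (ha : a ∈ 𝔄) (P : Fin 3) (x : H) : a (L.pau P x) = L.pau P (a x) :=
  L.nst_comm_pau (map_sub _) (fun c x => map_smul _ c x) (h.X a ha) (h.Z a ha) P x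

/-- reality axiom, scaled -/
lemma nst_W_smul {a : H →L[ℂ] H} (ha : a ∈ 𝔄) {T : H →L[ℂ] H} (hT : Sa T)
    (hc : ∀ b ∈ 𝔄, ∀ x, T (b x) = b (T x)) (t : ℝ) (x : H) :
    a (L.W ((t : ℂ) • L.iota (T L.Om)) x) = L.W ((t : ℂ) • L.iota (T L.Om)) (a x) := by
  have h1 := h.W a ha ((t : ℂ) • T) (hT.nst_smul t) (fun b hb => by
    ext x
    simp only [mul_apply_eq_comp, smul_apply, map_smul, hc b hb]) x
  simpa only [smul_apply, map_smul] using h1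

end Ctl

/-- observable `E_B V^* Q V` -/
noncomputable def nst_obs (Q : H ≃ₗᵢ[ℂ] H) (B : Set ℝ) (V : H ≃ₗᵢ[ℂ] H) : H →L[ℂ] H :=
  L.E B * (nst_cl V⁻¹ * (nst_cl Q * nst_cl V))

lemma nst_obs_apply (Q : H ≃ₗᵢ[ℂ] H) (B : Set ℝ) (V : H ≃ₗᵢ[ℂ] H) (x : H) :
    L.nst_obs Q B V x = L.E B (V⁻¹ (Q (V x))) := rfl

lemma nst_fv_eq (Q : H ≃ₗᵢ[ℂ] H) (B : Set ℝ) (V : H ≃ₗᵢ[ℂ] H) :
    L.fv Q B V = L.iota (L.nst_obs Q B V L.Om) := rfl

lemma nst_obs_sa {P : Fin 3} {B : Set ℝ} (hB : MeasurableSet B) {V : H ≃ₗᵢ[ℂ] H}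
    (hV : ∀ x, L.E B (V x) = V (L.E B x)) : Sa (L.nst_obs (L.pau P) B V) := by
  intro x y
  have hi : ∀ x, L.E B (V⁻¹ x) = V⁻¹ (L.E B x) := by
    intro x
    apply V.injective
    rw [← hV, Sys.Ainv, Sys.Ainv]
  rw [nst_obs_apply, nst_obs_apply, L.nst_E_sa hB, Sys.inner_invA, L.nst_inner_pau,
    ← (V⁻¹).inner_map_map (V x), Sys.invA, hi, L.nst_E_pau, hV]

lemma nst_obs_comm {𝔅 : Set (H →L[ℂ] H)} (h : L.Ctl 𝔅) {P : Fin 3} {B : Set ℝ}
    (hB : MeasurableSet B) {V : H ≃ₗᵢ[ℂ] H} (hV : NstCm 𝔅 V) (b : H →L[ℂ] H) (hb : b ∈ 𝔅)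
    (x : H) : L.nst_obs (L.pau P) B V (b x) = b (L.nst_obs (L.pau P) B V x) := by
  rw [nst_obs_apply, nst_obs_apply, h.nst_comm_apply hb (h.nst_E_mem hB), hV.inv b hb, h.nst_pauC hb, hV b hb]

end LSys

end Vale.Agent.P367.A
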