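import Vale.Agent.P367.B.Nest1

/-! P367, block B, level step: dressings. -/

namespace Vale.Agent.P367.A

open Complex Filter Topology MeasureTheory

namespace LSys

variable {H K : Type*} [NormedAddCommGroup H] [InnerProductSpace ℂ H]
  [NormedAddCommGroup K] [InnerProductSpace ℂ K] (L : LSys H K) [CompleteSpace H]

/-! ### more exponentials -/

lemma nst_ep_fix {a E : H →L[ℂ] H} (h : a * E = a) (t : ℝ) (x : H) :
    nst_ep t a (x - E x) = x - E x := by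
  have h1 : ((-(Complex.I * (t : ℂ))) • a) * (1 - E) = 0 := by
    rw [smul_mul_assoc, mul_sub, mul_one, h, sub_self, smul_zero]
  exact DFunLike.congr_fun (nst_exp_mul_of_zero h1) x

lemma nst_ep_on {a E : H →L[ℂ] H} (hc : Commute a E) (hE : E * E = E) (t : ℝ) (x : H) :
    nst_ep t (a * E) x = nst_ep t a (E x) + (x - E x) := by
  have h1 : nst_ep t (a * E) (E x) = nst_ep t a (E x) := by
    have h2 : Commute ((-(Complex.I * (t : ℂ))) • (a * E)) ((-(Complex.I * (t : ℂ))) • a) :=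
      (((Commute.refl a).mul_left hc.symm).smul_left _).smul_right _
    have h3 : ((-(Complex.I * (t : ℂ))) • (a * E) - (-(Complex.I * (t : ℂ))) • a) * E = 0 := by
      rw [sub_mul, smul_mul_assoc, smul_mul_assoc, mul_assoc, hE, sub_self]
    exact DFunLike.congr_fun (nst_exp_mul_eq h2 h3) x
  have h4 : nst_ep t (a * E) (x - E x) = x - E x := nst_ep_fix (by rw [mul_assoc, hE]) t x
  calc nst_ep t (a * E) x = nst_ep t (a * E) (E x + (x - E x)) := by rw [add_sub_cancel]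
    _ = _ := by rw [map_add, h1, h4]

lemma nst_ep_mul_plus {a P : H →L[ℂ] H} (hc : Commute a P) (hP : P * P = 1) (t : ℝ) (x : H) :
    nst_ep t (a * P) (x + P x) = nst_ep t a (x + P x) := by
  have h2 : Commute ((-(Complex.I * (t : ℂ))) • (a * P)) ((-(Complex.I * (t : ℂ))) • a) :=
    (((Commute.refl a).mul_left hc.symm).smul_left _).smul_right _
  have h3 : ((-(Complex.I * (t : ℂ))) • (a * P) - (-(Complex.I * (t : ℂ))) • a) * (1 + P) = 0 := by
    rw [← smul_sub, smul_mul_assoc, sub_mul, mul_add, mul_add, mul_assoc a P P, hP]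
    simp only [mul_one, smul_eq_zero]
    right
    abel
  exact DFunLike.congr_fun (nst_exp_mul_eq h2 h3) x

lemma nst_ep_mul_minus {a P : H →L[ℂ] H} (hc : Commute a P) (hP : P * P = 1) (t : ℝ) (x : H) :
    nst_ep t (a * P) (x - P x) = nst_ep (-t) a (x - P x) := by
  have h2 : Commute ((-(Complex.I * (t : ℂ))) • (a * P))
      ((-(Complex.I * ((-t : ℝ) : ℂ))) • a) :=
    (((Commute.refl a).mul_left hc.symm).smul_left _).smul_right _
  have h3 : ((-(Complex.I * (t : ℂ))) • (a * P) - (-(Complex.I * ((-t : ℝ) : ℂ))) • a) * (1 - P)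
      = 0 := by
    have e : (-(Complex.I * (t : ℂ))) • (a * P) - (-(Complex.I * ((-t : ℝ) : ℂ))) • a
        = (-(Complex.I * (t : ℂ))) • (a * P + a) := by
      push_cast
      module
    rw [e, smul_mul_assoc, add_mul, mul_sub, mul_sub, mul_assoc a P P, hP]
    simp
  exact DFunLike.congr_fun (nst_exp_mul_eq h2 h3) x

lemma nst_exp_smul_one (z : ℂ) : NormedSpace.exp (z • (1 : H →L[ℂ] H)) = Complex.exp z • 1 := by
  have h := NormedSpace.algebraMap_exp_comm (𝕂 := ℂ) (𝔸 := H →L[ℂ] H) z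
  rw [Algebra.algebraMap_eq_smul_one, Algebra.algebraMap_eq_smul_one, ← Complex.exp_eq_exp_ℂ] at h
  exact h.symm

lemma nst_ep_eig {a B : H →L[ℂ] H} {c : ℝ} (h : a * B = (c : ℂ) • B) (t : ℝ) (x : H) :
    nst_ep t a (B x) = Complex.exp (-(Complex.I * ((t * c : ℝ) : ℂ))) • B x := by
  have h2 : Commute ((-(Complex.I * (t : ℂ))) • a)
      ((-(Complex.I * ((t * c : ℝ) : ℂ))) • (1 : H →L[ℂ] H)) :=
    ((Commute.one_right a).smul_left _).smul_right _
  have h3 : ((-(Complex.I * (t : ℂ))) • a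
      - (-(Complex.I * ((t * c : ℝ) : ℂ))) • (1 : H →L[ℂ] H)) * B = 0 := by
    rw [sub_mul, smul_mul_assoc, smul_mul_assoc, h, one_mul, smul_smul, ← sub_smul]
    have : (-(Complex.I * (t : ℂ))) * (c : ℂ) - (-(Complex.I * ((t * c : ℝ) : ℂ))) = 0 := by
      push_cast; ring
    rw [this, zero_smul]
  have h4 := nst_exp_mul_eq h2 h3
  rw [nst_exp_smul_one, smul_mul_assoc, one_mul] at h4
  exact DFunLike.congr_fun h4 x

/-! ### dressings -/

/-- dressings: spin-independent unitaries commuting with `𝔅` which shift the fields of the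
commutant by multiples of `psi` -/
structure NstDress (𝔅 : Set (H →L[ℂ] H)) (psi : H →L[ℂ] H) (κ : K → ℝ) (D : H ≃ₗᵢ[ℂ] H) :
    Prop where
  X : ∀ x, D (L.X x) = L.X (D x)
  Z : ∀ x, D (L.Z x) = L.Z (D x)
  cm : NstCm 𝔅 D
  w : ∀ v, (∀ a ∈ 𝔅, ∀ x, a (L.W v x) = L.W v (a x)) →
    ∀ x, L.W v (D x) = D (L.W v (nst_ep (κ v) psi x))

namespace NstDress

variable {L} {𝔅 : Set (H →L[ℂ] H)} {psi : H →L[ℂ] H} {κ κ' : K → ℝ} {D D' : H ≃ₗᵢ[ℂ] H}

lemma pau (h : L.NstDress 𝔅 psi κ D) (P : Fin 3) (x : H) : D (L.pau P x) = L.pau P (D x) :=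
  L.nst_comm_pau (map_sub _) (fun c x => map_smul _ c x) h.X h.Z P x

lemma one (𝔅 : Set (H →L[ℂ] H)) (psi : H →L[ℂ] H) : L.NstDress 𝔅 psi (fun _ => 0) 1 :=
  ⟨fun _ => rfl, fun _ => rfl, NstCm.one 𝔅, fun v _ x => by rw [nst_ep_zero]; rfl⟩

lemma mul_k (h : L.NstDress 𝔅 psi κ D) (h' : L.NstDress 𝔅 psi κ' D') (hp : psi ∈ 𝔅) :
    L.NstDress 𝔅 psi (fun v => κ v + κ' v) (D * D') := by
  refine ⟨fun x => ?_, fun x => ?_, h.cm.mul h'.cm, fun v hv x => ?_⟩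
  · rw [Sys.mulA, Sys.mulA, h'.X, h.X]
  · rw [Sys.mulA, Sys.mulA, h'.Z, h.Z]
  · rw [Sys.mulA, Sys.mulA, h.w v hv, nst_ep_V (h'.cm psi hp), h'.w v hv, add_comm (κ v), nst_ep_add]
    rfl

lemma mul_psi {psi' : H →L[ℂ] H} (h : L.NstDress 𝔅 psi κ D) (h' : L.NstDress 𝔅 psi' κ D')
    (hp : psi ∈ 𝔅) (hc : Commute psi psi') :
    L.NstDress 𝔅 (psi + psi') κ (D * D') := by
  refine ⟨fun x => ?_, fun x => ?_, h.cm.mul h'.cm, fun v hv x => ?_⟩
  · rw [Sys.mulA, Sys.mulA, h'.X, h.X]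
  · rw [Sys.mulA, Sys.mulA, h'.Z, h.Z]
  · rw [Sys.mulA, Sys.mulA, h.w v hv, nst_ep_V (h'.cm psi hp), h'.w v hv, add_comm psi,
      nst_ep_add' hc.symm]
    rfl

lemma blkD (h : L.NstDress 𝔅 psi κ D) (hB : L.Ctl 𝔅) {M : Set ℝ} (hM : MeasurableSet M)
    (hpM : psi * L.E M = psi) (hp : psi ∈ 𝔅) :
    L.NstDress 𝔅 psi κ (L.nst_blk hM (h.cm _ (hB.nst_E_mem hM))) := by
  refine ⟨fun x => ?_, fun x => ?_, fun a ha x => ?_, fun v hv x => ?_⟩
  · rw [nst_blk_apply, nst_blk_apply, L.nst_E_X, h.X, map_add, map_sub]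
  · rw [nst_blk_apply, nst_blk_apply, L.nst_E_Z, h.Z, map_add, map_sub]
  · rw [nst_blk_apply, nst_blk_apply, map_add, map_sub, h.cm a ha, hB.nst_comm_apply ha (hB.nst_E_mem hM)]
  · rw [nst_blk_apply, nst_blk_apply, map_add, h.w v hv, L.nst_E_W]
    have h1 : L.E M (nst_ep (κ v) psi x) = nst_ep (κ v) psi (L.E M x) :=
      (DFunLike.congr_fun (nst_ep_comm (a := psi) (b := L.E M) (hB.comm _ _ hp (hB.nst_E_mem hM)) (κ v))
        x).symm
    rw [h1]
    congr 1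
    rw [← map_sub]
    congr 1
    have h2 := nst_ep_fix hpM (κ v) x
    rw [map_sub] at h2
    exact h2.symm

lemma phase {a : H →L[ℂ] H} (hB : L.Ctl 𝔅) (ha : a ∈ 𝔅) (hs : Sa a) (t : ℝ)
    (psi : H →L[ℂ] H) : L.NstDress 𝔅 psi (fun _ => 0) (nst_epU t hs) := by
  refine ⟨fun x => ?_, fun x => ?_, fun b hb x => ?_, fun v hv x => ?_⟩
  · exact nst_ep_V (hB.X a ha) t x
  · exact nst_ep_V (hB.Z a ha) t x
  · exact (DFunLike.congr_fun (nst_ep_comm (a := a) (b := b) (hB.comm _ _ ha hb) t) x).symm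
  · rw [nst_ep_zero]
    exact (nst_ep_V (hv a ha) t x).symm

/-- the inverse relation -/
lemma w_neg (h : L.NstDress 𝔅 psi κ D) (hp : psi ∈ 𝔅) {v : K}
    (hv : ∀ a ∈ 𝔅, ∀ x, a (L.W v x) = L.W v (a x))
    (hv' : ∀ a ∈ 𝔅, ∀ x, a (L.W (-v) x) = L.W (-v) (a x)) (x : H) :
    L.W (-v) (D x) = D (L.W (-v) (nst_ep (-κ v) psi x)) := by
  have h1 := h.w v hv (L.W (-v) (nst_ep (-κ v) psi x))
  rw [nst_ep_V (hv' psi hp), L.W_W_neg] at h1
  have h2 : nst_ep (κ v) psi (nst_ep (-κ v) psi x) = x :=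
    DFunLike.congr_fun (nst_ep_mul_neg (κ v) psi) x
  rw [h2] at h1
  rw [← h1, L.W_neg_W]

/-- pulses and dressings commute up to a controlled rotation -/
lemma pw (h : L.NstDress 𝔅 psi κ D) (hB : L.Ctl 𝔅) (hp : psi ∈ 𝔅) {v : K} (P : Fin 3)
    (hv : ∀ a ∈ 𝔅, ∀ x, a (L.W v x) = L.W v (a x))
    (hv' : ∀ a ∈ 𝔅, ∀ x, a (L.W (-v) x) = L.W (-v) (a x)) (x : H) :
    nst_ep (κ v) (psi * nst_cl (L.pau P)) (L.pw (L.pau P) v (D x)) = D (L.pw (L.pau P) v x) := by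
  have e : ∀ y : H, L.pw (L.pau P) v y
      = (1 / 2 : ℂ) • (L.W (-v) (y + L.pau P y) + L.W v (y - L.pau P y)) := by
    intro y
    simp only [LSys.pw, map_add, map_sub]
    module
  have hcP : Commute psi (nst_cl (L.pau P)) := by
    ext y
    exact hB.nst_pauC hp P y
  have hPP : nst_cl (L.pau P) * nst_cl (L.pau P) = 1 := by
    ext y
    exact L.nst_pau_pau P y
  have c1 : ∀ {U : H ≃ₗᵢ[ℂ] H} (_ : ∀ x, psi (U x) = U (psi x))
      (_ : ∀ x, L.pau P (U x) = U (L.pau P x)) (y : H),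
      nst_ep (κ v) (psi * nst_cl (L.pau P)) (U y) = U (nst_ep (κ v) (psi * nst_cl (L.pau P)) y) := by
    intro U h1 h2 y
    refine nst_ep_V (fun x => ?_) _ _
    change psi (L.pau P (U x)) = U (psi (L.pau P x))
    rw [h2, h1]
  have hW : ∀ (a : K) (y : H), L.pau P (L.W a y) = L.W a (L.pau P y) :=
    fun a y => (L.nst_W_pau P a y).symm
  have hD : ∀ y, L.pau P (D y) = D (L.pau P y) := fun y => (h.pau P y).symm
  rw [e, e, ← h.pau, ← map_add, ← map_sub, h.w_neg hp hv hv', h.w v hv, map_smul, map_add,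
    c1 (h.cm psi hp) hD, c1 (hv' psi hp) (hW _), c1 (h.cm psi hp) hD, c1 (hv psi hp) (hW _)]
  have c2 : ∀ (t : ℝ) (y : H), nst_ep (κ v) (psi * nst_cl (L.pau P)) (nst_ep t psi y)
      = nst_ep t psi (nst_ep (κ v) (psi * nst_cl (L.pau P)) y) := by
    intro t y
    have h3 : Commute psi (psi * nst_cl (L.pau P)) := (Commute.refl psi).mul_right hcP
    have h4 : Commute (nst_ep t psi) (nst_ep (κ v) (psi * nst_cl (L.pau P))) :=
      nst_ep_comm (nst_ep_comm h3.symm (κ v)).symm t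
    exact (DFunLike.congr_fun h4 y).symm
  rw [c2, c2]
  have h5 : nst_ep (κ v) (psi * nst_cl (L.pau P)) (x + L.pau P x) = nst_ep (κ v) psi (x + L.pau P x) :=
    nst_ep_mul_plus hcP hPP (κ v) x
  have h6 : nst_ep (κ v) (psi * nst_cl (L.pau P)) (x - L.pau P x) = nst_ep (-κ v) psi (x - L.pau P x) :=
    nst_ep_mul_minus hcP hPP (κ v) x
  rw [h5, h6]
  have h7 : ∀ y, nst_ep (-κ v) psi (nst_ep (κ v) psi y) = y :=
    fun y => DFunLike.congr_fun (nst_ep_neg_mul (κ v) psi) y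
  have h8 : ∀ y, nst_ep (κ v) psi (nst_ep (-κ v) psi y) = y :=
    fun y => DFunLike.congr_fun (nst_ep_mul_neg (κ v) psi) y
  rw [h7, h8]
  simp only [map_smul, map_add]

end NstDress

/-- rotation by a control on a label set -/
lemma nst_ep_rot {𝔅 : Set (H →L[ℂ] H)} (hB : L.Ctl 𝔅) {psi : H →L[ℂ] H} (hp : psi ∈ 𝔅) {A : Set ℝ}
    (hA : MeasurableSet A) (P : Fin 3) (t : ℝ) (x : H) :
    nst_ep t (psi * L.E A * nst_cl (L.pau P)) x
      = nst_ep t (psi * nst_cl (L.pau P)) (L.E A x) + (x - L.E A x) := by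
  have h1 : psi * L.E A * nst_cl (L.pau P) = psi * nst_cl (L.pau P) * L.E A := by
    ext y
    change psi (L.E A (L.pau P y)) = psi (L.pau P (L.E A y))
    rw [L.nst_E_pau]
  rw [h1]
  refine nst_ep_on ?_ ?_ t x
  · ext y
    change psi (L.pau P (L.E A y)) = L.E A (psi (L.pau P y))
    rw [← L.nst_E_pau, hB.nst_comm_apply hp (hB.nst_E_mem hA)]
  · rw [L.nst_E_mul hA hA, Set.inter_self]

/-- coupling of a dressed state -/
lemma nst_coup_dress {𝔅 : Set (H →L[ℂ] H)} (hB : L.Ctl 𝔅) {psi : H →L[ℂ] H} (hp : psi ∈ 𝔅)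
    {κ : K → ℝ} {D : H ≃ₗᵢ[ℂ] H} (hD : L.NstDress 𝔅 psi κ D) {A B : Set ℝ} (hA : MeasurableSet A)
    (hBm : MeasurableSet B) (hAB : Disjoint A B) (P Q : Fin 3) {v w : K}
    (hv : ∀ a ∈ 𝔅, ∀ x, a (L.W v x) = L.W v (a x))
    (hv' : ∀ a ∈ 𝔅, ∀ x, a (L.W (-v) x) = L.W (-v) (a x))
    (hw : ∀ a ∈ 𝔅, ∀ x, a (L.W w x) = L.W w (a x))
    (hw' : ∀ a ∈ 𝔅, ∀ x, a (L.W (-w) x) = L.W (-w) (a x)) {U : H → H}
    (hU : ∀ x, U x = L.pw (L.pau P) v (L.E A x) + L.pw (L.pau Q) w (L.E B x)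
      + (x - L.E A x - L.E B x)) (x : H) :
    nst_ep (κ v) (psi * L.E A * nst_cl (L.pau P)) (nst_ep (κ w) (psi * L.E B * nst_cl (L.pau Q)) (U (D x)))
      = D (U x) := by
  have hDE : ∀ {S : Set ℝ} (_ : MeasurableSet S) (y : H), L.E S (D y) = D (L.E S y) :=
    fun hS y => hD.cm _ (hB.nst_E_mem hS) y
  have hpw0 : ∀ (R : Fin 3) (u : K), L.pw (L.pau R) u 0 = 0 := by
    intro R u; simp [LSys.pw]
  rw [L.nst_ep_rot hB hp hBm, L.nst_ep_rot hB hp hA]
  have e1 : L.E B (U (D x)) = L.pw (L.pau Q) w (D (L.E B x)) := by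
    rw [hU]
    simp only [map_add, map_sub, L.nst_E_pw, hDE hA, hDE hBm, L.nst_E_idem hBm,
      L.nst_E_disj hBm hA hAB.symm, map_zero, hpw0]
    abel
  have e2 : L.E A (U (D x)) = L.pw (L.pau P) v (D (L.E A x)) := by
    rw [hU]
    simp only [map_add, map_sub, L.nst_E_pw, hDE hA, hDE hBm, L.nst_E_idem hA,
      L.nst_E_disj hA hBm hAB, map_zero, hpw0]
    abel
  have e3 : U (D x) = L.pw (L.pau P) v (D (L.E A x)) + L.pw (L.pau Q) w (D (L.E B x))
      + D (x - L.E A x - L.E B x) := by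
    rw [hU, hDE hA, hDE hBm, map_sub, map_sub]
  have e4 : nst_ep (κ w) (psi * nst_cl (L.pau Q)) (L.E B (U (D x))) + (U (D x) - L.E B (U (D x)))
      = D (L.pw (L.pau Q) w (L.E B x)) + (L.pw (L.pau P) v (D (L.E A x))
        + D (x - L.E A x - L.E B x)) := by
    rw [e1, hD.pw hB hp Q hw hw', e3]
    abel
  rw [e4]
  have e5 : L.E A (D (L.pw (L.pau Q) w (L.E B x)) + (L.pw (L.pau P) v (D (L.E A x))
        + D (x - L.E A x - L.E B x))) = L.pw (L.pau P) v (D (L.E A x)) := by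
    simp only [map_add, map_sub, L.nst_E_pw, hDE hA, L.nst_E_idem hA,
      L.nst_E_disj hA hBm hAB, map_zero, hpw0]
    abel
  rw [e5, hD.pw hB hp P hv hv', hU, map_add, map_add]
  abel

end LSys

end Vale.Agent.P367.A
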