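import Vale.Agent.P367.B.Nest2

/-! P367, block B, level step: the product unitary of T2 is a label gate times a dressing; splitting
of the reserve. -/

namespace Vale.Agent.P367.A

open Complex Filter Topology MeasureTheory

namespace LSys

variable {H K : Type*} [NormedAddCommGroup H] [InnerProductSpace ℂ H]
  [NormedAddCommGroup K] [InnerProductSpace ℂ K] (L : LSys H K)

/-! ### splitting the reserve -/

lemma nst_exists_cut {S : Set ℝ} (hS : L.mu S ≠ 0) :
    ∃ t : ℝ, L.mu (S ∩ Set.Iic t) ≠ 0 ∧ L.mu (S ∩ Set.Ioi t) ≠ 0 := by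
  by_contra hc
  push Not at hc
  set N1 : Set ℝ := ⋃ q ∈ {q : ℚ | L.mu (S ∩ Set.Iic (q : ℝ)) = 0}, S ∩ Set.Iic (q : ℝ) with hN1
  set N2 : Set ℝ := ⋃ q ∈ {q : ℚ | L.mu (S ∩ Set.Ioi (q : ℝ)) = 0}, S ∩ Set.Ioi (q : ℝ) with hN2
  have h1 : L.mu N1 = 0 := (measure_biUnion_null_iff (Set.to_countable _)).2 fun q hq => hq
  have h2 : L.mu N2 = 0 := (measure_biUnion_null_iff (Set.to_countable _)).2 fun q hq => hq
  have h3 : (S \ (N1 ∪ N2)).Subsingleton := by
    have key : ∀ x ∈ S \ (N1 ∪ N2), ∀ y ∈ S \ (N1 ∪ N2), ¬ x < y := by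
      intro x hx y hy hxy
      obtain ⟨q, hq1, hq2⟩ := exists_rat_btwn hxy
      by_cases hq : L.mu (S ∩ Set.Iic (q : ℝ)) = 0
      · apply hx.2
        left
        rw [hN1]
        simp only [Set.mem_iUnion]
        exact ⟨q, hq, hx.1, hq1.le⟩
      · have hq' := hc q hq
        apply hy.2
        right
        rw [hN2]
        simp only [Set.mem_iUnion]
        exact ⟨q, hq', hy.1, hq2⟩
    intro x hx y hy
    exact le_antisymm (not_lt.1 (key y hy x hx)) (not_lt.1 (key x hx y hy))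
  have h4 : L.mu (S \ (N1 ∪ N2)) = 0 := by
    rcases h3.eq_empty_or_singleton with h | ⟨x, h⟩
    · rw [h]; exact measure_empty
    · rw [h]; exact L.noAtoms x
  apply hS
  refine measure_mono_null (t := (S \ (N1 ∪ N2)) ∪ (N1 ∪ N2)) ?_
    (measure_union_null h4 (measure_union_null h1 h2))
  intro x hx
  by_cases h : x ∈ N1 ∪ N2
  · exact Or.inr h
  · exact Or.inl ⟨hx, h⟩

lemma nst_exists_mid {R0 R1 : Set ℝ} (h0 : MeasurableSet R0) (h1 : MeasurableSet R1) (h : R1 ⊆ R0)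
    (hm : L.mu (R0 \ R1) ≠ 0) : ∃ R2, MeasurableSet R2 ∧ R1 ⊆ R2 ∧ R2 ⊆ R0 ∧
      L.mu (R0 \ R2) ≠ 0 ∧ L.mu (R2 \ R1) ≠ 0 := by
  obtain ⟨t, ht1, ht2⟩ := L.nst_exists_cut hm
  refine ⟨R1 ∪ ((R0 \ R1) ∩ Set.Iic t), h1.union ((h0.diff h1).inter measurableSet_Iic),
    Set.subset_union_left, Set.union_subset h fun x hx => hx.1.1, ?_, ?_⟩
  · convert ht2 using 2
    ext x
    simp only [Set.mem_sdiff, Set.mem_union, Set.mem_inter_iff, Set.mem_Iic, Set.mem_Ioi]
    constructor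
    · rintro ⟨h3, h4⟩
      push Not at h4
      exact ⟨⟨h3, h4.1⟩, h4.2 ⟨h3, h4.1⟩⟩
    · rintro ⟨⟨h3, h4⟩, h5⟩
      exact ⟨h3, fun h6 => h6.elim h4 fun h7 => absurd h7.2 (not_le.2 h5)⟩
  · convert ht1 using 2
    ext x
    simp only [Set.mem_sdiff, Set.mem_union, Set.mem_inter_iff, Set.mem_Iic]
    constructor
    · rintro ⟨h3, h4⟩
      rcases h3 with h3 | h3
      · exact absurd h3 h4
      · exact h3
    · rintro ⟨⟨h3, h4⟩, h5⟩
      exact ⟨Or.inr ⟨⟨h3, h4⟩, h5⟩, h4⟩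

/-! ### the label gate on `G` -/

lemma nst_E_zr (b : Set ℝ) (v : K) (x : H) : L.E b (L.zr v x) = L.zr v (L.E b x) :=
  L.nst_E_pw b 2 v x

/-- `exp(-i Z phi(a))` on the labels of `G` -/
noncomputable def nst_NG {G : Set ℝ} (hG : MeasurableSet G) (a : K) : H ≃ₗᵢ[ℂ] H :=
  L.nst_blk hG (U := L.zr a) (L.nst_E_zr G a)

lemma nst_NG_apply {G : Set ℝ} (hG : MeasurableSet G) (a : K) (x : H) :
    L.nst_NG hG a x = L.zr a (L.E G x) + (x - L.E G x) := rfl

lemma nst_NG_NG {G : Set ℝ} (hG : MeasurableSet G) {a b : K} (h : th a b = 0) :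
    L.nst_NG hG a * L.nst_NG hG b = L.nst_NG hG (a + b) := by
  ext x
  rw [Sys.mulA, nst_NG_apply, nst_NG_apply, nst_NG_apply]
  simp only [map_add, map_sub, L.nst_E_zr, L.nst_E_idem hG, sub_self, add_zero, L.zr_zr, h]
  simp

lemma nst_NG_zero {G : Set ℝ} (hG : MeasurableSet G) : L.nst_NG hG 0 = 1 := by
  ext x
  rw [nst_NG_apply, L.zr_zero, add_sub_cancel]
  rfl

lemma nst_NG_comm {G : Set ℝ} (hG : MeasurableSet G) {a : K} {V : H ≃ₗᵢ[ℂ] H}
    (hE : ∀ x, V (L.E G x) = L.E G (V x)) (hZ : ∀ x, V (L.Z x) = L.Z (V x))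
    (hW : ∀ x, V (L.W a x) = L.W a (V x)) (hW' : ∀ x, V (L.W (-a) x) = L.W (-a) (V x)) :
    V * L.nst_NG hG a = L.nst_NG hG a * V := by
  ext x
  rw [Sys.mulA, Sys.mulA, nst_NG_apply, nst_NG_apply, map_add, map_sub, hE]
  congr 1
  rw [← hE]
  exact L.nst_comm_pw (P := 2) (map_add _) (map_sub _) (fun c x => map_smul _ c x) hZ hW hW' _

lemma nst_NG_Z {G : Set ℝ} (hG : MeasurableSet G) (a : K) (x : H) :
    L.nst_NG hG a (L.Z x) = L.Z (L.nst_NG hG a x) := by
  rw [nst_NG_apply, nst_NG_apply, L.nst_E_Z, map_add, map_sub, L.Z_zr]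

/-! ### the dressing factor of T2 -/

/-- `exp(-i sg phi(v))` on the labels of `G` -/
noncomputable def nst_sgL (G : Set ℝ) (sg : H →L[ℂ] H) (v : K) : H →ₗ[ℂ] H :=
  (1 / 2 : ℂ) • ((L.W (-v)).toLinearEquiv.toLinearMap ∘ₗ (L.E G + sg).toLinearMap
    + (L.W v).toLinearEquiv.toLinearMap ∘ₗ (L.E G - sg).toLinearMap)
  + (LinearMap.id - (L.E G).toLinearMap)

lemma nst_sgL_apply (G : Set ℝ) (sg : H →L[ℂ] H) (v : K) (x : H) :
    L.nst_sgL G sg v x = (1 / 2 : ℂ) • (L.W (-v) (L.E G x + sg x) + L.W v (L.E G x - sg x))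
      + (x - L.E G x) := rfl

/-- data for a sign dressing -/
structure NstSg (G : Set ℝ) (sg : H →L[ℂ] H) (v : K) : Prop where
  hG : MeasurableSet G
  sa : Sa sg
  sq : sg * sg = L.E G
  sW : ∀ x, sg (L.W v x) = L.W v (sg x)
  sW' : ∀ x, sg (L.W (-v) x) = L.W (-v) (sg x)

lemma nst_sg_sg {G : Set ℝ} {sg : H →L[ℂ] H} (sq : sg * sg = L.E G) (x : H) :
    sg (sg x) = L.E G x := by
  rw [← sq]; rfl

lemma nst_E_sg' {G : Set ℝ} {sg : H →L[ℂ] H} (sq : sg * sg = L.E G) (x : H) :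
    L.E G (sg x) = sg (L.E G x) := by
  rw [← L.nst_sg_sg sq, ← L.nst_sg_sg sq]

lemma nst_sg_E {G : Set ℝ} (hG : MeasurableSet G) {sg : H →L[ℂ] H} (sa : Sa sg)
    (sq : sg * sg = L.E G) (x : H) : sg (L.E G x) = sg x := by
  have h1 : sg (x - L.E G x) = 0 := by
    have h2 : (inner ℂ (sg (x - L.E G x)) (sg (x - L.E G x)) : ℂ) = 0 := by
      rw [sa, L.nst_sg_sg sq, map_sub, L.nst_E_idem hG, sub_self, inner_zero_right]
    exact inner_self_eq_zero.1 h2
  rw [map_sub, sub_eq_zero] at h1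
  exact h1.symm

lemma nst_E_sg {G : Set ℝ} (hG : MeasurableSet G) {sg : H →L[ℂ] H} (sa : Sa sg)
    (sq : sg * sg = L.E G) (x : H) : L.E G (sg x) = sg x := by
  rw [L.nst_E_sg' sq, L.nst_sg_E hG sa sq]

namespace NstSg

variable {L} {G : Set ℝ} {sg : H →L[ℂ] H} {v : K}

lemma neg (h : L.NstSg G sg v) : L.NstSg G sg (-v) :=
  ⟨h.hG, h.sa, h.sq, h.sW', by rw [neg_neg]; exact h.sW⟩

lemma sgL_sgL (h : L.NstSg G sg v) (x : H) : L.nst_sgL G sg v (L.nst_sgL G sg (-v) x) = x := by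
  simp only [nst_sgL_apply, neg_neg, map_add, map_sub, map_smul, h.sW, h.sW', L.nst_E_W,
    L.nst_E_idem h.hG, L.nst_E_sg h.hG h.sa h.sq, L.nst_sg_E h.hG h.sa h.sq, L.nst_sg_sg h.sq, L.W_neg_W,
    L.W_W_neg]
  module

/-- the sign dressing -/
noncomputable def U (h : L.NstSg G sg v) : H ≃ₗᵢ[ℂ] H :=
  mkU (L.nst_sgL G sg v) (L.nst_sgL G sg (-v))
    (fun x => by
      have := h.neg.sgL_sgL x
      rwa [neg_neg] at this)
    h.sgL_sgL
    (fun x y => by
      have h1 : ∀ x y, inner ℂ (L.E G x) y = inner ℂ x (L.E G y) := L.nst_E_sa h.hG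
      have h2 : ∀ x y, inner ℂ (sg x) y = inner ℂ x (sg y) := h.sa
      simp only [nst_sgL_apply, inner_sub_left, inner_sub_right, inner_smul_left, inner_smul_right,
        L.inner_W, inner_add_left, inner_add_right, neg_neg, map_div₀, map_one,
        Complex.conj_ofNat, h1, h2, map_add, map_sub, h.sW, h.sW', L.nst_E_W])

lemma U_apply (h : L.NstSg G sg v) (x : H) :
    h.U x = (1 / 2 : ℂ) • (L.W (-v) (L.E G x + sg x) + L.W v (L.E G x - sg x))
      + (x - L.E G x) := rfl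

lemma E_U (h : L.NstSg G sg v) (x : H) : L.E G (h.U x)
    = (1 / 2 : ℂ) • (L.W (-v) (L.E G x + sg x) + L.W v (L.E G x - sg x)) := by
  rw [U_apply]
  simp only [map_add, map_sub, map_smul, L.nst_E_W, L.nst_E_idem h.hG, L.nst_E_sg h.hG h.sa h.sq]
  abel

/-- T2 unitary = label gate times sign dressing -/
lemma isProd {s : ℝ} {V : H ≃ₗᵢ[ℂ] H} (h : L.NstSg G sg ((s : ℂ) • L.fv L.Z G V)) :
    L.IsProd G sg s V (L.nst_NG h.hG ((s : ℂ) • L.iota (sg L.Om)) * h.U) := by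
  intro x
  rw [Sys.mulA, nst_NG_apply, h.E_U, U_apply]
  congr 1
  abel

/-- an operator commuting with `E_G`, `sg`, `W(±v)` commutes with the sign dressing -/
lemma comm (h : L.NstSg G sg v) {f : H → H} (hadd : ∀ x y, f (x + y) = f x + f y)
    (hsub : ∀ x y, f (x - y) = f x - f y) (hsmul : ∀ (c : ℂ) x, f (c • x) = c • f x)
    (hE : ∀ x, f (L.E G x) = L.E G (f x)) (hs : ∀ x, f (sg x) = sg (f x))
    (hW : ∀ x, f (L.W v x) = L.W v (f x)) (hW' : ∀ x, f (L.W (-v) x) = L.W (-v) (f x)) (x : H) :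
    f (h.U x) = h.U (f x) := by
  rw [U_apply, U_apply]
  simp only [hadd, hsub, hsmul, hE, hs, hW, hW']

variable [CompleteSpace H]

lemma dress {𝔅 : Set (H →L[ℂ] H)} (hB : L.Ctl 𝔅) (hsg : sg ∈ 𝔅) {s c : ℝ} {q : K}
    (h : L.NstSg G sg (((s * c : ℝ) : ℂ) • q))
    (hq : ∀ a ∈ 𝔅, ∀ (t : ℝ) x, a (L.W ((t : ℂ) • q) x) = L.W ((t : ℂ) • q) (a x)) :
    L.NstDress 𝔅 ((c : ℂ) • sg) (fun v' => -(2 * s * th v' q)) h.U := by
  have hq' : ∀ a ∈ 𝔅, ∀ (t : ℝ) x, a (L.W (-((t : ℂ) • q)) x) = L.W (-((t : ℂ) • q)) (a x) := by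
    intro a ha t x
    have := hq a ha (-t) x
    rwa [ofReal_neg, neg_smul] at this
  have hWX : ∀ (a : K) (x : H), L.X (L.W a x) = L.W a (L.X x) := fun a x => (L.WX a x).symm
  have hWZ : ∀ (a : K) (x : H), L.Z (L.W a x) = L.W a (L.Z x) := fun a x => (L.WZ a x).symm
  refine ⟨fun x => ?_, fun x => ?_, fun a ha x => ?_, fun v' hv' x => ?_⟩
  · exact (h.comm (f := L.X) (map_add _) (map_sub _) (fun c x => map_smul _ c x)
      (fun x => (L.nst_E_X G x).symm) (fun x => (hB.X sg hsg x).symm) (hWX _) (hWX _) x).symm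
  · exact (h.comm (f := L.Z) (map_add _) (map_sub _) (fun c x => map_smul _ c x)
      (fun x => (L.nst_E_Z G x).symm) (fun x => (hB.Z sg hsg x).symm) (hWZ _) (hWZ _) x).symm
  · exact h.comm (f := a) (map_add _) (map_sub _) (fun c x => map_smul _ c x)
      (fun x => hB.nst_comm_apply ha (hB.nst_E_mem h.hG) x) (fun x => hB.nst_comm_apply ha hsg x)
      (hq a ha _) (hq' a ha _) x
  · set κ : ℝ := -(2 * s * th v' q) with hκ
    set z := nst_ep κ ((c : ℂ) • sg) x with hz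
    set v := ((s * c : ℝ) : ℂ) • q with hv
    have hth : th v' v = s * c * th v' q := by rw [hv, th_smul_right]
    -- the three parts of `z`
    have e1 : L.E G z + sg z = Complex.exp (-(Complex.I * ((κ * c : ℝ) : ℂ)))
        • (L.E G x + sg x) := by
      have h1 := nst_ep_eig (a := (c : ℂ) • sg) (B := L.E G + sg) (c := c) (by
        ext y
        change (c : ℂ) • sg (L.E G y + sg y) = (c : ℂ) • (L.E G y + sg y)
        rw [map_add, L.nst_sg_E h.hG h.sa h.sq, L.nst_sg_sg h.sq, add_comm]) κ x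
      have h2 : Commute ((c : ℂ) • sg) (L.E G + sg) := by
        ext y
        change (c : ℂ) • sg (L.E G y + sg y) = L.E G ((c : ℂ) • sg y) + sg ((c : ℂ) • sg y)
        simp only [map_add, map_smul, L.nst_sg_E h.hG h.sa h.sq, L.nst_sg_sg h.sq,
          L.nst_E_sg h.hG h.sa h.sq, smul_add]
      have h3 : (L.E G + sg) (nst_ep κ ((c : ℂ) • sg) x) = nst_ep κ ((c : ℂ) • sg) ((L.E G + sg) x) :=
        (DFunLike.congr_fun (nst_ep_comm h2 κ) x).symm
      rw [h1] at h3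
      exact h3
    have e2 : L.E G z - sg z = Complex.exp (Complex.I * ((κ * c : ℝ) : ℂ))
        • (L.E G x - sg x) := by
      have h1 := nst_ep_eig (a := (c : ℂ) • sg) (B := L.E G - sg) (c := -c) (by
        ext y
        change (c : ℂ) • sg (L.E G y - sg y) = ((-c : ℝ) : ℂ) • (L.E G y - sg y)
        rw [map_sub, L.nst_sg_E h.hG h.sa h.sq, L.nst_sg_sg h.sq]
        push_cast
        module) κ x
      have h2 : Commute ((c : ℂ) • sg) (L.E G - sg) := by
        ext y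
        change (c : ℂ) • sg (L.E G y - sg y) = L.E G ((c : ℂ) • sg y) - sg ((c : ℂ) • sg y)
        simp only [map_sub, map_smul, L.nst_sg_E h.hG h.sa h.sq, L.nst_sg_sg h.sq,
          L.nst_E_sg h.hG h.sa h.sq, smul_sub]
      have h3 : (L.E G - sg) (nst_ep κ ((c : ℂ) • sg) x) = nst_ep κ ((c : ℂ) • sg) ((L.E G - sg) x) :=
        (DFunLike.congr_fun (nst_ep_comm h2 κ) x).symm
      rw [h1] at h3
      have e : -(Complex.I * ((κ * -c : ℝ) : ℂ)) = Complex.I * ((κ * c : ℝ) : ℂ) := by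
        push_cast; ring
      rw [e] at h3
      exact h3
    have e3 : z - L.E G z = x - L.E G x := by
      have h1 : ((c : ℂ) • sg) * L.E G = (c : ℂ) • sg := by
        ext y
        change (c : ℂ) • sg (L.E G y) = (c : ℂ) • sg y
        rw [L.nst_sg_E h.hG h.sa h.sq]
      have h2 := nst_ep_fix h1 κ x
      have h4 : Commute ((c : ℂ) • sg) (L.E G) := by
        ext y
        change (c : ℂ) • sg (L.E G y) = L.E G ((c : ℂ) • sg y)
        rw [map_smul, L.nst_E_sg' h.sq]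
      have h3 : L.E G (nst_ep κ ((c : ℂ) • sg) x) = nst_ep κ ((c : ℂ) • sg) (L.E G x) :=
        (DFunLike.congr_fun (nst_ep_comm h4 κ) x).symm
      rw [map_sub, ← h3] at h2
      exact h2
    rw [U_apply, U_apply]
    simp only [map_add, map_smul, map_sub, L.nst_E_W, hv' sg hsg]
    have w1 : ∀ y, L.W v' (L.W (-v) y)
        = Complex.exp (2 * Complex.I * (th v' v : ℂ)) • L.W (-v) (L.W v' y) := by
      intro y
      rw [L.Wx v' (-v), th_neg_right]
      congr 2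
      push_cast
      ring
    have w2 : ∀ y, L.W v' (L.W v y)
        = Complex.exp (-(2 * Complex.I * (th v' v : ℂ))) • L.W v (L.W v' y) := fun y => L.Wx v' v y
    have f1 : Complex.exp (-(Complex.I * ((κ * c : ℝ) : ℂ)))
        = Complex.exp (2 * Complex.I * (th v' v : ℂ)) := by
      rw [hth, hκ]; congr 1; push_cast; ring
    have f2 : Complex.exp (Complex.I * ((κ * c : ℝ) : ℂ))
        = Complex.exp (-(2 * Complex.I * (th v' v : ℂ))) := by
      rw [hth, hκ]; congr 1; push_cast; ring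
    have g1 : L.W (-v) (L.W v' (L.E G z)) + L.W (-v) (L.W v' (sg z))
        = Complex.exp (2 * Complex.I * (th v' v : ℂ))
          • (L.W (-v) (L.W v' (L.E G x)) + L.W (-v) (L.W v' (sg x))) := by
      rw [← map_add, ← map_add, e1, f1]
      simp only [map_add, map_smul, smul_add]
    have g2 : L.W v (L.W v' (L.E G z)) - L.W v (L.W v' (sg z))
        = Complex.exp (-(2 * Complex.I * (th v' v : ℂ)))
          • (L.W v (L.W v' (L.E G x)) - L.W v (L.W v' (sg x))) := by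
      rw [← map_sub, ← map_sub, e2, f2]
      simp only [map_sub, map_smul, smul_sub]
    have g3 : L.W v' z - L.W v' (L.E G z) = L.W v' x - L.W v' (L.E G x) := by
      rw [← map_sub, e3, map_sub]
    rw [g1, g2, g3, w1, w1, w2, w2]
    module

end NstSg

end LSys

end Vale.Agent.P367.A
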