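import Vale.Agent.P367.B.Nest3

/-! P367, block B, level step: the new reachability predicate. -/

namespace Vale.Agent.P367.A

open Complex Filter Topology MeasureTheory

namespace LSys

variable {H K : Type*} [NormedAddCommGroup H] [InnerProductSpace ℂ H]
  [NormedAddCommGroup K] [InnerProductSpace ℂ K] (L : LSys H K) [CompleteSpace H]

/-! ### T2 for `psi = sum c_i sg_i` -/

omit [CompleteSpace H] in
lemma nst_fv_mul {Q : H ≃ₗᵢ[ℂ] H} {Y : H ≃ₗᵢ[ℂ] H} (hY : ∀ x, Y (Q x) = Q (Y x)) (B : Set ℝ)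
    (V : H ≃ₗᵢ[ℂ] H) : L.fv Q B (Y * V) = L.fv Q B V := by
  unfold fv
  congr 2
  rw [Sys.mulA, ← hY, mul_inv_rev, Sys.mulA, Sys.invA]

omit [CompleteSpace H] in
lemma NstSg.isProd' {G : Set ℝ} {sg : H →L[ℂ] H} {s : ℝ} {q : K} (h : L.NstSg G sg ((s : ℂ) • q))
    {V : H ≃ₗᵢ[ℂ] H} (hq : L.fv L.Z G V = q) :
    L.IsProd G sg s V (L.nst_NG h.hG ((s : ℂ) • L.iota (sg L.Om)) * h.U) := by
  subst hq
  exact h.isProd

omit [CompleteSpace H] in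
/-- real-linear relation between the fields of commuting observables -/
lemma nst_th_iota_zero {a b : H →L[ℂ] H} (ha : Sa a) (hb : Sa b) (h : ∀ x, a (b x) = b (a x))
    (s t : ℝ) : th ((s : ℂ) • L.iota (a L.Om)) ((t : ℂ) • L.iota (b L.Om)) = 0 := by
  rw [th_smul_left, th_smul_right, L.th_iota, nst_im_zero ha hb h]
  ring

omit [CompleteSpace H] in
lemma nst_sum_sa {n : ℕ} {sg : Fin n → (H →L[ℂ] H)} (c : Fin n → ℝ) (h : ∀ i, Sa (sg i))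
    (S : Finset (Fin n)) : Sa (∑ i ∈ S, (c i : ℂ) • sg i) := by
  classical
  induction S using Finset.induction_on with
  | empty => simpa using Sa.nst_zero
  | insert i S hi ih =>
    rw [Finset.sum_insert hi]
    exact ((h i).nst_smul (c i)).nst_add ih

omit [CompleteSpace H] in
lemma nst_W_comm {a b : K} (h : th a b = 0) (x : H) : L.W a (L.W b x) = L.W b (L.W a x) := by
  rw [L.Wx a b, h]
  simp

lemma nst_t2_all {G : Set ℝ} {𝔄 𝔅 : Set (H →L[ℂ] H)}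
    {Rch : Set ℝ → Set ℝ → (H ≃ₗᵢ[ℂ] H) → Prop} (hG : MeasurableSet G) (hA : L.Ctl 𝔄)
    (hB : L.Ctl 𝔅) (hAB : 𝔄 ⊆ 𝔅) (hR : L.Closed G 𝔄 Rch) (hT : L.HasT2 G 𝔄 Rch)
    {n : ℕ} {sg : Fin n → (H →L[ℂ] H)} {c : Fin n → ℝ} (hsg : ∀ i, L.Sgn G 𝔄 (sg i))
    (s : ℝ) {V1 D : H ≃ₗᵢ[ℂ] H} (hV : NstCm 𝔅 V1) (hDZ : ∀ x, D (L.Z x) = L.Z (D x))
    {M R0 : Set ℝ} (h0 : Rch M R0 (D * V1)) (S : Finset (Fin n)) :
    ∃ D2, L.NstDress 𝔅 (∑ i ∈ S, (c i : ℂ) • sg i)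
        (fun v' => -(2 * s * th v' (L.fv L.Z G V1))) D2 ∧
      ∀ R1, MeasurableSet R1 → R1 ⊆ R0 → L.mu (R0 \ R1) ≠ 0 →
        Rch M R1 (L.nst_NG hG ((s : ℂ) • L.iota ((∑ i ∈ S, (c i : ℂ) • sg i) L.Om))
          * (D2 * (D * V1))) := by
  classical
  set q := L.fv L.Z G V1 with hq
  have hR0 : MeasurableSet R0 := (hR.meas _ _ _ h0).2.1
  have hEV : ∀ x, L.E G (V1 x) = V1 (L.E G x) := hV _ (hB.nst_E_mem hG)
  -- the observable behind `q`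
  have hobs_sa : Sa (L.nst_obs L.Z G V1) := L.nst_obs_sa (P := 2) hG hEV
  have hobs_c : ∀ b ∈ 𝔅, ∀ x, L.nst_obs L.Z G V1 (b x) = b (L.nst_obs L.Z G V1 x) :=
    L.nst_obs_comm hB (P := 2) hG hV
  have hqW : ∀ a ∈ 𝔅, ∀ (t : ℝ) x, a (L.W ((t : ℂ) • q) x) = L.W ((t : ℂ) • q) (a x) :=
    fun a ha t x => hB.nst_W_smul ha hobs_sa hobs_c t x
  have hqW' : ∀ a ∈ 𝔅, ∀ (t : ℝ) x, a (L.W (-((t : ℂ) • q)) x) = L.W (-((t : ℂ) • q)) (a x) := by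
    intro a ha t x
    have := hqW a ha (-t) x
    rwa [ofReal_neg, neg_smul] at this
  induction S using Finset.induction_on with
  | empty =>
    refine ⟨1, ⟨fun _ => rfl, fun _ => rfl, NstCm.one 𝔅, fun v _ x => ?_⟩, fun R1 h1 h2 _ => ?_⟩
    · have : nst_ep (-(2 * s * th v q)) (∑ i ∈ (∅ : Finset (Fin n)), (c i : ℂ) • sg i) = 1 := by
        simp [nst_ep]
      rw [this]; rfl
    · have : (s : ℂ) • L.iota ((∑ i ∈ (∅ : Finset (Fin n)), (c i : ℂ) • sg i) L.Om) = 0 := by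
        simp
      rw [this, L.nst_NG_zero, one_mul, one_mul]
      exact hR.mono _ _ _ _ h0 h1 h2
  | insert i S hi ih =>
    obtain ⟨D2, hD2, hrec⟩ := ih
    set psi := ∑ i ∈ S, (c i : ℂ) • sg i with hpsi
    have hpA : psi ∈ 𝔄 := hA.nst_sum_mem S _ fun j _ => hA.nst_smul_mem _ (hsg j).1
    have hpsa : Sa psi := nst_sum_sa c (fun j => (hsg j).2.1) S
    have hpc : ∀ a ∈ 𝔄, ∀ x, psi (a x) = a (psi x) := fun a ha x => hA.nst_comm_apply hpA ha x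
    have hsc : ∀ a ∈ 𝔄, ∀ x, sg i (a x) = a (sg i x) := fun a ha x => hA.nst_comm_apply (hsg i).1 ha x
    have hSg : L.NstSg G (sg i) (((s * c i : ℝ) : ℂ) • q) :=
      ⟨hG, (hsg i).2.1, (hsg i).2.2, hqW _ (hAB (hsg i).1) _, hqW' _ (hAB (hsg i).1) _⟩
    set b := (s : ℂ) • L.iota (psi L.Om) with hb
    set a := ((s * c i : ℝ) : ℂ) • L.iota (sg i L.Om) with ha
    -- commutations
    have hbW : ∀ a ∈ 𝔄, ∀ x, a (L.W b x) = L.W b (a x) := fun a ha x =>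
      hA.nst_W_smul ha hpsa hpc s x
    have hbW' : ∀ a ∈ 𝔄, ∀ x, a (L.W (-b) x) = L.W (-b) (a x) := by
      intro a ha x
      have := hA.nst_W_smul ha hpsa hpc (-s) x
      rwa [ofReal_neg, neg_smul] at this
    have hpo : ∀ x, psi (L.nst_obs L.Z G V1 x) = L.nst_obs L.Z G V1 (psi x) :=
      fun x => (hobs_c psi (hAB hpA) x).symm
    have t1 : th b (((s * c i : ℝ) : ℂ) • q) = 0 := L.nst_th_iota_zero hpsa hobs_sa hpo s (s * c i)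
    have t2 : th a b = 0 :=
      L.nst_th_iota_zero (hsg i).2.1 hpsa (fun x => (hpc _ (hsg i).1 x).symm) (s * c i) s
    have hUW : ∀ x, hSg.U (L.W b x) = L.W b (hSg.U x) := by
      intro x
      refine (hSg.comm (f := L.W b) (map_add _) (map_sub _) (fun c x => map_smul _ c x)
        (fun x => (L.nst_E_W G b x).symm) (fun x => (hbW _ (hsg i).1 x).symm) ?_ ?_ x).symm
      · exact L.nst_W_comm t1
      · exact L.nst_W_comm (by rw [th_neg_right, t1, neg_zero])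
    have hUW' : ∀ x, hSg.U (L.W (-b) x) = L.W (-b) (hSg.U x) := by
      intro x
      refine (hSg.comm (f := L.W (-b)) (map_add _) (map_sub _) (fun c x => map_smul _ c x)
        (fun x => (L.nst_E_W G (-b) x).symm) (fun x => (hbW' _ (hsg i).1 x).symm) ?_ ?_ x).symm
      · exact L.nst_W_comm (by rw [th_neg_left, t1, neg_zero])
      · exact L.nst_W_comm (by rw [th_neg_right, th_neg_left, t1, neg_zero, neg_zero])
    have hdr := hSg.dress hB (hAB (hsg i).1) hqW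
    have hcomm : hSg.U * L.nst_NG hG b = L.nst_NG hG b * hSg.U :=
      L.nst_NG_comm hG (fun x => (hdr.cm _ (hB.nst_E_mem hG) x).symm) hdr.Z hUW hUW'
    have hsum : (((c i : ℂ) • sg i + psi) L.Om) = (c i : ℂ) • sg i L.Om + psi L.Om := rfl
    rw [Finset.sum_insert hi, ← hpsi]
    refine ⟨hSg.U * D2, ?_, fun R1 h1 h2 h3 => ?_⟩
    · refine hdr.mul_psi hD2 (hB.nst_smul_mem _ (hAB (hsg i).1)) ?_
      ext x
      change (c i : ℂ) • sg i (psi x) = psi ((c i : ℂ) • sg i x)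
      rw [map_smul, hsc psi hpA]
    · obtain ⟨R2, hR2, h12, h20, hm1, hm2⟩ := L.nst_exists_mid hR0 h1 h2 h3
      have hst := hrec R2 hR2 h20 hm1
      set St := L.nst_NG hG b * (D2 * (D * V1)) with hSt
      have hfv : L.fv L.Z G St = q := by
        have e : St = (L.nst_NG hG b * (D2 * D)) * V1 := by rw [hSt]; simp only [mul_assoc]
        rw [e, L.nst_fv_mul]
        intro x
        rw [Sys.mulA, Sys.mulA, Sys.mulA, Sys.mulA, hDZ, hD2.Z, L.nst_NG_Z]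
      have hT2 := hT M R2 R1 St (sg i) (s * c i) hst h1 h12 hm2 (hsg i) _ (hSg.isProd' L hfv)
      have e : L.nst_NG hSg.hG (((s * c i : ℝ) : ℂ) • L.iota (sg i L.Om)) * hSg.U * St
          = L.nst_NG hG ((s : ℂ) • L.iota (((c i : ℂ) • sg i + psi) L.Om))
            * (hSg.U * D2 * (D * V1)) := by
        have e1 : (s : ℂ) • L.iota (((c i : ℂ) • sg i + psi) L.Om) = a + b := by
          rw [hsum, map_add, map_smul, smul_add, smul_smul, ha, hb]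
          push_cast
          rfl
        rw [e1, ← L.nst_NG_NG hG t2, hSt]
        calc L.nst_NG hG a * hSg.U * (L.nst_NG hG b * (D2 * (D * V1)))
            = L.nst_NG hG a * (hSg.U * L.nst_NG hG b) * (D2 * (D * V1)) := by simp only [mul_assoc]
          _ = _ := by rw [hcomm]; simp only [mul_assoc]
      rw [← e]
      exact hT2

/-! ### closures -/

/-- `E_M`-strong closure -/
def NstNear (M : Set ℝ) (S : Set (H ≃ₗᵢ[ℂ] H)) (V : H ≃ₗᵢ[ℂ] H) : Prop :=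
  ∀ (F : Finset H) (ε : ℝ), 0 < ε → ∃ V' ∈ S, ∀ x ∈ F, ‖L.E M (V' x) - L.E M (V x)‖ < ε

omit [CompleteSpace H] in
lemma nst_near_net {M : Set ℝ} {S : Set (H ≃ₗᵢ[ℂ] H)} {V : H ≃ₗᵢ[ℂ] H} (h : L.NstNear M S V) :
    ∃ V' : (Finset H × ℕ) → (H ≃ₗᵢ[ℂ] H), (∀ i, V' i ∈ S) ∧
      ∀ x, Tendsto (fun i => L.E M (V' i x)) atTop (𝓝 (L.E M (V x))) := by
  have h1 : ∀ i : Finset H × ℕ, ∃ V' ∈ S, ∀ x ∈ i.1,
      ‖L.E M (V' x) - L.E M (V x)‖ < 1 / ((i.2 : ℝ) + 1) := fun i => h i.1 _ (by positivity)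
  choose V' hV' hx using h1
  refine ⟨V', hV', fun x => ?_⟩
  rw [Metric.tendsto_nhds]
  intro ε hε
  obtain ⟨n, hn⟩ := exists_nat_one_div_lt hε
  filter_upwards [eventually_ge_atTop (({x}, n) : Finset H × ℕ)] with i hi
  rw [dist_eq_norm]
  have h2 : x ∈ i.1 := hi.1 (by simp)
  have h3 : n ≤ i.2 := hi.2
  refine (hx i x h2).trans_le (le_trans ?_ hn.le)
  have h4 : (n : ℝ) ≤ (i.2 : ℝ) := by exact_mod_cast h3
  exact one_div_le_one_div_of_le (by positivity) (by linarith)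

omit [CompleteSpace H] in
lemma nst_net_near {ι : Type*} {l : Filter ι} [l.NeBot] {M : Set ℝ} {S : Set (H ≃ₗᵢ[ℂ] H)}
    {V : H ≃ₗᵢ[ℂ] H} {V' : ι → (H ≃ₗᵢ[ℂ] H)} (h1 : ∀ i, V' i ∈ S)
    (h2 : ∀ x, Tendsto (fun i => L.E M (V' i x)) l (𝓝 (L.E M (V x)))) : L.NstNear M S V := by
  intro F ε hε
  have h3 : ∀ x ∈ F, ∀ᶠ i in l, ‖L.E M (V' i x) - L.E M (V x)‖ < ε := by
    intro x _
    have := (tendsto_iff_norm_sub_tendsto_zero.1 (h2 x))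
    exact this.eventually (gt_mem_nhds hε)
  obtain ⟨i, hi⟩ := ((Filter.eventually_all_finset F).2 h3).exists
  exact ⟨V' i, h1 i, hi⟩

/-- states which are reachable up to a dressing -/
def NstApp (𝔅 : Set (H →L[ℂ] H)) (psi : H →L[ℂ] H)
    (Rch : Set ℝ → Set ℝ → (H ≃ₗᵢ[ℂ] H) → Prop) (M R : Set ℝ) : Set (H ≃ₗᵢ[ℂ] H) :=
  {V | NstCm 𝔅 V ∧ ∃ κ D, L.NstDress 𝔅 psi κ D ∧ Rch M R (D * V)}

/-- the reachability predicate of the next level -/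
def NstRp (G : Set ℝ) (𝔅 : Set (H →L[ℂ] H)) (psi : H →L[ℂ] H)
    (Rch : Set ℝ → Set ℝ → (H ≃ₗᵢ[ℂ] H) → Prop) (M R : Set ℝ) (V : H ≃ₗᵢ[ℂ] H) : Prop :=
  (MeasurableSet M ∧ MeasurableSet R ∧ Disjoint M R ∧ G ⊆ M) ∧ NstCm 𝔅 V ∧
  ∀ R', MeasurableSet R' → R' ⊆ R → L.mu (R \ R') ≠ 0 → L.NstNear M (L.NstApp 𝔅 psi Rch M R') V

lemma NstRp.op {G : Set ℝ} {𝔅 : Set (H →L[ℂ] H)} {psi : H →L[ℂ] H}
    {Rch : Set ℝ → Set ℝ → (H ≃ₗᵢ[ℂ] H) → Prop} {M R : Set ℝ} {V : H ≃ₗᵢ[ℂ] H}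
    (h : L.NstRp G 𝔅 psi Rch M R V) {Φ : (H ≃ₗᵢ[ℂ] H) → (H ≃ₗᵢ[ℂ] H)} (hV : NstCm 𝔅 (Φ V))
    (hS : ∀ R0 R', MeasurableSet R0 → MeasurableSet R' → R' ⊆ R0 → L.mu (R0 \ R') ≠ 0 →
      ∀ V1 ∈ L.NstApp 𝔅 psi Rch M R0, Φ V1 ∈ L.NstApp 𝔅 psi Rch M R')
    (hcont : ∀ V' : (Finset H × ℕ) → (H ≃ₗᵢ[ℂ] H), (∀ i, NstCm 𝔅 (V' i)) →
      (∀ x, Tendsto (fun i => L.E M (V' i x)) atTop (𝓝 (L.E M (V x)))) →
      ∀ x, Tendsto (fun i => L.E M (Φ (V' i) x)) atTop (𝓝 (L.E M (Φ V x)))) :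
    L.NstRp G 𝔅 psi Rch M R (Φ V) := by
  classical
  obtain ⟨hm, hc, hn⟩ := h
  refine ⟨hm, hV, fun R' h1 h2 h3 => ?_⟩
  obtain ⟨R0, hR0, h10, h02, hm1, hm2⟩ := L.nst_exists_mid hm.2.1 h1 h2 h3
  obtain ⟨V', hV', hx⟩ := L.nst_near_net (hn R0 hR0 h02 hm1)
  exact L.nst_net_near (V' := fun i => Φ (V' i)) (fun i => hS R0 R' hR0 h1 h10 hm2 _ (hV' i))
    (hcont V' (fun i => (hV' i).1) hx)

/-- left multiplication by a unitary -/
lemma NstRp.mulL {G : Set ℝ} {𝔅 : Set (H →L[ℂ] H)} {psi : H →L[ℂ] H} (hB : L.Ctl 𝔅)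
    {Rch : Set ℝ → Set ℝ → (H ≃ₗᵢ[ℂ] H) → Prop} {M R : Set ℝ} {V U : H ≃ₗᵢ[ℂ] H}
    (h : L.NstRp G 𝔅 psi Rch M R V) (hU : NstCm 𝔅 U)
    (hS : ∀ R0 R', MeasurableSet R0 → MeasurableSet R' → R' ⊆ R0 → L.mu (R0 \ R') ≠ 0 →
      ∀ V1 ∈ L.NstApp 𝔅 psi Rch M R0, U * V1 ∈ L.NstApp 𝔅 psi Rch M R') :
    L.NstRp G 𝔅 psi Rch M R (U * V) := by
  refine h.op L (Φ := fun V => U * V) (hU.mul h.2.1) hS fun V' _ hx x => ?_
  have hE : ∀ y, L.E M (U y) = U (L.E M y) := hU _ (hB.nst_E_mem h.1.1)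
  have h1 := (U.continuous.tendsto _).comp (hx x)
  rw [← hE] at h1
  exact h1.congr fun i => (hE _).symm

/-! ### closure properties of the new predicate -/

section closed

variable {G : Set ℝ} {𝔄 𝔅 : Set (H →L[ℂ] H)} {psi : H →L[ℂ] H}
  {Rch : Set ℝ → Set ℝ → (H ≃ₗᵢ[ℂ] H) → Prop}

lemma nst_rp_lim {M R : Set ℝ} {V : ℕ → (H ≃ₗᵢ[ℂ] H)} {V0 : H ≃ₗᵢ[ℂ] H}
    (h : ∀ n, L.NstRp G 𝔅 psi Rch M R (V n)) (h0 : NstCm 𝔅 V0)
    (hx : ∀ x, Tendsto (fun n => L.E M (V n x)) atTop (𝓝 (L.E M (V0 x)))) :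
    L.NstRp G 𝔅 psi Rch M R V0 := by
  refine ⟨(h 0).1, h0, fun R' h1 h2 h3 F ε hε => ?_⟩
  have h4 : ∀ x ∈ F, ∀ᶠ n in atTop, ‖L.E M (V n x) - L.E M (V0 x)‖ < ε / 2 := by
    intro x _
    exact (tendsto_iff_norm_sub_tendsto_zero.1 (hx x)).eventually (gt_mem_nhds (half_pos hε))
  obtain ⟨n, hn⟩ := ((Filter.eventually_all_finset F).2 h4).exists
  obtain ⟨V', hV', h5⟩ := (h n).2.2 R' h1 h2 h3 F (ε / 2) (half_pos hε)
  refine ⟨V', hV', fun x hxF => ?_⟩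
  calc ‖L.E M (V' x) - L.E M (V0 x)‖ ≤ ‖L.E M (V' x) - L.E M (V n x)‖
        + ‖L.E M (V n x) - L.E M (V0 x)‖ := norm_sub_le_norm_sub_add_norm_sub _ _ _
    _ < ε := by linarith [h5 x hxF, hn x hxF]

lemma nst_rp_mono {M R R' : Set ℝ} {V : H ≃ₗᵢ[ℂ] H} (h : L.NstRp G 𝔅 psi Rch M R V)
    (hR' : MeasurableSet R') (hs : R' ⊆ R) : L.NstRp G 𝔅 psi Rch M R' V := by
  refine ⟨⟨h.1.1, hR', h.1.2.2.1.mono_right hs, h.1.2.2.2⟩, h.2.1, fun R'' h1 h2 h3 => ?_⟩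
  refine h.2.2 R'' h1 (h2.trans hs) fun h4 => h3 ?_
  exact measure_mono_null (Set.sdiff_subset_sdiff_left hs) h4

lemma nst_rp_shrink (hR : L.Closed G 𝔄 Rch) {M M' R : Set ℝ} {V : H ≃ₗᵢ[ℂ] H}
    (h : L.NstRp G 𝔅 psi Rch M R V) (hM' : MeasurableSet M') (hs : M' ⊆ M) (hG : G ⊆ M') :
    L.NstRp G 𝔅 psi Rch M' R V := by
  refine ⟨⟨hM', h.1.2.1, h.1.2.2.1.mono_left hs, hG⟩, h.2.1, fun R' h1 h2 h3 F ε hε => ?_⟩
  obtain ⟨V', ⟨hV', κ, D, hD, hr⟩, hx⟩ := h.2.2 R' h1 h2 h3 F ε hε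
  refine ⟨V', ⟨hV', κ, D, hD, hR.shrink _ _ _ _ hr hM' hs hG⟩, fun x hxF => ?_⟩
  refine lt_of_le_of_lt ?_ (hx x hxF)
  rw [← map_sub, ← map_sub, ← L.nst_E_sub hM' h.1.1 hs]
  exact L.nst_norm_E_le hM' _

lemma nst_rp_act (hB : L.Ctl 𝔅) (hAB : 𝔄 ⊆ 𝔅) (hR : L.Closed G 𝔄 Rch) (hGm : MeasurableSet G)
    (hp : psi ∈ 𝔅) (hpG : psi * L.E G = psi) {M R R0 : Set ℝ} {V V' : H ≃ₗᵢ[ℂ] H}
    (h : L.NstRp G 𝔅 psi Rch M R V) (hR0 : MeasurableSet R0) (hs : R0 ⊆ R)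
    (hV' : NstCm 𝔅 V') (h1 : ∀ x, L.E M (V' x) = L.E M (V x))
    (h2 : ∀ x, L.E R0 (V' x) = L.E R0 x) : L.NstRp G 𝔅 psi Rch (M ∪ R0) (R \ R0) V' := by
  obtain ⟨⟨hM, hRm, hMR, hGM⟩, hV, hn⟩ := h
  have hMR0 : Disjoint M R0 := hMR.mono_right hs
  have hpM : psi * L.E M = psi := by
    have : L.E G * L.E M = L.E G := by rw [L.nst_E_mul hGm hM, Set.inter_eq_left.2 hGM]
    rw [← hpG, mul_assoc, this]
  refine ⟨⟨hM.union hR0, hRm.diff hR0, ?_, hGM.trans Set.subset_union_left⟩, hV',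
    fun R'' g1 g2 g3 F ε hε => ?_⟩
  · exact Set.disjoint_union_left.2 ⟨hMR.mono_right Set.sdiff_subset, Set.disjoint_sdiff_right⟩
  · have e1 : R \ (R'' ∪ R0) = (R \ R0) \ R'' := by
      ext t; simp only [Set.mem_sdiff, Set.mem_union]; tauto
    have e2 : (R'' ∪ R0) \ R0 = R'' := by
      ext t
      simp only [Set.mem_sdiff, Set.mem_union]
      constructor
      · rintro ⟨h3 | h3, h4⟩
        · exact h3
        · exact absurd h3 h4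
      · intro h3; exact ⟨Or.inl h3, (g2 h3).2⟩
    obtain ⟨V1, ⟨hV1, κ, D, hD, hr⟩, hx⟩ := hn (R'' ∪ R0) (g1.union hR0)
      (Set.union_subset (g2.trans Set.sdiff_subset) hs) (by rw [e1]; exact g3) F ε hε
    have hEV1 : ∀ x, L.E M (V1 x) = V1 (L.E M x) := hV1 _ (hB.nst_E_mem hM)
    have hED : ∀ x, L.E M (D x) = D (L.E M x) := hD.cm _ (hB.nst_E_mem hM)
    have hcmb : ∀ {U : H ≃ₗᵢ[ℂ] H} (hU : NstCm 𝔅 U) (hE : ∀ x, L.E M (U x) = U (L.E M x)),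
        NstCm 𝔅 (L.nst_blk hM hE) := by
      intro U hU hE a ha x
      rw [nst_blk_apply, nst_blk_apply, map_add, map_sub, hU a ha, hB.nst_comm_apply ha (hB.nst_E_mem hM)]
    refine ⟨L.nst_blk hM hEV1, ⟨hcmb hV1 _, κ, L.nst_blk hM hED, hD.blkD hB hM hpM hp, ?_⟩,
      fun x hxF => ?_⟩
    · have h3 := hR.act M (R'' ∪ R0) R0 (D * V1) (L.nst_blk hM hED * L.nst_blk hM hEV1) hr hR0
        Set.subset_union_right (((hcmb hD.cm _).mul (hcmb hV1 _)).mono hAB) (fun x => ?_)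
        (fun x => ?_)
      · rwa [e2] at h3
      · rw [Sys.mulA, Sys.mulA, nst_blk_apply, nst_blk_apply]
        simp only [map_add, map_sub, hEV1, hED, L.nst_E_idem hM]
        abel
      · have k1 : ∀ {U : H ≃ₗᵢ[ℂ] H} (hE : ∀ x, L.E M (U x) = U (L.E M x)) (y : H),
            L.E R0 (L.nst_blk hM hE y) = L.E R0 y := by
          intro U hE y
          rw [nst_blk_apply, map_add, map_sub, ← hE, L.nst_E_disj hR0 hM hMR0.symm,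
            L.nst_E_disj hR0 hM hMR0.symm]
          abel
        rw [Sys.mulA, k1, k1]
    · have k2 : ∀ y, L.E (M ∪ R0) y = L.E M y + L.E R0 y := by
        intro y; rw [← L.nst_E_add hM hR0 hMR0]; rfl
      have k1 : L.E R0 (L.nst_blk hM hEV1 x) = L.E R0 x := by
        rw [nst_blk_apply, map_add, map_sub, ← hEV1, L.nst_E_disj hR0 hM hMR0.symm,
          L.nst_E_disj hR0 hM hMR0.symm]
        abel
      have k3 : L.E M (L.nst_blk hM hEV1 x) = L.E M (V1 x) := by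
        rw [nst_blk_apply]
        simp only [map_add, map_sub, hEV1, L.nst_E_idem hM]
        abel
      rw [k2, k2, k1, h2, h1, k3, add_sub_add_right_eq_sub]
      exact hx x hxF

end closed

end LSys

end Vale.Agent.P367.A
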