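import Vale.Agent.P367.B.Nest4

/-! P367, block B, level step: the gates for the new predicate. -/

namespace Vale.Agent.P367.A

open Complex Filter Topology MeasureTheory

namespace LSys

variable {H K : Type*} [NormedAddCommGroup H] [InnerProductSpace ℂ H]
  [NormedAddCommGroup K] [InnerProductSpace ℂ K] (L : LSys H K) [CompleteSpace H]

section gates

variable {G : Set ℝ} {𝔄 𝔅 : Set (H →L[ℂ] H)} {psi : H →L[ℂ] H}
  {Rch : Set ℝ → Set ℝ → (H ≃ₗᵢ[ℂ] H) → Prop}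

lemma nst_isRot_ep {a : H →L[ℂ] H} {P : Fin 3} {U : H ≃ₗᵢ[ℂ] H} (h : L.IsRot a P U) (x : H) :
    U x = nst_ep 1 (a * nst_cl (L.pau P)) x := by
  rw [h x]
  unfold nst_ep
  simp

/-- a rotation by a control commutes with the controls -/
lemma nst_rot_CmA (hB : L.Ctl 𝔅) {a : H →L[ℂ] H} (ha : a ∈ 𝔅) {P : Fin 3} {U : H ≃ₗᵢ[ℂ] H}
    (h : L.IsRot a P U) : NstCm 𝔅 U := by
  intro b hb x
  rw [L.nst_isRot_ep h, L.nst_isRot_ep h]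
  have h1 : Commute (a * nst_cl (L.pau P)) b := by
    ext y
    change a (L.pau P (b y)) = b (a (L.pau P y))
    rw [← hB.nst_pauC hb, hB.nst_comm_apply ha hb]
  exact (DFunLike.congr_fun (nst_ep_comm h1 1) x).symm

/-- a rotation by a control commutes with dressings -/
lemma nst_rot_dress {a : H →L[ℂ] H} (ha : a ∈ 𝔅) {P : Fin 3} {U : H ≃ₗᵢ[ℂ] H}
    (h : L.IsRot a P U) {κ : K → ℝ} {D : H ≃ₗᵢ[ℂ] H} (hD : L.NstDress 𝔅 psi κ D) :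
    U * D = D * U := by
  ext x
  rw [Sys.mulA, Sys.mulA, L.nst_isRot_ep h, L.nst_isRot_ep h]
  refine nst_ep_V (fun y => ?_) 1 x
  change a (L.pau P (D y)) = D (a (L.pau P y))
  rw [← hD.pau, hD.cm a ha]

lemma nst_rp_rotl (hB : L.Ctl 𝔅) (hR : L.Closed G 𝔄 Rch) {M R : Set ℝ} {V : H ≃ₗᵢ[ℂ] H}
    (h : L.NstRp G 𝔅 psi Rch M R V) {f : ℝ → ℂ} {P : Fin 3} {U : H ≃ₗᵢ[ℂ] H} (hf : Bm f)
    (hr : ∀ t, (f t).im = 0) (hs : ∀ t, t ∉ M → f t = 0) (hU : L.IsRot (L.lab f) P U) :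
    L.NstRp G 𝔅 psi Rch M R (U * V) := by
  refine h.mulL L hB (L.nst_rot_CmA hB (hB.lab f hf) hU) ?_
  rintro R0 R' - h2 h3 - V1 ⟨hV1, κ, D, hD, hc⟩
  refine ⟨(L.nst_rot_CmA hB (hB.lab f hf) hU).mul hV1, κ, D, hD, ?_⟩
  have h4 := hR.mono _ _ _ _ (hR.rotl _ _ _ f P U hc hf hr hs hU) h2 h3
  rwa [← mul_assoc, L.nst_rot_dress (hB.lab f hf) hU hD, mul_assoc] at h4

lemma nst_rp_rotA (hB : L.Ctl 𝔅) (hAB : 𝔄 ⊆ 𝔅) (hR : L.Closed G 𝔄 Rch) {M R : Set ℝ}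
    {V : H ≃ₗᵢ[ℂ] H} (h : L.NstRp G 𝔅 psi Rch M R V) {a : H →L[ℂ] H} {P : Fin 3} {U : H ≃ₗᵢ[ℂ] H}
    (ha : a ∈ 𝔄) (hs : Sa a) (hG : a * L.E G = a) (hU : L.IsRot a P U) :
    L.NstRp G 𝔅 psi Rch M R (U * V) := by
  refine h.mulL L hB (L.nst_rot_CmA hB (hAB ha) hU) ?_
  rintro R0 R' - h2 h3 - V1 ⟨hV1, κ, D, hD, hc⟩
  refine ⟨(L.nst_rot_CmA hB (hAB ha) hU).mul hV1, κ, D, hD, ?_⟩
  have h4 := hR.mono _ _ _ _ (hR.rot _ _ _ a P U hc ha hs hG hU) h2 h3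
  rwa [← mul_assoc, L.nst_rot_dress (hAB ha) hU hD, mul_assoc] at h4

lemma nst_rp_ph (hB : L.Ctl 𝔅) (hp : psi ∈ 𝔅) (hR : L.Closed G 𝔄 Rch) {M R : Set ℝ}
    {V : H ≃ₗᵢ[ℂ] H} (h : L.NstRp G 𝔅 psi Rch M R V) {a : H →L[ℂ] H} {U : H ≃ₗᵢ[ℂ] H}
    (ha : a ∈ 𝔅) (hs : Sa a) (hU : IsPh a U) : L.NstRp G 𝔅 psi Rch M R (U * V) := by
  have hU1 : U = nst_epU 1 hs := by
    ext x
    rw [nst_isPh_iff.1 hU x, nst_epU_apply]
  have hc1 : NstCm 𝔅 U := by rw [hU1]; exact (NstDress.phase hB ha hs 1 psi).cm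
  refine h.mulL L hB hc1 ?_
  rintro R0 R' - h2 h3 - V1 ⟨hV1, κ, D, hD, hc⟩
  refine ⟨hc1.mul hV1, _, D * nst_epU (-1) hs, hD.mul_k (NstDress.phase hB ha hs (-1) psi) hp, ?_⟩
  have h4 : D * nst_epU (-1) hs * (U * V1) = D * V1 := by
    rw [hU1]
    ext x
    simp only [Sys.mulA, nst_epU_apply]
    have h5 : nst_ep (-1) a (nst_ep 1 a (V1 x)) = V1 x := DFunLike.congr_fun (nst_ep_neg_mul 1 a) (V1 x)
    rw [h5]
  rw [h4]
  exact hR.mono _ _ _ _ hc h2 h3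

omit [CompleteSpace H] in
/-- fields of a state commuting with `𝔅` -/
lemma nst_fv_W (hB : L.Ctl 𝔅) {V : H ≃ₗᵢ[ℂ] H} (hV : NstCm 𝔅 V) (P : Fin 3) {b : Set ℝ}
    (hb : MeasurableSet b) (c : ℝ) (a : H →L[ℂ] H) (ha : a ∈ 𝔅) (x : H) :
    a (L.W ((c : ℂ) • L.fv (L.pau P) b V) x) = L.W ((c : ℂ) • L.fv (L.pau P) b V) (a x) :=
  hB.nst_W_smul ha (L.nst_obs_sa hb (hV _ (hB.nst_E_mem hb))) (L.nst_obs_comm hB hb hV) c x

omit [CompleteSpace H] in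
lemma nst_fv_W' (hB : L.Ctl 𝔅) {V : H ≃ₗᵢ[ℂ] H} (hV : NstCm 𝔅 V) (P : Fin 3) {b : Set ℝ}
    (hb : MeasurableSet b) (c : ℝ) (a : H →L[ℂ] H) (ha : a ∈ 𝔅) (x : H) :
    a (L.W (-((c : ℂ) • L.fv (L.pau P) b V)) x)
      = L.W (-((c : ℂ) • L.fv (L.pau P) b V)) (a x) := by
  have := L.nst_fv_W hB hV P hb (-c) a ha x
  rwa [ofReal_neg, neg_smul] at this

omit [CompleteSpace H] in
lemma nst_coupU_CmA (hB : L.Ctl 𝔅) {V : H ≃ₗᵢ[ℂ] H} (hV : NstCm 𝔅 V) {A B : Set ℝ}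
    (hA : MeasurableSet A) (hBm : MeasurableSet B) (hAB : Disjoint A B) (P Q : Fin 3) (c : ℝ) :
    NstCm 𝔅 (L.nst_coupU hA hBm P Q c V) := by
  intro a ha x
  have k : ∀ (P Q : Fin 3) {b : Set ℝ} (hb : MeasurableSet b) (y : H),
      a (L.pw (L.pau P) ((c : ℂ) • L.fv (L.pau Q) b V) y)
        = L.pw (L.pau P) ((c : ℂ) • L.fv (L.pau Q) b V) (a y) := fun P Q b hb y =>
    L.nst_comm_pw (map_add _) (map_sub _) (fun c x => map_smul _ c x) (hB.nst_pauC ha P)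
      (L.nst_fv_W hB hV Q hb c a ha) (L.nst_fv_W' hB hV Q hb c a ha) y
  rw [L.nst_coupU_isCoup hA hBm hAB P Q c V x, L.nst_coupU_isCoup hA hBm hAB P Q c V (a x), map_add,
    map_add, map_sub, map_sub, k P Q hBm, k Q P hA, hB.nst_comm_apply ha (hB.nst_E_mem hA),
    hB.nst_comm_apply ha (hB.nst_E_mem hBm)]

lemma nst_isRot_epU {A : Set ℝ} (P : Fin 3) (t : ℝ) (hs : Sa (psi * L.E A * nst_cl (L.pau P))) :
    L.IsRot ((t : ℂ) • (psi * L.E A)) P (nst_epU t hs) := by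
  intro x
  rw [nst_epU_apply]
  unfold nst_ep
  rw [smul_mul_assoc, smul_smul, neg_mul]

lemma nst_rp_coup (hA : L.Ctl 𝔄) (hB : L.Ctl 𝔅) (hAB : 𝔄 ⊆ 𝔅) (hR : L.Closed G 𝔄 Rch)
    (hG : MeasurableSet G) (hp : psi ∈ 𝔄) (hps : Sa psi) (hpG : psi * L.E G = psi)
    {M R : Set ℝ} {V : H ≃ₗᵢ[ℂ] H} (h : L.NstRp G 𝔅 psi Rch M R V) {A B : Set ℝ} {P Q : Fin 3}
    {c : ℝ} {U : H ≃ₗᵢ[ℂ] H} (hAm : MeasurableSet A) (hBm : MeasurableSet B) (hAM : A ⊆ M)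
    (hBM : B ⊆ M) (hd : Disjoint A B) (hU : L.IsCoup A B P Q c V U) :
    L.NstRp G 𝔅 psi Rch M R (U * V) := by
  have hU1 : U = L.nst_coupU hAm hBm P Q c V :=
    L.nst_isCoup_unique hU (L.nst_coupU_isCoup hAm hBm hd P Q c V)
  rw [hU1]
  have hM : MeasurableSet M := h.1.1
  refine h.op L (Φ := fun V => L.nst_coupU hAm hBm P Q c V * V)
    ((L.nst_coupU_CmA hB h.2.1 hAm hBm hd P Q c).mul h.2.1) ?_ ?_
  · rintro R0 R' - h2 h3 - V1 ⟨hV1, κ, D, hD, hc⟩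
    refine ⟨(L.nst_coupU_CmA hB hV1 hAm hBm hd P Q c).mul hV1, κ, D, hD, ?_⟩
    refine hR.mono _ _ _ _ ?_ h2 h3
    -- coupling at the base level
    have hic : L.IsCoup A B P Q c (D * V1) (L.nst_coupU hAm hBm P Q c V1) := by
      unfold IsCoup
      rw [L.nst_fv_mul (fun x => hD.pau Q x), L.nst_fv_mul (fun x => hD.pau P x)]
      exact L.nst_coupU_isCoup hAm hBm hd P Q c V1
    have c1 := hR.coup _ _ _ A B P Q c _ hc hAm hBm hAM hBM hd hic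
    -- compensating rotations
    have hsa : ∀ (S : Set ℝ) (_ : MeasurableSet S) (P : Fin 3),
        Sa (psi * L.E S * nst_cl (L.pau P)) := by
      intro S hS P
      have s1 : Sa (psi * L.E S) := hps.nst_mul (L.nst_E_sa hS) (hA.comm _ _ hp (hA.nst_E_mem hS))
      refine s1.nst_mul (L.nst_inner_pau P) ?_
      ext y
      change psi (L.E S (L.pau P y)) = L.pau P (psi (L.E S y))
      rw [L.nst_E_pau, hA.nst_pauC hp]
    have hmem : ∀ (S : Set ℝ) (_ : MeasurableSet S) (t : ℝ),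
        (t : ℂ) • (psi * L.E S) ∈ 𝔄 ∧ Sa ((t : ℂ) • (psi * L.E S)) ∧
          (t : ℂ) • (psi * L.E S) * L.E G = (t : ℂ) • (psi * L.E S) := by
      intro S hS t
      refine ⟨hA.nst_smul_mem _ (hA.mul _ _ hp (hA.nst_E_mem hS)),
        (hps.nst_mul (L.nst_E_sa hS) (hA.comm _ _ hp (hA.nst_E_mem hS))).nst_smul t, ?_⟩
      rw [smul_mul_assoc, mul_assoc, hA.comm _ _ (hA.nst_E_mem hS) (hA.nst_E_mem hG), ← mul_assoc, hpG]
    set v := (c : ℂ) • L.fv (L.pau Q) B V1 with hv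
    set w := (c : ℂ) • L.fv (L.pau P) A V1 with hw
    have c2 := hR.rot _ _ _ _ Q _ c1 (hmem B hBm (κ w)).1 (hmem B hBm (κ w)).2.1
      (hmem B hBm (κ w)).2.2 (L.nst_isRot_epU Q (κ w) (hsa B hBm Q))
    have c3 := hR.rot _ _ _ _ P _ c2 (hmem A hAm (κ v)).1 (hmem A hAm (κ v)).2.1
      (hmem A hAm (κ v)).2.2 (L.nst_isRot_epU P (κ v) (hsa A hAm P))
    convert c3 using 1
    ext x
    simp only [Sys.mulA, nst_epU_apply]
    exact (L.nst_coup_dress hB (hAB hp) hD hAm hBm hd P Q (L.nst_fv_W hB hV1 Q hBm c)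
      (L.nst_fv_W' hB hV1 Q hBm c) (L.nst_fv_W hB hV1 P hAm c) (L.nst_fv_W' hB hV1 P hAm c)
      (L.nst_coupU_isCoup hAm hBm hd P Q c V1) (V1 x)).symm
  · intro V' hV' hx x
    have hEV' : ∀ i y, L.E M (V' i y) = V' i (L.E M y) := fun i y => hV' i _ (hB.nst_E_mem hM) y
    have key : ∀ W : H ≃ₗᵢ[ℂ] H, L.E M ((L.nst_coupU hAm hBm P Q c W * W) x)
        = L.pw (L.pau P) ((c : ℂ) • L.fv (L.pau Q) B W) (L.E A (W x))
          + L.pw (L.pau Q) ((c : ℂ) • L.fv (L.pau P) A W) (L.E B (W x))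
          + (L.E M (W x) - L.E A (W x) - L.E B (W x)) := by
      intro W
      rw [Sys.mulA, L.nst_coupU_isCoup hAm hBm hd P Q c W]
      simp only [map_add, map_sub, L.nst_E_pw, L.nst_E_sub' hAm hM hAM, L.nst_E_sub' hBm hM hBM]
    have hfv : ∀ (P : Fin 3) {b : Set ℝ} (_ : MeasurableSet b) (_ : b ⊆ M),
        Tendsto (fun i => (c : ℂ) • L.fv (L.pau P) b (V' i)) atTop
          (𝓝 ((c : ℂ) • L.fv (L.pau P) b V)) := by
      intro P b hb hbM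
      refine Tendsto.const_smul ?_ _
      have h1 := L.nst_conv_obs hEV' hx (L.pau P) (L.nst_E_pau M P) L.Om
      have h2 := (L.iota.continuous.tendsto _).comp (((L.E b).continuous.tendsto _).comp h1)
      rw [L.nst_E_sub hb hM hbM] at h2
      refine h2.congr fun i => ?_
      change L.iota (L.E b (L.E M _)) = _
      rw [L.nst_E_sub hb hM hbM]
      rfl
    have e0 := key V
    change Tendsto (fun i => L.E M ((L.nst_coupU hAm hBm P Q c (V' i) * V' i) x)) atTop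
      (𝓝 (L.E M ((L.nst_coupU hAm hBm P Q c V * V) x)))
    rw [e0]
    simp only [key]
    have hxA := L.nst_conv_sub hM hx hAm hAM x
    have hxB := L.nst_conv_sub hM hx hBm hBM x
    exact ((L.nst_tendsto_pw P (hfv Q hBm hBM) hxA).add (L.nst_tendsto_pw Q (hfv P hAm hAM) hxB)).add
      (((hx x).sub hxA).sub hxB)

lemma nst_rp_zrG (hA : L.Ctl 𝔄) (hB : L.Ctl 𝔅) (hAB : 𝔄 ⊆ 𝔅) (hR : L.Closed G 𝔄 Rch)
    (hT : L.HasT2 G 𝔄 Rch) (hG : MeasurableSet G) {n : ℕ} {sg : Fin n → (H →L[ℂ] H)}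
    {c : Fin n → ℝ} (hsg : ∀ i, L.Sgn G 𝔄 (sg i)) (hpsi : psi = ∑ i, (c i : ℂ) • sg i)
    (hmem : ∀ t : ℝ, nst_cl (L.W ((t : ℂ) • L.iota (psi L.Om))) ∈ 𝔅)
    {M R : Set ℝ} {V : H ≃ₗᵢ[ℂ] H} (h : L.NstRp G 𝔅 psi Rch M R V) (s : ℝ) :
    L.NstRp G 𝔅 psi Rch M R (L.nst_NG hG ((s : ℂ) • L.iota (psi L.Om)) * V) := by
  have hpA : psi ∈ 𝔄 := by
    rw [hpsi]; exact hA.nst_sum_mem _ _ fun j _ => hA.nst_smul_mem _ (hsg j).1
  have hps : Sa psi := by rw [hpsi]; exact nst_sum_sa c (fun j => (hsg j).2.1) _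
  set y := L.iota (psi L.Om) with hy
  have hW : ∀ a ∈ 𝔅, ∀ (t : ℝ) x, a (L.W ((t : ℂ) • y) x) = L.W ((t : ℂ) • y) (a x) :=
    fun a ha t x => hB.nst_comm_apply ha (hmem t) x
  have hneg : ∀ t : ℝ, -((t : ℂ) • y) = (((-t : ℝ) : ℂ)) • y := by
    intro t; push_cast; rw [neg_smul]
  have hN : NstCm 𝔅 (L.nst_NG hG ((s : ℂ) • y)) := by
    intro a ha x
    rw [nst_NG_apply, nst_NG_apply, map_add, map_sub, hB.nst_comm_apply ha (hB.nst_E_mem hG)]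
    congr 1
    rw [← hB.nst_comm_apply ha (hB.nst_E_mem hG) x]
    exact L.nst_comm_pw (P := 2) (map_add _) (map_sub _) (fun c x => map_smul _ c x) (hB.Z a ha)
      (hW a ha s) (by rw [hneg]; exact hW a ha (-s)) _
  have hND : ∀ {κ : K → ℝ} {D : H ≃ₗᵢ[ℂ] H} {p : H →L[ℂ] H}, L.NstDress 𝔅 p κ D →
      L.nst_NG hG ((s : ℂ) • y) * D = D * L.nst_NG hG ((s : ℂ) • y) := by
    intro κ D p hD
    have hDW : ∀ (t : ℝ) x, D (L.W ((t : ℂ) • y) x) = L.W ((t : ℂ) • y) (D x) :=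
      fun t x => (hD.cm _ (hmem t) x).symm
    refine (L.nst_NG_comm hG (fun x => (hD.cm _ (hB.nst_E_mem hG) x).symm) hD.Z (hDW s) ?_).symm
    rw [hneg]; exact hDW (-s)
  refine h.mulL L hB hN ?_
  rintro R0 R' h1 h2 h3 h4 V1 ⟨hV1, κ, D, hD, hc⟩
  obtain ⟨D2, hD2, hrec⟩ := L.nst_t2_all hG hA hB hAB hR hT (c := c) hsg s hV1 hD.Z hc Finset.univ
  rw [← hpsi] at hD2 hrec
  refine ⟨hN.mul hV1, _, D2 * D, hD2.mul_k hD (hAB hpA), ?_⟩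
  have h5 := hrec R' h2 h3 h4
  have e : L.nst_NG hG ((s : ℂ) • y) * (D2 * (D * V1)) = D2 * D * (L.nst_NG hG ((s : ℂ) • y) * V1) := by
    calc L.nst_NG hG ((s : ℂ) • y) * (D2 * (D * V1))
        = (L.nst_NG hG ((s : ℂ) • y) * D2) * D * V1 := by simp only [mul_assoc]
      _ = D2 * (L.nst_NG hG ((s : ℂ) • y) * D) * V1 := by rw [hND hD2]; simp only [mul_assoc]
      _ = _ := by rw [hND hD]; simp only [mul_assoc]
  rwa [← e]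

lemma nst_rp_start (hR : L.Closed G 𝔄 Rch) {M R : Set ℝ} {V : H ≃ₗᵢ[ℂ] H} (h : Rch M R V)
    (hV : NstCm 𝔅 V) : L.NstRp G 𝔅 psi Rch M R V := by
  refine ⟨hR.meas _ _ _ h, hV, fun R' h1 h2 _ F ε hε => ⟨V, ⟨hV, _, 1, NstDress.one 𝔅 psi, ?_⟩,
    fun x _ => ?_⟩⟩
  · rw [one_mul]
    exact hR.mono _ _ _ _ h h1 h2
  · rw [sub_self, norm_zero]; exact hε

lemma nst_rp_exit (hB : L.Ctl 𝔅) {M R R' : Set ℝ} {V : H ≃ₗᵢ[ℂ] H}
    (h : L.NstRp G 𝔅 psi Rch M R V) (h1 : MeasurableSet R') (h2 : R' ⊆ R)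
    (h3 : L.mu (R \ R') ≠ 0) {ε : ℝ} (hε : 0 < ε) :
    ∃ U, Rch M R' U ∧ ‖L.E M (L.xv U) - L.E M (L.xv V)‖ < ε := by
  classical
  have hM := h.1.1
  obtain ⟨V', hV', hx⟩ := L.nst_near_net (h.2.2 R' h1 h2 h3)
  have hEV' : ∀ i y, L.E M (V' i y) = V' i (L.E M y) :=
    fun i y => (hV' i).1 _ (hB.nst_E_mem hM) y
  have h4 := L.nst_conv_obs hEV' hx L.Z (L.nst_E_Z M) L.Om
  have h5 := (tendsto_iff_norm_sub_tendsto_zero.1 h4).eventually (gt_mem_nhds hε)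
  obtain ⟨i, hi⟩ := h5.exists
  obtain ⟨_, κ, D, hD, hr⟩ := hV' i
  refine ⟨D * V' i, hr, ?_⟩
  have e : L.xv (D * V' i) = (V' i)⁻¹ (L.Z (V' i L.Om)) := by
    rw [Sys.xv, Sys.mulA, ← hD.Z, mul_inv_rev, Sys.mulA, Sys.invA]
  rw [e]
  exact hi

end gates

end LSys

end Vale.Agent.P367.A
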