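import Vale.Agent.P367.A.Nice

/-! P367 block B, (RP): the reserve does not move.  `ep P v = exp(-i P phi(v))` for a partial
reflection `P` commuting with the Weyl operators. -/

namespace Vale.Agent.P367.B.RP

open Complex Vale.Agent.P367.A

variable {H K : Type*} [NormedAddCommGroup H] [InnerProductSpace ℂ H]
  [NormedAddCommGroup K] [InnerProductSpace ℂ K] (S : Sys H K)

/-- partial reflections commuting with the Weyl operators -/
structure PR (P : H →ₗ[ℂ] H) : Prop where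
  cube : ∀ x, P (P (P x)) = P x
  nrm : ∀ x, ‖P x‖ ≤ ‖x‖
  comm : ∀ a x, P (S.W a x) = S.W a (P x)

/-- `exp(-i P phi(v))` -/
noncomputable def ep (P : H →ₗ[ℂ] H) (v : K) (x : H) : H :=
  (x - P (P x)) + (1 / 2 : ℂ) • P (P (S.W (-v) x + S.W v x))
    + (1 / 2 : ℂ) • P (S.W (-v) x - S.W v x)

variable {S}

lemma PR.one {P : H →ₗ[ℂ] H} (hP : PR S P) {d : ℝ} {y : H} (h : ∀ a, ‖S.W a y - y‖ ≤ d * ‖a‖)
    (a : K) : ‖S.W a (P y) - P y‖ ≤ d * ‖a‖ := by
  rw [← hP.comm, ← map_sub]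
  exact (hP.nrm _).trans (h a)

lemma PR.nice {P : H →ₗ[ℂ] H} (hP : PR S P) {c : ℝ} {x : H} (hx : S.Nice c x) :
    S.Nice c (P x) where
  m0 := (hP.nrm x).trans hx.m0
  m1 := hP.one hx.m1
  m2 a b := by
    have e : S.W a (S.W b (P x) - P x) - (S.W b (P x) - P x)
        = P (S.W a (S.W b x - x) - (S.W b x - x)) := by
      simp only [map_sub, hP.comm]
    rw [e]
    exact (hP.nrm _).trans (hx.m2 a b)

lemma ep_sub {P : H →ₗ[ℂ] H} (v : K) (x : H) : ep S P v x - x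
    = (1 / 2 : ℂ) • P (P ((S.W (-v) x - x) + (S.W v x - x)))
      + (1 / 2 : ℂ) • P ((S.W (-v) x - x) - (S.W v x - x)) := by
  unfold ep
  simp only [map_add, map_sub]
  module

lemma PR.ep_sub_le {P : H →ₗ[ℂ] H} (hP : PR S P) (v : K) {y : H} {d : ℝ}
    (h : ∀ a, ‖S.W a y - y‖ ≤ d * ‖a‖) : ‖ep S P v y - y‖ ≤ 2 * d * ‖v‖ := by
  rw [ep_sub]
  have h1 := h (-v)
  have h2 := h v
  rw [norm_neg] at h1
  refine (norm_add_le _ _).trans ?_
  rw [norm_smul, norm_smul]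
  have k1 := ((hP.nrm _).trans (hP.nrm _)).trans (norm_add_le (S.W (-v) y - y) (S.W v y - y))
  have k2 := (hP.nrm _).trans (norm_sub_le (S.W (-v) y - y) (S.W v y - y))
  have k3 : ‖(1 / 2 : ℂ)‖ = 1 / 2 := by norm_num
  rw [k3]
  linarith

/-- two pulses minus one: second order -/
lemma PR.ep_ep_sub {P P' : H →ₗ[ℂ] H} (hP : PR S P) (hP' : PR S P') {c : ℝ} {x : H}
    (hx : S.Nice c x) (v v' : K) :
    ‖ep S P v (ep S P' v' x - x) - (ep S P' v' x - x)‖ ≤ 4 * c * ‖v‖ * ‖v'‖ := by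
  have key : ∀ a, ‖S.W a (ep S P' v' x - x) - (ep S P' v' x - x)‖ ≤ (2 * c * ‖v'‖) * ‖a‖ := by
    intro a
    rw [ep_sub v' x]
    have h1 := hx.m2 a (-v')
    have h2 := hx.m2 a v'
    rw [norm_neg] at h1
    have e : S.W a ((1 / 2 : ℂ) • P' (P' ((S.W (-v') x - x) + (S.W v' x - x)))
        + (1 / 2 : ℂ) • P' ((S.W (-v') x - x) - (S.W v' x - x)))
        - ((1 / 2 : ℂ) • P' (P' ((S.W (-v') x - x) + (S.W v' x - x)))
        + (1 / 2 : ℂ) • P' ((S.W (-v') x - x) - (S.W v' x - x)))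
        = (1 / 2 : ℂ) • P' (P' ((S.W a (S.W (-v') x - x) - (S.W (-v') x - x))
            + (S.W a (S.W v' x - x) - (S.W v' x - x))))
          + (1 / 2 : ℂ) • P' ((S.W a (S.W (-v') x - x) - (S.W (-v') x - x))
            - (S.W a (S.W v' x - x) - (S.W v' x - x))) := by
      simp only [map_add, map_sub, map_smul, hP'.comm]
      module
    rw [e]
    refine (norm_add_le _ _).trans ?_
    rw [norm_smul, norm_smul]
    have k1 := ((hP'.nrm _).trans (hP'.nrm _)).trans (norm_add_le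
      (S.W a (S.W (-v') x - x) - (S.W (-v') x - x)) (S.W a (S.W v' x - x) - (S.W v' x - x)))
    have k2 := (hP'.nrm _).trans (norm_sub_le
      (S.W a (S.W (-v') x - x) - (S.W (-v') x - x)) (S.W a (S.W v' x - x) - (S.W v' x - x)))
    have k3 : ‖(1 / 2 : ℂ)‖ = 1 / 2 := by norm_num
    rw [k3]
    linarith
  refine (hP.ep_sub_le v key).trans (le_of_eq ?_)
  ring

lemma PR.nice_ep {P : H →ₗ[ℂ] H} (hP : PR S P) {c : ℝ} {x : H} (hx : S.Nice c x) (v : K) :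
    S.Nice (4 * c * (1 + 2 * ‖v‖) ^ 2) (ep S P v x) := by
  have h1 := hx.W (-v)
  have h2 := hx.W v
  rw [norm_neg] at h1
  have h3 := hx.sub (hP.nice (hP.nice hx))
  have h4 := (hP.nice (hP.nice (h1.add h2))).smul (1 / 2)
  have h5 := (hP.nice (h1.sub h2)).smul (1 / 2)
  refine ((h3.add h4).add h5).mono ?_
  have hc := hx.c0
  have h6 : 1 ≤ (1 + 2 * ‖v‖) ^ 2 := one_le_pow₀ (by have := norm_nonneg v; linarith)
  norm_num
  nlinarith [mul_le_mul_of_nonneg_left h6 hc]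

/-- multiplicativity -/
lemma PR.ep_ep {P : H →ₗ[ℂ] H} (hP : PR S P) {v w : K} (h : (inner ℂ v w : ℂ).im = 0) (x : H) :
    ep S P v (ep S P w x) = ep S P (v + w) x := by
  have h1 : ∀ x, S.W v (S.W w x) = S.W (v + w) x := by
    intro x; rw [S.WW, h]; simp
  have h2 : ∀ x, S.W (-v) (S.W (-w) x) = S.W (-(v + w)) x := by
    intro x; rw [S.WW, inner_neg_neg, h, neg_add]; simp
  have h3 : ∀ x, S.W v (S.W (-w) x) = S.W (v - w) x := by
    intro x; rw [S.WW, inner_neg_right, ← sub_eq_add_neg]; simp [h]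
  have h4 : ∀ x, S.W (-v) (S.W w x) = S.W (-(v - w)) x := by
    intro x; rw [S.WW, inner_neg_left, neg_sub', sub_neg_eq_add]; simp [h]
  unfold ep
  simp only [map_add, map_sub, map_smul, ← hP.comm, hP.cube, h1, h2, h3, h4]
  module

lemma ep_zero {P : H →ₗ[ℂ] H} (x : H) : ep S P 0 x = x := by
  unfold ep
  simp only [neg_zero, S.W_zero_apply, sub_self, map_zero, smul_zero, add_zero, map_add]
  module

/-- `U (n-1) o ... o U 0` -/
def cmp {H : Type*} (U : ℕ → H → H) : ℕ → H → H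
  | 0, x => x
  | n + 1, x => U n (cmp U n x)

lemma norm_sum_sq_orth {n : ℕ} {p : ℕ → K}
    (hp : ∀ i j, i < j → j < n → inner ℂ (p i) (p j) = 0) : ∀ m ≤ n,
    ‖∑ i ∈ Finset.range m, p i‖ ^ 2 = ∑ i ∈ Finset.range m, ‖p i‖ ^ 2 := by
  intro m
  induction m with
  | zero => intro _; simp
  | succ m ih =>
    intro hm
    rw [Finset.sum_range_succ, Finset.sum_range_succ, ← ih (by omega)]
    have h := @norm_add_sq ℂ K _ _ _ (∑ i ∈ Finset.range m, p i) (p m)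
    have h0 : inner ℂ (∑ i ∈ Finset.range m, p i) (p m) = 0 := by
      rw [sum_inner]
      exact Finset.sum_eq_zero fun i hi => hp i m (Finset.mem_range.1 hi) (by omega)
    rw [h, h0]
    simp

/-- **(RP)**, telescoping form -/
theorem rp_aux {P1 P2 : H →ₗ[ℂ] H} (h1 : PR S P1) (h2 : PR S P2) {c : ℝ} {η : H}
    (hη : S.Nice c η) {n : ℕ} {T Q : ℕ → H ≃ₗᵢ[ℂ] H} {u p : ℕ → K}
    (hT : ∀ i < n, ∀ x, T i x = ep S P1 (u i) x) (hQ : ∀ i < n, ∀ x, Q i x = ep S P2 (p i) x)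
    (hp : ∀ i j, i < j → j < n → inner ℂ (p i) (p j) = 0) : ∀ m ≤ n,
    ‖cmp (fun i x => (T i)⁻¹ (Q i (T i x))) m η - ep S P2 (∑ i ∈ Finset.range m, p i) η‖
      ≤ ∑ i ∈ Finset.range m,
        32 * c * (1 + 2 * ‖∑ j ∈ Finset.range i, p j‖) ^ 2 * ‖u i‖ * ‖p i‖ := by
  intro m
  induction m with
  | zero => intro _; simp [cmp, ep_zero]
  | succ m ih =>
    intro hm
    have ih := ih (by omega)
    set s := ∑ j ∈ Finset.range m, p j with hs
    set z := ep S P2 s η with hz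
    have e1 : ep S P2 (∑ i ∈ Finset.range (m + 1), p i) η = Q m z := by
      rw [Finset.sum_range_succ, hQ m (by omega), hz, h2.ep_ep, add_comm]
      rw [hs, inner_sum, Finset.sum_eq_zero]
      · simp
      · intro i hi
        rw [← inner_conj_symm, hp i m (Finset.mem_range.1 hi) (by omega), map_zero]
    have e2 : cmp (fun i x => (T i)⁻¹ (Q i (T i x))) (m + 1) η
        = (T m)⁻¹ (Q m (T m (cmp (fun i x => (T i)⁻¹ (Q i (T i x))) m η))) := rfl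
    set w := cmp (fun i x => (T i)⁻¹ (Q i (T i x))) m η with hw
    have hn : S.Nice (4 * c * (1 + 2 * ‖s‖) ^ 2) z := h2.nice_ep hη s
    have e3 : (T m)⁻¹ (Q m (T m w)) - Q m z
        = (T m)⁻¹ (Q m (T m (w - z))) + ((T m)⁻¹ (Q m (T m z)) - Q m z) := by
      simp only [map_sub]; abel
    have e4 : ‖(T m)⁻¹ (Q m (T m z)) - Q m z‖ = ‖Q m (T m z) - T m (Q m z)‖ := by
      have : Q m (T m z) - T m (Q m z) = T m ((T m)⁻¹ (Q m (T m z)) - Q m z) := by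
        rw [map_sub]
        congr 1
        exact ((T m).apply_symm_apply _).symm
      rw [this, LinearIsometryEquiv.norm_map]
    have e5 : Q m (T m z) - T m (Q m z)
        = (Q m (T m z - z) - (T m z - z)) - (T m (Q m z - z) - (Q m z - z)) := by
      simp only [map_sub]; abel
    have b1 : ‖Q m (T m z - z) - (T m z - z)‖ ≤ 4 * (4 * c * (1 + 2 * ‖s‖) ^ 2) * ‖p m‖ * ‖u m‖ := by
      rw [hQ m (by omega), hT m (by omega)]
      exact h2.ep_ep_sub h1 hn (p m) (u m)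
    have b2 : ‖T m (Q m z - z) - (Q m z - z)‖ ≤ 4 * (4 * c * (1 + 2 * ‖s‖) ^ 2) * ‖u m‖ * ‖p m‖ := by
      rw [hT m (by omega), hQ m (by omega)]
      exact h1.ep_ep_sub h2 hn (u m) (p m)
    rw [e1, e2, e3, Finset.sum_range_succ, ← hs]
    refine (norm_add_le _ _).trans ?_
    have b3 : ‖(T m)⁻¹ (Q m (T m (w - z)))‖ = ‖w - z‖ := by
      rw [LinearIsometryEquiv.norm_map, LinearIsometryEquiv.norm_map, LinearIsometryEquiv.norm_map]
    rw [b3, e4, e5]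
    have b4 := norm_sub_le (Q m (T m z - z) - (T m z - z)) (T m (Q m z - z) - (Q m z - z))
    have b5 : 4 * (4 * c * (1 + 2 * ‖s‖) ^ 2) * ‖p m‖ * ‖u m‖
        + 4 * (4 * c * (1 + 2 * ‖s‖) ^ 2) * ‖u m‖ * ‖p m‖
        = 32 * c * (1 + 2 * ‖s‖) ^ 2 * ‖u m‖ * ‖p m‖ := by ring
    linarith

/-- **(RP)**: the product of the reserve operators `T_i⁻¹ Q_i T_i` is close to the identity -/
theorem rp {P1 P2 : H →ₗ[ℂ] H} (h1 : PR S P1) (h2 : PR S P2) {c : ℝ} {η : H}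
    (hη : S.Nice c η) {n : ℕ} {T Q : ℕ → H ≃ₗᵢ[ℂ] H} {u p : ℕ → K}
    (hT : ∀ i < n, ∀ x, T i x = ep S P1 (u i) x) (hQ : ∀ i < n, ∀ x, Q i x = ep S P2 (p i) x)
    (hp : ∀ i j, i < j → j < n → inner ℂ (p i) (p j) = 0) (m : ℕ) (hm : m ≤ n) :
    ‖cmp (fun i x => (T i)⁻¹ (Q i (T i x))) m η - η‖
      ≤ 2 * c * Real.sqrt (∑ i ∈ Finset.range n, ‖p i‖ ^ 2)
        + 32 * c * (1 + 2 * Real.sqrt (∑ i ∈ Finset.range n, ‖p i‖ ^ 2)) ^ 2
          * (Real.sqrt (∑ i ∈ Finset.range n, ‖u i‖ ^ 2)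
            * Real.sqrt (∑ i ∈ Finset.range n, ‖p i‖ ^ 2)) := by
  have hc := hη.c0
  set σ := Real.sqrt (∑ i ∈ Finset.range n, ‖p i‖ ^ 2) with hσ
  have hσ0 : 0 ≤ σ := Real.sqrt_nonneg _
  have hsum : ∀ k ≤ n, ‖∑ j ∈ Finset.range k, p j‖ ≤ σ := by
    intro k hk
    rw [hσ]
    refine Real.le_sqrt_of_sq_le ?_
    rw [norm_sum_sq_orth hp k hk]
    exact Finset.sum_le_sum_of_subset_of_nonneg (Finset.range_mono hk) fun _ _ _ => by positivity
  have a1 := rp_aux h1 h2 hη hT hQ hp m hm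
  have a2 := h2.ep_sub_le (∑ i ∈ Finset.range m, p i) hη.m1
  have a3 : ∑ i ∈ Finset.range m, 32 * c * (1 + 2 * ‖∑ j ∈ Finset.range i, p j‖) ^ 2 * ‖u i‖ * ‖p i‖
      ≤ ∑ i ∈ Finset.range n, 32 * c * (1 + 2 * σ) ^ 2 * (‖u i‖ * ‖p i‖) := by
    refine (Finset.sum_le_sum (g := fun i => 32 * c * (1 + 2 * σ) ^ 2 * (‖u i‖ * ‖p i‖))
      fun i hi => ?_).trans (Finset.sum_le_sum_of_subset_of_nonneg (Finset.range_mono hm)
        fun _ _ _ => by positivity)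
    have h3 := hsum i (by have := Finset.mem_range.1 hi; omega)
    rw [mul_assoc (32 * c * (1 + 2 * ‖∑ j ∈ Finset.range i, p j‖) ^ 2)]
    gcongr
  rw [← Finset.mul_sum] at a3
  have a4 : ∑ i ∈ Finset.range n, ‖u i‖ * ‖p i‖
      ≤ Real.sqrt (∑ i ∈ Finset.range n, ‖u i‖ ^ 2) * σ :=
    Real.sum_mul_le_sqrt_mul_sqrt _ _ _
  have a5 : 32 * c * (1 + 2 * σ) ^ 2 * ∑ i ∈ Finset.range n, ‖u i‖ * ‖p i‖
      ≤ 32 * c * (1 + 2 * σ) ^ 2 * (Real.sqrt (∑ i ∈ Finset.range n, ‖u i‖ ^ 2) * σ) := by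
    gcongr
  have a6 : 2 * c * ‖∑ i ∈ Finset.range m, p i‖ ≤ 2 * c * σ := by
    have := hsum m hm
    gcongr
  have a7 := norm_sub_le_norm_sub_add_norm_sub
    (cmp (fun i x => (T i)⁻¹ (Q i (T i x))) m η) (ep S P2 (∑ i ∈ Finset.range m, p i) η) η
  linarith

end Vale.Agent.P367.B.RP
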