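import Vale.Agent.P367.B.Energy

/-! P367, block B: regularity of operators and vectors with respect to small Weyl translations
(directions in a set `D` of one-particle vectors, e.g. `Set.univ` or `Set.range S.iota`). -/

namespace Vale.Agent.P367.A

open Complex Filter Topology

namespace Sys

variable {H K : Type*} [NormedAddCommGroup H] [InnerProductSpace ℂ H]
  [NormedAddCommGroup K] [InnerProductSpace ℂ K] (S : Sys H K)

/-- `V` is `L`-regular: it almost commutes with small Weyl translations -/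
def Reg (D : Set K) (L : ℝ) (V : H ≃ₗᵢ[ℂ] H) : Prop :=
  ∀ v ∈ D, ∀ x, ‖S.W v (V x) - V (S.W v x)‖ ≤ L * (‖v‖ * ‖x‖)

/-- regular vectors -/
def SReg (D : Set K) (r : ℝ) (x : H) : Prop := ∀ v ∈ D, ‖S.W v x - x‖ ≤ r * ‖v‖

/-- continuous vectors: small translations, uniformly in the direction -/
def CReg (D : Set K) (x : H) : Prop :=
  ∀ ε > 0, ∃ δ > 0, ∀ v ∈ D, ‖v‖ ≤ δ → ‖S.W v x - x‖ ≤ ε

variable {S} {D : Set K}

/-! ### Operators -/

lemma Reg.mono {L M : ℝ} {V : H ≃ₗᵢ[ℂ] H} (h : S.Reg D L V) (hLM : L ≤ M) : S.Reg D M V :=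
  fun v hv x => (h v hv x).trans (mul_le_mul_of_nonneg_right hLM (by positivity))

lemma Reg.subset {D' : Set K} {L : ℝ} {V : H ≃ₗᵢ[ℂ] H} (h : S.Reg D L V) (hD : D' ⊆ D) :
    S.Reg D' L V := fun v hv x => h v (hD hv) x

lemma Reg.of_comm {V : H ≃ₗᵢ[ℂ] H} (h : ∀ v ∈ D, ∀ x, S.W v (V x) = V (S.W v x)) :
    S.Reg D 0 V := fun v hv x => by rw [h v hv x, sub_self, norm_zero, zero_mul]

lemma Reg.one : S.Reg D 0 1 := Reg.of_comm fun _ _ _ => rfl

lemma Reg.mul {L M : ℝ} {V U : H ≃ₗᵢ[ℂ] H} (h1 : S.Reg D L V) (h2 : S.Reg D M U) :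
    S.Reg D (L + M) (V * U) := by
  intro v hv x
  have e : S.W v ((V * U) x) - (V * U) (S.W v x)
      = (S.W v (V (U x)) - V (S.W v (U x))) + V (S.W v (U x) - U (S.W v x)) := by
    rw [map_sub, mulA, mulA]; abel
  rw [e]
  refine (norm_add_le _ _).trans ?_
  rw [V.norm_map]
  have a := h1 v hv (U x)
  rw [U.norm_map] at a
  linarith [h2 v hv x]

lemma Reg.inv {L : ℝ} {V : H ≃ₗᵢ[ℂ] H} (h : S.Reg D L V) : S.Reg D L V⁻¹ := by
  intro v hv x
  have a := h v hv (V⁻¹ x)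
  rw [(V⁻¹).norm_map, Ainv] at a
  have e : S.W v (V⁻¹ x) - V⁻¹ (S.W v x) = V⁻¹ (V (S.W v (V⁻¹ x)) - S.W v x) := by
    rw [map_sub, invA]
  rw [e, (V⁻¹).norm_map, norm_sub_rev]
  exact a

lemma norm_exp_I_sub_one_le (f : ℝ) : ‖Complex.exp (-(2 * Complex.I * (f : ℂ))) - 1‖ ≤ 2 * |f| := by
  have h := Real.norm_exp_I_mul_ofReal_sub_one_le (x := -(2 * f))
  have e : Complex.I * ((-(2 * f) : ℝ) : ℂ) = -(2 * Complex.I * (f : ℂ)) := by push_cast; ring
  rw [e] at h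
  refine h.trans (le_of_eq ?_)
  rw [Real.norm_eq_abs, abs_neg, abs_mul, abs_two]

lemma Reg.W (b : K) : S.Reg D (2 * ‖b‖) (S.W b) := by
  intro v hv x
  rw [S.Wx v b]
  have e : Complex.exp (-(2 * Complex.I * (th v b : ℂ))) • S.W b (S.W v x) - S.W b (S.W v x)
      = (Complex.exp (-(2 * Complex.I * (th v b : ℂ))) - 1) • S.W b (S.W v x) := by
    rw [sub_smul, one_smul]
  rw [e, norm_smul, (S.W b).norm_map, (S.W v).norm_map]
  calc _ ≤ (2 * |th v b|) * ‖x‖ := by gcongr; exact norm_exp_I_sub_one_le _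
    _ ≤ (2 * (‖v‖ * ‖b‖)) * ‖x‖ := by gcongr; exact abs_th_le v b
    _ = _ := by ring

lemma Reg.pul (t : ℝ) (b : K) : S.Reg D (2 * ‖b‖) (S.pul t b) := by
  intro v hv x
  rw [S.pul_W t b v x, ← map_sub, (S.W v).norm_map, norm_sub_rev]
  refine (S.norm_rot_sub t (th b v) (S.pul t b x)).trans ?_
  rw [(S.pul t b).norm_map]
  calc _ ≤ 2 * (‖b‖ * ‖v‖) * ‖x‖ := by gcongr; exact abs_th_le b v
    _ = _ := by ring

lemma Reg.zr (b : K) : S.Reg D (2 * ‖b‖) (S.zr b) := by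
  rw [← S.pul_time_zero]; exact Reg.pul 0 b

lemma Reg.xr (t : ℝ) : S.Reg D 0 (S.xr t) := Reg.of_comm fun v _ x => S.W_xrA v t x

lemma Reg.X : S.Reg D 0 S.X := Reg.of_comm fun v _ x => S.WX v x

lemma Reg.Z : S.Reg D 0 S.Z := Reg.of_comm fun v _ x => S.WZ v x

lemma Reg.Zt (t : ℝ) : S.Reg D 0 (S.Zt t) := Reg.of_comm fun v _ x => S.W_ZtA v t x

/-- regularity constant of a general word -/
def lreg : List (Lt S) → ℝ
  | [] => 0
  | Lt.U _ _ :: w => lreg w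
  | Lt.C g :: w => 2 * |g| + lreg w

/-- every general word is regular in the directions `iota y` -/
lemma Reg.evg : ∀ w : List (Lt S), S.Reg (Set.range S.iota) (lreg w) (S.evg w)
  | [] => Reg.one
  | Lt.U V hV :: w => by
    have h : S.Reg (Set.range S.iota) 0 V := Reg.of_comm (by rintro _ ⟨y, rfl⟩ x; exact hV y x)
    have := h.mul (Reg.evg w)
    rwa [zero_add] at this
  | Lt.C g :: w => by
    have h := (Reg.zr (S := S) (D := Set.range S.iota)
      ((g : ℂ) • S.iota (S.xv (S.evg w)))).mul (Reg.evg w)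
    rw [norm_smul, S.norm_iota, S.norm_xv, Complex.norm_real, Real.norm_eq_abs, mul_one] at h
    exact h

/-! ### Vectors -/

lemma SReg.mono {r s : ℝ} {x : H} (h : S.SReg D r x) (hrs : r ≤ s) : S.SReg D s x :=
  fun v hv => (h v hv).trans (mul_le_mul_of_nonneg_right hrs (norm_nonneg _))

lemma SReg.om : S.SReg D 1 S.Om := fun v _ => by rw [one_mul]; exact S.norm_W_Om_sub v

lemma SReg.zero : S.SReg D 0 0 := fun v _ => by simp

lemma SReg.add {r s : ℝ} {x y : H} (h1 : S.SReg D r x) (h2 : S.SReg D s y) :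
    S.SReg D (r + s) (x + y) := by
  intro v hv
  have e : S.W v (x + y) - (x + y) = (S.W v x - x) + (S.W v y - y) := by rw [map_add]; abel
  rw [e, add_mul]
  exact (norm_add_le _ _).trans (add_le_add (h1 v hv) (h2 v hv))

lemma SReg.smul {r : ℝ} {x : H} (h : S.SReg D r x) (c : ℂ) : S.SReg D (‖c‖ * r) (c • x) := by
  intro v hv
  rw [map_smul, ← smul_sub, norm_smul, mul_assoc]
  exact mul_le_mul_of_nonneg_left (h v hv) (norm_nonneg _)

lemma SReg.map {L r : ℝ} {V : H ≃ₗᵢ[ℂ] H} {x : H} (hV : S.Reg D L V) (h : S.SReg D r x) :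
    S.SReg D (L * ‖x‖ + r) (V x) := by
  intro v hv
  have e : S.W v (V x) - V x = (S.W v (V x) - V (S.W v x)) + V (S.W v x - x) := by
    rw [map_sub]; abel
  rw [e]
  refine (norm_add_le _ _).trans ?_
  rw [V.norm_map]
  linarith [hV v hv x, h v hv]

/-- the action of a regular operator on the vacuum is uniformly regular -/
lemma SReg.map_om {L : ℝ} {V : H ≃ₗᵢ[ℂ] H} (hV : S.Reg D L V) : S.SReg D (L + 1) (V S.Om) := by
  have := SReg.map hV (SReg.om (S := S) (D := D))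
  rwa [S.nOm, mul_one] at this

lemma SReg.xv {L : ℝ} {V : H ≃ₗᵢ[ℂ] H} (hV : S.Reg D L V) : S.SReg D (2 * L + 1) (S.xv V) := by
  have h : S.Reg D (L + (0 + L)) (V⁻¹ * (S.Z * V)) := hV.inv.mul (Reg.Z.mul hV)
  have := SReg.map_om h
  have e : (V⁻¹ * (S.Z * V)) S.Om = S.xv V := rfl
  rw [e] at this
  exact this.mono (by linarith)

lemma SReg.norm_zr_sub {r : ℝ} {x : H} (h : S.SReg D r x) {v : K} (hv : v ∈ D) (hv' : -v ∈ D) :
    ‖S.zr v x - x‖ ≤ 2 * r * ‖v‖ := by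
  have hZ : S.SReg D (0 * ‖x‖ + r) (S.Z x) := SReg.map (Reg.Z (S := S) (D := D)) h
  rw [zero_mul, zero_add] at hZ
  have e : S.zr v x - x = (1 / 2 : ℂ) • (S.W (-v) x - x) + (1 / 2 : ℂ) • (S.W v x - x)
      + ((1 / 2 : ℂ) • (S.W (-v) (S.Z x) - S.Z x) - (1 / 2 : ℂ) • (S.W v (S.Z x) - S.Z x)) := by
    rw [S.zr_apply]; module
  rw [e]
  have h1 : ‖(1 / 2 : ℂ)‖ = 1 / 2 := by norm_num
  have n1 := h _ hv'
  have n2 := h _ hv
  have n3 := hZ _ hv'
  have n4 := hZ _ hv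
  rw [norm_neg] at n1 n3
  calc _ ≤ ‖(1 / 2 : ℂ) • (S.W (-v) x - x)‖ + ‖(1 / 2 : ℂ) • (S.W v x - x)‖
        + (‖(1 / 2 : ℂ) • (S.W (-v) (S.Z x) - S.Z x)‖ + ‖(1 / 2 : ℂ) • (S.W v (S.Z x) - S.Z x)‖) :=
        (norm_add_le _ _).trans (add_le_add (norm_add_le _ _) (norm_sub_le _ _))
    _ ≤ _ := by
      rw [norm_smul, norm_smul, norm_smul, norm_smul, h1]
      linarith

lemma norm_exp_sub_one_le (f : ℝ) : ‖Complex.exp (-(Complex.I * (f : ℂ))) - 1‖ ≤ |f| := by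
  have h := Real.norm_exp_I_mul_ofReal_sub_one_le (x := -f)
  have e : Complex.I * ((-f : ℝ) : ℂ) = -(Complex.I * (f : ℂ)) := by push_cast; ring
  rw [e] at h
  refine h.trans (le_of_eq ?_)
  rw [Real.norm_eq_abs, abs_neg]

/-- two nearby displacements -/
lemma norm_zr_sub_zr_le (v w : K) (x : H) :
    ‖S.zr v x - S.zr w x‖ ≤ ‖S.zr (v - w) x - x‖ + |th w v| * ‖x‖ := by
  have h := S.zr_zr w (v - w) x
  have e0 : th w (v - w) = th w v := by rw [th_sub_right, th_self, sub_zero]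
  rw [e0, add_sub_cancel] at h
  have e : S.zr v x - S.zr w x
      = (S.zr v x - Complex.exp (-(Complex.I * (th w v : ℂ))) • S.zr v x)
        + S.zr w (S.zr (v - w) x - x) := by
    rw [map_sub, h]; abel
  rw [e]
  refine (norm_add_le _ _).trans ?_
  rw [(S.zr w).norm_map, add_comm]
  gcongr
  have e2 : S.zr v x - Complex.exp (-(Complex.I * (th w v : ℂ))) • S.zr v x
      = -((Complex.exp (-(Complex.I * (th w v : ℂ))) - 1) • S.zr v x) := by
    rw [sub_smul, one_smul]; abel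
  rw [e2, norm_neg, norm_smul, (S.zr v).norm_map]
  exact mul_le_mul_of_nonneg_right (norm_exp_sub_one_le _) (norm_nonneg _)

/-! ### Continuous vectors -/

lemma SReg.creg {r : ℝ} {x : H} (h : S.SReg D r x) : S.CReg D x := by
  intro ε hε
  refine ⟨ε / (|r| + 1), by positivity, fun v hv hvn => (h v hv).trans ?_⟩
  have h1 : r * ‖v‖ ≤ (|r| + 1) * (ε / (|r| + 1)) := by
    have : r ≤ |r| + 1 := by linarith [le_abs_self r]
    calc r * ‖v‖ ≤ (|r| + 1) * ‖v‖ := by gcongr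
      _ ≤ _ := by gcongr
  refine h1.trans (le_of_eq ?_)
  field_simp

lemma CReg.add {x y : H} (h1 : S.CReg D x) (h2 : S.CReg D y) : S.CReg D (x + y) := by
  intro ε hε
  obtain ⟨a, ha, h3⟩ := h1 (ε / 2) (by positivity)
  obtain ⟨b, hb, h4⟩ := h2 (ε / 2) (by positivity)
  refine ⟨min a b, lt_min ha hb, fun v hv hvn => ?_⟩
  have e : S.W v (x + y) - (x + y) = (S.W v x - x) + (S.W v y - y) := by rw [map_add]; abel
  rw [e]
  refine (norm_add_le _ _).trans ?_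
  linarith [h3 v hv (hvn.trans (min_le_left _ _)), h4 v hv (hvn.trans (min_le_right _ _))]

lemma CReg.smul {x : H} (h : S.CReg D x) (c : ℂ) : S.CReg D (c • x) := by
  intro ε hε
  obtain ⟨a, ha, h3⟩ := h (ε / (‖c‖ + 1)) (by positivity)
  refine ⟨a, ha, fun v hv hvn => ?_⟩
  rw [map_smul, ← smul_sub, norm_smul]
  have := h3 v hv hvn
  calc ‖c‖ * ‖S.W v x - x‖ ≤ (‖c‖ + 1) * (ε / (‖c‖ + 1)) := by gcongr; linarith
    _ = ε := by field_simp

lemma CReg.zero : S.CReg D 0 := (SReg.zero (S := S) (D := D)).creg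

lemma CReg.map {L : ℝ} {V : H ≃ₗᵢ[ℂ] H} {x : H} (hV : S.Reg D L V) (h : S.CReg D x) :
    S.CReg D (V x) := by
  intro ε hε
  obtain ⟨a, ha, h3⟩ := h (ε / 2) (by positivity)
  refine ⟨min a (ε / 2 / (|L| * ‖x‖ + 1)), lt_min ha (by positivity), fun v hv hvn => ?_⟩
  have e : S.W v (V x) - V x = (S.W v (V x) - V (S.W v x)) + V (S.W v x - x) := by
    rw [map_sub]; abel
  rw [e]
  refine (norm_add_le _ _).trans ?_
  rw [V.norm_map]
  have h4 := h3 v hv (hvn.trans (min_le_left _ _))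
  have h5 : L * (‖v‖ * ‖x‖) ≤ ε / 2 := by
    have h6 := hvn.trans (min_le_right a (ε / 2 / (|L| * ‖x‖ + 1)))
    calc L * (‖v‖ * ‖x‖) ≤ |L| * (‖v‖ * ‖x‖) := by gcongr; exact le_abs_self L
      _ = (|L| * ‖x‖) * ‖v‖ := by ring
      _ ≤ (|L| * ‖x‖ + 1) * (ε / 2 / (|L| * ‖x‖ + 1)) := by gcongr; linarith
      _ = ε / 2 := by field_simp
  linarith [hV v hv x]

/-- continuous vectors form a closed set -/
lemma CReg.closed {x : H} (h : ∀ ε > 0, ∃ y, S.CReg D y ∧ ‖x - y‖ ≤ ε) : S.CReg D x := by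
  intro ε hε
  obtain ⟨y, hy, hxy⟩ := h (ε / 3) (by positivity)
  obtain ⟨a, ha, h3⟩ := hy (ε / 3) (by positivity)
  refine ⟨a, ha, fun v hv hvn => ?_⟩
  have e : S.W v x - x = S.W v (x - y) + (S.W v y - y) - (x - y) := by rw [map_sub]; abel
  rw [e]
  refine (norm_sub_le _ _).trans ?_
  have h4 := norm_add_le (S.W v (x - y)) (S.W v y - y)
  rw [(S.W v).norm_map] at h4
  linarith [h3 v hv hvn]

lemma CReg.of_tendsto {α : Type*} {l : Filter α} [l.NeBot] {f : α → H} {x : H}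
    (hf : ∀ a, S.CReg D (f a)) (h : Tendsto f l (𝓝 x)) : S.CReg D x := by
  refine CReg.closed fun ε hε => ?_
  rw [Metric.tendsto_nhds] at h
  obtain ⟨a, ha⟩ := (h ε hε).exists
  refine ⟨f a, hf a, ?_⟩
  rw [← dist_eq_norm, dist_comm]
  exact ha.le

/-- small pulses on a continuous vector -/
lemma CReg.zr {x : H} (h : S.CReg D x) (hD : ∀ v ∈ D, -v ∈ D) {ε : ℝ} (hε : 0 < ε) :
    ∃ δ > 0, ∀ v ∈ D, ‖v‖ ≤ δ → ‖S.zr v x - x‖ ≤ ε := by
  obtain ⟨a, ha, h3⟩ := h (ε / 2) (by positivity)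
  obtain ⟨b, hb, h4⟩ := (CReg.map (Reg.Z (S := S) (D := D)) h) (ε / 2) (by positivity)
  refine ⟨min a b, lt_min ha hb, fun v hv hvn => ?_⟩
  have e : S.zr v x - x = (1 / 2 : ℂ) • (S.W (-v) x - x) + (1 / 2 : ℂ) • (S.W v x - x)
      + ((1 / 2 : ℂ) • (S.W (-v) (S.Z x) - S.Z x) - (1 / 2 : ℂ) • (S.W v (S.Z x) - S.Z x)) := by
    rw [S.zr_apply]; module
  rw [e]
  have h1 : ‖(1 / 2 : ℂ)‖ = 1 / 2 := by norm_num
  have hn : ‖-v‖ ≤ min a b := by rwa [norm_neg]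
  have n1 := h3 _ (hD v hv) (hn.trans (min_le_left _ _))
  have n2 := h3 _ hv (hvn.trans (min_le_left _ _))
  have n3 := h4 _ (hD v hv) (hn.trans (min_le_right _ _))
  have n4 := h4 _ hv (hvn.trans (min_le_right _ _))
  calc _ ≤ ‖(1 / 2 : ℂ) • (S.W (-v) x - x)‖ + ‖(1 / 2 : ℂ) • (S.W v x - x)‖
        + (‖(1 / 2 : ℂ) • (S.W (-v) (S.Z x) - S.Z x)‖ + ‖(1 / 2 : ℂ) • (S.W v (S.Z x) - S.Z x)‖) :=
        (norm_add_le _ _).trans (add_le_add (norm_add_le _ _) (norm_sub_le _ _))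
    _ ≤ _ := by
      rw [norm_smul, norm_smul, norm_smul, norm_smul, h1]
      linarith

end Sys

end Vale.Agent.P367.A
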