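import Vale.Agent.P367.NI.Soft

/-! P367 block B: regularity of states with respect to the (spin independent) Weyl operators. -/

namespace Vale.Agent.P367.B

open Complex Filter Topology
open Vale.Agent.P367.NI

variable {F K : Type} [NormedAddCommGroup F] [InnerProductSpace ℂ F]
  [NormedAddCommGroup K] [InnerProductSpace ℂ K] (S : Weyl F K)

/-- spin independent Weyl operator -/
noncomputable def Wh (v : K) : St F := dg (S.W v) (S.W v)

@[simp] lemma Wh_fst (v : K) (x : HH F) : (Wh S v x).fst = S.W v x.fst := rfl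
@[simp] lemma Wh_snd (v : K) (x : HH F) : (Wh S v x).snd = S.W v x.snd := rfl

lemma HH_ext {x y : HH F} (h1 : x.fst = y.fst) (h2 : x.snd = y.snd) : x = y := by
  apply (WithLp.equiv 2 (F × F)).injective
  exact Prod.ext h1 h2

lemma Wh_mul (a b : K) (x : HH F) : Wh S a (Wh S b x)
    = Complex.exp (-(Complex.I * ((inner ℂ a b).im : ℂ))) • Wh S (a + b) x := by
  refine HH_ext ?_ ?_
  · simp [S.W_mul]
  · simp [S.W_mul]

lemma Wh_zero (x : HH F) : Wh S 0 x = x := by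
  refine HH_ext ?_ ?_
  · simp [S.W_zero]
  · simp [S.W_zero]

lemma Wh_neg_Wh (a : K) (x : HH F) : Wh S (-a) (Wh S a x) = x := by
  rw [Wh_mul]
  have : (inner ℂ (-a) a : ℂ).im = 0 := by
    rw [inner_neg_left, inner_self_eq_norm_sq_to_K]
    simp [← ofReal_pow]
  rw [this]
  simp [Wh_zero]

lemma Wh_Wh_neg (a : K) (x : HH F) : Wh S a (Wh S (-a) x) = x := by
  have := Wh_neg_Wh S (-a) x
  rwa [neg_neg] at this

/-- exchange relation -/
lemma Wh_comm (a b : K) (x : HH F) : Wh S a (Wh S b x)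
    = Complex.exp (((-(2 * (inner ℂ a b : ℂ).im) : ℝ) : ℂ) * Complex.I) • Wh S b (Wh S a x) := by
  rw [Wh_mul, Wh_mul, smul_smul, ← Complex.exp_add, add_comm b a]
  congr 2
  have : (inner ℂ b a : ℂ).im = -(inner ℂ a b : ℂ).im := by
    rw [← inner_conj_symm b a, conj_im]
  rw [this]
  push_cast
  ring

lemma norm_phase (r : ℝ) : ‖Complex.exp ((r : ℂ) * Complex.I)‖ = 1 :=
  Complex.norm_exp_ofReal_mul_I r

lemma norm_phase_sub_one (r : ℝ) : ‖Complex.exp ((r : ℂ) * Complex.I) - 1‖ ≤ |r| := by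
  have := Real.norm_exp_I_mul_ofReal_sub_one_le (x := r)
  rwa [mul_comm, Real.norm_eq_abs] at this

/-! ### regular states -/

/-- `V` is Lipschitz with respect to Weyl conjugation -/
def Reg (L : ℝ) (V : St F) : Prop :=
  ∀ (v : K) (x : HH F), ‖Wh S v (V (Wh S (-v) x)) - V x‖ ≤ L * ‖v‖ * ‖x‖

/-- Lipschitz vectors -/
def RegV (C : ℝ) (x : HH F) : Prop := ∀ v : K, ‖Wh S v x - x‖ ≤ C * ‖v‖

variable {S}

lemma Reg.mono {L L' : ℝ} {V : St F} (h : Reg S L V) (hL : L ≤ L') : Reg S L' V := by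
  intro v x
  refine (h v x).trans ?_
  gcongr

lemma RegV.mono {L L' : ℝ} {x : HH F} (h : RegV S L x) (hL : L ≤ L') : RegV S L' x := by
  intro v
  refine (h v).trans ?_
  gcongr

lemma Reg.comp {L L' : ℝ} {V A : St F} (hV : Reg S L V) (hA : Reg S L' A) :
    Reg S (L + L') (V.trans A) := by
  intro v x
  have e : Wh S v ((V.trans A) (Wh S (-v) x)) - (V.trans A) x
      = (Wh S v (A (Wh S (-v) (Wh S v (V (Wh S (-v) x))))) - A (Wh S v (V (Wh S (-v) x))))
        + A (Wh S v (V (Wh S (-v) x)) - V x) := by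
    rw [Wh_neg_Wh, map_sub]
    simp only [LinearIsometryEquiv.trans_apply]
    abel
  rw [e]
  refine (norm_add_le _ _).trans ?_
  have h1 := hA v (Wh S v (V (Wh S (-v) x)))
  rw [LinearIsometryEquiv.norm_map, LinearIsometryEquiv.norm_map,
    LinearIsometryEquiv.norm_map] at h1
  have h2 := hV v x
  rw [LinearIsometryEquiv.norm_map]
  linarith

lemma Reg.symm {L : ℝ} {V : St F} (hV : Reg S L V) : Reg S L V.symm := by
  intro v x
  set y := V.symm x with hy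
  have e : Wh S v (V.symm (Wh S (-v) x)) - y
      = Wh S v (V.symm (Wh S (-v) (V y - Wh S v (V (Wh S (-v) y))))) := by
    rw [map_sub, map_sub, map_sub, Wh_neg_Wh, LinearIsometryEquiv.symm_apply_apply, Wh_Wh_neg, hy,
      LinearIsometryEquiv.apply_symm_apply]
  rw [e, LinearIsometryEquiv.norm_map, LinearIsometryEquiv.norm_map, LinearIsometryEquiv.norm_map,
    norm_sub_rev]
  have := hV v y
  rwa [hy, LinearIsometryEquiv.norm_map] at this

/-- states commuting with the Weyl operators -/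
lemma Reg.of_comm {V : St F} (h : ∀ v x, Wh S v (V x) = V (Wh S v x)) : Reg S 0 V := by
  intro v x
  rw [h, Wh_Wh_neg]
  simp

lemma Reg.refl : Reg S 0 (LinearIsometryEquiv.refl ℂ (HH F)) := Reg.of_comm fun _ _ => rfl

lemma Reg.zop : Reg S 0 (zop F) := by
  refine Reg.of_comm fun v x => HH_ext rfl ?_
  simp

lemma Reg.xr (b : ℝ) : Reg S 0 (NI.xr (F := F) b) := by
  refine Reg.of_comm fun v x => HH_ext ?_ ?_
  · change S.W v ((Real.cos b : ℂ) • x.fst - (Complex.I * (Real.sin b : ℂ)) • x.snd)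
      = (Real.cos b : ℂ) • S.W v x.fst - (Complex.I * (Real.sin b : ℂ)) • S.W v x.snd
    rw [map_sub, map_smul, map_smul]
  · change S.W v (-((Complex.I * (Real.sin b : ℂ)) • x.fst) + (Real.cos b : ℂ) • x.snd)
      = -((Complex.I * (Real.sin b : ℂ)) • S.W v x.fst) + (Real.cos b : ℂ) • S.W v x.snd
    rw [map_add, map_neg, map_smul, map_smul]

lemma W_conj (v d : K) (x : F) : S.W v (S.W d (S.W (-v) x))
    = Complex.exp (((-(2 * (inner ℂ v d : ℂ).im) : ℝ) : ℂ) * Complex.I) • S.W d x := by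
  rw [S.W_mul d (-v), map_smul, S.W_mul, smul_smul, ← Complex.exp_add]
  have e1 : v + (d + -v) = d := by abel
  rw [e1]
  congr 2
  rw [inner_neg_right, inner_add_right, inner_neg_right]
  have h1 : (inner ℂ d v : ℂ).im = -(inner ℂ v d : ℂ).im := by
    rw [← inner_conj_symm d v, conj_im]
  have h2 : (inner ℂ v v : ℂ).im = 0 := by
    rw [inner_self_eq_norm_sq_to_K]
    simp [← ofReal_pow]
  rw [Complex.neg_im, Complex.add_im, Complex.neg_im, h1, h2]
  push_cast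
  ring

lemma Reg.zr (d : K) : Reg S (2 * ‖d‖) (S.zr d) := by
  intro v x
  have hb : ∀ c : K, ‖c‖ = ‖d‖ → ∀ y : F, ‖S.W v (S.W c (S.W (-v) y)) - S.W c y‖
      ≤ 2 * ‖d‖ * ‖v‖ * ‖y‖ := by
    intro c hc y
    rw [W_conj]
    have e : Complex.exp (((-(2 * (inner ℂ v c : ℂ).im) : ℝ) : ℂ) * Complex.I) • S.W c y - S.W c y
        = (Complex.exp (((-(2 * (inner ℂ v c : ℂ).im) : ℝ) : ℂ) * Complex.I) - 1) • S.W c y := by
      rw [sub_smul, one_smul]
    rw [e, norm_smul, LinearIsometryEquiv.norm_map]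
    refine mul_le_mul_of_nonneg_right ?_ (norm_nonneg _)
    refine (norm_phase_sub_one _).trans ?_
    rw [abs_neg, abs_mul, abs_two]
    have h := (Complex.abs_im_le_norm (inner ℂ v c : ℂ)).trans (norm_inner_le_norm v c)
    rw [hc] at h
    linarith
  have h1 := hb (-d) (norm_neg d) x.fst
  have h2 := hb d rfl x.snd
  have e : ‖Wh S v (S.zr d (Wh S (-v) x)) - S.zr d x‖ ^ 2
      = ‖S.W v (S.W (-d) (S.W (-v) x.fst)) - S.W (-d) x.fst‖ ^ 2
        + ‖S.W v (S.W d (S.W (-v) x.snd)) - S.W d x.snd‖ ^ 2 := normsq_HH _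
  have e2 := normsq_HH x
  have h3 : ‖S.W v (S.W (-d) (S.W (-v) x.fst)) - S.W (-d) x.fst‖ ^ 2
      ≤ (2 * ‖d‖ * ‖v‖ * ‖x.fst‖) ^ 2 := pow_le_pow_left₀ (norm_nonneg _) h1 2
  have h4 : ‖S.W v (S.W d (S.W (-v) x.snd)) - S.W d x.snd‖ ^ 2
      ≤ (2 * ‖d‖ * ‖v‖ * ‖x.snd‖) ^ 2 := pow_le_pow_left₀ (norm_nonneg _) h2 2
  refine (sq_le_sq₀ (norm_nonneg _) (by positivity)).1 ?_
  rw [e, mul_pow, e2]
  nlinarith

/-- every word is regular -/
theorem exists_reg_run (w : List Gate) {L : ℝ} {V : St F} (hV : Reg S L V) :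
    ∃ L', 0 ≤ L' ∧ Reg S L' (S.run w V) := by
  induction w with
  | nil =>
    exact ⟨max L 0, le_max_right _ _, hV.mono (le_max_left _ _)⟩
  | cons g w ih =>
    obtain ⟨L', h0, h⟩ := ih
    cases g with
    | B b => exact ⟨L' + 0, by linarith, h.comp (Reg.xr b)⟩
    | C c => exact ⟨L' + 2 * _, by positivity, h.comp (Reg.zr _)⟩
    | G k => exact ⟨L' + 2 * _, by positivity, h.comp (Reg.zr _)⟩

theorem exists_reg (w : List Gate) : ∃ L, 0 ≤ L ∧ Reg S L (S.ev w) := by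
  rw [S.ev_eq_run]
  exact exists_reg_run w Reg.refl

/-! ### regular vectors -/

lemma norm_W_Om_sub_le (a : K) : ‖S.W a S.Om - S.Om‖ ≤ ‖a‖ := by
  have h := @norm_sub_sq ℂ F _ _ _ (S.W a S.Om) S.Om
  rw [LinearIsometryEquiv.norm_map, S.norm_Om, ← inner_conj_symm, S.vac, ← Complex.exp_conj] at h
  rw [map_neg, Complex.conj_ofReal, ← Complex.ofReal_neg, ← Complex.ofReal_exp] at h
  have h2 : 1 + -(‖a‖ ^ 2 / 2) ≤ Real.exp (-(‖a‖ ^ 2 / 2)) := by
    have := Real.add_one_le_exp (-(‖a‖ ^ 2 / 2)); linarith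
  have h3 : RCLike.re ((Real.exp (-(‖a‖ ^ 2 / 2)) : ℝ) : ℂ) = Real.exp (-(‖a‖ ^ 2 / 2)) :=
    Complex.ofReal_re _
  rw [h3] at h
  have h4 : ‖S.W a S.Om - S.Om‖ ^ 2 ≤ ‖a‖ ^ 2 := by
    rw [h]; nlinarith
  exact (sq_le_sq₀ (norm_nonneg _) (norm_nonneg _)).1 h4

lemma RegV.app {L C : ℝ} {V : St F} {x : HH F} (hV : Reg S L V) (hx : RegV S C x) :
    RegV S (L * ‖x‖ + C) (V x) := by
  intro v
  have e : Wh S v (V x) - V x
      = (Wh S v (V (Wh S (-v) (Wh S v x))) - V (Wh S v x)) + V (Wh S v x - x) := by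
    rw [Wh_neg_Wh, map_sub]; abel
  rw [e]
  refine (norm_add_le _ _).trans ?_
  have h1 := hV v (Wh S v x)
  have h2 := hx v
  rw [LinearIsometryEquiv.norm_map] at h1
  rw [LinearIsometryEquiv.norm_map]
  linarith

lemma RegV.add {C D : ℝ} {x y : HH F} (hx : RegV S C x) (hy : RegV S D y) :
    RegV S (C + D) (x + y) := by
  intro v
  have e : Wh S v (x + y) - (x + y) = (Wh S v x - x) + (Wh S v y - y) := by
    rw [map_add]; abel
  rw [e, add_mul]
  exact (norm_add_le _ _).trans (add_le_add (hx v) (hy v))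

lemma RegV.smul {C : ℝ} {x : HH F} (hx : RegV S C x) (k : ℂ) : RegV S (‖k‖ * C) (k • x) := by
  intro v
  have e : Wh S v (k • x) - k • x = k • (Wh S v x - x) := by
    rw [map_smul, smul_sub]
  rw [e, norm_smul, mul_assoc]
  exact mul_le_mul_of_nonneg_left (hx v) (norm_nonneg k)

lemma norm_OmH_one : ‖S.OmH‖ = 1 := by
  set r : ℂ := (((Real.sqrt 2)⁻¹ : ℝ) : ℂ) with hr
  have hn : ‖r‖ ^ 2 = 1 / 2 := by
    rw [hr, Complex.norm_real, Real.norm_eq_abs, sq_abs, inv_pow, Real.sq_sqrt (by norm_num)]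
    norm_num
  have e : ‖S.OmH‖ ^ 2 = ‖r • S.Om‖ ^ 2 + ‖r • S.Om‖ ^ 2 := normsq_HH _
  rw [norm_smul, mul_pow, hn, S.norm_Om] at e
  have h0 := norm_nonneg S.OmH
  nlinarith

lemma RegV.OmH : RegV S 1 S.OmH := by
  intro v
  have h := norm_W_Om_sub_le (S := S) v
  set r : ℂ := (((Real.sqrt 2)⁻¹ : ℝ) : ℂ) with hr
  have hn : ‖r‖ ^ 2 = 1 / 2 := by
    rw [hr, Complex.norm_real, Real.norm_eq_abs, sq_abs, inv_pow, Real.sq_sqrt (by norm_num)]
    norm_num
  have e : ‖Wh S v S.OmH - S.OmH‖ ^ 2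
      = ‖S.W v (r • S.Om) - r • S.Om‖ ^ 2 + ‖S.W v (r • S.Om) - r • S.Om‖ ^ 2 := normsq_HH _
  have e1 : S.W v (r • S.Om) - r • S.Om = r • (S.W v S.Om - S.Om) := by
    rw [map_smul, smul_sub]
  rw [e1, norm_smul, mul_pow, hn] at e
  have h4 : ‖Wh S v S.OmH - S.OmH‖ ^ 2 ≤ ‖v‖ ^ 2 := by
    rw [e]
    have := pow_le_pow_left₀ (norm_nonneg _) h 2
    linarith
  rw [one_mul]
  exact (sq_le_sq₀ (norm_nonneg _) (norm_nonneg _)).1 h4

/-- field vectors of regular states are regular -/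
lemma RegV.xv {L : ℝ} {V : St F} (hV : Reg S L V) : RegV S (2 * L + 1) (S.xv V) := by
  have h1 := RegV.app hV (RegV.OmH (S := S))
  have h2 := RegV.app (Reg.zop (S := S)) h1
  have h3 := RegV.app hV.symm h2
  have hn : ‖S.OmH‖ = 1 := norm_OmH_one
  rw [LinearIsometryEquiv.norm_map, LinearIsometryEquiv.norm_map, hn] at h3
  exact h3.mono (by linarith)

/-- **uniform strong continuity at 0**: for every vector, small displacements act trivially -/
theorem small_disp (hS : S.Cyc) (x : HH F) {ε : ℝ} (hε : 0 < ε) :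
    ∃ r, 0 < r ∧ ∀ v : K, ‖v‖ ≤ r → ‖Wh S v x - x‖ ≤ ε := by
  have h : Tendsto (fun v : K => Wh S v x) (𝓝 0) (𝓝 x) := by
    have h0 : Wh S 0 x = x := Wh_zero S x
    have h1 : Tendsto (fun v : K => Wh S v x) (𝓝 0) (𝓝 (Wh S 0 x)) :=
      dg_strong (S.tendsto_W hS tendsto_id) (S.tendsto_W hS tendsto_id) x
    rwa [h0] at h1
  rw [Metric.tendsto_nhds] at h
  obtain ⟨r, hr, h2⟩ := Metric.eventually_nhds_iff.1 (h ε hε)
  refine ⟨r / 2, by positivity, fun v hv => ?_⟩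
  have : dist v 0 < r := by rw [dist_zero_right]; linarith
  have h3 := h2 this
  rw [dist_eq_norm] at h3
  exact h3.le

/-- same with a conjugated state: `(V⁻¹ W(v) V - 1) x → 0` -/
theorem small_disp_conj (hS : S.Cyc) (V : St F) (x : HH F) {ε : ℝ} (hε : 0 < ε) :
    ∃ r, 0 < r ∧ ∀ v : K, ‖v‖ ≤ r → ‖V.symm (Wh S v (V x)) - x‖ ≤ ε := by
  obtain ⟨r, hr, h⟩ := small_disp hS (V x) hε
  refine ⟨r, hr, fun v hv => ?_⟩
  have e : V.symm (Wh S v (V x)) - x = V.symm (Wh S v (V x) - V x) := by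
    rw [map_sub, LinearIsometryEquiv.symm_apply_apply]
  rw [e, LinearIsometryEquiv.norm_map]
  exact h v hv

end Vale.Agent.P367.B
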