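import Vale.Agent.P367.B.Res
import Vale.Agent.P367.B.CoreNum

/-! P367, block B: reserve estimates for chains. -/

namespace Vale.Agent.P367.A

open Complex Filter Topology MeasureTheory
open Vale.Agent.P367.B (famS cl exU ex gb ga WFam)

namespace LSys

variable {H K : Type} [NormedAddCommGroup H] [InnerProductSpace ℂ H] [CompleteSpace H]
  [NormedAddCommGroup K] [InnerProductSpace ℂ K] {L : LSys H K} {𝔄 : Set (H →L[ℂ] H)}

omit [CompleteSpace H] in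
lemma rc_sum_mu {N : ℕ} {b : ℕ → Set ℝ} (mb : ∀ i < N, MeasurableSet (b i))
    (bb : ∀ i < N, ∀ j < N, i ≠ j → Disjoint (b i) (b j)) {k : ℕ} (hk : k ≤ N) :
    ∑ j ∈ Finset.range k, L.mu.real (b j) ≤ 1 := by
  have := L.prob
  rw [← measureReal_biUnion_finset (μ := L.mu) (s := Finset.range k) (f := b) ?_ ?_]
  · exact measureReal_le_one
  · intro i hi j hj hij
    rw [Finset.coe_range] at hi hj
    exact bb i (lt_of_lt_of_le hi hk) j (lt_of_lt_of_le hj hk) hij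
  · intro i hi
    exact mb i (lt_of_lt_of_le (Finset.mem_range.1 hi) hk)

variable {hc : ∀ x : H, Tendsto (fun a => L.W a x) (𝓝 0) (𝓝 x)}
  {G r : Set ℝ} {sg : H →L[ℂ] H} {s μ a la : ℝ} {N : ℕ} {b : ℕ → Set ℝ}
  {V V1 V2 : ℕ → (H ≃ₗᵢ[ℂ] H)} {co cr : ℕ → ℂ}

namespace Chain

variable (h : L.Chain hc 𝔄 G r sg s μ a la N b V V1 V2 co cr)

/-- displacement of the reserve by the batch `i`, first gate -/
noncomputable def rcu (_h : L.Chain hc 𝔄 G r sg s μ a la N b V V1 V2 co cr) (i : ℕ) : K :=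
  (a : ℂ) • L.fv (L.pau 2) (b i) (V i)

/-- displacement of the reserve by the batch `i`, second gate -/
noncomputable def rcp (_h : L.Chain hc 𝔄 G r sg s μ a la N b V V1 V2 co cr) (i : ℕ) : K :=
  (la : ℂ) • L.qch hc (L.vch μ la (G \ b i) r (V1 i)) (L.Cch s μ sg (b i)) (b i) (V1 i)

lemma rc_norm_u (hA : L.Ctl 𝔄) {i : ℕ} (hi : i < N) :
    ‖h.rcu i‖ = |a| * Real.sqrt (L.mu.real (b i)) := by
  unfold rcu
  rw [norm_smul, Complex.norm_real, Real.norm_eq_abs,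
    num_norm_fv (h.mb i hi) (h.cV i hi.le _ (E_mem hA (h.mb i hi)))]

lemma rc_norm_p (hA : L.Ctl 𝔄) (hsg : L.Sgn G 𝔄 sg) (hμ : μ ≠ 0) {i : ℕ} (hi : i < N) :
    ‖h.rcp i‖ ≤ |la / μ| * |s| * Real.sqrt (L.mu.real (b i)) := by
  have h1 := h.num_w_le hA hsg hi
  unfold w at h1
  unfold rcp
  rw [norm_neg, norm_smul, Complex.norm_real, Real.norm_eq_abs] at h1
  rw [norm_smul, Complex.norm_real, Real.norm_eq_abs, abs_div]
  have hμ' : 0 < |μ| := abs_pos.2 hμ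
  have h2 : 0 ≤ |la| / |μ| := by positivity
  calc |la| * _ = |la| / |μ| * (|μ| * ‖L.qch hc (L.vch μ la (G \ b i) r (V1 i))
        (L.Cch s μ sg (b i)) (b i) (V1 i)‖) := by field_simp
    _ ≤ |la| / |μ| * (|s| * Real.sqrt (L.mu.real (b i))) := by gcongr
    _ = _ := by ring

/-- **(RES)** for chains -/
theorem rc_res (hA : L.Ctl 𝔄) (hsg : L.Sgn G 𝔄 sg) (h0 : ∀ x, L.E r (V 0 x) = L.E r x) :
    ∀ i < N,
      |th (L.fv (L.pau 2) r (V i)) (L.fv (L.pau 1) r (V1 i)) + L.mu.real r|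
        ≤ L.mu.real r * (8 * ∑ j ∈ Finset.range i, ‖h.rcp j‖ ^ 2 * (1 + 4 * ‖h.rcu j‖ ^ 2)
          + 4 * ‖h.rcu i‖) ∧
      ‖L.fv (L.pau 2) r (V2 i) - L.fv (L.pau 2) r (V i)‖
        ≤ 4 * Real.sqrt (L.mu.real r) * ‖h.rcp i‖ * (1 + 2 * ‖h.rcu i‖) := by
  have hr := h.mr
  refine L.res hr (u := h.rcu) (p := h.rcp) (c := cr)
    (fun i hi x => h.cV i hi _ (E_mem hA hr) x) (fun i hi x => h.cV1 i hi _ (E_mem hA hr) x)
    (fun i hi x => h.cV2 i hi _ (E_mem hA hr) x) h0 (fun i hi x => h.one_r hi x) h.ncr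
    (fun i hi x => h.two_r hA hsg.1 hi x) (fun i hi x => ?_) ?_ ?_ ?_
  · rw [h.three_r hi, h.fv2 hA hsg.1 hsg.2.1 hi (h.mb i hi) (h.bG i hi),
      h.fv1 hA hi (h.mb i hi) (h.bG i hi)]
    rfl
  · intro i hi j hj hij
    unfold rcu
    rw [inner_smul_left, inner_smul_right, num_fv_orth (h.mb i hi) (h.mb j hj)
      (h.bb i hi j hj hij)]
    simp
  · intro i hi j hj hij
    unfold rcu rcp qch fv
    rw [inner_smul_left, inner_smul_right, num_orth (h.mb i hi) (h.mb j hj)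
      (h.bb i hi j hj hij)]
    simp
  · intro i hi j hj hij
    unfold rcp qch
    rw [inner_smul_left, inner_smul_right, num_orth (h.mb i hi) (h.mb j hj)
      (h.bb i hi j hj hij)]
    simp

include h in
/-- uniform bounds -/
theorem rc_bounds (hA : L.Ctl 𝔄) (hsg : L.Sgn G 𝔄 sg) (h0 : ∀ x, L.E r (V 0 x) = L.E r x)
    (hμ : μ ≠ 0) {δ : ℝ} (hδ : 0 ≤ δ) (hb : ∀ i < N, L.mu.real (b i) ≤ δ) :
    ∀ k < N,
      |th (L.fv (L.pau 2) r (V k)) (L.fv (L.pau 1) r (V1 k)) + L.mu.real r|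
        ≤ L.mu.real r * (8 * ((la / μ) ^ 2 * s ^ 2 * (1 + 4 * (a ^ 2 * δ)))
          + 4 * (|a| * Real.sqrt δ)) ∧
      ‖L.fv (L.pau 2) r (V2 k) - L.fv (L.pau 2) r (V k)‖
        ≤ 4 * Real.sqrt (L.mu.real r) * (|la / μ| * |s| * Real.sqrt δ)
          * (1 + 2 * (|a| * Real.sqrt δ)) := by
  intro k hk
  obtain ⟨h1, h2⟩ := h.rc_res hA hsg h0 k hk
  have hu : ∀ i < N, ‖h.rcu i‖ ≤ |a| * Real.sqrt δ := fun i hi => by
    rw [h.rc_norm_u hA hi]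
    exact mul_le_mul_of_nonneg_left (Real.sqrt_le_sqrt (hb i hi)) (abs_nonneg a)
  have hp : ∀ i < N, ‖h.rcp i‖ ≤ |la / μ| * |s| * Real.sqrt δ := fun i hi =>
    (h.rc_norm_p hA hsg hμ hi).trans
      (mul_le_mul_of_nonneg_left (Real.sqrt_le_sqrt (hb i hi)) (by positivity))
  have hS : ∑ j ∈ Finset.range k, ‖h.rcp j‖ ^ 2 * (1 + 4 * ‖h.rcu j‖ ^ 2)
      ≤ (la / μ) ^ 2 * s ^ 2 * (1 + 4 * (a ^ 2 * δ)) := by
    have h3 : ∀ j ∈ Finset.range k, ‖h.rcp j‖ ^ 2 * (1 + 4 * ‖h.rcu j‖ ^ 2)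
        ≤ ((la / μ) ^ 2 * s ^ 2 * (1 + 4 * (a ^ 2 * δ))) * L.mu.real (b j) := by
      intro j hj
      have hjN : j < N := lt_trans (Finset.mem_range.1 hj) hk
      have m0 : 0 ≤ L.mu.real (b j) := measureReal_nonneg
      have e1 : ‖h.rcp j‖ ^ 2 ≤ (la / μ) ^ 2 * s ^ 2 * L.mu.real (b j) := by
        have := h.rc_norm_p hA hsg hμ hjN
        have h4 : ‖h.rcp j‖ ^ 2 ≤ (|la / μ| * |s| * Real.sqrt (L.mu.real (b j))) ^ 2 := by
          gcongr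
        rwa [mul_pow, mul_pow, sq_abs, sq_abs, Real.sq_sqrt m0] at h4
      have e2 : ‖h.rcu j‖ ^ 2 ≤ a ^ 2 * δ := by
        have h4 : ‖h.rcu j‖ ^ 2 ≤ (|a| * Real.sqrt δ) ^ 2 := by
          have := hu j hjN
          gcongr
        rwa [mul_pow, sq_abs, Real.sq_sqrt hδ] at h4
      calc ‖h.rcp j‖ ^ 2 * (1 + 4 * ‖h.rcu j‖ ^ 2)
          ≤ ((la / μ) ^ 2 * s ^ 2 * L.mu.real (b j)) * (1 + 4 * (a ^ 2 * δ)) := by gcongr
        _ = _ := by ring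
    refine (Finset.sum_le_sum h3).trans ?_
    rw [← Finset.mul_sum]
    have h5 := rc_sum_mu (L := L) h.mb h.bb hk.le
    have h6 : 0 ≤ (la / μ) ^ 2 * s ^ 2 * (1 + 4 * (a ^ 2 * δ)) := by positivity
    nlinarith
  have hρ0 : 0 ≤ L.mu.real r := measureReal_nonneg
  constructor
  · refine h1.trans ?_
    have := hu k hk
    gcongr
  · refine h2.trans ?_
    have a1 := hu k hk
    have a2 := hp k hk
    gcongr

end Chain

/-- **(RES), numbers**: the own shift is `π/2` up to `r0 μ`, the change of the reserve field is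
negligible. -/
theorem rc_num (hA : L.Ctl 𝔄) {G r : Set ℝ} {sg : H →L[ℂ] H} (hsg : L.Sgn G 𝔄 sg)
    (hr0 : L.mu r ≠ 0) (s : ℝ) {e : ℝ} (he : 0 < e) :
    ∃ mu1 : ℝ, 0 < mu1 ∧ ∀ μ : ℝ, 0 < μ → μ < mu1 → ∃ δ : ℝ, 0 < δ ∧
      ∀ (N : ℕ) (b : ℕ → Set ℝ) (V V1 V2 : ℕ → (H ≃ₗᵢ[ℂ] H)) (co cr : ℕ → ℂ)
        (h : L.Chain hc 𝔄 G r sg s μ (Real.pi / (4 * μ ^ 2 * Real.sqrt (L.mu.real r)))
          (-(μ ^ 2 / Real.sqrt (L.mu.real r))) N b V V1 V2 co cr),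
        (∀ x, L.E r (V 0 x) = L.E r x) → (∀ i < N, L.mu.real (b i) ≤ δ) → ∀ k < N,
        |h.θ k - Real.pi / 2| < e * μ ∧
        ‖((Real.pi / (4 * μ ^ 2 * Real.sqrt (L.mu.real r)) : ℝ) : ℂ)
          • (L.fv (L.pau 2) r (V2 k) - L.fv (L.pau 2) r (V k))‖ < e := by
  have := L.prob
  set ρ := L.mu.real r with hρ
  have hρp : 0 < ρ := by
    rw [hρ, measureReal_def, ENNReal.toReal_pos_iff]
    exact ⟨pos_iff_ne_zero.2 hr0, measure_lt_top _ _⟩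
  have hsρ : 0 < Real.sqrt ρ := Real.sqrt_pos.2 hρp
  have hsq : Real.sqrt ρ ^ 2 = ρ := Real.sq_sqrt hρp.le
  have hpi := Real.pi_pos
  refine ⟨e * ρ / (32 * Real.pi * (s ^ 2 + 1)), by positivity, fun μ hμ hμ1 => ?_⟩
  set a := Real.pi / (4 * μ ^ 2 * Real.sqrt ρ) with ha
  have ha0 : 0 < a := by positivity
  -- small mesh
  obtain ⟨δ, hδ, hδ1, hδ2, hδ3⟩ : ∃ δ : ℝ, 0 < δ ∧ 4 * (a ^ 2 * δ) ≤ 1
      ∧ 4 * (a * Real.sqrt δ) * Real.pi < e * μ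
      ∧ a * (4 * Real.sqrt ρ * (μ / Real.sqrt ρ * |s| * Real.sqrt δ)
        * (1 + 2 * (a * Real.sqrt δ))) < e := by
    have c1 : Tendsto (fun δ : ℝ => 4 * (a ^ 2 * δ)) (𝓝[>] 0) (𝓝 0) := by
      have : Tendsto (fun δ : ℝ => 4 * (a ^ 2 * δ)) (𝓝 0) (𝓝 (4 * (a ^ 2 * 0))) :=
        (by fun_prop : Continuous fun δ : ℝ => 4 * (a ^ 2 * δ)).tendsto 0
      rw [mul_zero, mul_zero] at this
      exact this.mono_left nhdsWithin_le_nhds
    have c2 : Tendsto (fun δ : ℝ => 4 * (a * Real.sqrt δ) * Real.pi) (𝓝[>] 0) (𝓝 0) := by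
      have : Tendsto (fun δ : ℝ => 4 * (a * Real.sqrt δ) * Real.pi) (𝓝 0)
          (𝓝 (4 * (a * Real.sqrt 0) * Real.pi)) :=
        (by fun_prop : Continuous fun δ : ℝ => 4 * (a * Real.sqrt δ) * Real.pi).tendsto 0
      rw [Real.sqrt_zero, mul_zero, mul_zero, zero_mul] at this
      exact this.mono_left nhdsWithin_le_nhds
    have c3 : Tendsto (fun δ : ℝ => a * (4 * Real.sqrt ρ * (μ / Real.sqrt ρ * |s| * Real.sqrt δ)
        * (1 + 2 * (a * Real.sqrt δ)))) (𝓝[>] 0) (𝓝 0) := by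
      have : Tendsto (fun δ : ℝ => a * (4 * Real.sqrt ρ * (μ / Real.sqrt ρ * |s| * Real.sqrt δ)
          * (1 + 2 * (a * Real.sqrt δ)))) (𝓝 0)
          (𝓝 (a * (4 * Real.sqrt ρ * (μ / Real.sqrt ρ * |s| * Real.sqrt 0)
          * (1 + 2 * (a * Real.sqrt 0))))) :=
        (by fun_prop : Continuous fun δ : ℝ => a * (4 * Real.sqrt ρ
          * (μ / Real.sqrt ρ * |s| * Real.sqrt δ) * (1 + 2 * (a * Real.sqrt δ)))).tendsto 0
      rw [Real.sqrt_zero, mul_zero, mul_zero, zero_mul, mul_zero] at this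
      exact this.mono_left nhdsWithin_le_nhds
    have d1 := c1.eventually (ge_mem_nhds (show (0 : ℝ) < 1 by norm_num))
    have d2 := c2.eventually (gt_mem_nhds (show (0 : ℝ) < e * μ by positivity))
    have d3 := c3.eventually (gt_mem_nhds he)
    obtain ⟨δ, ⟨⟨h1, h2⟩, h3⟩, h4⟩ := (((d1.and d2).and d3).and self_mem_nhdsWithin).exists
    exact ⟨δ, h4, h1, h2, h3⟩
  refine ⟨δ, hδ, fun N b V V1 V2 co cr h h0 hb k hk => ?_⟩
  obtain ⟨h1, h2⟩ := h.rc_bounds hA hsg h0 hμ.ne' hδ.le hb k hk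
  have hla : -(μ ^ 2 / Real.sqrt ρ) / μ = -(μ / Real.sqrt ρ) := by
    field_simp
  rw [hla, abs_neg, abs_of_pos (show 0 < μ / Real.sqrt ρ by positivity), abs_of_pos ha0] at h2
  rw [hla, neg_sq, div_pow, hsq, abs_of_pos ha0] at h1
  constructor
  · rw [h.num_θ hA hsg.1 hsg.2.1 hk]
    set t := th (L.fv (L.pau 2) r (V k)) (L.fv (L.pau 1) r (V1 k)) with ht
    have e1 : 2 * a * -(μ ^ 2 / Real.sqrt ρ) * t - Real.pi / 2
        = -(Real.pi / (2 * ρ)) * (t + ρ) := by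
      rw [ha]
      have h5 : Real.sqrt ρ * Real.sqrt ρ = ρ := Real.mul_self_sqrt hρp.le
      have h6 : 2 * (Real.pi / (4 * μ ^ 2 * Real.sqrt ρ)) * -(μ ^ 2 / Real.sqrt ρ)
          = -(Real.pi / (2 * ρ)) := by
        have h7 : 2 * (Real.pi / (4 * μ ^ 2 * Real.sqrt ρ)) * -(μ ^ 2 / Real.sqrt ρ)
            = -(Real.pi / (2 * (Real.sqrt ρ * Real.sqrt ρ))) := by
          field_simp
          ring
        rw [h7, h5]
      rw [h6]
      field_simp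
      ring
    rw [e1, abs_mul, abs_neg, abs_of_pos (show 0 < Real.pi / (2 * ρ) by positivity)]
    have e2 : Real.pi / (2 * ρ) * |t + ρ| ≤ Real.pi / (2 * ρ) * (ρ * (8 * (μ ^ 2 / ρ * s ^ 2
        * (1 + 4 * (a ^ 2 * δ))) + 4 * (a * Real.sqrt δ))) := by gcongr
    refine e2.trans_lt ?_
    have e3 : Real.pi / (2 * ρ) * (ρ * (8 * (μ ^ 2 / ρ * s ^ 2
        * (1 + 4 * (a ^ 2 * δ))) + 4 * (a * Real.sqrt δ)))
        = 4 * Real.pi * (μ ^ 2 / ρ * s ^ 2) * (1 + 4 * (a ^ 2 * δ))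
          + (4 * (a * Real.sqrt δ) * Real.pi) / 2 := by
      field_simp
      ring
    rw [e3]
    have e4 : 4 * Real.pi * (μ ^ 2 / ρ * s ^ 2) * (1 + 4 * (a ^ 2 * δ))
        ≤ 4 * Real.pi * (μ ^ 2 / ρ * s ^ 2) * 2 := by
      gcongr
      linarith
    have e5 : 4 * Real.pi * (μ ^ 2 / ρ * s ^ 2) * 2 ≤ e * μ / 4 := by
      have h7 : μ * (32 * Real.pi * (s ^ 2 + 1)) < e * ρ := by
        rwa [lt_div_iff₀ (by positivity)] at hμ1
      have h8 : 4 * Real.pi * (μ ^ 2 / ρ * s ^ 2) * 2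
          = (μ * (μ * (32 * Real.pi * s ^ 2))) / ρ / 4 := by
        field_simp
        ring
      rw [h8]
      have h9 : μ * (32 * Real.pi * s ^ 2) ≤ e * ρ := by
        have : μ * (32 * Real.pi * s ^ 2) ≤ μ * (32 * Real.pi * (s ^ 2 + 1)) := by
          gcongr
          linarith
        linarith
      have h10 : (μ * (μ * (32 * Real.pi * s ^ 2))) / ρ ≤ e * μ := by
        rw [div_le_iff₀ hρp]
        nlinarith
      linarith
    have : 0 < e * μ := by positivity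
    linarith
  · rw [norm_smul, Complex.norm_real, Real.norm_eq_abs, abs_of_pos ha0]
    calc a * _ ≤ a * (4 * Real.sqrt ρ * (μ / Real.sqrt ρ * |s| * Real.sqrt δ)
        * (1 + 2 * (a * Real.sqrt δ))) := by gcongr
      _ < e := hδ3

end LSys

end Vale.Agent.P367.A
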