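import Vale.Agent.P367.B.StepD
import Vale.Agent.P367.B.LBasic
import Vale.Agent.P367.B.FDefs

/-! P367, block B, T2: existence of sweeps. -/

namespace Vale.Agent.P367.A

open Complex Filter Topology MeasureTheory
open Vale.Agent.P367.B (famS ex gb cl exU)

namespace LSys

section any

variable {H K : Type*} [NormedAddCommGroup H] [InnerProductSpace ℂ H]
  [NormedAddCommGroup K] [InnerProductSpace ℂ K] (L : LSys H K)

/-- existence of unitaries acting on three blocks -/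
lemma swp_exists_blk {b o r : Set ℝ} (hb : MeasurableSet b) (ho : MeasurableSet o)
    (hr : MeasurableSet r) (hbo : Disjoint b o) (hbr : Disjoint b r) (hor : Disjoint o r)
    (Ub : H ≃ₗᵢ[ℂ] H) (hUb : ∀ x, L.E b (Ub x) = Ub (L.E b x)) (P Q : Fin 3) (p q : K) :
    ∃ U : H ≃ₗᵢ[ℂ] H, ∀ x, U x = Ub (L.E b x) + L.pw (L.pau P) p (L.E o x)
      + L.pw (L.pau Q) q (L.E r x) + (x - L.E b x - L.E o x - L.E r x) := by
  refine ⟨L.bU hb Ub hUb * (L.bU ho (L.pwU P p) (L.E_pwU o P _)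
    * L.bU hr (L.pwU Q q) (L.E_pwU r Q _)), fun x => ?_⟩
  have h1 : ∀ (Q : Fin 3) (q : K) (x : H), L.E o (L.pwU Q q (L.E r x)) = 0 := by
    intro Q q x
    rw [L.E_pwU, L.E_dis ho hr hor, map_zero]
  have h2 : ∀ (Q : Fin 3) (q : K) (x : H), L.E b (L.pwU Q q (L.E r x)) = 0 := by
    intro Q q x
    rw [L.E_pwU, L.E_dis hb hr hbr, map_zero]
  have h3 : ∀ (Q : Fin 3) (q : K) (x : H), L.E b (L.pwU Q q (L.E o x)) = 0 := by
    intro Q q x
    rw [L.E_pwU, L.E_dis hb ho hbo, map_zero]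
  have e1 : L.E o (L.pwU Q q (L.E r x) + (x - L.E r x)) = L.E o x := by
    rw [map_add, map_sub, h1, L.E_dis ho hr hor]; abel
  have e2 : L.E b (L.pwU P p (L.E o x) + (L.pwU Q q (L.E r x) + (x - L.E r x) - L.E o x))
      = L.E b x := by
    rw [map_add, map_sub, map_add, map_sub, h2, h3, L.E_dis hb hr hbr, L.E_dis hb ho hbo]; abel
  rw [Sys.mulA, Sys.mulA, bU_apply, bU_apply, bU_apply, e1, e2, pwU_apply, pwU_apply]
  abel

/-- the inverse of a state commutes with everything the state commutes with -/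
lemma swp_inv_comm {V : H ≃ₗᵢ[ℂ] H} {a : H →L[ℂ] H} (h : ∀ x, a (V x) = V (a x)) (x : H) :
    a (V⁻¹ x) = V⁻¹ (a x) := by
  apply V.injective
  rw [← h, Sys.Ainv, Sys.Ainv]

/-- the operator `E_b V^-1 Q V` -/
noncomputable def swT (Q : H ≃ₗᵢ[ℂ] H) (b : Set ℝ) (V : H ≃ₗᵢ[ℂ] H) : H →L[ℂ] H :=
  L.E b * clm (V⁻¹) * clm Q * clm V

lemma swT_apply (Q : H ≃ₗᵢ[ℂ] H) (b : Set ℝ) (V : H ≃ₗᵢ[ℂ] H) (x : H) :
    L.swT Q b V x = L.E b (V⁻¹ (Q (V x))) := rfl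

lemma iota_swT (Q : H ≃ₗᵢ[ℂ] H) (b : Set ℝ) (V : H ≃ₗᵢ[ℂ] H) :
    L.iota (L.swT Q b V L.Om) = L.fv Q b V := rfl

lemma swT_sa (P : Fin 3) {b : Set ℝ} (hb : MeasurableSet b) {V : H ≃ₗᵢ[ℂ] H}
    (hV : ∀ x, L.E b (V x) = V (L.E b x)) : Sa (L.swT (L.pau P) b V) := by
  intro x y
  have e : inner ℂ x (L.E b (V⁻¹ (L.pau P (V y)))) = (inner ℂ (V x) (L.pau P (V (L.E b y))) : ℂ) := by
    rw [swp_inv_comm hV, L.E_pau, hV, ← V.inner_map_map x, Sys.Ainv]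
  rw [swT_apply, swT_apply, L.E_sa hb, Sys.inner_invA, L.inner_pau, e]

/-- elements of a control algebra commute with Pauli operators -/
lemma swp_pau_comm {𝔄 : Set (H →L[ℂ] H)} (hA : L.Ctl 𝔄) (P : Fin 3) {a : H →L[ℂ] H}
    (ha : a ∈ 𝔄) (x : H) : a (L.pau P x) = L.pau P (a x) := by
  have hX := hA.X a ha
  have hZ := hA.Z a ha
  fin_cases P
  · exact hX x
  · change a (L.Zt _ x) = L.Zt _ (a x)
    rw [L.Zt_apply, L.Zt_apply, L.xr_apply, L.xr_apply, map_sub, map_smul, map_smul, hX, hZ]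
  · exact hZ x

lemma swp_E_mem {𝔄 : Set (H →L[ℂ] H)} (hA : L.Ctl 𝔄) {b : Set ℝ} (hb : MeasurableSet b) :
    L.E b ∈ 𝔄 := hA.lab _ (Bm.ind hb 1)

lemma swp_comm {𝔄 : Set (H →L[ℂ] H)} (hA : L.Ctl 𝔄) {a c : H →L[ℂ] H} (ha : a ∈ 𝔄) (hc : c ∈ 𝔄)
    (x : H) : a (c x) = c (a x) :=
  congrArg (fun A : H →L[ℂ] H => A x) (hA.comm _ _ ha hc)

lemma swT_comm {𝔄 : Set (H →L[ℂ] H)} (hA : L.Ctl 𝔄) (P : Fin 3) {b : Set ℝ}
    (hb : MeasurableSet b) {V : H ≃ₗᵢ[ℂ] H} (hV : ∀ a ∈ 𝔄, ∀ x, a (V x) = V (a x)) :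
    ∀ c ∈ 𝔄, L.swT (L.pau P) b V * c = c * L.swT (L.pau P) b V := by
  intro c hcA
  ext y
  change L.E b (V⁻¹ (L.pau P (V (c y)))) = c (L.E b (V⁻¹ (L.pau P (V y))))
  rw [L.swp_comm hA hcA (L.swp_E_mem hA hb), swp_inv_comm (hV c hcA), L.swp_pau_comm hA P hcA,
    hV c hcA]

/-- Weyl operators of the control vectors commute with the controls -/
lemma swp_W_comm {𝔄 : Set (H →L[ℂ] H)} (hA : L.Ctl 𝔄) (P Q : Fin 3) {o r : Set ℝ}
    (ho : MeasurableSet o) (hr : MeasurableSet r) {V : H ≃ₗᵢ[ℂ] H}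
    (hV : ∀ a ∈ 𝔄, ∀ x, a (V x) = V (a x)) (m l : ℝ) {a : H →L[ℂ] H} (ha : a ∈ 𝔄) (x : H) :
    a (L.W ((m : ℂ) • L.fv (L.pau P) o V + (l : ℂ) • L.fv (L.pau Q) r V) x)
      = L.W ((m : ℂ) • L.fv (L.pau P) o V + (l : ℂ) • L.fv (L.pau Q) r V) (a x) := by
  have h1 := L.swT_sa P ho (hV _ (L.swp_E_mem hA ho))
  have h2 := L.swT_sa Q hr (hV _ (L.swp_E_mem hA hr))
  have h := hA.W a ha ((m : ℂ) • L.swT (L.pau P) o V + (l : ℂ) • L.swT (L.pau Q) r V)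
    (fun x y => by
      change inner ℂ ((m : ℂ) • L.swT (L.pau P) o V x + (l : ℂ) • L.swT (L.pau Q) r V x) y
        = inner ℂ x ((m : ℂ) • L.swT (L.pau P) o V y + (l : ℂ) • L.swT (L.pau Q) r V y)
      rw [inner_add_left, inner_add_right, inner_smul_left, inner_smul_left, inner_smul_right,
        inner_smul_right, Complex.conj_ofReal, Complex.conj_ofReal, h1, h2])
    (fun c hc => by
      rw [add_mul, mul_add, smul_mul_assoc, smul_mul_assoc, mul_smul_comm, mul_smul_comm,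
        L.swT_comm hA P ho hV c hc, L.swT_comm hA Q hr hV c hc]) x
  have e : L.iota (((m : ℂ) • L.swT (L.pau P) o V + (l : ℂ) • L.swT (L.pau Q) r V) L.Om)
      = (m : ℂ) • L.fv (L.pau P) o V + (l : ℂ) • L.fv (L.pau Q) r V := by
    change L.iota ((m : ℂ) • L.swT (L.pau P) o V L.Om + (l : ℂ) • L.swT (L.pau Q) r V L.Om) = _
    rw [map_add, map_smul, map_smul, iota_swT, iota_swT]
  rwa [e] at h

end any

section main

variable {H K : Type} [NormedAddCommGroup H] [InnerProductSpace ℂ H]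
  [NormedAddCommGroup K] [InnerProductSpace ℂ K] (L : LSys H K)
  (hc : ∀ x : H, Tendsto (fun a => L.W a x) (𝓝 0) (𝓝 x))

lemma swp_isSelfAdjoint [CompleteSpace H] {a : H →L[ℂ] H} (ha : Sa a) : IsSelfAdjoint a := by
  rw [isSelfAdjoint_iff, ContinuousLinearMap.star_eq_adjoint]
  symm
  rw [ContinuousLinearMap.eq_adjoint_iff]
  exact ha

/-- the psi of the function gate -/
lemma swp_psi {G b : Set ℝ} {𝔄 : Set (H →L[ℂ] H)} (hA : L.Ctl 𝔄) {sg : H →L[ℂ] H}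
    (hsg : L.Sgn G 𝔄 sg) (hG : MeasurableSet G) (hb : MeasurableSet b) (hbG : b ⊆ G) :
    sg * L.E b ∈ 𝔄 ∧ Sa (sg * L.E b) ∧ (sg * L.E b) * L.E G = sg * L.E b ∧
      (sg * L.E b) * L.E b = sg * L.E b := by
  refine ⟨hA.mul _ _ hsg.1 (L.swp_E_mem hA hb), fun x y => ?_, ?_, ?_⟩
  · change inner ℂ (sg (L.E b x)) y = inner ℂ x (sg (L.E b y))
    rw [hsg.2.1, L.E_sa hb, L.swp_comm hA hsg.1 (L.swp_E_mem hA hb)]
  · ext x
    change sg (L.E b (L.E G x)) = sg (L.E b x)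
    rw [L.E_sub hb hG hbG]
  · ext x
    change sg (L.E b (L.E b x)) = sg (L.E b x)
    rw [L.E_E hb]

/-- one step of a sweep -/
lemma swp_step [CompleteSpace H] (hFG : L.FGStmt) {G : Set ℝ} {𝔄 : Set (H →L[ℂ] H)}
    {Rch : Set ℝ → Set ℝ → (H ≃ₗᵢ[ℂ] H) → Prop}
    (hG : MeasurableSet G) (hA : L.Ctl 𝔄) (hC : L.Closed G 𝔄 Rch)
    {M R r : Set ℝ} {V : H ≃ₗᵢ[ℂ] H} {sg : H →L[ℂ] H} (s mu a la : ℝ) {b : Set ℝ}
    (hV : Rch M R V) (hr : MeasurableSet r) (hrM : r ⊆ M) (hGr : Disjoint G r)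
    (hsg : L.Sgn G 𝔄 sg) (hb : MeasurableSet b) (hbG : b ⊆ G) :
    ∃ (V1 V2 V' : H ≃ₗᵢ[ℂ] H) (co cr : ℂ), Rch M R V1 ∧ Rch M R V2 ∧ Rch M R V' ∧
      L.StepRel hc G r b sg s mu a la V V1 V2 V' co cr ∧
      ∀ x, L.E (G ∪ r)ᶜ (V' x) = L.E (G ∪ r)ᶜ (V x) := by
  have hGM : G ⊆ M := (hC.meas M R V hV).2.2.2
  have hbM : b ⊆ M := hbG.trans hGM
  have hbr : Disjoint b r := hGr.mono_left hbG
  have ho : MeasurableSet (G \ b) := hG.diff hb
  have hbo : Disjoint b (G \ b) := Set.disjoint_sdiff_right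
  have hor : Disjoint (G \ b) r := hGr.mono_left Set.sdiff_subset
  have hoM : G \ b ⊆ M := Set.sdiff_subset.trans hGM
  -- (1)
  obtain ⟨U1, hU1⟩ := L.exists_coup hb hr hbr 2 2 (-a) V
  have hV1 := hC.coup M R V b r 2 2 (-a) U1 hV hb hr hbM hrM hbr hU1
  have hV1c := hC.comm M R _ hV1
  -- (2)
  obtain ⟨V1, hV1d⟩ : ∃ V1, V1 = U1 * V := ⟨_, rfl⟩
  rw [← hV1d] at hV1 hV1c
  obtain ⟨hp1, hp2, hp3, hp4⟩ := L.swp_psi hA hsg hG hb hbG
  have hdata : L.FData G 𝔄 M b (G \ b) r (sg * L.E b) :=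
    ⟨hb, ho, hr, hbM, hoM, hrM, hbo, hbr, hor, hp1, hp2, hp3, hp4⟩
  have hfg := hFG G 𝔄 Rch hG hA hC M R b (G \ b) r V1 (sg * L.E b) mu la (-(s / mu)) hV1 hdata
  obtain ⟨C, hCd⟩ : ∃ C, C = L.stC b sg s mu := ⟨_, rfl⟩
  obtain ⟨v, hvd⟩ : ∃ v, v = L.stv G r b mu la V1 := ⟨_, rfl⟩
  obtain ⟨q, hqd⟩ : ∃ q, q = L.stq hc G r b sg s mu la V1 := ⟨_, rfl⟩
  have hCsm : C = (-((s / mu : ℝ) : ℂ)) • (sg * L.E b) := hCd
  have hCsa : IsSelfAdjoint C := by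
    apply swp_isSelfAdjoint
    intro x y
    rw [hCsm]
    change inner ℂ ((-((s / mu : ℝ) : ℂ)) • (sg * L.E b) x) y
      = inner ℂ x ((-((s / mu : ℝ) : ℂ)) • (sg * L.E b) y)
    rw [inner_smul_left, inner_smul_right, hp2, map_neg, Complex.conj_ofReal]
  have hCZ : ∀ x, C (L.Z x) = L.Z (C x) := by
    intro x
    rw [hCsm]
    change (-((s / mu : ℝ) : ℂ)) • (sg * L.E b) (L.Z x)
      = L.Z ((-((s / mu : ℝ) : ℂ)) • (sg * L.E b) x)
    rw [map_smul, hA.Z _ hp1]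
  have hWc : ∀ a ∈ 𝔄, ∀ x, a (L.W v x) = L.W v (a x) := fun a ha x => by
    rw [hvd]
    exact L.swp_W_comm hA 2 1 ho hr hV1c mu la ha x
  have hWc' : ∀ a ∈ 𝔄, ∀ x, a (L.W (-v) x) = L.W (-v) (a x) := fun a ha x => by
    have h := L.swp_W_comm hA 2 1 ho hr hV1c (-mu) (-la) ha x
    have e : -v = ((-mu : ℝ) : ℂ) • L.fv (L.pau 2) (G \ b) V1
        + ((-la : ℝ) : ℂ) • L.fv (L.pau 1) r V1 := by
      rw [hvd, stv, Complex.ofReal_neg, Complex.ofReal_neg, neg_smul, neg_smul, neg_add]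
      rfl
    rw [e]
    exact h
  have hCW : ∀ x, C (L.W v x) = L.W v (C x) := by
    intro x
    rw [hCsm]
    change (-((s / mu : ℝ) : ℂ)) • (sg * L.E b) (L.W v x)
      = L.W v ((-((s / mu : ℝ) : ℂ)) • (sg * L.E b) x)
    rw [map_smul, hWc _ hp1]
  have hCW' : ∀ x, C (L.W (-v) x) = L.W (-v) (C x) := by
    intro x
    rw [hCsm]
    change (-((s / mu : ℝ) : ℂ)) • (sg * L.E b) (L.W (-v) x)
      = L.W (-v) ((-((s / mu : ℝ) : ℂ)) • (sg * L.E b) x)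
    rw [map_smul, hWc' _ hp1]
  have hgb : IsSelfAdjoint (gb L.toSys hc C v) :=
    Vale.Agent.P367.B.gb_sa L.toSys hc hCsa (by ext x; exact hCZ x) hCW hCW'
  have hEb : L.E b ∈ 𝔄 := L.swp_E_mem hA hb
  have hEc : ∀ x, L.E b (C x) = C (L.E b x) := by
    intro x
    rw [hCsm]
    change L.E b ((-((s / mu : ℝ) : ℂ)) • (sg * L.E b) x)
      = (-((s / mu : ℝ) : ℂ)) • (sg * L.E b) (L.E b x)
    rw [map_smul, L.swp_comm hA hEb hp1]
  have hcomm : Commute (gb L.toSys hc C v) (L.E b) := by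
    ext x
    change gb L.toSys hc C v (L.E b x) = L.E b (gb L.toSys hc C v x)
    rw [Vale.Agent.P367.B.gb_apply, Vale.Agent.P367.B.gb_apply, map_neg, hEc, L.E_Z,
      Vale.Agent.P367.B.cs_apply', Vale.Agent.P367.B.cs_apply', map_smul (L.E b), map_add (L.E b),
      L.E_W, L.E_W]
  have hUb : ∀ x, L.E b (exU (gb L.toSys hc C v) hgb x) = exU (gb L.toSys hc C v) hgb (L.E b x) := by
    intro x
    rw [Vale.Agent.P367.B.exU_apply, Vale.Agent.P367.B.exU_apply]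
    exact (congrArg (fun A : H →L[ℂ] H => A x) (Vale.Agent.P367.B.ex_commute hcomm)).symm
  obtain ⟨U2, hU2⟩ := L.swp_exists_blk hb ho hr hbo hbr hor _ hUb 2 1 (-((mu : ℂ) • q))
    (-((la : ℂ) • q))
  have hblk : L.IsBlk b (G \ b) r
      (NormedSpace.exp ((-(Complex.I * ((-(s / mu) : ℝ) : ℂ))) •
            ((sg * L.E b) * (clm L.Z * L.cosf (L.cvec mu la (G \ b) r V1)))))
      ((mu : ℂ) • L.rvec (L.cvec mu la (G \ b) r V1) b (sg * L.E b) (-(s / mu)) V1)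
      ((la : ℂ) • L.rvec (L.cvec mu la (G \ b) r V1) b (sg * L.E b) (-(s / mu)) V1) 1 1 U2 := by
    have hv2 : L.cvec mu la (G \ b) r V1 = v := by rw [hvd]; rfl
    have hq2 : L.rvec v b (sg * L.E b) (-(s / mu)) V1 = -q := by
      have e1 : L.sinf v (V1 L.Om) = (famS L.toSys hc).sn v (V1 L.Om) := by
        rw [Vale.Agent.P367.B.sn_apply', show (2 * Complex.I)⁻¹ = -(Complex.I / 2) by
          rw [mul_inv, Complex.inv_I]; ring]
        rfl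
      rw [rvec, e1, hqd, stq, ← hvd, ← hCd, hCsm]
      change _ = -L.iota (L.E b (V1⁻¹ ((-((s / mu : ℝ) : ℂ)) • (sg * L.E b) (L.Z _))))
      rw [map_smul, map_smul, map_smul, ← neg_smul]
      push_cast
      rfl
    intro x
    rw [hv2, hq2, hU2, one_smul, one_smul, smul_neg, smul_neg, Vale.Agent.P367.B.exU_apply]
    congr 4
    unfold ex
    congr 1
    have e2 : gb L.toSys hc C v = -(((-((s / mu : ℝ) : ℂ)) • (sg * L.E b)) *
        (clm L.Z * L.cosf v)) := by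
      rw [← hCsm]
      ext x
      rw [Vale.Agent.P367.B.gb_apply, Vale.Agent.P367.B.cs_apply']
      change _ = -(C (L.Z ((1 / 2 : ℂ) • (L.W v x + L.W (-v) x))))
      rw [one_div]
    rw [e2, smul_mul_assoc]
    push_cast
    module
  have hV2 := hfg U2 hblk
  obtain ⟨V2, hV2d⟩ : ∃ V2, V2 = U2 * V1 := ⟨_, rfl⟩
  rw [← hV2d] at hV2
  -- (3)
  obtain ⟨U3, hU3⟩ := L.exists_coup hb hr hbr 2 2 a V2
  have hV3 := hC.coup M R V2 b r 2 2 a U3 hV2 hb hr hbM hrM hbr hU3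
  have s1 : ∀ x, V1 x = L.zr (-((a : ℂ) • L.fv L.Z r V)) (L.E b (V x))
      + L.zr (-((a : ℂ) • L.fv L.Z b V)) (L.E r (V x)) + (V x - L.E b (V x) - L.E r (V x)) := by
    intro x
    rw [hV1d, Sys.mulA, hU1, L.pw_two, L.pw_two, Complex.ofReal_neg, neg_smul, neg_smul]
    rfl
  have s2 : ∀ x, V2 x = ex (gb L.toSys hc C v) (L.E b (V1 x))
      + (1 : ℂ) • L.zr (-((mu : ℂ) • q)) (L.E (G \ b) (V1 x))
      + (1 : ℂ) • L.pw (L.pau 1) (-((la : ℂ) • q)) (L.E r (V1 x))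
      + (V1 x - L.E b (V1 x) - L.E (G \ b) (V1 x) - L.E r (V1 x)) := by
    intro x
    rw [hV2d, Sys.mulA, hU2, one_smul, one_smul, L.pw_two, Vale.Agent.P367.B.exU_apply]
  have s3 : ∀ x, (U3 * V2) x = L.zr ((a : ℂ) • L.fv L.Z r V2) (L.E b (V2 x))
      + L.zr ((a : ℂ) • L.fv L.Z b V2) (L.E r (V2 x)) + (V2 x - L.E b (V2 x) - L.E r (V2 x)) := by
    intro x
    rw [Sys.mulA, hU3, L.pw_two, L.pw_two]
    rfl
  refine ⟨V1, V2, U3 * V2, 1, 1, hV1, hV2, hV3, ⟨norm_one, norm_one, s1, ?_, s3⟩, fun x => ?_⟩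
  · rw [← hCd, ← hvd, ← hqd]
    exact s2
  · have hcm : MeasurableSet (G ∪ r)ᶜ := (hG.union hr).compl
    have d1 : Disjoint (G ∪ r)ᶜ b :=
      (Set.disjoint_compl_left_iff_subset.2 (hbG.trans Set.subset_union_left))
    have d2 : Disjoint (G ∪ r)ᶜ (G \ b) :=
      (Set.disjoint_compl_left_iff_subset.2 (Set.sdiff_subset.trans Set.subset_union_left))
    have d3 : Disjoint (G ∪ r)ᶜ r :=
      (Set.disjoint_compl_left_iff_subset.2 Set.subset_union_right)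
    have k1 : ∀ x, L.E (G ∪ r)ᶜ (V1 x) = L.E (G ∪ r)ᶜ (V x) := by
      intro x
      rw [s1, map_add, map_add, map_sub, map_sub, L.E_zr, L.E_zr, L.E_dis hcm hb d1,
        L.E_dis hcm hr d3, map_zero, map_zero]
      abel
    have k2 : ∀ x, L.E (G ∪ r)ᶜ (V2 x) = L.E (G ∪ r)ᶜ (V1 x) := by
      intro x
      have e3 : L.E (G ∪ r)ᶜ (ex (gb L.toSys hc C v) (L.E b (V1 x))) = 0 := by
        have := hUb (L.E b (V1 x))
        rw [Vale.Agent.P367.B.exU_apply, Vale.Agent.P367.B.exU_apply, L.E_E hb] at this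
        rw [← this, L.E_dis hcm hb d1]
      have hpz : ∀ w, L.pw (L.pau 1) w (0 : H) = 0 := fun w => (L.pwLin 1 w).map_zero
      rw [s2, map_add, map_add, map_add, map_sub, map_sub, map_sub, map_smul, map_smul, e3, L.E_zr,
        L.E_pw, L.E_dis hcm hb d1, L.E_dis hcm ho d2, L.E_dis hcm hr d3, map_zero, hpz,
        smul_zero]
      abel
    rw [s3, map_add, map_add, map_sub, map_sub, L.E_zr, L.E_zr, L.E_dis hcm hb d1,
        L.E_dis hcm hr d3, map_zero, map_zero, k2, k1]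
    abel

/-- (S) existence of sweeps -/
theorem sweepStmt [CompleteSpace H] (hFG : L.FGStmt) : L.SweepStmt hc := by
  intro G 𝔄 Rch hG hA hC M R r V0 sg s mu a la b hV0 hr hrM hGr hsg hb hbG
  have step := fun (V : {V : H ≃ₗᵢ[ℂ] H // Rch M R V}) (i : ℕ) =>
    L.swp_step hc hFG hG hA hC s mu a la V.2 hr hrM hGr hsg (hb i) (hbG i)
  choose V1 V2 V' co cr h1 h2 h3 h4 h5 using step
  let S : ℕ → {V : H ≃ₗᵢ[ℂ] H // Rch M R V} := fun i =>
    Nat.rec ⟨V0, hV0⟩ (fun i V => ⟨V' V i, h3 V i⟩) i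
  refine ⟨fun i => (S i).1, fun i => V1 (S i) i, fun i => V2 (S i) i, fun i => co (S i) i,
    fun i => cr (S i) i, rfl, fun i => (S i).2, fun i => h1 _ i, fun i => h2 _ i,
    fun i => h4 (S i) i, fun i => ?_⟩
  induction i with
  | zero => exact fun x => rfl
  | succ i ih => exact fun x => (h5 (S i) i x).trans (ih x)

end main

end LSys

end Vale.Agent.P367.A
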