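import Vale.Agent.P367.B.LBase
import Vale.Agent.P367.B.LBas

/-! P367 block B, value, E3: the vector `U^* Z U Om` of a field controlled rotation about `Y`. -/

namespace Vale.Agent.P367.A

open Complex Filter Topology MeasureTheory ProbabilityTheory

namespace LSys

variable {H K : Type*} [NormedAddCommGroup H] [InnerProductSpace ℂ H]
  [NormedAddCommGroup K] [InnerProductSpace ℂ K] (L : LSys H K)

lemma ven3_pau1 (x : H) : L.pau 1 x = Complex.I • L.X (L.Z x) := by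
  change L.Zt (-(Real.pi / 4)) x = _
  rw [L.Zt_apply, L.xr_apply]
  have h : 2 * (2 * (-(Real.pi / 4))) / 2 = -(Real.pi / 2) := by ring
  have h' : 2 * (-(Real.pi / 4)) = -(Real.pi / 2) := by ring
  rw [h', Real.cos_neg, Real.sin_neg, Real.cos_pi_div_two, Real.sin_pi_div_two]
  simp

variable {n : ℕ} {y : Fin n → K} {fc : (ℝ × (Fin n → ℝ) → ℂ) → (H →L[ℂ] H)}

lemma ven3_X (hfc : L.FCal y fc) {f : ℝ × (Fin n → ℝ) → ℂ} (hf : Bmn f) (x : H) :
    fc f (L.X x) = L.X (fc f x) := by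
  have h := hfc.comm f hf L.X.toContinuousLinearEquiv.toContinuousLinearMap
    (fun g _ => by ext1 x; exact L.lab_X g x) (fun k x => L.WX _ x)
  exact DFunLike.congr_fun h x

lemma ven3_Z (hfc : L.FCal y fc) {f : ℝ × (Fin n → ℝ) → ℂ} (hf : Bmn f) (x : H) :
    fc f (L.Z x) = L.Z (fc f x) := by
  have h := hfc.comm f hf L.Z.toContinuousLinearEquiv.toContinuousLinearMap
    (fun g _ => by ext1 x; exact L.lab_Z g x) (fun k x => L.WZ _ x)
  exact DFunLike.congr_fun h x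

lemma ven3_bm {g : ℝ × (Fin n → ℝ) → ℝ} (hg : Measurable g) {C : ℝ} (hC : ∀ z, |g z| ≤ C) :
    Bmn fun z => ((g z : ℝ) : ℂ) :=
  ⟨Complex.measurable_ofReal.comp hg, C, fun z => by
    rw [Complex.norm_real, Real.norm_eq_abs]
    exact hC z⟩

lemma ven3_bmc {t : ℝ × (Fin n → ℝ) → ℝ} (ht : Measurable t) :
    Bmn fun z => ((Real.cos (t z) : ℝ) : ℂ) :=
  ven3_bm (Real.measurable_cos.comp ht) (fun z => Real.abs_cos_le_one _)

lemma ven3_bms {t : ℝ × (Fin n → ℝ) → ℝ} (ht : Measurable t) :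
    Bmn fun z => ((Real.sin (t z) : ℝ) : ℂ) :=
  ven3_bm (Real.measurable_sin.comp ht) (fun z => Real.abs_sin_le_one _)

lemma ven3_mul {f g : ℝ × (Fin n → ℝ) → ℂ} (hf : Bmn f) (hg : Bmn g) :
    Bmn fun z => f z * g z := by
  obtain ⟨C, hC⟩ := hf.2
  obtain ⟨D, hD⟩ := hg.2
  refine ⟨hf.1.mul hg.1, C * D, fun z => ?_⟩
  rw [norm_mul]
  exact mul_le_mul (hC z) (hD z) (norm_nonneg _) ((norm_nonneg _).trans (hC z))

/-- **E3, general form**: if `U = cos t - i Y sin t` then `U^* Z U Om = cos 2t Z Om - sin 2t Om`. -/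
theorem ven3_xv (hfc : L.FCal y fc) {t : ℝ × (Fin n → ℝ) → ℝ} (ht : Measurable t)
    {U : H ≃ₗᵢ[ℂ] H} (hU : ∀ x, U x = fc (fun z => ((Real.cos (t z) : ℝ) : ℂ)) x
      - Complex.I • L.pau 1 (fc (fun z => ((Real.sin (t z) : ℝ) : ℂ)) x)) :
    L.xv U = fc (fun z => ((Real.cos (2 * t z) : ℝ) : ℂ)) (L.Z L.Om)
      - fc (fun z => ((Real.sin (2 * t z) : ℝ) : ℂ)) L.Om := by
  have h2 : Measurable fun z => 2 * t z := ht.const_mul 2
  have bc := ven3_bmc ht
  have bs := ven3_bms ht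
  have bc2 := ven3_bmc h2
  have bs2 := ven3_bms h2
  have m : ∀ {f g : ℝ × (Fin n → ℝ) → ℂ}, Bmn f → Bmn g → ∀ x,
      fc f (fc g x) = fc (fun z => f z * g z) x := fun hf hg x =>
    (DFunLike.congr_fun (hfc.mul _ _ hf hg) x).symm
  have hYZ : L.pau 1 (L.Z L.Om) = Complex.I • L.Om := by
    rw [ven3_pau1, L.ZZ, L.XOm]
  have hY : L.pau 1 L.Om = -(Complex.I • L.Z L.Om) := by
    rw [ven3_pau1, L.XZ, L.XOm, smul_neg]
  have hYf : ∀ {f : ℝ × (Fin n → ℝ) → ℂ}, Bmn f → ∀ x, L.pau 1 (fc f x) = fc f (L.pau 1 x) := by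
    intro f hf x
    rw [ven3_pau1, ven3_pau1, map_smul, ven3_X L hfc hf, ven3_Z L hfc hf]
  have hUOm : L.Z (U L.Om) = fc (fun z => ((Real.cos (t z) : ℝ) : ℂ)) (L.Z L.Om)
      - fc (fun z => ((Real.sin (t z) : ℝ) : ℂ)) L.Om := by
    rw [hU, hYf bs, hY, map_neg, map_smul, smul_neg, smul_smul, Complex.I_mul_I, neg_one_smul,
      neg_neg, sub_eq_add_neg, map_add, map_neg, ← ven3_Z L hfc bc, ← ven3_Z L hfc bs, L.ZZ,
      ← sub_eq_add_neg]
  have hU1 : U (fc (fun z => ((Real.cos (2 * t z) : ℝ) : ℂ)) (L.Z L.Om))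
      = fc (fun z => ((Real.cos (t z) : ℝ) : ℂ) * ((Real.cos (2 * t z) : ℝ) : ℂ)) (L.Z L.Om)
        + fc (fun z => ((Real.sin (t z) : ℝ) : ℂ) * ((Real.cos (2 * t z) : ℝ) : ℂ)) L.Om := by
    rw [hU, m bc bc2, m bs bc2, hYf (ven3_mul bs bc2), hYZ, map_smul, smul_smul, Complex.I_mul_I,
      neg_one_smul, sub_neg_eq_add]
  have hU2 : U (fc (fun z => ((Real.sin (2 * t z) : ℝ) : ℂ)) L.Om)
      = fc (fun z => ((Real.cos (t z) : ℝ) : ℂ) * ((Real.sin (2 * t z) : ℝ) : ℂ)) L.Om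
        - fc (fun z => ((Real.sin (t z) : ℝ) : ℂ) * ((Real.sin (2 * t z) : ℝ) : ℂ))
          (L.Z L.Om) := by
    rw [hU, m bc bs2, m bs bs2, hYf (ven3_mul bs bs2), hY, map_neg, map_smul, smul_neg, smul_smul,
      Complex.I_mul_I, neg_one_smul, neg_neg]
  have e1 : (fun z => ((Real.cos (t z) : ℝ) : ℂ)) = fun z =>
      ((Real.cos (t z) : ℝ) : ℂ) * ((Real.cos (2 * t z) : ℝ) : ℂ)
        + ((Real.sin (t z) : ℝ) : ℂ) * ((Real.sin (2 * t z) : ℝ) : ℂ) := by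
    funext z
    have h := Real.cos_sub (2 * t z) (t z)
    rw [show 2 * t z - t z = t z by ring] at h
    rw [← Complex.ofReal_mul, ← Complex.ofReal_mul, ← Complex.ofReal_add]
    congr 1
    linarith
  have e2 : (fun z => ((Real.cos (t z) : ℝ) : ℂ) * ((Real.sin (2 * t z) : ℝ) : ℂ)) = fun z =>
      ((Real.sin (t z) : ℝ) : ℂ) + ((Real.sin (t z) : ℝ) : ℂ) * ((Real.cos (2 * t z) : ℝ) : ℂ) := by
    funext z
    have h := Real.sin_sub (2 * t z) (t z)
    rw [show 2 * t z - t z = t z by ring] at h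
    rw [← Complex.ofReal_mul, ← Complex.ofReal_mul, ← Complex.ofReal_add]
    congr 1
    linarith
  have key : L.Z (U L.Om) = U (fc (fun z => ((Real.cos (2 * t z) : ℝ) : ℂ)) (L.Z L.Om)
      - fc (fun z => ((Real.sin (2 * t z) : ℝ) : ℂ)) L.Om) := by
    rw [map_sub, hUOm, hU1, hU2, e1, hfc.add _ _ (ven3_mul bc bc2) (ven3_mul bs bs2), e2,
      hfc.add _ _ bs (ven3_mul bs bc2)]
    simp only [add_apply]
    abel
  unfold Sys.xv
  rw [key]
  exact U.symm_apply_apply _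

/-- **E3**: on the labels of `G` (`t = 1_G th`) -/
theorem ven3_main (hfc : L.FCal y fc) {G : Set ℝ} (hG : MeasurableSet G)
    {t : ℝ × (Fin n → ℝ) → ℝ} (ht : Measurable t) {U : H ≃ₗᵢ[ℂ] H}
    (hU : ∀ x, U x = fc (fun z => ((Real.cos (t z) : ℝ) : ℂ)) x
      - Complex.I • L.pau 1 (fc (fun z => ((Real.sin (t z) : ℝ) : ℂ)) x)) :
    L.E G (L.xv U)
      = fc (fun z => ((G.indicator (fun _ => (1 : ℝ)) z.1 * Real.cos (2 * t z) : ℝ) : ℂ))
          (L.Z L.Om)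
        + fc (fun z => ((-(G.indicator (fun _ => (1 : ℝ)) z.1 * Real.sin (2 * t z)) : ℝ) : ℂ))
          L.Om := by
  have h2 : Measurable fun z => 2 * t z := ht.const_mul 2
  rw [ven3_xv L hfc ht hU, map_sub]
  have hB : Bm (G.indicator fun _ => (1 : ℂ)) := by
    refine ⟨measurable_const.indicator hG, 1, fun t => ?_⟩
    by_cases h : t ∈ G
    · simp [Set.indicator_of_mem h]
    · simp [Set.indicator_of_notMem h]
  have hB' : Bmn fun z : ℝ × (Fin n → ℝ) => G.indicator (fun _ => (1 : ℂ)) z.1 :=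
    ⟨hB.1.comp measurable_fst, hB.2.choose, fun _ => hB.2.choose_spec _⟩
  have hE : L.E G = fc fun z => G.indicator (fun _ => (1 : ℂ)) z.1 := (hfc.lab _ hB).symm
  have m : ∀ {f g : ℝ × (Fin n → ℝ) → ℂ}, Bmn f → Bmn g → ∀ x,
      fc f (fc g x) = fc (fun z => f z * g z) x := fun hf hg x =>
    (DFunLike.congr_fun (hfc.mul _ _ hf hg) x).symm
  have hi : ∀ z : ℝ × (Fin n → ℝ), G.indicator (fun _ => (1 : ℂ)) z.1
      = ((G.indicator (fun _ => (1 : ℝ)) z.1 : ℝ) : ℂ) := by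
    intro z
    by_cases h : z.1 ∈ G
    · rw [Set.indicator_of_mem h, Set.indicator_of_mem h, Complex.ofReal_one]
    · rw [Set.indicator_of_notMem h, Set.indicator_of_notMem h, Complex.ofReal_zero]
  have mm : Bmn fun z : ℝ × (Fin n → ℝ) =>
      ((G.indicator (fun _ => (1 : ℝ)) z.1 * Real.sin (2 * t z) : ℝ) : ℂ) := by
    have h := ven3_mul hB' (ven3_bms h2)
    have e : (fun z : ℝ × (Fin n → ℝ) =>
        ((G.indicator (fun _ => (1 : ℝ)) z.1 * Real.sin (2 * t z) : ℝ) : ℂ))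
        = fun z => G.indicator (fun _ => (1 : ℂ)) z.1 * ((Real.sin (2 * t z) : ℝ) : ℂ) := by
      funext z
      rw [hi]
      push_cast
      ring
    rw [e]
    exact h
  rw [hE, m hB' (ven3_bmc h2), m hB' (ven3_bms h2)]
  have hneg : fc (fun z => ((-(G.indicator (fun _ => (1 : ℝ)) z.1 * Real.sin (2 * t z)) : ℝ) : ℂ))
      L.Om = -fc (fun z => G.indicator (fun _ => (1 : ℂ)) z.1 * ((Real.sin (2 * t z) : ℝ) : ℂ))
        L.Om := by
    have hc : Bmn fun _ : ℝ × (Fin n → ℝ) => (-1 : ℂ) := ⟨measurable_const, 1, fun _ => by simp⟩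
    have h3 := m hc mm L.Om
    have h4 : fc (fun _ : ℝ × (Fin n → ℝ) => (-1 : ℂ)) = (-1 : ℂ) • (1 : H →L[ℂ] H) := by
      have h5 := hfc.lab (fun _ => (-1 : ℂ)) ⟨measurable_const, 1, fun _ => by simp⟩
      rw [h5]
      exact L.lab_const _
    rw [h4] at h3
    have h6 : (fun z : ℝ × (Fin n → ℝ) =>
        (-1 : ℂ) * ((G.indicator (fun _ => (1 : ℝ)) z.1 * Real.sin (2 * t z) : ℝ) : ℂ))
        = fun z => ((-(G.indicator (fun _ => (1 : ℝ)) z.1 * Real.sin (2 * t z)) : ℝ) : ℂ) := by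
      funext z
      push_cast
      ring
    rw [h6] at h3
    rw [← h3]
    have h7 : (fun z : ℝ × (Fin n → ℝ) =>
        ((G.indicator (fun _ => (1 : ℝ)) z.1 * Real.sin (2 * t z) : ℝ) : ℂ))
        = fun z => G.indicator (fun _ => (1 : ℂ)) z.1 * ((Real.sin (2 * t z) : ℝ) : ℂ) := by
      funext z
      rw [hi]
      push_cast
      ring
    rw [h7]
    exact neg_one_smul ℂ _
  rw [hneg, sub_eq_add_neg]
  congr 3
  funext z
  rw [hi]
  push_cast
  ring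

/-- choice of the angle -/
lemma ven3_choice {α : Type*} [MeasurableSpace α] {m0 : α → ℝ} (hm : Measurable m0)
    (h1 : ∀ z, |m0 z| ≤ 1) : ∃ th : α → ℝ, Measurable th ∧ (∀ z, |th z| ≤ Real.pi / 4) ∧
      (∀ z, -Real.sin (2 * th z) = m0 z) ∧ (∀ z, m0 z = 0 → th z = 0) ∧
      (∀ z, Real.cos (2 * th z) = Real.sqrt (1 - m0 z ^ 2)) := by
  refine ⟨fun z => -(Real.arcsin (m0 z) / 2), ?_, fun z => ?_, fun z => ?_, fun z hz => ?_,
    fun z => ?_⟩
  · exact ((Real.continuous_arcsin.measurable.comp hm).div_const 2).neg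
  · have h2 := Real.arcsin_le_pi_div_two (m0 z)
    have h3 := Real.neg_pi_div_two_le_arcsin (m0 z)
    rw [abs_le]
    constructor <;> linarith
  · have h := h1 z
    rw [abs_le] at h
    have e : 2 * -(Real.arcsin (m0 z) / 2) = -Real.arcsin (m0 z) := by ring
    rw [e, Real.sin_neg, neg_neg, Real.sin_arcsin h.1 h.2]
  · simp [hz]
  · have e : 2 * -(Real.arcsin (m0 z) / 2) = -Real.arcsin (m0 z) := by ring
    rw [e, Real.cos_neg, Real.cos_arcsin]

end LSys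

end Vale.Agent.P367.A
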