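import Vale.Agent.P367.B.LBase
import Vale.Agent.P367.B.Dens1

/-! P367, block B, value: induction principles for bounded measurable functions of a label and
`n` real variables. -/

namespace Vale.Agent.P367.A

open Complex Filter Topology MeasureTheory ProbabilityTheory
open Vale.Agent.P367.B (trigE trigO cosB sinB)

namespace LSys

section bmn

variable {n : ℕ}

lemma val_bmn_const (c : ℂ) : Bmn (fun _ : ℝ × (Fin n → ℝ) => c) :=
  ⟨measurable_const, ‖c‖, fun _ => le_rfl⟩

lemma val_bmn_add {f g : ℝ × (Fin n → ℝ) → ℂ} (hf : Bmn f) (hg : Bmn g) :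
    Bmn (fun z => f z + g z) := by
  obtain ⟨h1, C, h2⟩ := hf
  obtain ⟨h3, D, h4⟩ := hg
  exact ⟨h1.add h3, C + D, fun x => (norm_add_le _ _).trans (add_le_add (h2 x) (h4 x))⟩

lemma val_bmn_mul {f g : ℝ × (Fin n → ℝ) → ℂ} (hf : Bmn f) (hg : Bmn g) :
    Bmn (fun z => f z * g z) := by
  obtain ⟨h1, C, h2⟩ := hf
  obtain ⟨h3, D, h4⟩ := hg
  refine ⟨h1.mul h3, C * D, fun x => ?_⟩
  rw [norm_mul]
  exact mul_le_mul (h2 x) (h4 x) (norm_nonneg _) ((norm_nonneg _).trans (h2 x))

lemma val_bmn_smul {f : ℝ × (Fin n → ℝ) → ℂ} (c : ℂ) (hf : Bmn f) :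
    Bmn (fun z => c * f z) := val_bmn_mul (val_bmn_const c) hf

lemma val_bmn_conj {f : ℝ × (Fin n → ℝ) → ℂ} (hf : Bmn f) :
    Bmn (fun z => (starRingEnd ℂ) (f z)) := by
  obtain ⟨h1, C, h2⟩ := hf
  refine ⟨Complex.continuous_conj.measurable.comp h1, C, fun x => ?_⟩
  rw [Complex.norm_conj]
  exact h2 x

lemma val_bmn_ofReal {f : ℝ × (Fin n → ℝ) → ℝ} (hf : Measurable f) {C : ℝ}
    (hC : ∀ z, |f z| ≤ C) : Bmn (fun z => ((f z : ℝ) : ℂ)) :=
  ⟨Complex.measurable_ofReal.comp hf, C, fun z => by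
    rw [Complex.norm_real, Real.norm_eq_abs]; exact hC z⟩

lemma val_bmn_exp (k0 : ℝ) (k : Fin n → ℝ) : Bmn (fun z : ℝ × (Fin n → ℝ) =>
    Complex.exp (Complex.I * ((k0 * z.1 + ∑ i, k i * z.2 i : ℝ) : ℂ))) := by
  refine ⟨Continuous.measurable (by fun_prop), 1, fun z => ?_⟩
  change ‖Complex.exp (Complex.I * ((k0 * z.1 + ∑ i, k i * z.2 i : ℝ) : ℂ))‖ ≤ 1
  rw [mul_comm, Complex.norm_exp_ofReal_mul_I]

lemma val_bmn_fst {f : ℝ → ℂ} (hf : Bm f) : Bmn (fun z : ℝ × (Fin n → ℝ) => f z.1) := by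
  obtain ⟨h1, C, h2⟩ := hf
  exact ⟨h1.comp measurable_fst, C, fun z => h2 _⟩

lemma val_bmn_W (k : Fin n → ℝ) : Bmn (fun z : ℝ × (Fin n → ℝ) =>
    Complex.exp (Complex.I * ((∑ i, k i * z.2 i : ℝ) : ℂ))) := by
  have h := val_bmn_exp 0 k
  simpa using h

end bmn

/-- the point of Euclidean space belonging to a label and `n` variables -/
noncomputable def val_e {n : ℕ} (z : ℝ × (Fin n → ℝ)) : EuclideanSpace ℝ (Fin (n + 1)) :=
  WithLp.toLp 2 (Fin.cons z.1 z.2 : Fin (n + 1) → ℝ)

/-- the inverse -/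
def val_d {n : ℕ} (w : EuclideanSpace ℝ (Fin (n + 1))) : ℝ × (Fin n → ℝ) :=
  (w 0, fun i => w i.succ)

lemma val_d_e {n : ℕ} (z : ℝ × (Fin n → ℝ)) : val_d (val_e z) = z := rfl

lemma val_e_meas {n : ℕ} : Measurable (val_e (n := n)) := by
  unfold val_e
  refine (WithLp.measurable_toLp 2 _).comp ?_
  rw [measurable_pi_iff]
  intro i
  refine Fin.cases ?_ (fun i => ?_) i
  · exact measurable_fst
  · exact (measurable_pi_apply i).comp measurable_snd

lemma val_d_meas {n : ℕ} : Measurable (val_d (n := n)) := by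
  unfold val_d
  refine Measurable.prodMk ?_ ?_
  · fun_prop
  · rw [measurable_pi_iff]
    intro i
    fun_prop

lemma val_inner {n : ℕ} (z : ℝ × (Fin n → ℝ)) (k : EuclideanSpace ℝ (Fin (n + 1))) :
    (inner ℝ (val_e z) k : ℝ) = k 0 * z.1 + ∑ i : Fin n, k i.succ * z.2 i := by
  rw [PiLp.inner_apply, Fin.sum_univ_succ]
  rfl

/-- approximation in the mean square of a bounded real function -/
lemma val_approx {n : ℕ} (μ : Measure (ℝ × (Fin n → ℝ))) [IsFiniteMeasure μ] (f : ℝ × (Fin n → ℝ) → ℝ) (hf : Measurable f) {C : ℝ} (hC : ∀ z, |f z| ≤ C)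
    {ε : ℝ} (hε : 0 < ε) : ∃ p : BoundedContinuousFunction (EuclideanSpace ℝ (Fin (n + 1))) ℝ,
      p ∈ trigE _ ⊔ trigO _ ∧ ∫ z, (f z - p (val_e z)) ^ 2 ∂μ < ε := by
  have : IsFiniteMeasure (μ.map (val_e (n := n))) := Measure.isFiniteMeasure_map μ _
  obtain ⟨p, hp, q, hq, h⟩ := Vale.Agent.P367.B.exists_trig (μ.map (val_e (n := n)))
    (fun w => f (val_d w)) (hf.comp val_d_meas) (fun w => hC _) hε
  refine ⟨p + q, Submodule.add_mem_sup hp hq, ?_⟩
  rw [integral_map val_e_meas.aemeasurable] at h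
  · exact h
  · refine Measurable.aestronglyMeasurable ?_
    have h1 := hf.comp (val_d_meas (n := n))
    have h2 := p.continuous.measurable
    have h3 := q.continuous.measurable
    exact (h1.sub (h2.add h3)).pow_const 2

section ind

variable {n : ℕ} (μ : Measure (ℝ × (Fin n → ℝ))) [IsFiniteMeasure μ]
  (P : (ℝ × (Fin n → ℝ) → ℂ) → Prop)
  (hexp : ∀ (k0 : ℝ) (k : Fin n → ℝ), P (fun z =>
    Complex.exp (Complex.I * ((k0 * z.1 + ∑ i, k i * z.2 i : ℝ) : ℂ))))
  (hadd : ∀ f g, Bmn f → Bmn g → P f → P g → P (fun z => f z + g z))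
  (hsmul : ∀ (c : ℂ) f, Bmn f → P f → P (fun z => c * f z))

include hexp hadd hsmul

omit [IsFiniteMeasure μ] in
lemma val_trig (p : BoundedContinuousFunction (EuclideanSpace ℝ (Fin (n + 1))) ℝ)
    (hp : p ∈ trigE _ ⊔ trigO _) : Bmn (fun z : ℝ × (Fin n → ℝ) => ((p (val_e z) : ℝ) : ℂ)) ∧
      P (fun z => ((p (val_e z) : ℝ) : ℂ)) := by
  have hb : ∀ q : BoundedContinuousFunction (EuclideanSpace ℝ (Fin (n + 1))) ℝ,
      Bmn (fun z : ℝ × (Fin n → ℝ) => ((q (val_e z) : ℝ) : ℂ)) := fun q =>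
    val_bmn_ofReal (C := ‖q‖) (q.continuous.measurable.comp val_e_meas)
      (fun z => q.norm_coe_le_norm _)
  have hsub : trigE (EuclideanSpace ℝ (Fin (n + 1))) ⊔ trigO _ =
      Submodule.span ℝ (Set.range cosB ∪ Set.range sinB) := by
    unfold trigE trigO
    rw [Submodule.span_union]
  rw [hsub] at hp
  refine ⟨hb p, ?_⟩
  induction hp using Submodule.span_induction with
  | mem x hx =>
    rcases hx with ⟨k, rfl⟩ | ⟨k, rfl⟩
    · have h1 := hexp (k 0) (fun i => k i.succ)
      have h2 := hexp (-k 0) (fun i => -k i.succ)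
      have h3 := hadd _ _ (val_bmn_smul (1 / 2) (val_bmn_exp _ _))
        (val_bmn_smul (1 / 2) (val_bmn_exp _ _)) (hsmul (1 / 2) _ (val_bmn_exp _ _) h1)
        (hsmul (1 / 2) _ (val_bmn_exp _ _) h2)
      convert h3 using 2 with z
      rw [Vale.Agent.P367.B.cosB_apply, val_inner, Complex.ofReal_cos, Complex.cos]
      have e1 : ((-k 0 * z.1 + ∑ i : Fin n, -k i.succ * z.2 i : ℝ) : ℂ) =
          -((k 0 * z.1 + ∑ i : Fin n, k i.succ * z.2 i : ℝ) : ℂ) := by
        push_cast
        rw [neg_add, ← Finset.sum_neg_distrib]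
        congr 1
        · ring
        · exact Finset.sum_congr rfl fun i _ => by ring
      rw [e1]
      ring_nf
    · have h1 := hexp (k 0) (fun i => k i.succ)
      have h2 := hexp (-k 0) (fun i => -k i.succ)
      have h3 := hadd _ _ (val_bmn_smul (-(Complex.I / 2)) (val_bmn_exp _ _))
        (val_bmn_smul (Complex.I / 2) (val_bmn_exp _ _))
        (hsmul (-(Complex.I / 2)) _ (val_bmn_exp _ _) h1)
        (hsmul (Complex.I / 2) _ (val_bmn_exp _ _) h2)
      convert h3 using 2 with z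
      rw [Vale.Agent.P367.B.sinB_apply, val_inner, Complex.ofReal_sin, Complex.sin]
      have e1 : ((-k 0 * z.1 + ∑ i : Fin n, -k i.succ * z.2 i : ℝ) : ℂ) =
          -((k 0 * z.1 + ∑ i : Fin n, k i.succ * z.2 i : ℝ) : ℂ) := by
        push_cast
        rw [neg_add, ← Finset.sum_neg_distrib]
        congr 1
        · ring
        · exact Finset.sum_congr rfl fun i _ => by ring
      rw [e1]
      ring_nf
  | zero =>
    have h := hsmul 0 _ (val_bmn_exp 0 0) (hexp 0 0)
    convert h using 2 with z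
    simp
  | add x y _ _ hx hy =>
    have h := hadd _ _ (hb x) (hb y) hx hy
    convert h using 2 with z
    simp
  | smul c x _ hx =>
    have h := hsmul c _ (hb x) hx
    convert h using 2 with z
    simp

/-- induction principle, mean square limits -/
theorem val_ind2 (hlim : ∀ f0, Bmn f0 → (∀ ε > 0, ∃ f, Bmn f ∧ P f ∧
    ∫ z, ‖f0 z - f z‖ ^ 2 ∂μ < ε) → P f0) : ∀ f, Bmn f → P f := by
  have hreal : ∀ f : ℝ × (Fin n → ℝ) → ℝ, Measurable f → ∀ C : ℝ, (∀ z, |f z| ≤ C) →
      P (fun z => ((f z : ℝ) : ℂ)) := by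
    intro f hf C hC
    refine hlim _ (val_bmn_ofReal hf hC) fun ε hε => ?_
    obtain ⟨p, hp, h⟩ := val_approx μ f hf hC hε
    obtain ⟨h1, h2⟩ := val_trig P hexp hadd hsmul p hp
    refine ⟨_, h1, h2, ?_⟩
    refine lt_of_le_of_lt (le_of_eq ?_) h
    refine integral_congr_ae (Eventually.of_forall fun z => ?_)
    simp only
    rw [← Complex.ofReal_sub, Complex.norm_real, Real.norm_eq_abs, sq_abs]
  intro f hf
  obtain ⟨h1, C, h2⟩ := hf
  have hre := hreal (fun z => (f z).re) (Complex.measurable_re.comp h1) C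
    (fun z => (Complex.abs_re_le_norm _).trans (h2 z))
  have him := hreal (fun z => (f z).im) (Complex.measurable_im.comp h1) C
    (fun z => (Complex.abs_im_le_norm _).trans (h2 z))
  have b1 : Bmn (fun z => (((f z).re : ℝ) : ℂ)) := val_bmn_ofReal (C := C)
    (Complex.measurable_re.comp h1) (fun z => (Complex.abs_re_le_norm _).trans (h2 z))
  have b2 : Bmn (fun z => (((f z).im : ℝ) : ℂ)) := val_bmn_ofReal (C := C)
    (Complex.measurable_im.comp h1) (fun z => (Complex.abs_im_le_norm _).trans (h2 z))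
  have h3 := hadd _ _ b1 (val_bmn_smul Complex.I b2) hre (hsmul Complex.I _ b2 him)
  convert h3 using 2 with z
  rw [mul_comm, Complex.re_add_im]

/-- induction principle, bounded almost sure limits -/
theorem val_ind (hmul : ∀ f g, Bmn f → Bmn g → P f → P g → P (fun z => f z * g z))
    (hlim : ∀ (f : ℕ → ℝ × (Fin n → ℝ) → ℂ) (f0 : ℝ × (Fin n → ℝ) → ℂ) (C : ℝ),
      (∀ m, Bmn (f m)) → Bmn f0 → (∀ m z, ‖f m z‖ ≤ C) →
      (∀ᵐ z ∂μ, Tendsto (fun m => f m z) atTop (𝓝 (f0 z))) → (∀ m, P (f m)) → P f0) :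
    ∀ f, Bmn f → P f := by
  -- continuous functions of a member of the class
  have hcomp : ∀ (f : ℝ × (Fin n → ℝ) → ℝ) (M : ℝ), Measurable f → (∀ z, |f z| ≤ M) →
      P (fun z => ((f z : ℝ) : ℂ)) → ∀ φ : ℝ → ℝ, Continuous φ → ∀ C : ℝ, (∀ x, |φ x| ≤ C) →
      P (fun z => ((φ (f z) : ℝ) : ℂ)) := by
    intro f M hf hM hP φ hφ C hC
    have hpoly : ∀ q : Polynomial ℝ, Bmn (fun z => ((q.eval (f z) : ℝ) : ℂ)) ∧
        P (fun z => ((q.eval (f z) : ℝ) : ℂ)) := by
      intro q
      induction q using Polynomial.induction_on' with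
      | add p q hp hq =>
        refine ⟨?_, ?_⟩
        · have := val_bmn_add hp.1 hq.1
          convert this using 2 with z
          rw [Polynomial.eval_add]; push_cast; rfl
        · have := hadd _ _ hp.1 hq.1 hp.2 hq.2
          convert this using 2 with z
          rw [Polynomial.eval_add]; push_cast; rfl
      | monomial k a =>
        have hk : Bmn (fun z => (((f z) ^ k : ℝ) : ℂ)) ∧ P (fun z => (((f z) ^ k : ℝ) : ℂ)) := by
          induction k with
          | zero =>
            refine ⟨by simpa using val_bmn_const (n := n) 1, ?_⟩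
            have := hexp 0 0
            convert this using 2 with z
            simp
          | succ k ih =>
            have e : (fun z => (((f z) ^ (k + 1) : ℝ) : ℂ)) =
                fun z => (((f z) ^ k : ℝ) : ℂ) * ((f z : ℝ) : ℂ) := by
              funext z
              rw [pow_succ]; push_cast; rfl
            rw [e]
            exact ⟨val_bmn_mul ih.1 (val_bmn_ofReal hf hM),
              hmul _ _ ih.1 (val_bmn_ofReal hf hM) ih.2 hP⟩
        have e : (fun z => (((Polynomial.monomial k a).eval (f z) : ℝ) : ℂ)) =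
            fun z => (a : ℂ) * (((f z) ^ k : ℝ) : ℂ) := by
          funext z
          rw [Polynomial.eval_monomial]; push_cast; rfl
        rw [e]
        exact ⟨val_bmn_smul _ hk.1, hsmul _ _ hk.1 hk.2⟩
    choose q hq using fun j : ℕ => exists_polynomial_near_of_continuousOn (-M) M φ
      hφ.continuousOn (1 / ((j : ℝ) + 1)) (by positivity)
    have hmem : ∀ z, f z ∈ Set.Icc (-M) M := fun z => abs_le.1 (hM z)
    refine hlim (fun j z => (((q j).eval (f z) : ℝ) : ℂ)) _ (C + 1) (fun j => (hpoly (q j)).1)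
      (val_bmn_ofReal (hφ.measurable.comp hf) (fun z => hC _)) (fun j z => ?_) ?_
      (fun j => (hpoly (q j)).2)
    · rw [Complex.norm_real, Real.norm_eq_abs]
      have h1 := hq j (f z) (hmem z)
      have h2 : (1 : ℝ) / ((j : ℝ) + 1) ≤ 1 := by
        rw [div_le_one (by positivity)]
        have : (0 : ℝ) ≤ j := Nat.cast_nonneg j
        linarith
      have h3 := abs_sub_abs_le_abs_sub ((q j).eval (f z)) (φ (f z))
      have h4 := hC (f z)
      linarith
    · refine Eventually.of_forall fun z => ?_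
      have h1 : Tendsto (fun j => (q j).eval (f z)) atTop (𝓝 (φ (f z))) := by
        rw [tendsto_iff_norm_sub_tendsto_zero]
        refine squeeze_zero (fun _ => norm_nonneg _) (fun j => (hq j (f z) (hmem z)).le) ?_
        exact tendsto_one_div_add_atTop_nhds_zero_nat
      exact (Complex.continuous_ofReal.tendsto _).comp h1
  have hreal : ∀ f : ℝ × (Fin n → ℝ) → ℝ, Measurable f → ∀ C : ℝ, (∀ z, |f z| ≤ C) →
      P (fun z => ((f z : ℝ) : ℂ)) := by
    intro f hf C hC
    have : IsFiniteMeasure (μ.map (val_e (n := n))) := Measure.isFiniteMeasure_map μ _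
    obtain ⟨p, hp, hlimp⟩ := Vale.Agent.P367.B.ae_seq (μ.map (val_e (n := n)))
      (fun w => f (val_d w)) (hf.comp val_d_meas) (fun w => hC _) (trigE _ ⊔ trigO _)
      (fun ε hε => by
        obtain ⟨p, hp, q, hq, h⟩ := Vale.Agent.P367.B.exists_trig (μ.map (val_e (n := n)))
          (fun w => f (val_d w)) (hf.comp val_d_meas) (fun w => hC _) hε
        exact ⟨p + q, Submodule.add_mem_sup hp hq, h⟩)
    have hlim2 : ∀ᵐ z ∂μ, Tendsto (fun m => p m (val_e z)) atTop (𝓝 (f z)) :=
      ae_of_ae_map val_e_meas.aemeasurable hlimp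
    have hC0 : 0 ≤ C := (abs_nonneg _).trans (hC (0, 0))
    have hclip : Continuous fun x : ℝ => max (-C) (min C x) := by fun_prop
    have hclipb : ∀ x : ℝ, |max (-C) (min C x)| ≤ C := by
      intro x
      rw [abs_le]
      exact ⟨le_max_left _ _, max_le (by linarith) (min_le_left _ _)⟩
    have hmeas : ∀ m, Measurable fun z : ℝ × (Fin n → ℝ) => p m (val_e z) := fun m =>
      (p m).continuous.measurable.comp val_e_meas
    refine hlim (fun m z => ((max (-C) (min C (p m (val_e z))) : ℝ) : ℂ)) _ C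
      (fun m => val_bmn_ofReal (hclip.measurable.comp (hmeas m)) (fun z => hclipb _))
      (val_bmn_ofReal hf hC) (fun m z => ?_) ?_ (fun m => ?_)
    · rw [Complex.norm_real, Real.norm_eq_abs]
      exact hclipb _
    · filter_upwards [hlim2] with z hz
      have h1 : f z = max (-C) (min C (f z)) := by
        have := abs_le.1 (hC z)
        rw [min_eq_right this.2, max_eq_right this.1]
      rw [h1]
      exact (Complex.continuous_ofReal.tendsto _).comp ((hclip.tendsto _).comp hz)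
    · exact hcomp _ ‖p m‖ (hmeas m) (fun z => (p m).norm_coe_le_norm _)
        (val_trig P hexp hadd hsmul (p m) (hp m)).2 _ hclip C hclipb
  intro f hf
  obtain ⟨h1, C, h2⟩ := hf
  have hre := hreal (fun z => (f z).re) (Complex.measurable_re.comp h1) C
    (fun z => (Complex.abs_re_le_norm _).trans (h2 z))
  have him := hreal (fun z => (f z).im) (Complex.measurable_im.comp h1) C
    (fun z => (Complex.abs_im_le_norm _).trans (h2 z))
  have b1 : Bmn (fun z => (((f z).re : ℝ) : ℂ)) := val_bmn_ofReal (C := C)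
    (Complex.measurable_re.comp h1) (fun z => (Complex.abs_re_le_norm _).trans (h2 z))
  have b2 : Bmn (fun z => (((f z).im : ℝ) : ℂ)) := val_bmn_ofReal (C := C)
    (Complex.measurable_im.comp h1) (fun z => (Complex.abs_im_le_norm _).trans (h2 z))
  have h3 := hadd _ _ b1 (val_bmn_smul Complex.I b2) hre (hsmul Complex.I _ b2 him)
  convert h3 using 2 with z
  rw [mul_comm, Complex.re_add_im]

end ind

end LSys

end Vale.Agent.P367.A
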