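import Vale.Agent.P367.B.Val2

/-! P367, block B, value: the rotation `exp(-i Th Y)` for a control `Th` given by the functional
calculus. -/

namespace Vale.Agent.P367.A

open Complex Filter Topology MeasureTheory ProbabilityTheory

namespace LSys

variable {H K : Type*} [NormedAddCommGroup H] [InnerProductSpace ℂ H]
  [NormedAddCommGroup K] [InnerProductSpace ℂ K] (L : LSys H K)

/-- `Y` -/
noncomputable def val_Y : H →L[ℂ] H := (L.pau 1).toContinuousLinearEquiv.toContinuousLinearMap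

lemma val_Y_apply (x : H) : L.val_Y x = L.pau 1 x := rfl

lemma val_pau_sq (x : H) : L.pau 1 (L.pau 1 x) = x := L.Zt_sq _ x

lemma val_Y_sq : L.val_Y * L.val_Y = 1 := by
  ext x
  exact L.val_pau_sq x

lemma val_W_pau (a : K) (x : H) : L.W a (L.pau 1 x) = L.pau 1 (L.W a x) := L.W_ZtA a _ x

lemma val_inner_pau (x y : H) : inner ℂ (L.pau 1 x) y = (inner ℂ x (L.pau 1 y) : ℂ) := by
  have h := (L.pau 1).inner_map_map x (L.pau 1 y)
  rwa [L.val_pau_sq] at h

lemma val_lab_pau (f : ℝ → ℂ) (x : H) : L.lab f (L.pau 1 x) = L.pau 1 (L.lab f x) := by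
  change L.lab f (L.Zt (-(Real.pi / 4)) x) = L.Zt (-(Real.pi / 4)) (L.lab f x)
  rw [L.Zt_apply, L.Zt_apply, L.xr_apply, L.xr_apply, map_sub, map_smul, map_smul, L.lab_X,
    L.lab_Z]

/-- semiconjugation of exponentials -/
lemma val_exp_semi {A : Type*} [NormedRing A] [NormedAlgebra ℂ A] [CompleteSpace A]
    (a b x : A) (h : a * x = x * b) : NormedSpace.exp a * x = x * NormedSpace.exp b := by
  have h1 := (NormedSpace.exp_series_hasSum_exp' (𝕂 := ℂ) a).mul_right x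
  have h2 := (NormedSpace.exp_series_hasSum_exp' (𝕂 := ℂ) b).mul_left x
  refine h1.unique ?_
  convert h2 using 2 with n
  have h3 : a ^ n * x = x * b ^ n := by
    induction n with
    | zero => simp
    | succ n ih => rw [pow_succ, mul_assoc, h, ← mul_assoc, ih, mul_assoc, ← pow_succ]
  rw [smul_mul_assoc, h3, mul_smul_comm]

variable {L}

section fc

variable {n : ℕ} {y : Fin n → K} {fc : (ℝ × (Fin n → ℝ) → ℂ) → (H →L[ℂ] H)} (h : L.FCal y fc)

include h

lemma val_fc_Y {f : ℝ × (Fin n → ℝ) → ℂ} (hf : Bmn f) : fc f * L.val_Y = L.val_Y * fc f := by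
  refine h.comm f hf L.val_Y (fun g _ => ?_) (fun k x => L.val_W_pau _ x)
  ext x
  exact L.val_lab_pau g x

lemma val_fc_pow {f : ℝ × (Fin n → ℝ) → ℂ} (hf : Bmn f) (k : ℕ) :
    Bmn (fun z => f z ^ k) ∧ fc (fun z => f z ^ k) = fc f ^ k := by
  induction k with
  | zero =>
    simp only [pow_zero]
    exact ⟨val_bmn_const 1, by rw [val_fc_const h, one_smul]⟩
  | succ k ih =>
    simp only [pow_succ]
    exact ⟨val_bmn_mul ih.1 hf, by rw [h.mul _ _ ih.1 hf, ih.2]⟩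

omit h in
lemma val_bmn_cexp {f : ℝ × (Fin n → ℝ) → ℂ} (hf : Bmn f) : Bmn (fun z => Complex.exp (f z)) := by
  obtain ⟨h1, C, h2⟩ := hf
  refine ⟨Complex.measurable_exp.comp h1, Real.exp C, fun z => ?_⟩
  rw [Complex.norm_exp]
  exact Real.exp_le_exp.2 ((Complex.re_le_norm _).trans (h2 z))

/-- exponentials -/
lemma val_exp_fc [CompleteSpace H] {f : ℝ × (Fin n → ℝ) → ℂ} (hf : Bmn f) :
    NormedSpace.exp (fc f) = fc (fun z => Complex.exp (f z)) := by
  obtain ⟨C, hC⟩ := hf.2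
  have hC0 : 0 ≤ C := (norm_nonneg _).trans (hC (0, 0))
  have h1 : Tendsto (fun N : ℕ => ∑ k ∈ Finset.range N, ((k.factorial : ℂ)⁻¹) • (fc f) ^ k)
      atTop (𝓝 (NormedSpace.exp (fc f))) :=
    (NormedSpace.exp_series_hasSum_exp' (𝕂 := ℂ) (fc f)).tendsto_sum_nat
  have hterm : ∀ k : ℕ, Bmn (fun z => ((k.factorial : ℂ)⁻¹) * f z ^ k) := fun k =>
    val_bmn_smul _ (val_fc_pow h hf k).1
  have e1 : ∀ N : ℕ, ∑ k ∈ Finset.range N, ((k.factorial : ℂ)⁻¹) • (fc f) ^ k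
      = fc (fun z => ∑ k ∈ Finset.range N, ((k.factorial : ℂ)⁻¹) * f z ^ k) := by
    intro N
    rw [(val_fc_sum h (Finset.range N) _ hterm).2]
    refine Finset.sum_congr rfl fun k _ => ?_
    rw [val_fc_smul h _ (val_fc_pow h hf k).1, (val_fc_pow h hf k).2]
  have hsum : ∀ z, HasSum (fun k : ℕ => ((k.factorial : ℂ)⁻¹) * f z ^ k) (Complex.exp (f z)) := by
    intro z
    have := NormedSpace.exp_series_hasSum_exp' (𝕂 := ℂ) (f z)
    rw [← Complex.exp_eq_exp_ℂ] at this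
    simpa [smul_eq_mul] using this
  have hsumC : HasSum (fun k : ℕ => ((k.factorial : ℝ)⁻¹) * C ^ k) (Real.exp C) := by
    have := NormedSpace.exp_series_hasSum_exp' (𝕂 := ℝ) C
    rw [← Real.exp_eq_exp_ℝ] at this
    simpa [smul_eq_mul] using this
  ext x
  have h2 : Tendsto (fun N : ℕ => fc (fun z => ∑ k ∈ Finset.range N,
      ((k.factorial : ℂ)⁻¹) * f z ^ k) x) atTop (𝓝 (fc (fun z => Complex.exp (f z)) x)) := by
    refine h.lim _ _ (Real.exp C) (fun N => (val_fc_sum h _ _ hterm).1) (val_bmn_cexp hf)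
      (fun N z => ?_) (Eventually.of_forall fun z => (hsum z).tendsto_sum_nat) x
    refine (norm_sum_le _ _).trans ?_
    refine le_trans (Finset.sum_le_sum fun k _ => ?_)
      (hsumC.summable.sum_le_tsum (Finset.range N) (fun k _ => by positivity) |>.trans
        (le_of_eq hsumC.tsum_eq))
    rw [norm_mul, norm_inv, norm_pow, Complex.norm_natCast]
    exact mul_le_mul_of_nonneg_left (pow_le_pow_left₀ (norm_nonneg _) (hC z) _) (by positivity)
  have h3 : Tendsto (fun N : ℕ => (∑ k ∈ Finset.range N, ((k.factorial : ℂ)⁻¹) • (fc f) ^ k) x)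
      atTop (𝓝 (NormedSpace.exp (fc f) x)) :=
    ((ContinuousLinearMap.apply ℂ H x).continuous.tendsto _).comp h1
  simp only [e1] at h3
  exact tendsto_nhds_unique h3 h2

lemma val_exp_rot [CompleteSpace H] {θ : ℝ × (Fin n → ℝ) → ℝ} (hθ : Measurable θ) {C : ℝ}
    (hC : ∀ z, |θ z| ≤ C) :
    NormedSpace.exp ((-Complex.I) • (fc (fun z => ((θ z : ℝ) : ℂ)) * L.val_Y)) =
      fc (fun z => ((Real.cos (θ z) : ℝ) : ℂ)) -
        Complex.I • (fc (fun z => ((Real.sin (θ z) : ℝ) : ℂ)) * L.val_Y) := by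
  have hb : Bmn (fun z => ((θ z : ℝ) : ℂ)) := val_bmn_ofReal hθ hC
  have hbc : Bmn (fun z => ((Real.cos (θ z) : ℝ) : ℂ)) :=
    val_bmn_ofReal (C := 1) (Real.measurable_cos.comp hθ) (fun z => Real.abs_cos_le_one _)
  have hbs : Bmn (fun z => ((Real.sin (θ z) : ℝ) : ℂ)) :=
    val_bmn_ofReal (C := 1) (Real.measurable_sin.comp hθ) (fun z => Real.abs_sin_le_one _)
  set T := fc (fun z => ((θ z : ℝ) : ℂ)) with hT
  set Y := L.val_Y with hY
  have hYY : Y * Y = 1 := L.val_Y_sq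
  have hTY : T * Y = Y * T := val_fc_Y h hb
  have hCY := val_fc_Y h hbc
  have hSY := val_fc_Y h hbs
  -- the exponentials of `T`
  have hem : ∀ c : ℂ, NormedSpace.exp (c • T) = fc (fun z => Complex.exp (c * ((θ z : ℝ) : ℂ))) := by
    intro c
    rw [hT, ← val_fc_smul h c hb]
    exact val_exp_fc h (val_bmn_smul c hb)
  have hp : NormedSpace.exp ((-Complex.I) • T) = fc (fun z => ((Real.cos (θ z) : ℝ) : ℂ)) -
      Complex.I • fc (fun z => ((Real.sin (θ z) : ℝ) : ℂ)) := by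
    rw [hem, sub_eq_add_neg, ← neg_smul, ← val_fc_smul h _ hbs,
      ← h.add _ _ hbc (val_bmn_smul _ hbs)]
    congr 1
    funext z
    rw [show -Complex.I * ((θ z : ℝ) : ℂ) = (-(θ z : ℝ) : ℂ) * Complex.I by ring,
      Complex.exp_mul_I, Complex.cos_neg, Complex.sin_neg, Complex.ofReal_cos, Complex.ofReal_sin]
    ring
  have hm : NormedSpace.exp (Complex.I • T) = fc (fun z => ((Real.cos (θ z) : ℝ) : ℂ)) +
      Complex.I • fc (fun z => ((Real.sin (θ z) : ℝ) : ℂ)) := by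
    rw [hem, ← val_fc_smul h _ hbs, ← h.add _ _ hbc (val_bmn_smul _ hbs)]
    congr 1
    funext z
    rw [show Complex.I * ((θ z : ℝ) : ℂ) = ((θ z : ℝ) : ℂ) * Complex.I by ring,
      Complex.exp_mul_I, Complex.ofReal_cos, Complex.ofReal_sin]
    ring
  -- the two projections
  have a1 : ((-Complex.I) • (T * Y)) * (1 + Y) = (1 + Y) * ((-Complex.I) • T) := by
    rw [smul_mul_assoc, mul_smul_comm, mul_add, add_mul, mul_one, one_mul, mul_assoc, hYY,
      mul_one, hTY, add_comm]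
  have a2 : ((-Complex.I) • (T * Y)) * (1 - Y) = (1 - Y) * (Complex.I • T) := by
    rw [smul_mul_assoc, mul_smul_comm, mul_sub, sub_mul, mul_one, one_mul, mul_assoc, hYY,
      mul_one, hTY, neg_smul, ← smul_neg, neg_sub]
  have b1 := val_exp_semi _ _ _ a1
  have b2 := val_exp_semi _ _ _ a2
  rw [hp] at b1
  rw [hm] at b2
  have b3 := congrArg₂ (· + ·) b1 b2
  rw [← mul_add] at b3
  have e1 : (1 : H →L[ℂ] H) + Y + (1 - Y) = (2 : ℂ) • 1 := by
    rw [two_smul]
    abel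
  rw [e1, mul_smul_comm, mul_one] at b3
  set Cc := fc (fun z => ((Real.cos (θ z) : ℝ) : ℂ)) with hCc
  set Ss := fc (fun z => ((Real.sin (θ z) : ℝ) : ℂ)) with hSs
  have b4 : (1 + Y) * (Cc - Complex.I • Ss) + (1 - Y) * (Cc + Complex.I • Ss) =
      (2 : ℂ) • (Cc - Complex.I • (Ss * Y)) := by
    rw [add_mul, sub_mul, one_mul, one_mul, mul_sub, mul_add, mul_smul_comm, hSY, two_smul]
    abel
  rw [b4] at b3
  have h2 : (2 : ℂ) ≠ 0 := two_ne_zero
  exact smul_right_injective _ h2 b3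

/-- **the rotation** -/
theorem val_rot [CompleteSpace H] {θ : ℝ × (Fin n → ℝ) → ℝ} (hθ : Measurable θ) {C : ℝ}
    (hC : ∀ z, |θ z| ≤ C) : ∃ U : H ≃ₗᵢ[ℂ] H, L.IsRot (fc (fun z => ((θ z : ℝ) : ℂ))) 1 U ∧
      (∀ x, U x = fc (fun z => ((Real.cos (θ z) : ℝ) : ℂ)) x -
        Complex.I • L.pau 1 (fc (fun z => ((Real.sin (θ z) : ℝ) : ℂ)) x)) ∧
      ∀ x, U⁻¹ x = fc (fun z => ((Real.cos (θ z) : ℝ) : ℂ)) x +
        Complex.I • L.pau 1 (fc (fun z => ((Real.sin (θ z) : ℝ) : ℂ)) x) := by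
  have hbc : Bmn (fun z => ((Real.cos (θ z) : ℝ) : ℂ)) :=
    val_bmn_ofReal (C := 1) (Real.measurable_cos.comp hθ) (fun z => Real.abs_cos_le_one _)
  have hbs : Bmn (fun z => ((Real.sin (θ z) : ℝ) : ℂ)) :=
    val_bmn_ofReal (C := 1) (Real.measurable_sin.comp hθ) (fun z => Real.abs_sin_le_one _)
  have hSY := val_fc_Y h hbs
  have hCY := val_fc_Y h hbc
  set Cc := fc (fun z => ((Real.cos (θ z) : ℝ) : ℂ)) with hCc
  set Ss := fc (fun z => ((Real.sin (θ z) : ℝ) : ℂ)) with hSs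
  have hCS : Cc * Ss = Ss * Cc := by
    rw [hCc, hSs, ← h.mul _ _ hbc hbs, ← h.mul _ _ hbs hbc]
    congr 1
    funext z
    ring
  have hCCSS : Cc * Cc + Ss * Ss = 1 := by
    rw [hCc, hSs, ← h.mul _ _ hbc hbc, ← h.mul _ _ hbs hbs,
      ← h.add _ _ (val_bmn_mul hbc hbc) (val_bmn_mul hbs hbs)]
    have e : (fun z => ((Real.cos (θ z) : ℝ) : ℂ) * ((Real.cos (θ z) : ℝ) : ℂ) +
        ((Real.sin (θ z) : ℝ) : ℂ) * ((Real.sin (θ z) : ℝ) : ℂ)) = fun _ => (1 : ℂ) := by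
      funext z
      have := Real.cos_sq_add_sin_sq (θ z)
      rw [← Complex.ofReal_mul, ← Complex.ofReal_mul, ← Complex.ofReal_add, ← pow_two,
        ← pow_two, this, Complex.ofReal_one]
    rw [e, val_fc_const h, one_smul]
  set Y := L.val_Y with hY
  have hYY : Y * Y = 1 := L.val_Y_sq
  set A : H →L[ℂ] H := Cc - Complex.I • (Y * Ss) with hA
  set B : H →L[ℂ] H := Cc + Complex.I • (Y * Ss) with hB
  have hYSYS : (Y * Ss) * (Y * Ss) = Ss * Ss := by
    rw [mul_assoc, ← mul_assoc Ss Y Ss, hSY, ← mul_assoc, ← mul_assoc, hYY, one_mul]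
  have hCYS : Cc * (Y * Ss) = (Y * Ss) * Cc := by
    rw [← mul_assoc, hCY, mul_assoc, hCS, mul_assoc]
  have hI : Complex.I * Complex.I = -1 := Complex.I_mul_I
  have hBA : B * A = 1 := by
    rw [hA, hB, add_mul, mul_sub, mul_sub, mul_smul_comm, smul_mul_assoc, smul_mul_assoc,
      mul_smul_comm, smul_smul, hI, hYSYS, hCYS, neg_smul, one_smul, ← hCCSS]
    abel
  have hAB : A * B = 1 := by
    rw [hA, hB, sub_mul, mul_add, mul_add, mul_smul_comm, smul_mul_assoc, smul_mul_assoc,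
      mul_smul_comm, smul_smul, hI, hYSYS, hCYS, neg_smul, one_smul, ← hCCSS]
    abel
  have hadjC : ∀ x x', inner ℂ (Cc x) x' = (inner ℂ x (Cc x') : ℂ) := by
    intro x x'
    rw [hCc, h.adj _ hbc]
    simp only [Complex.conj_ofReal]
  have hadjS : ∀ x x', inner ℂ (Ss x) x' = (inner ℂ x (Ss x') : ℂ) := by
    intro x x'
    rw [hSs, h.adj _ hbs]
    simp only [Complex.conj_ofReal]
  have hAapp : ∀ x, A x = Cc x - Complex.I • L.pau 1 (Ss x) := fun x => rfl
  have hBapp : ∀ x, B x = Cc x + Complex.I • L.pau 1 (Ss x) := fun x => rfl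
  have hSYa : ∀ x, Ss (L.pau 1 x) = L.pau 1 (Ss x) := fun x =>
    congrArg (fun T : H →L[ℂ] H => T x) hSY
  have hadj : ∀ x x', inner ℂ (A x) x' = (inner ℂ x (B x') : ℂ) := by
    intro x x'
    rw [hAapp, hBapp, inner_sub_left, inner_add_right, inner_smul_left, inner_smul_right,
      L.val_inner_pau, hadjC, hadjS, hSYa, Complex.conj_I]
    ring
  obtain ⟨U, hU1, hU2⟩ : ∃ U : H ≃ₗᵢ[ℂ] H, (∀ x, U x = A x) ∧ ∀ x, U.symm x = B x := by
    refine ⟨mkU A.toLinearMap B.toLinearMap (fun x => ?_) (fun x => ?_) hadj, fun x => rfl,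
      fun x => rfl⟩
    · exact congrArg (fun T : H →L[ℂ] H => T x) hBA
    · exact congrArg (fun T : H →L[ℂ] H => T x) hAB
  refine ⟨U, fun x => ?_, fun x => by rw [hU1, hAapp], fun x => ?_⟩
  · have e := val_exp_rot h hθ hC
    rw [hU1]
    change A x = NormedSpace.exp ((-Complex.I) • (fc (fun z => ((θ z : ℝ) : ℂ)) * L.val_Y)) x
    rw [e, hA, ← hCc, ← hSs, hSY]
  · change U.symm x = _
    rw [hU2, hBapp]

end fc

end LSys

end Vale.Agent.P367.A
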