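import Vale.Agent.P367.B.Val3

/-! P367, block B, value: the field vectors of a simple scheme (recursion over the levels). -/

namespace Vale.Agent.P367.A

open Complex Filter Topology MeasureTheory ProbabilityTheory

namespace LSys

variable {H K : Type*} [NormedAddCommGroup H] [InnerProductSpace ℂ H]
  [NormedAddCommGroup K] [InnerProductSpace ℂ K] (L : LSys H K)

/-- extension by zero -/
noncomputable def val_ex {N : ℕ} (n : ℕ) (z : Fin N → ℝ) : Fin (n + 1) → ℝ :=
  fun i => if h : (i : ℕ) < N then z ⟨i, h⟩ else 0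

lemma val_ex_meas {N : ℕ} (n : ℕ) : Measurable (val_ex (N := N) n) := by
  rw [measurable_pi_iff]
  intro i
  unfold val_ex
  by_cases h : (i : ℕ) < N
  · simp only [dif_pos h]
    exact measurable_pi_apply _
  · simp only [dif_neg h]
    exact measurable_const

lemma val_ex_self {n : ℕ} (z : Fin (n + 1) → ℝ) : val_ex n z = z := by
  funext i
  unfold val_ex
  rw [dif_pos i.2]

lemma val_bdd_of_fin {α : Type*} {F : α → ℝ} (h : (Set.range F).Finite) :
    ∃ C : ℝ, ∀ z, |F z| ≤ C := by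
  obtain ⟨C, hC⟩ := (h.image abs).bddAbove
  exact ⟨C, fun z => hC ⟨F z, ⟨z, rfl⟩, rfl⟩⟩

/-- integrals of functions of the first variables -/
lemma val_ex_int {n N0 : ℕ} (Φ : (Fin (n + 1) → ℝ) → ℝ) (hΦ : Measurable Φ)
    (hdep : ∀ z z' : Fin (n + 1) → ℝ, (∀ j : Fin (n + 1), (j : ℕ) < N0 → z j = z' j) → Φ z = Φ z') :
    ∀ d N : ℕ, N + d = n + 1 → N0 ≤ N →
      ∫ z, Φ (val_ex n z) ∂(Measure.pi fun _ : Fin N => gaussianReal 0 1) =
      ∫ z, Φ z ∂(Measure.pi fun _ : Fin (n + 1) => gaussianReal 0 1) := by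
  intro d
  induction d with
  | zero =>
    intro N hN h0
    rw [add_zero] at hN
    subst hN
    refine integral_congr_ae (Eventually.of_forall fun z => ?_)
    simp only [val_ex_self]
  | succ d ih =>
    intro N hN h0
    rw [← ih (N + 1) (by omega) (by omega)]
    have h1 := (measurePreserving_piFinSuccAbove (fun _ : Fin (N + 1) => gaussianReal 0 1)
      (Fin.last N))
    have h2 : MeasurePreserving (Prod.snd : ℝ × (Fin N → ℝ) → (Fin N → ℝ))
        ((gaussianReal 0 1).prod (Measure.pi fun _ : Fin N => gaussianReal 0 1))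
        (Measure.pi fun _ : Fin N => gaussianReal 0 1) := measurePreserving_snd
    have h3 := h2.comp h1
    have e : (Prod.snd ∘ ⇑(MeasurableEquiv.piFinSuccAbove (fun _ : Fin (N + 1) => ℝ)
        (Fin.last N))) = fun (z : Fin (N + 1) → ℝ) (i : Fin N) => z i.castSucc := by
      funext z i
      change z ((Fin.last N).succAbove i) = z i.castSucc
      rw [Fin.succAbove_last]
    rw [e] at h3
    have h4 := integral_map (f := fun z : Fin N → ℝ => Φ (val_ex n z)) h3.aemeasurable
      (hΦ.comp (val_ex_meas n)).aestronglyMeasurable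
    rw [h3.map_eq] at h4
    rw [h4]
    refine integral_congr_ae (Eventually.of_forall fun z => ?_)
    refine hdep _ _ fun j hj => ?_
    unfold val_ex
    rw [dif_pos (by omega), dif_pos (by omega)]
    rfl

section fc

variable {L}
variable {n : ℕ} {y : Fin n → K} {fc : (ℝ × (Fin n → ℝ) → ℂ) → (H →L[ℂ] H)} (h : L.FCal y fc)

lemma val_bmn_G {G : Set ℝ} (hG : MeasurableSet G) {A : (Fin n → ℝ) → ℝ} (hA : Measurable A)
    {C : ℝ} (hC : ∀ z, |A z| ≤ C) :
    Bmn (fun z : ℝ × (Fin n → ℝ) => ((G.indicator (fun _ => (1 : ℝ)) z.1 * A z.2 : ℝ) : ℂ)) := by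
  have hG1 : Measurable fun z : ℝ × (Fin n → ℝ) => G.indicator (fun _ => (1 : ℝ)) z.1 :=
    (measurable_const.indicator hG).comp measurable_fst
  refine val_bmn_ofReal (C := 1 * C) (hG1.mul (hA.comp measurable_snd)) (fun z => ?_)
  rw [abs_mul]
  refine mul_le_mul ?_ (hC _) (abs_nonneg _) zero_le_one
  by_cases ht : z.1 ∈ G
  · simp [Set.indicator_of_mem ht]
  · simp [Set.indicator_of_notMem ht]

lemma val_int_G {G : Set ℝ} (hG : MeasurableSet G) (A : (Fin n → ℝ) → ℝ) :
    ∫ z, G.indicator (fun _ => (1 : ℝ)) z.1 * A z.2 ∂(L.law n) =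
      L.mu.real G * ∫ z, A z ∂(Measure.pi fun _ : Fin n => gaussianReal 0 1) := by
  have := L.prob
  unfold law
  rw [integral_prod_mul (fun t => G.indicator (fun _ => (1 : ℝ)) t) A]
  congr 1
  rw [integral_indicator hG]
  simp

include h

lemma val_inner_G {G : Set ℝ} (hG : MeasurableSet G) {A B : (Fin n → ℝ) → ℝ}
    (hA : Measurable A) (hB : Measurable B) {C D : ℝ} (hC : ∀ z, |A z| ≤ C)
    (hD : ∀ z, |B z| ≤ D) :
    inner ℂ (fc (fun z => ((G.indicator (fun _ => (1 : ℝ)) z.1 * A z.2 : ℝ) : ℂ)) L.Om)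
      (fc (fun z => ((G.indicator (fun _ => (1 : ℝ)) z.1 * B z.2 : ℝ) : ℂ)) L.Om) =
      ((L.mu.real G * ∫ z, A z * B z ∂(Measure.pi fun _ : Fin n => gaussianReal 0 1) : ℝ) : ℂ) := by
  rw [val_inner_fc h (val_bmn_G hG hA hC) (val_bmn_G hG hB hD), ← val_int_G (L := L) hG,
    ← integral_complex_ofReal]
  refine integral_congr_ae (Eventually.of_forall fun z => ?_)
  simp only [Complex.conj_ofReal]
  rw [← Complex.ofReal_mul]
  congr 1
  by_cases ht : z.1 ∈ G
  · simp [Set.indicator_of_mem ht]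
  · simp [Set.indicator_of_notMem ht]

end fc

lemma val_alg_congr {Y Y' : ℕ → K} (k : ℕ) (h : ∀ i < k, Y i = Y' i) :
    L.alg Y k = L.alg Y' k := by
  induction k with
  | zero => rfl
  | succ k ih =>
    change L.nxt (L.alg Y k) (Y k) = L.nxt (L.alg Y' k) (Y' k)
    rw [ih (fun i hi => h i (by omega)), h k (by omega)]

/-- the field vectors of a simple scheme -/
theorem val_tower (hfc : ∀ (n : ℕ) (y : Fin n → K), Orthonormal ℂ y → ∃ fc, L.FCal y fc)
    {G : Set ℝ} (hG : MeasurableSet G) (hG0 : 0 < L.mu.real G) {n : ℕ}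
    (φ : Fin (n + 1) → (Fin (n + 1) → ℝ) → ℝ) (hm : ∀ k, Measurable (φ k))
    (hfin : ∀ k, (Set.range (φ k)).Finite)
    (hdep : ∀ (k : Fin (n + 1)) z z', (∀ j : Fin (n + 1), (j : ℕ) < (k : ℕ) → z j = z' j) →
      φ k z = φ k z')
    (horth : ∀ j k, ∫ z, φ j z * φ k z ∂(Measure.pi fun _ : Fin (n + 1) => gaussianReal 0 1) =
      if j = k then 1 else 0) :
    ∀ N : ℕ, N ≤ n + 1 → ∃ (Y : ℕ → K) (fc : (ℝ × (Fin N → ℝ) → ℂ) → (H →L[ℂ] H)),
      Orthonormal ℂ (fun i : Fin N => Y i) ∧ L.FCal (fun i : Fin N => Y i) fc ∧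
      (∀ k : Fin (n + 1), (k : ℕ) < N → Y k = L.iota (fc (fun z =>
        ((G.indicator (fun _ => (1 : ℝ)) z.1 *
          (φ k (val_ex n z.2) / Real.sqrt (L.mu.real G)) : ℝ) : ℂ)) L.Om)) ∧
      (∀ k < N, ∃ (m : ℕ) (sg : Fin m → (H →L[ℂ] H)) (c : Fin m → ℝ),
        (∀ i, L.Sgn G (L.alg Y k) (sg i)) ∧ Y k = L.iota ((∑ i, (c i : ℂ) • sg i) L.Om)) := by
  intro N
  induction N with
  | zero =>
    intro _
    have ho : Orthonormal ℂ (fun i : Fin 0 => (fun _ : ℕ => (0 : K)) i) :=
      ⟨fun i => i.elim0, fun i => i.elim0⟩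
    obtain ⟨fc, h⟩ := hfc 0 _ ho
    exact ⟨fun _ => 0, fc, ho, h, fun k hk => absurd hk (by omega), fun k hk => absurd hk (by omega)⟩
  | succ N ih =>
    intro hN
    obtain ⟨Y, fc, hY, h, hYk, hlev⟩ := ih (by omega)
    set g := L.mu.real G with hg
    have hsg : 0 < Real.sqrt g := Real.sqrt_pos.2 hG0
    have hsq : Real.sqrt g * Real.sqrt g = g := Real.mul_self_sqrt hG0.le
    have hN' : N < n + 1 := by omega
    -- the functions
    set A : Fin (n + 1) → (Fin N → ℝ) → ℝ := fun k z => φ k (val_ex n z) / Real.sqrt g with hA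
    have hAm : ∀ k, Measurable (A k) := fun k => ((hm k).comp (val_ex_meas n)).div_const _
    have hAb : ∀ k, ∃ C, ∀ z, |A k z| ≤ C := by
      intro k
      obtain ⟨C, hC⟩ := val_bdd_of_fin (hfin k)
      refine ⟨C / Real.sqrt g, fun z => ?_⟩
      simp only [hA]
      rw [abs_div, abs_of_pos hsg]
      exact div_le_div_of_nonneg_right (hC _) hsg.le
    have hinner : ∀ j k : Fin (n + 1), (j : ℕ) ≤ N → (k : ℕ) ≤ N →
        inner ℂ (fc (fun z => ((G.indicator (fun _ => (1 : ℝ)) z.1 * A j z.2 : ℝ) : ℂ)) L.Om)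
          (fc (fun z => ((G.indicator (fun _ => (1 : ℝ)) z.1 * A k z.2 : ℝ) : ℂ)) L.Om) =
        ((if j = k then 1 else 0 : ℝ) : ℂ) := by
      intro j k hj hk
      obtain ⟨C, hC⟩ := hAb j
      obtain ⟨D, hD⟩ := hAb k
      rw [val_inner_G h hG (hAm j) (hAm k) hC hD]
      congr 1
      have h1 : ∀ z, A j z * A k z = (φ j (val_ex n z) * φ k (val_ex n z)) / g := by
        intro z
        simp only [hA]
        rw [div_mul_div_comm, hsq]
      simp only [h1]
      rw [integral_div, val_ex_int (n := n) (N0 := N) (fun z => φ j z * φ k z)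
        ((hm j).mul (hm k)) (fun z z' hzz => by
          rw [hdep j z z' (fun i hi => hzz i (by omega)), hdep k z z' (fun i hi => hzz i (by omega))])
        (n + 1 - N) N (by omega) le_rfl, horth]
      rw [← hg]
      split_ifs
      · field_simp
      · simp
    set kN : Fin (n + 1) := ⟨N, hN'⟩ with hkN
    set v : K := L.iota (fc (fun z => ((G.indicator (fun _ => (1 : ℝ)) z.1 * A kN z.2 : ℝ) : ℂ))
      L.Om) with hv
    set Y' : ℕ → K := Function.update Y N v with hY'
    have hY'N : Y' N = v := Function.update_self _ _ _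
    have hY'lt : ∀ i < N, Y' i = Y i := fun i hi => Function.update_of_ne (by omega) _ _
    have hYA : ∀ k : Fin (n + 1), (k : ℕ) < N + 1 → Y' k = L.iota (fc (fun z =>
        ((G.indicator (fun _ => (1 : ℝ)) z.1 * A k z.2 : ℝ) : ℂ)) L.Om) := by
      intro k hk
      rcases Nat.lt_succ_iff_lt_or_eq.1 hk with hk' | hk'
      · rw [hY'lt _ hk', hYk k hk']
      · have e : k = kN := Fin.ext hk'
        rw [e]
        exact hY'N
    have ho : Orthonormal ℂ (fun i : Fin (N + 1) => Y' i) := by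
      rw [orthonormal_iff_ite]
      intro i j
      have hi : (i : ℕ) < n + 1 := by omega
      have hj : (j : ℕ) < n + 1 := by omega
      have e1 := hYA ⟨i, hi⟩ i.2
      have e2 := hYA ⟨j, hj⟩ j.2
      simp only at e1 e2
      rw [e1, e2, LinearIsometry.inner_map_map, hinner ⟨i, hi⟩ ⟨j, hj⟩ (by simp; omega)
        (by simp; omega)]
      by_cases hij : i = j
      · subst hij
        simp
      · have hne : (⟨i, hi⟩ : Fin (n + 1)) ≠ ⟨j, hj⟩ := fun hh => hij (Fin.ext (Fin.mk.inj hh))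
        rw [if_neg hne, if_neg hij, Complex.ofReal_zero]
    obtain ⟨fc', h'⟩ := hfc (N + 1) _ ho
    have hcomp := val_compat h h' (fun i => hY'lt i i.2)
    refine ⟨Y', fc', ho, h', fun k hk => ?_, fun k hk => ?_⟩
    · rw [hYA k hk]
      obtain ⟨C, hC⟩ := hAb k
      rw [← hcomp _ (val_bmn_G hG (hAm k) hC)]
      congr 3
      funext z
      simp only [val_p, hA]
      have e : φ k (val_ex n fun i => z.2 i.castSucc) = φ k (val_ex n z.2) := by
        refine hdep k _ _ fun j hj => ?_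
        unfold val_ex
        rw [dif_pos (by omega), dif_pos (by omega)]
        rfl
      rw [e]
    · rcases Nat.lt_succ_iff_lt_or_eq.1 hk with hk' | hk'
      · obtain ⟨m, sg, c, h1, h2⟩ := hlev k hk'
        refine ⟨m, sg, c, fun i => ?_, ?_⟩
        · rw [L.val_alg_congr k (fun i hi => hY'lt i (by omega))]
          exact h1 i
        · rw [hY'lt k hk', h2]
      · subst hk'
        have hfinA : (Set.range fun z : ℝ × (Fin k → ℝ) => A kN z.2).Finite := by
          refine ((hfin kN).image (fun x => x / Real.sqrt g)).subset ?_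
          rintro _ ⟨z, rfl⟩
          exact ⟨φ kN (val_ex n z.2), ⟨_, rfl⟩, rfl⟩
        obtain ⟨m, sg, c, h1, h2⟩ := L.val_decomp Y k h hG (fun z => A kN z.2)
          ((hAm kN).comp measurable_snd) hfinA
        refine ⟨m, sg, c, fun i => ?_, ?_⟩
        · rw [L.val_alg_congr k (fun i hi => hY'lt i hi)]
          exact h1 i
        · rw [hY'N, hv, h2]

end LSys

end Vale.Agent.P367.A
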