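import Vale.Agent.P367.B.Val4
import Vale.Agent.P367.B.VEn3
import Vale.Agent.P367.B.LFin
import Vale.Agent.P367.B.LPart
import Vale.Agent.P367.Cl.EBd

/-! P367, block B, value: assembly modulo the energy formula. -/

namespace Vale.Agent.P367.A

open Complex Filter Topology MeasureTheory ProbabilityTheory

namespace LSys

variable {H K : Type*} [NormedAddCommGroup H] [InnerProductSpace ℂ H]
  [NormedAddCommGroup K] [InnerProductSpace ℂ K] (L : LSys H K)

lemma val_G {δ : ℝ} (hδ : 0 < δ) :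
    ∃ G : Set ℝ, MeasurableSet G ∧ L.mu Gᶜ ≠ 0 ∧ L.mu.real Gᶜ ≤ δ := by
  have := L.prob
  obtain ⟨n, b, h1, h2, h3, h4, h5, h6⟩ := L.exists_part MeasurableSet.univ hδ
  by_cases h : ∀ i ∈ Finset.range n, L.mu (b i) = 0
  · exfalso
    have h7 : L.mu (⋃ i ∈ Finset.range n, b i) = 0 :=
      (measure_biUnion_null_iff (Finset.countable_toSet _)).2 h
    rw [h3, measure_univ] at h7
    exact one_ne_zero h7
  · push Not at h
    obtain ⟨i, _, hi⟩ := h
    exact ⟨(b i)ᶜ, (h1 i).compl, by rwa [compl_compl], by rw [compl_compl]; exact h6 i⟩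

/-- the energy formula -/
def ValEn (J : K → H) : Prop :=
  ∀ (N : ℕ) (y : Fin N → K) (fc : (ℝ × (Fin N → ℝ) → ℂ) → (H →L[ℂ] H)), Orthonormal ℂ y →
    L.FCal y fc → ∀ (c : ℝ × (Fin N → ℝ) → ℂ) (m : ℝ × (Fin N → ℝ) → ℝ), Bmn c →
    Bmn (fun z => ((m z : ℝ) : ℂ)) →
    L.En J (fc c (L.Z L.Om) + fc (fun z => ((m z : ℝ) : ℂ)) L.Om) =
      ∑ k, (∫ z, m z * z.2 k ∂(L.law N)) *
        (inner ℂ (y k) (L.iota (fc c (L.Z L.Om) + fc (fun z => ((m z : ℝ) : ℂ)) L.Om)) : ℂ).re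

variable {L} {n : ℕ} {y : Fin n → K} {fc : (ℝ × (Fin n → ℝ) → ℂ) → (H →L[ℂ] H)}

lemma val_inner_Z (h : L.FCal y fc) {f c : ℝ × (Fin n → ℝ) → ℂ} (hf : Bmn f) (hc : Bmn c) :
    inner ℂ (fc f L.Om) (fc c (L.Z L.Om)) = 0 := by
  have h1 : inner ℂ (fc f L.Om) (fc c (L.Z L.Om)) = -inner ℂ (fc f L.Om) (fc c (L.Z L.Om)) := by
    conv_lhs => rw [← L.X.inner_map_map, ← L.ven3_X h hf, ← L.ven3_X h hc, L.XZ, L.XOm, map_neg,
      inner_neg_right]
  have h2 := self_eq_neg.1 h1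
  exact h2

/-- the value of the final state -/
lemma val_energy (J : K → H) (hE : L.ValEn J) {n : ℕ} {y : Fin (n + 1) → K}
    {fc : (ℝ × (Fin (n + 1) → ℝ) → ℂ) → (H →L[ℂ] H)} (hy : Orthonormal ℂ y) (h : L.FCal y fc)
    {G : Set ℝ} (hG : MeasurableSet G) (hG0 : 0 < L.mu.real G)
    (ψ : Fin n → (Fin (n + 1) → ℝ) → ℝ) (hψ : ∀ k, Measurable (ψ k))
    (hψf : ∀ k, (Set.range (ψ k)).Finite) (m : (Fin (n + 1) → ℝ) → ℝ) (hm : Measurable m)
    (hm1 : ∀ z, |m z| ≤ 1)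
    (hm0 : ∫ z, m z ∂(Measure.pi fun _ : Fin (n + 1) => gaussianReal 0 1) = 0)
    (hyk : ∀ k : Fin (n + 1), y k = L.iota (fc (fun z =>
        ((G.indicator (fun _ => (1 : ℝ)) z.1 *
          ((Fin.cons (fun _ => 1) ψ : Fin (n + 1) → (Fin (n + 1) → ℝ) → ℝ) k z.2 /
            Real.sqrt (L.mu.real G)) : ℝ) : ℂ)) L.Om))
    {c : ℝ × (Fin (n + 1) → ℝ) → ℂ} (hc : Bmn c) :
    L.En J (fc c (L.Z L.Om) + fc (fun z =>
      ((G.indicator (fun _ => (1 : ℝ)) z.1 * m z.2 : ℝ) : ℂ)) L.Om) =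
      L.mu.real G * Real.sqrt (L.mu.real G) * Cl.sval n ψ m := by
  set g := L.mu.real G with hg
  have hsg : 0 < Real.sqrt g := Real.sqrt_pos.2 hG0
  have hsq : Real.sqrt g * Real.sqrt g = g := Real.mul_self_sqrt hG0.le
  set φ : Fin (n + 1) → (Fin (n + 1) → ℝ) → ℝ := Fin.cons (fun _ => 1) ψ with hφ
  have hφm : ∀ k, Measurable (φ k) := by
    intro k
    refine Fin.cases ?_ (fun k => ?_) k
    · exact measurable_const
    · exact hψ k
  have hφb : ∀ k, ∃ C, ∀ z, |φ k z| ≤ C := by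
    intro k
    refine Fin.cases ?_ (fun k => ?_) k
    · exact ⟨1, fun z => by simp [hφ]⟩
    · exact val_bdd_of_fin (hψf k)
  have hmB := val_bmn_G (n := n + 1) hG hm hm1
  rw [hE (n + 1) y fc hy h c (fun z => G.indicator (fun _ => (1 : ℝ)) z.1 * m z.2) hc hmB]
  have h1 : ∀ k : Fin (n + 1),
      ∫ z, G.indicator (fun _ => (1 : ℝ)) z.1 * m z.2 * z.2 k ∂(L.law (n + 1)) =
        g * ∫ z, z k * m z ∂(Cl.γN (n + 1)) := by
    intro k
    have e := L.val_int_G hG (fun z : Fin (n + 1) → ℝ => z k * m z)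
    rw [← e]
    refine integral_congr_ae (Filter.Eventually.of_forall fun z => ?_)
    simp only
    ring
  have h2 : ∀ k : Fin (n + 1), (inner ℂ (y k) (L.iota (fc c (L.Z L.Om) + fc (fun z =>
      ((G.indicator (fun _ => (1 : ℝ)) z.1 * m z.2 : ℝ) : ℂ)) L.Om)) : ℂ).re =
      Real.sqrt g * ∫ z, φ k z * m z ∂(Cl.γN (n + 1)) := by
    intro k
    obtain ⟨C, hC⟩ := hφb k
    have hAm : Measurable fun z => φ k z / Real.sqrt g := (hφm k).div_const _
    have hAb : ∀ z, |φ k z / Real.sqrt g| ≤ C / Real.sqrt g := fun z => by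
      rw [abs_div, abs_of_pos hsg]
      exact div_le_div_of_nonneg_right (hC _) hsg.le
    rw [hyk k, LinearIsometry.inner_map_map, inner_add_right,
      val_inner_Z h (val_bmn_G hG hAm hAb) hc, zero_add,
      val_inner_G h hG hAm hm hAb hm1, Complex.ofReal_re]
    have e : ∀ z, φ k z / Real.sqrt g * m z = φ k z * m z / Real.sqrt g := fun z => by ring
    simp only [e]
    rw [integral_div]
    rw [← mul_div_assoc, mul_comm, mul_div_assoc, ← hg]
    have e2 : g / Real.sqrt g = Real.sqrt g := by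
      rw [div_eq_iff hsg.ne', hsq]
    rw [e2, mul_comm]
  simp only [h1, h2]
  rw [Fin.sum_univ_succ]
  have h3 : ∫ z, φ 0 z * m z ∂(Cl.γN (n + 1)) = 0 := by
    rw [← hm0]
    refine integral_congr_ae (Filter.Eventually.of_forall fun z => ?_)
    simp [hφ]
  rw [h3]
  unfold Cl.sval
  rw [Finset.mul_sum, mul_zero, mul_zero, zero_add]
  refine Finset.sum_congr rfl fun k _ => ?_
  have e : φ k.succ = ψ k := by simp [hφ]
  rw [e]
  ring

/-- classical schemes of value `P` -/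
def ValScheme (P : ℝ) : Prop :=
  ∀ d : ℝ, 0 < d → ∃ (n : ℕ) (ψ : Fin n → (Fin (n + 1) → ℝ) → ℝ) (m : (Fin (n + 1) → ℝ) → ℝ),
    (∀ k, Measurable (ψ k)) ∧ (∀ k, (Set.range (ψ k)).Finite) ∧
    (∀ (k : Fin n) z z', (∀ j : Fin (n + 1), (j : ℕ) ≤ (k : ℕ) → z j = z' j) → ψ k z = ψ k z') ∧
    (∀ j k, ∫ z, ψ j z * ψ k z ∂(Cl.γN (n + 1)) = if j = k then 1 else 0) ∧
    (∀ k, ∫ z, ψ k z ∂(Cl.γN (n + 1)) = 0) ∧
    Measurable m ∧ (∀ z, |m z| ≤ 1) ∧ (∫ z, m z ∂(Cl.γN (n + 1)) = 0) ∧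
    P - d ≤ Cl.sval n ψ m

lemma val_num {g s ε : ℝ} (hg0 : 0 < g) (hg1 : g ≤ 1) (hg : (1 - g) * (4 * (|s| + 1)) ≤ ε) :
    s - ε / 2 ≤ g * Real.sqrt g * s := by
  have hsg : 0 < Real.sqrt g := Real.sqrt_pos.2 hg0
  have hsq : Real.sqrt g * Real.sqrt g = g := Real.mul_self_sqrt hg0.le
  have hs1 : Real.sqrt g ≤ 1 := Real.sqrt_le_one.2 hg1
  have h1 : g ≤ Real.sqrt g := by nlinarith
  have h2 : g * g ≤ g * Real.sqrt g := mul_le_mul_of_nonneg_left h1 hg0.le
  have h3 : g * Real.sqrt g ≤ 1 := by nlinarith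
  have h4 : 1 - g * Real.sqrt g ≤ 2 * (1 - g) := by nlinarith [sq_nonneg (1 - g)]
  have h5 : (1 - g * Real.sqrt g) * s ≤ (1 - g * Real.sqrt g) * |s| :=
    mul_le_mul_of_nonneg_left (le_abs_self s) (by linarith)
  have h6 : (1 - g * Real.sqrt g) * |s| ≤ 2 * (1 - g) * |s| :=
    mul_le_mul_of_nonneg_right h4 (abs_nonneg s)
  nlinarith [abs_nonneg s]

/-- **VALUE**, modulo the energy formula and the classical scheme -/
theorem val_stmt_of [CompleteSpace H] (J : K → H) (hE : L.ValEn J)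
    (hfc : ∀ (n : ℕ) (y : Fin n → K), Orthonormal ℂ y → ∃ fc, L.FCal y fc) {P : ℝ}
    (hP : ValScheme P) : L.ValueStmt J P := by
  intro ε hε
  obtain ⟨n, ψ, m0, hψm, hψf, hψd, hψo, hψ0, hmm, hm1, hm0, hval⟩ := hP (ε / 2) (half_pos hε)
  have := L.prob
  set s := Cl.sval n ψ m0 with hs
  have hδ : 0 < min ε (min (1 / 2) (ε / (4 * (|s| + 1)))) := by
    have h1 : 0 < 4 * (|s| + 1) := by positivity
    exact lt_min hε (lt_min (by norm_num) (div_pos hε h1))
  obtain ⟨G, hG, hG0, hGs⟩ := L.val_G hδ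
  have hGε : L.mu.real Gᶜ ≤ ε := hGs.trans (min_le_left _ _)
  have hG2 : L.mu.real Gᶜ ≤ 1 / 2 := hGs.trans ((min_le_right _ _).trans (min_le_left _ _))
  have hG3 : L.mu.real Gᶜ ≤ ε / (4 * (|s| + 1)) :=
    hGs.trans ((min_le_right _ _).trans (min_le_right _ _))
  have hgc : L.mu.real Gᶜ = 1 - L.mu.real G := probReal_compl_eq_one_sub hG
  have hg0 : 0 < L.mu.real G := by linarith
  have hg1 : L.mu.real G ≤ 1 := by
    have := (measureReal_nonneg (μ := L.mu) (s := Gᶜ))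
    linarith
  set φ : Fin (n + 1) → (Fin (n + 1) → ℝ) → ℝ := Fin.cons (fun _ => 1) ψ with hφ
  obtain ⟨Y, fc, hY, h, hYk, hlev⟩ := L.val_tower hfc hG hg0 φ
    (by
      intro k
      refine Fin.cases ?_ (fun k => ?_) k
      · exact measurable_const
      · exact hψm k)
    (by
      intro k
      refine Fin.cases ?_ (fun k => ?_) k
      · refine (Set.finite_singleton (1 : ℝ)).subset ?_
        rintro _ ⟨z, rfl⟩
        simp [hφ]
      · exact hψf k)
    (by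
      intro k
      refine Fin.cases ?_ (fun k => ?_) k
      · intro z z' _
        simp [hφ]
      · intro z z' hz
        simp only [hφ, Fin.cons_succ]
        exact hψd k z z' (fun j hj => hz j (by rw [Fin.val_succ]; omega)))
    (by
      intro j k
      refine Fin.cases ?_ (fun j => ?_) j
      · refine Fin.cases ?_ (fun k => ?_) k
        · simp [hφ]
        · have h1 := hψ0 k
          simp only [hφ, Fin.cons_zero, Fin.cons_succ, one_mul]
          rw [if_neg (Fin.succ_ne_zero k).symm]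
          exact h1
      · refine Fin.cases ?_ (fun k => ?_) k
        · have h1 := hψ0 j
          simp only [hφ, Fin.cons_zero, Fin.cons_succ, mul_one]
          rw [if_neg (Fin.succ_ne_zero j)]
          exact h1
        · have h1 := hψo j k
          simp only [hφ, Fin.cons_succ, Fin.succ_inj]
          exact h1)
    (n + 1) le_rfl
  have hlev' : ∀ k, ∃ (m : ℕ) (sg : Fin m → (H →L[ℂ] H)) (c : Fin m → ℝ), k < n + 1 →
      (∀ i, L.Sgn G (L.alg Y k) (sg i)) ∧ Y k = L.iota ((∑ i, (c i : ℂ) • sg i) L.Om) := by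
    intro k
    by_cases hk : k < n + 1
    · obtain ⟨m, sg, c, h1, h2⟩ := hlev k hk
      exact ⟨m, sg, c, fun _ => ⟨h1, h2⟩⟩
    · exact ⟨0, fun i => i.elim0, fun i => i.elim0, fun hk' => absurd hk' hk⟩
  choose m sg c hmsc using hlev'
  obtain ⟨th, hth, hth1, hth2, -, -⟩ := ven3_choice hmm hm1
  have hi1 : ∀ a : ℝ, |G.indicator (fun _ => (1 : ℝ)) a| ≤ 1 := by
    intro a
    by_cases ha : a ∈ G
    · simp [Set.indicator_of_mem ha]
    · simp [Set.indicator_of_notMem ha]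
  set t : ℝ × (Fin (n + 1) → ℝ) → ℝ := fun z => G.indicator (fun _ => (1 : ℝ)) z.1 * th z.2 with ht
  have htm : Measurable t :=
    ((measurable_const.indicator hG).comp measurable_fst).mul (hth.comp measurable_snd)
  have htb : ∀ z, |t z| ≤ Real.pi / 4 := by
    intro z
    simp only [ht]
    rw [abs_mul]
    calc _ ≤ 1 * |th z.2| := mul_le_mul_of_nonneg_right (hi1 _) (abs_nonneg _)
      _ ≤ _ := by rw [one_mul]; exact hth1 _
  obtain ⟨U, hU1, hU2, -⟩ := val_rot h htm htb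
  have htB : Bmn (fun z => ((t z : ℝ) : ℂ)) := val_bmn_ofReal htm htb
  have hSa : Sa (fc fun z => ((t z : ℝ) : ℂ)) := by
    intro x x'
    rw [h.adj _ htB]
    simp only [Complex.conj_ofReal]
  have hGB : Bm (G.indicator fun _ => (1 : ℂ)) := by
    refine ⟨measurable_const.indicator hG, 1, fun a => ?_⟩
    by_cases ha : a ∈ G
    · simp [Set.indicator_of_mem ha]
    · simp [Set.indicator_of_notMem ha]
  have hGB' : Bmn fun z : ℝ × (Fin (n + 1) → ℝ) => G.indicator (fun _ => (1 : ℂ)) z.1 :=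
    ⟨hGB.1.comp measurable_fst, hGB.2.choose, fun _ => hGB.2.choose_spec _⟩
  have hThG : (fc fun z => ((t z : ℝ) : ℂ)) * L.E G = fc fun z => ((t z : ℝ) : ℂ) := by
    have e1 : L.E G = fc fun z => G.indicator (fun _ => (1 : ℂ)) z.1 := (h.lab _ hGB).symm
    rw [e1, ← h.mul _ _ htB hGB']
    congr 1
    funext z
    by_cases hz : z.1 ∈ G
    · rw [Set.indicator_of_mem hz, mul_one]
    · simp only [ht]
      rw [Set.indicator_of_notMem hz, Set.indicator_of_notMem hz, mul_zero, zero_mul,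
        Complex.ofReal_zero]
  refine ⟨G, n + 1, m, sg, c, Y, fc fun z => ((t z : ℝ) : ℂ), U, hG, hG0, hGε,
    fun k hk => (hmsc k hk).2, fun k hk => (hmsc k hk).1, L.val_mem Y (n + 1) h _ htB, hSa, hThG,
    hU1, ?_⟩
  rw [L.ven3_main h hG htm hU2]
  have e1 : (fun z : ℝ × (Fin (n + 1) → ℝ) =>
      ((-(G.indicator (fun _ => (1 : ℝ)) z.1 * Real.sin (2 * t z)) : ℝ) : ℂ)) = fun z =>
      ((G.indicator (fun _ => (1 : ℝ)) z.1 * m0 z.2 : ℝ) : ℂ) := by
    funext z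
    congr 1
    simp only [ht]
    by_cases hz : z.1 ∈ G
    · rw [Set.indicator_of_mem hz, one_mul, one_mul, one_mul]
      exact hth2 _
    · rw [Set.indicator_of_notMem hz, zero_mul, zero_mul, neg_zero]
  rw [e1, val_energy J hE hY h hG hg0 ψ hψm hψf m0 hmm hm1 hm0]
  · have h1 := val_num (s := s) (ε := ε) hg0 hg1 (by
      rw [← hgc]
      have h2 : 0 < 4 * (|s| + 1) := by positivity
      exact (le_div_iff₀ h2).1 hG3)
    linarith
  · intro k
    have h1 := hYk k k.2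
    rw [h1]
    congr 3
    funext z
    rw [val_ex_self]
  · exact val_bmn_mul hGB' (ven3_bmc (htm.const_mul 2)) |> fun hb => by
      convert hb using 2 with z
      by_cases hz : z.1 ∈ G
      · simp [Set.indicator_of_mem hz]
      · simp [Set.indicator_of_notMem hz]

end LSys

end Vale.Agent.P367.A
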